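import Crest.Agent.R080.Stmts2

-- ▼ part R080/BdryA
section

/-!
Row 80 (S0107), T4 part A: real calculus helpers, the dual (complementary energy) inequality.
-/

set_option autoImplicit false

open MeasureTheory Filter
open scoped ContDiff Topology RealInnerProductSpace
open Crest.AnalysisR.VecCalc3 Crest.AnalysisR.PDE.Elasticity

noncomputable section
namespace Crest.Agent.R080.Bdry

/-- directional derivative of a real function -/
def dv (e : R3) (f : R3 → ℝ) (x : R3) : ℝ := fderiv ℝ f x e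

theorem pderiv_eq (f : R3 → ℝ) (i : Fin 3) (x : R3) : pderiv f i x = dv (ee i) f x := rfl

theorem dv_contDiff {n : ℕ} {f : R3 → ℝ} (hf : ContDiff ℝ (n + 1) f) (e : R3) :
    ContDiff ℝ n (dv e f) := by
  have h1 : ContDiff ℝ n (fderiv ℝ f) := hf.fderiv_right (by norm_cast)
  exact h1.clm_apply contDiff_const

theorem dv_smooth {f : R3 → ℝ} (hf : ContDiff ℝ ∞ f) (e : R3) :
    ContDiff ℝ ∞ (dv e f) := by
  have h1 : ContDiff ℝ ∞ (fderiv ℝ f) := hf.fderiv_right (by simp)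
  exact h1.clm_apply contDiff_const

theorem dv_mul {f g : R3 → ℝ} (hf : Differentiable ℝ f) (hg : Differentiable ℝ g) (e : R3) (x : R3) :
    dv e (fun y => f y * g y) x = dv e f x * g x + f x * dv e g x := by
  unfold dv
  rw [fderiv_fun_mul (hf x) (hg x)]
  simp only [add_apply, smul_apply, smul_eq_mul]
  ring

theorem dv_add {f g : R3 → ℝ} (hf : Differentiable ℝ f) (hg : Differentiable ℝ g) (e : R3) (x : R3) :
    dv e (fun y => f y + g y) x = dv e f x + dv e g x := by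
  unfold dv
  rw [fderiv_fun_add (hf x) (hg x)]
  simp

theorem dv_const_mul {f : R3 → ℝ} (hf : Differentiable ℝ f) (c : ℝ) (e : R3) (x : R3) :
    dv e (fun y => c * f y) x = c * dv e f x := by
  unfold dv
  rw [fderiv_const_mul (hf x)]
  simp

theorem dv_mul_const {f : R3 → ℝ} (hf : Differentiable ℝ f) (c : ℝ) (e : R3) (x : R3) :
    dv e (fun y => f y * c) x = dv e f x * c := by
  unfold dv
  rw [fderiv_mul_const (hf x)]
  simp [mul_comm]

theorem dv_comm {f : R3 → ℝ} (hf : ContDiff ℝ 2 f) (a b : R3) (x : R3) :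
    dv a (dv b f) x = dv b (dv a f) x := by
  have hd : Differentiable ℝ (fderiv ℝ f) :=
    (hf.fderiv_right (m := 1) (by norm_num)).differentiable (by norm_num)
  have key : ∀ a b : R3, dv a (dv b f) x = fderiv ℝ (fderiv ℝ f) x a b := by
    intro a b
    unfold dv
    rw [fderiv_clm_apply (hd x) (by fun_prop)]
    simp
  rw [key, key]
  have := (hf.contDiffAt (x := x)).isSymmSndFDerivAt (by simp)
  exact this a b

/-- expansion of a directional derivative in coordinates -/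
theorem dv_eq_sum (f : R3 → ℝ) (e x : R3) : dv e f x = ∑ j, e j * dv (ee j) f x := by
  unfold dv
  have he : e = ∑ j, e j • ee j := by
    ext i
    simp [Finset.sum_apply, Pi.single_apply]
  conv_lhs => rw [he]
  rw [map_sum]
  simp [map_smul]


/-! ### the domain -/

theorem isOpen_dom (G : Dom) : IsOpen G.Ω := by
  rw [G.eq]
  exact isOpen_lt G.smooth.continuous continuous_const

theorem rho_eq_zero_of_frontier (G : Dom) {x : R3} (hx : x ∈ frontier G.Ω) : G.rho x = 0 := by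
  have h1 : x ∈ closure G.Ω := frontier_subset_closure hx
  have h2 : x ∉ G.Ω := by
    have := (isOpen_dom G).frontier_eq ▸ hx
    exact this.2
  have h3 : G.rho x ≤ 0 := by
    have hc : IsClosed {x | G.rho x ≤ 0} := isClosed_le G.smooth.continuous continuous_const
    have : G.Ω ⊆ {x | G.rho x ≤ 0} := by
      rw [G.eq]; intro y hy; simp only [Set.mem_ofPred_eq] at hy ⊢; exact hy.le
    exact (closure_minimal this hc) h1
  have h4 : ¬ G.rho x < 0 := by
    intro h; apply h2; rw [G.eq]; exact h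
  linarith [not_lt.mp h4]

theorem isCompact_closure_dom (G : Dom) : IsCompact (closure G.Ω) :=
  Metric.isCompact_of_isClosed_isBounded isClosed_closure G.bdd.closure

theorem intOn (G : Dom) {E : Type} [NormedAddCommGroup E] {f : R3 → E} (hf : Continuous f) :
    IntegrableOn f G.Ω :=
  (hf.continuousOn.integrableOn_compact (isCompact_closure_dom G)).mono_set subset_closure

/-- real directional version of `StmtZ` -/
theorem intZ (hZ : StmtZ) (G : Dom) {F : R3 → ℝ} (hF : ContDiff ℝ 1 F)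
    (h0 : ∀ x ∈ frontier G.Ω, F x = 0) (e : R3) : ∫ x in G.Ω, dv e F x = 0 := by
  have hd : Differentiable ℝ F := hF.differentiable (by norm_num)
  have hj : ∀ j, ∫ x in G.Ω, dv (ee j) F x = 0 := by
    intro j
    have hC : ContDiff ℝ 1 (cf F) := Complex.ofRealCLM.contDiff.comp hF
    have h1 := hZ G (cf F) hC (fun x hx => by simp [cf, h0 x hx]) j
    have h2 : ∀ x, pd j (cf F) x = ((dv (ee j) F x : ℝ) : ℂ) := by
      intro x
      unfold pd dv cf
      have h3 : HasFDerivAt (fun y => (F y : ℂ)) (Complex.ofRealCLM.comp (fderiv ℝ F x)) x :=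
        Complex.ofRealCLM.hasFDerivAt.comp x (hd x).hasFDerivAt
      rw [h3.fderiv]
      simp
    simp_rw [h2] at h1
    rw [integral_complex_ofReal] at h1
    exact_mod_cast h1
  have hc : ∀ j, Continuous (dv (ee j) F) := fun j =>
    (dv_contDiff (n := 0) (by simpa using hF) (ee j)).continuous
  simp_rw [dv_eq_sum F e]
  rw [integral_finsetSum _ (fun j _ => (intOn G (f := fun x => e j * dv (ee j) F x)
    (continuous_const.mul (hc j))))]
  refine Finset.sum_eq_zero fun j _ => ?_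
  rw [integral_const_mul, hj j, mul_zero]

/-! ### the pointwise dual inequality -/

theorem dual_ineq (lam mu : ℝ) (hmu : 0 < mu) (hb : 0 < 3 * lam + 2 * mu)
    (e S : Fin 3 → Fin 3 → ℝ) :
    2 * ∑ i, ∑ j, S i j * e i j ≤ (lam * (∑ i, e i i) ^ 2 + 2 * mu * ∑ i, ∑ j, e i j ^ 2)
      + ((∑ i, ∑ j, S i j ^ 2) / (2 * mu) + (∑ i, S i i) ^ 2 / (3 * (3 * lam + 2 * mu))) := by
  set d : Fin 3 → Fin 3 → ℝ := fun i j => if i = j then 1 else 0 with hd
  set te : ℝ := ∑ i, e i i with hte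
  set tS : ℝ := ∑ i, S i i with htS
  obtain ⟨K, hK⟩ : ∃ K, K = 3 * lam + 2 * mu := ⟨_, rfl⟩
  have hlam : lam = (K - 2 * mu) / 3 := by rw [hK]; ring
  have hK0 : K ≠ 0 := by rw [hK]; exact hb.ne'
  have hmu' : mu ≠ 0 := hmu.ne'
  have key : (lam * te ^ 2 + 2 * mu * ∑ i, ∑ j, e i j ^ 2)
      + ((∑ i, ∑ j, S i j ^ 2) / (2 * mu) + tS ^ 2 / (3 * (3 * lam + 2 * mu)))
      - 2 * ∑ i, ∑ j, S i j * e i j
      = (1 / (2 * mu)) * ∑ i, ∑ j, ((S i j - tS / 3 * d i j) - 2 * mu * (e i j - te / 3 * d i j)) ^ 2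
        + (1 / (3 * (3 * lam + 2 * mu))) * (tS - (3 * lam + 2 * mu) * te) ^ 2
        + tS ^ 2 / (6 * mu) := by
    rw [← hK, hlam]
    simp only [hte, htS, hd, Fin.sum_univ_three]
    simp
    field_simp
    ring
  have h1 : 0 ≤ ∑ i, ∑ j, ((S i j - tS / 3 * d i j) - 2 * mu * (e i j - te / 3 * d i j)) ^ 2 :=
    Finset.sum_nonneg fun i _ => Finset.sum_nonneg fun j _ => sq_nonneg _
  have h2 : 0 ≤ (1 / (2 * mu)) *
      ∑ i, ∑ j, ((S i j - tS / 3 * d i j) - 2 * mu * (e i j - te / 3 * d i j)) ^ 2 := by positivity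
  have h3 : 0 ≤ (1 / (3 * (3 * lam + 2 * mu))) * (tS - (3 * lam + 2 * mu) * te) ^ 2 := by
    positivity
  have h4 : 0 ≤ tS ^ 2 / (6 * mu) := by positivity
  linarith


/-! ### the energy inequality -/

theorem comp_contDiff {n : WithTop ℕ∞} {u : R3 → R3} (hu : ContDiff ℝ n u) (j : Fin 3) :
    ContDiff ℝ n (fun y => u y j) := by
  exact contDiff_euclidean.mp hu j

theorem dv_sub {f g : R3 → ℝ} (hf : Differentiable ℝ f) (hg : Differentiable ℝ g) (e : R3) (x : R3) :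
    dv e (fun y => f y - g y) x = dv e f x - dv e g x := by
  unfold dv
  rw [fderiv_fun_sub (hf x) (hg x)]
  simp

theorem continuous_dv {f : R3 → ℝ} (hf : ContDiff ℝ 1 f) (e : R3) : Continuous (dv e f) :=
  (dv_contDiff (n := 0) (by simpa using hf) e).continuous

theorem continuous_symGrad {u : R3 → R3} (hu : ContDiff ℝ 1 u) (i j : Fin 3) :
    Continuous (symGrad u i j) := by
  have h1 : Continuous (fun x => (dv (ee i) (fun y => u y j) x + dv (ee j) (fun y => u y i) x) / 2) :=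
    ((continuous_dv (comp_contDiff hu j) _).add (continuous_dv (comp_contDiff hu i) _)).div_const _
  exact h1

theorem div3_eq (u : R3 → R3) (x : R3) : div3 u x = ∑ i, symGrad u i i x := by
  unfold div3 symGrad
  refine Finset.sum_congr rfl fun i _ => ?_
  ring

theorem continuous_energyDensity {u : R3 → R3} (hu : ContDiff ℝ 1 u) (P : Moduli) :
    Continuous (energyDensity P.lam P.mu u) := by
  have h1 : Continuous (fun x => P.lam x * (∑ i, symGrad u i i x) ^ 2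
      + 2 * P.mu x * ∑ i : Fin 3, ∑ j : Fin 3, symGrad u i j x ^ 2) := by
    have hl := P.smooth_lam.continuous
    have hm := P.smooth_mu.continuous
    have hs := continuous_symGrad hu
    fun_prop
  have h2 : energyDensity P.lam P.mu u = fun x => P.lam x * (∑ i, symGrad u i i x) ^ 2
      + 2 * P.mu x * ∑ i : Fin 3, ∑ j : Fin 3, symGrad u i j x ^ 2 := by
    funext x
    unfold energyDensity
    rw [div3_eq]
  rw [h2]
  exact h1

theorem int_S_symGrad (hZ : StmtZ) (G : Dom) (u w : R3 → R3) (hu : ContDiff ℝ 1 u)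
    (hw : ContDiff ℝ 1 w) (huw : ∀ x ∈ frontier G.Ω, w x = u x)
    (S : Fin 3 → Fin 3 → R3 → ℝ) (hS : ∀ i j, ContDiff ℝ 1 (S i j))
    (hsym : ∀ i j x, S i j x = S j i x)
    (hdiv : ∀ j x, ∑ i, dv (ee i) (S i j) x = 0) :
    ∫ x in G.Ω, ∑ i, ∑ j, S i j x * symGrad w i j x
      = ∫ x in G.Ω, ∑ i, ∑ j, S i j x * symGrad u i j x := by
  have hV : ∀ j, ContDiff ℝ 1 (fun y => w y j - u y j) := fun j =>
    (comp_contDiff hw j).sub (comp_contDiff hu j)
  have hSV : ∀ i j, ContDiff ℝ 1 (fun y => S i j y * (w y j - u y j)) := fun i j =>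
    (hS i j).mul (hV j)
  have hone : (1 : WithTop ℕ∞) ≠ 0 := by norm_num
  have hpt : ∀ x, (∑ i, ∑ j, S i j x * symGrad w i j x) - ∑ i, ∑ j, S i j x * symGrad u i j x
      = ∑ i, ∑ j, dv (ee i) (fun y => S i j y * (w y j - u y j)) x := by
    intro x
    have h1 : ∀ i j, dv (ee i) (fun y => S i j y * (w y j - u y j)) x
        = dv (ee i) (S i j) x * (w x j - u x j)
          + S i j x * (dv (ee i) (fun y => w y j) x - dv (ee i) (fun y => u y j) x) := by
      intro i j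
      rw [dv_mul ((hS i j).differentiable hone) ((hV j).differentiable hone),
        dv_sub ((comp_contDiff hw j).differentiable hone)
          ((comp_contDiff hu j).differentiable hone)]
    simp_rw [h1, Finset.sum_add_distrib]
    have h2 : ∑ i, ∑ j, dv (ee i) (S i j) x * (w x j - u x j) = 0 := by
      rw [Finset.sum_comm]
      refine Finset.sum_eq_zero fun j _ => ?_
      rw [← Finset.sum_mul, hdiv, zero_mul]
    rw [h2, zero_add]
    have h3 : ∀ v : R3 → R3, ∑ i, ∑ j, S i j x * symGrad v i j x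
        = ∑ i, ∑ j, S i j x * dv (ee i) (fun y => v y j) x := by
      intro v
      have h4 : ∀ i j, S i j x * symGrad v i j x
          = S i j x * dv (ee i) (fun y => v y j) x / 2 + S i j x * dv (ee j) (fun y => v y i) x / 2 := by
        intro i j
        simp only [symGrad, pderiv_eq]
        ring
      simp_rw [h4, Finset.sum_add_distrib]
      have h5 : ∑ i, ∑ j, S i j x * dv (ee j) (fun y => v y i) x / 2
          = ∑ i, ∑ j, S i j x * dv (ee i) (fun y => v y j) x / 2 := by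
        rw [Finset.sum_comm]
        refine Finset.sum_congr rfl fun i _ => Finset.sum_congr rfl fun j _ => ?_
        rw [hsym j i]
      rw [h5, ← Finset.sum_add_distrib]
      refine Finset.sum_congr rfl fun i _ => ?_
      rw [← Finset.sum_add_distrib]
      refine Finset.sum_congr rfl fun j _ => ?_
      ring
    rw [h3, h3, ← Finset.sum_sub_distrib]
    refine Finset.sum_congr rfl fun i _ => ?_
    rw [← Finset.sum_sub_distrib]
    refine Finset.sum_congr rfl fun j _ => ?_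
    ring
  have hcw : Continuous (fun x => ∑ i, ∑ j, S i j x * symGrad w i j x) := by
    have h1 := continuous_symGrad hw
    have h2 : ∀ i j, Continuous (S i j) := fun i j => (hS i j).continuous
    fun_prop
  have hcu : Continuous (fun x => ∑ i, ∑ j, S i j x * symGrad u i j x) := by
    have h1 := continuous_symGrad hu
    have h2 : ∀ i j, Continuous (S i j) := fun i j => (hS i j).continuous
    fun_prop
  rw [← sub_eq_zero, ← integral_sub (intOn G hcw) (intOn G hcu)]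
  simp_rw [hpt]
  rw [integral_finsetSum _ (fun i _ => intOn G (f := fun x => ∑ j, dv (ee i)
    (fun y => S i j y * (w y j - u y j)) x) (continuous_finsetSum _ fun j _ =>
      continuous_dv (hSV i j) _))]
  refine Finset.sum_eq_zero fun i _ => ?_
  rw [integral_finsetSum _ (fun j _ => intOn G (continuous_dv (hSV i j) _))]
  refine Finset.sum_eq_zero fun j _ => ?_
  exact intZ hZ G (hSV i j) (fun x hx => by rw [huw x hx]; simp) _

theorem energy_ineq (hZ : StmtZ) (G : Dom) (P₁ P₂ : Moduli) (h : SameData G P₁ P₂)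
    (u : R3 → R3) (hu : ContDiff ℝ 1 u)
    (S : Fin 3 → Fin 3 → R3 → ℝ) (hS : ∀ i j, ContDiff ℝ 1 (S i j))
    (hsym : ∀ i j x, S i j x = S j i x)
    (hdiv : ∀ j x, ∑ i, dv (ee i) (S i j) x = 0) :
    0 ≤ ∫ x in G.Ω, (energyDensity P₂.lam P₂.mu u x
        + ((∑ i, ∑ j, S i j x ^ 2) / (2 * P₁.mu x)
          + (∑ i, S i i x) ^ 2 / (3 * (3 * P₁.lam x + 2 * P₁.mu x)))
        - 2 * ∑ i, ∑ j, S i j x * symGrad u i j x) := by
  have hcS : ∀ i j, Continuous (S i j) := fun i j => (hS i j).continuous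
  have hm1 : Continuous P₁.mu := P₁.smooth_mu.continuous
  have hl1 : Continuous P₁.lam := P₁.smooth_lam.continuous
  have hcD : Continuous (fun x => (∑ i, ∑ j, S i j x ^ 2) / (2 * P₁.mu x)
          + (∑ i, S i i x) ^ 2 / (3 * (3 * P₁.lam x + 2 * P₁.mu x))) := by
    refine Continuous.add (Continuous.div (by fun_prop) (by fun_prop) ?_)
      (Continuous.div (by fun_prop) (by fun_prop) ?_)
    · intro x; have := P₁.mu_pos x; positivity
    · intro x; have := P₁.bulk_pos x; positivity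
  have hcw : ∀ w : R3 → R3, ContDiff ℝ 1 w →
      Continuous (fun x => 2 * ∑ i, ∑ j, S i j x * symGrad w i j x) := by
    intro w hw
    have h1 := continuous_symGrad hw
    fun_prop
  have hcu := hcw u hu
  have hE2 := continuous_energyDensity hu P₂
  have hE2D : Continuous (fun x => energyDensity P₂.lam P₂.mu u x
        + ((∑ i, ∑ j, S i j x ^ 2) / (2 * P₁.mu x)
          + (∑ i, S i i x) ^ 2 / (3 * (3 * P₁.lam x + 2 * P₁.mu x)))) := hE2.add hcD
  rw [integral_sub (intOn G hE2D) (intOn G hcu), integral_add (intOn G hE2) (intOn G hcD)]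
  by_contra hneg
  push_neg at hneg
  set I2 := ∫ x in G.Ω, energyDensity P₂.lam P₂.mu u x with hI2
  set ID := ∫ x in G.Ω, ((∑ i, ∑ j, S i j x ^ 2) / (2 * P₁.mu x)
          + (∑ i, S i i x) ^ 2 / (3 * (3 * P₁.lam x + 2 * P₁.mu x))) with hID
  set IS := ∫ x in G.Ω, 2 * ∑ i, ∑ j, S i j x * symGrad u i j x with hIS
  obtain ⟨w, ⟨hw, hwu⟩, hlt⟩ := (h u hu).2 u ⟨hu, fun _ _ => rfl⟩ (-(I2 + ID - IS)) (by linarith)
  have hlt' : ∫ x in G.Ω, energyDensity P₁.lam P₁.mu w x < I2 + -(I2 + ID - IS) := hlt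
  have hE1 := continuous_energyDensity hw P₁
  have h1 : ∫ x in G.Ω, 2 * ∑ i, ∑ j, S i j x * symGrad w i j x
      ≤ ∫ x in G.Ω, (energyDensity P₁.lam P₁.mu w x + ((∑ i, ∑ j, S i j x ^ 2) / (2 * P₁.mu x)
          + (∑ i, S i i x) ^ 2 / (3 * (3 * P₁.lam x + 2 * P₁.mu x)))) := by
    refine integral_mono (intOn G (hcw w hw)) (intOn G (hE1.add hcD)) fun x => ?_
    have := dual_ineq (P₁.lam x) (P₁.mu x) (P₁.mu_pos x) (P₁.bulk_pos x)
      (fun i j => symGrad w i j x) (fun i j => S i j x)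
    simp only [energyDensity, div3_eq]
    exact this
  have h2 : ∫ x in G.Ω, 2 * ∑ i, ∑ j, S i j x * symGrad w i j x = IS := by
    rw [hIS, integral_const_mul, integral_const_mul,
      int_S_symGrad hZ G u w hu hw hwu S hS hsym hdiv]
  rw [h2, integral_add (intOn G hE1) (intOn G hcD)] at h1
  linarith

end Crest.Agent.R080.Bdry
end
end

-- ▼ part R080/BdryB
section

/-!
Row 80 (S0107), T4 part B: the oscillating test fields and their pointwise estimates.
-/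

set_option autoImplicit false

open MeasureTheory Filter
open scoped ContDiff Topology RealInnerProductSpace
open Crest.AnalysisR.VecCalc3 Crest.AnalysisR.PDE.Elasticity

noncomputable section
namespace Crest.Agent.R080.Bdry

/-- `e^{N n·y} cos (N t·y)`, `y = x - x₀` -/
def hh (x₀ n t : R3) (N : ℝ) (x : R3) : ℝ :=
  Real.exp (N * ⟪n, x - x₀⟫) * Real.cos (N * ⟪t, x - x₀⟫)

/-- `- e^{N n·y} sin (N t·y)`, `y = x - x₀` -/
def kk (x₀ n t : R3) (N : ℝ) (x : R3) : ℝ :=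
  -(Real.exp (N * ⟪n, x - x₀⟫) * Real.sin (N * ⟪t, x - x₀⟫))

theorem smooth_inner (x₀ n : R3) (N : ℝ) : ContDiff ℝ ∞ (fun x : R3 => N * ⟪n, x - x₀⟫) := by
  exact contDiff_const.mul ((innerSL ℝ n).contDiff.comp (contDiff_id.sub contDiff_const))

theorem smooth_hh (x₀ n t : R3) (N : ℝ) : ContDiff ℝ ∞ (hh x₀ n t N) := by
  unfold hh
  exact (smooth_inner x₀ n N).exp.mul (smooth_inner x₀ t N).cos

theorem smooth_kk (x₀ n t : R3) (N : ℝ) : ContDiff ℝ ∞ (kk x₀ n t N) := by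
  unfold kk
  exact ((smooth_inner x₀ n N).exp.mul (smooth_inner x₀ t N).sin).neg

theorem hasFDerivAt_inner (x₀ n : R3) (N : ℝ) (x : R3) :
    HasFDerivAt (fun x : R3 => N * ⟪n, x - x₀⟫) (N • innerSL ℝ n) x := by
  have h1 : HasFDerivAt (fun x : R3 => innerSL ℝ n (x - x₀)) (innerSL ℝ n) x := by
    have h3 := (innerSL ℝ n).hasFDerivAt (x := x - x₀)
    have h2 : HasFDerivAt (fun x : R3 => x - x₀) (ContinuousLinearMap.id ℝ R3) x :=
      (hasFDerivAt_id x).sub_const x₀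
    exact h3.comp x h2
  exact h1.const_mul N

theorem dv_hh (x₀ n t : R3) (N : ℝ) (e x : R3) :
    dv e (hh x₀ n t N) x = N * (⟪n, e⟫ * hh x₀ n t N x + ⟪t, e⟫ * kk x₀ n t N x) := by
  have h1 := (hasFDerivAt_inner x₀ n N x).exp
  have h2 := (hasFDerivAt_inner x₀ t N x).cos
  have h3 : HasFDerivAt (hh x₀ n t N) _ x := h1.mul h2
  unfold dv
  rw [h3.fderiv]
  simp [hh, kk]
  ring

theorem dv_kk (x₀ n t : R3) (N : ℝ) (e x : R3) :
    dv e (kk x₀ n t N) x = N * (⟪n, e⟫ * kk x₀ n t N x - ⟪t, e⟫ * hh x₀ n t N x) := by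
  have h1 := (hasFDerivAt_inner x₀ n N x).exp
  have h2 := (hasFDerivAt_inner x₀ t N x).sin
  have h3 : HasFDerivAt (kk x₀ n t N) _ x := (h1.mul h2).neg
  unfold dv
  rw [h3.fderiv]
  simp [hh, kk]
  ring

theorem hh_sq_add_kk_sq (x₀ n t : R3) (N : ℝ) (x : R3) :
    hh x₀ n t N x ^ 2 + kk x₀ n t N x ^ 2 = Real.exp (N * ⟪n, x - x₀⟫) ^ 2 := by
  unfold hh kk
  have := Real.sin_sq_add_cos_sq (N * ⟪t, x - x₀⟫)
  calc _ = Real.exp (N * ⟪n, x - x₀⟫) ^ 2
      * (Real.sin (N * ⟪t, x - x₀⟫) ^ 2 + Real.cos (N * ⟪t, x - x₀⟫) ^ 2) := by ring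
    _ = _ := by rw [this, mul_one]

theorem abs_hh_le (x₀ n t : R3) (N : ℝ) (x : R3) :
    |hh x₀ n t N x| ≤ Real.exp (N * ⟪n, x - x₀⟫) := by
  unfold hh
  rw [abs_mul, abs_of_pos (Real.exp_pos _)]
  exact mul_le_of_le_one_right (Real.exp_pos _).le (Real.abs_cos_le_one _)

theorem abs_kk_le (x₀ n t : R3) (N : ℝ) (x : R3) :
    |kk x₀ n t N x| ≤ Real.exp (N * ⟪n, x - x₀⟫) := by
  unfold kk
  rw [abs_neg, abs_mul, abs_of_pos (Real.exp_pos _)]
  exact mul_le_of_le_one_right (Real.exp_pos _).le (Real.abs_sin_le_one _)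

/-! ### the cutoff -/

/-- a fixed smooth cutoff: `1` on the ball of radius `1/2`, supported in the unit ball -/
def bmp : ContDiffBump (0 : R3) := ⟨1 / 2, 1, by norm_num, by norm_num⟩

/-- the cutoff as a function -/
def bm (y : R3) : ℝ := bmp y

/-- scaled cutoff -/
def chi (x₀ : R3) (ε : ℝ) (x : R3) : ℝ := bm (ε⁻¹ • (x - x₀))

theorem smooth_bmp : ContDiff ℝ ∞ bm := bmp.contDiff

theorem hasCompactSupport_bm : HasCompactSupport bm := bmp.hasCompactSupport

theorem smooth_chi (x₀ : R3) (ε : ℝ) : ContDiff ℝ ∞ (chi x₀ ε) := by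
  unfold chi
  exact smooth_bmp.comp (by fun_prop)

theorem dv_scale {g : R3 → ℝ} (hg : Differentiable ℝ g) (x₀ : R3) (c : ℝ) (e x : R3) :
    dv e (fun x => g (c • (x - x₀))) x = c * dv e g (c • (x - x₀)) := by
  unfold dv
  have h2 : HasFDerivAt (fun x : R3 => c • (x - x₀)) (c • ContinuousLinearMap.id ℝ R3) x :=
    ((hasFDerivAt_id x).sub_const x₀).const_smul c
  have h3 := (hg (c • (x - x₀))).hasFDerivAt.comp x h2
  have h4 : fderiv ℝ (fun x => g (c • (x - x₀))) x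
      = (fderiv ℝ g (c • (x - x₀))).comp (c • ContinuousLinearMap.id ℝ R3) := h3.fderiv
  rw [h4]
  simp

theorem dv_chi (x₀ : R3) (ε : ℝ) (e x : R3) :
    dv e (chi x₀ ε) x = ε⁻¹ * dv e bm (ε⁻¹ • (x - x₀)) :=
  dv_scale (smooth_bmp.differentiable (by simp)) x₀ ε⁻¹ e x

theorem dv_dv_chi (x₀ : R3) (ε : ℝ) (e e' x : R3) :
    dv e' (dv e (chi x₀ ε)) x
      = ε⁻¹ ^ 2 * dv e' (dv e bm) (ε⁻¹ • (x - x₀)) := by
  have h1 : dv e (chi x₀ ε) = fun x => ε⁻¹ * dv e bm (ε⁻¹ • (x - x₀)) :=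
    funext fun x => dv_chi x₀ ε e x
  have h2 : ContDiff ℝ ∞ (dv e bm) := dv_smooth smooth_bmp e
  have h3 : Differentiable ℝ (fun x => dv e bm (ε⁻¹ • (x - x₀))) :=
    (h2.comp (by fun_prop : ContDiff ℝ ∞ (fun x : R3 => ε⁻¹ • (x - x₀)))).differentiable (by simp)
  rw [h1, dv_const_mul h3, dv_scale (h2.differentiable (by simp))]
  ring

theorem exists_bound_bm1 : ∃ C : ℝ, ∀ e y : R3, ‖e‖ ≤ 1 → |dv e bm y| ≤ C := by
  have h1 : Continuous (fderiv ℝ bm) := smooth_bmp.continuous_fderiv (by simp)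
  have hs1 : HasCompactSupport (fderiv ℝ bm) := hasCompactSupport_bm.fderiv ℝ
  obtain ⟨C1, hC1⟩ := h1.bounded_above_of_compact_support hs1
  refine ⟨C1, fun e y he => ?_⟩
  have h3 : |dv e bm y| ≤ ‖fderiv ℝ bm y‖ * ‖e‖ := (fderiv ℝ bm y).le_opNorm e
  calc _ ≤ _ := h3
    _ ≤ C1 * 1 := mul_le_mul (hC1 y) he (norm_nonneg _) ((norm_nonneg _).trans (hC1 y))
    _ ≤ _ := by rw [mul_one]


theorem dv_compact {f : R3 → ℝ} (hf : HasCompactSupport f) (e : R3) :
    HasCompactSupport (dv e f) := hf.fderiv_apply ℝ e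

theorem exists_bound_bm2 (e e' : R3) : ∃ C : ℝ, ∀ y : R3, |dv e' (dv e bm) y| ≤ C := by
  have h1 : Continuous (dv e' (dv e bm)) := (dv_smooth (dv_smooth smooth_bmp e) e').continuous
  obtain ⟨C, hC⟩ := h1.bounded_above_of_compact_support
    (dv_compact (dv_compact hasCompactSupport_bm e) e')
  exact ⟨C, hC⟩

end Crest.Agent.R080.Bdry
end
end

-- ▼ part R080/BdryC
section

/-!
Row 80 (S0107), T4 part C: the test displacement and the divergence free stress.
-/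

set_option autoImplicit false

open MeasureTheory Filter
open scoped ContDiff Topology RealInnerProductSpace
open Crest.AnalysisR.VecCalc3 Crest.AnalysisR.PDE.Elasticity

noncomputable section
namespace Crest.Agent.R080.Bdry

section
variable (x₀ n t : R3) (N ε m : ℝ)

/-- the scalar potential -/
def Psi (x : R3) : ℝ := chi x₀ ε x * hh x₀ n t N x

/-- second component function -/
def Psk (x : R3) : ℝ := chi x₀ ε x * kk x₀ n t N x

/-- test displacement -/
def uF (x : R3) : R3 := Psi x₀ n t N ε x • n + Psk x₀ n t N ε x • t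

/-- divergence free stress -/
def SF (i j : Fin 3) (x : R3) : ℝ :=
  -(2 * m / N) * (t i * t j * dv n (dv n (Psi x₀ n t N ε)) x
    - (t i * n j + n i * t j) * dv t (dv n (Psi x₀ n t N ε)) x
    + n i * n j * dv t (dv t (Psi x₀ n t N ε)) x)

/-- leading part of the strain -/
def TF (i j : Fin 3) (x : R3) : ℝ :=
  N * chi x₀ ε x * (hh x₀ n t N x * (n i * n j - t i * t j)
    + kk x₀ n t N x * (n i * t j + t i * n j))

/-- error part of the strain -/
def eF (i j : Fin 3) (x : R3) : ℝ :=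
  (hh x₀ n t N x * (dv (ee i) (chi x₀ ε) x * n j + dv (ee j) (chi x₀ ε) x * n i)
    + kk x₀ n t N x * (dv (ee i) (chi x₀ ε) x * t j + dv (ee j) (chi x₀ ε) x * t i)) / 2

/-- error part of the stress -/
def sF (i j : Fin 3) (x : R3) : ℝ :=
  -(2 * m / N) * (t i * t j * (dv n (dv n (chi x₀ ε)) x * hh x₀ n t N x
      + 2 * N * dv n (chi x₀ ε) x * hh x₀ n t N x)
    - (t i * n j + n i * t j) * (dv t (dv n (chi x₀ ε)) x * hh x₀ n t N x
      + dv n (chi x₀ ε) x * N * kk x₀ n t N x + dv t (chi x₀ ε) x * N * hh x₀ n t N x)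
    + n i * n j * (dv t (dv t (chi x₀ ε)) x * hh x₀ n t N x
      + 2 * N * dv t (chi x₀ ε) x * kk x₀ n t N x))

theorem smooth_Psi : ContDiff ℝ ∞ (Psi x₀ n t N ε) :=
  (smooth_chi x₀ ε).mul (smooth_hh x₀ n t N)

theorem smooth_Psk : ContDiff ℝ ∞ (Psk x₀ n t N ε) :=
  (smooth_chi x₀ ε).mul (smooth_kk x₀ n t N)

theorem smooth_uF : ContDiff ℝ ∞ (uF x₀ n t N ε) :=
  ((smooth_Psi x₀ n t N ε).smul contDiff_const).add ((smooth_Psk x₀ n t N ε).smul contDiff_const)

theorem smooth_SF (i j : Fin 3) : ContDiff ℝ ∞ (SF x₀ n t N ε m i j) := by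
  have h1 := smooth_Psi x₀ n t N ε
  have h2 := dv_smooth (dv_smooth h1 n) n
  have h3 := dv_smooth (dv_smooth h1 n) t
  have h4 := dv_smooth (dv_smooth h1 t) t
  unfold SF
  fun_prop

theorem SF_symm (i j : Fin 3) (x : R3) : SF x₀ n t N ε m i j x = SF x₀ n t N ε m j i x := by
  unfold SF
  ring

theorem sum_mul_dv (f : R3 → ℝ) (e x : R3) : ∑ i, e i * dv (ee i) f x = dv e f x :=
  (dv_eq_sum f e x).symm

theorem SF_div (j : Fin 3) (x : R3) : ∑ i, dv (ee i) (SF x₀ n t N ε m i j) x = 0 := by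
  have h1 := smooth_Psi x₀ n t N ε
  set P := Psi x₀ n t N ε with hP
  have hnn := dv_smooth (dv_smooth h1 n) n
  have htn := dv_smooth (dv_smooth h1 n) t
  have htt := dv_smooth (dv_smooth h1 t) t
  have dnn := hnn.differentiable (by simp)
  have dtn := htn.differentiable (by simp)
  have dtt := htt.differentiable (by simp)
  have key : ∀ i, dv (ee i) (SF x₀ n t N ε m i j) x
      = -(2 * m / N) * (t j * (t i * dv (ee i) (dv n (dv n P)) x)
        - n j * (t i * dv (ee i) (dv t (dv n P)) x) - t j * (n i * dv (ee i) (dv t (dv n P)) x)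
        + n j * (n i * dv (ee i) (dv t (dv t P)) x)) := by
    intro i
    have e1 : SF x₀ n t N ε m i j = fun y => -(2 * m / N) * ((t i * t j * dv n (dv n P) y
        - (t i * n j + n i * t j) * dv t (dv n P) y) + n i * n j * dv t (dv t P) y) := by
      funext y; rfl
    rw [e1, dv_const_mul (by fun_prop), dv_add (by fun_prop) (by fun_prop),
      dv_sub (by fun_prop) (by fun_prop), dv_const_mul dnn, dv_const_mul dtn, dv_const_mul dtt]
    ring
  simp_rw [key]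
  rw [← Finset.mul_sum, Finset.sum_add_distrib, Finset.sum_sub_distrib, Finset.sum_sub_distrib,
    ← Finset.mul_sum, ← Finset.mul_sum, ← Finset.mul_sum, ← Finset.mul_sum,
    sum_mul_dv, sum_mul_dv, sum_mul_dv, sum_mul_dv]
  have c1 : dv t (dv n (dv n P)) x = dv n (dv t (dv n P)) x :=
    dv_comm ((dv_smooth h1 n).of_le (by norm_cast)) _ _ _
  have c2 : dv n (dv t (dv t P)) x = dv t (dv t (dv n P)) x := by
    rw [dv_comm ((dv_smooth h1 t).of_le (by norm_cast)) n t x]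
    have : dv n (dv t P) = dv t (dv n P) := funext fun y =>
      dv_comm (h1.of_le (by norm_cast)) _ _ _
    rw [this]
  rw [c1, c2]
  ring

variable (hnn : ⟪n, n⟫ = 1) (htt : ⟪t, t⟫ = 1) (hnt : ⟪n, t⟫ = 0)

include hnn htt hnt

theorem dv_n_hh (x : R3) : dv n (hh x₀ n t N) x = N * hh x₀ n t N x := by
  rw [dv_hh, hnn, real_inner_comm, hnt]; ring

theorem dv_t_hh (x : R3) : dv t (hh x₀ n t N) x = N * kk x₀ n t N x := by
  rw [dv_hh, htt, hnt]; ring


theorem dv_t_kk (x : R3) : dv t (kk x₀ n t N) x = -(N * hh x₀ n t N x) := by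
  rw [dv_kk, htt, hnt]; ring

theorem SF_eq (hN : N ≠ 0) (i j : Fin 3) (x : R3) :
    SF x₀ n t N ε m i j x = 2 * m * TF x₀ n t N ε i j x + sF x₀ n t N ε m i j x := by
  have sc := smooth_chi x₀ ε
  have sh := smooth_hh x₀ n t N
  have sk := smooth_kk x₀ n t N
  have dc := sc.differentiable (by simp)
  have dh := sh.differentiable (by simp)
  have dk := sk.differentiable (by simp)
  have dcn := (dv_smooth sc n).differentiable (by simp)
  have dct := (dv_smooth sc t).differentiable (by simp)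
  have hn : dv n (Psi x₀ n t N ε) = fun x => dv n (chi x₀ ε) x * hh x₀ n t N x
      + N * (chi x₀ ε x * hh x₀ n t N x) := by
    funext y
    have := dv_mul dc dh n y
    rw [dv_n_hh x₀ n t N hnn htt hnt] at this
    rw [show Psi x₀ n t N ε = fun y => chi x₀ ε y * hh x₀ n t N y from rfl, this]
    ring
  have ht : dv t (Psi x₀ n t N ε) = fun x => dv t (chi x₀ ε) x * hh x₀ n t N x
      + N * (chi x₀ ε x * kk x₀ n t N x) := by
    funext y
    have := dv_mul dc dh t y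
    rw [dv_t_hh x₀ n t N hnn htt hnt] at this
    rw [show Psi x₀ n t N ε = fun y => chi x₀ ε y * hh x₀ n t N y from rfl, this]
    ring
  have e1 : dv n (dv n (Psi x₀ n t N ε)) x = dv n (dv n (chi x₀ ε)) x * hh x₀ n t N x
      + 2 * N * dv n (chi x₀ ε) x * hh x₀ n t N x + N ^ 2 * (chi x₀ ε x * hh x₀ n t N x) := by
    rw [hn, dv_add (by fun_prop) (by fun_prop), dv_mul dcn dh, dv_const_mul (by fun_prop),
      dv_mul dc dh, dv_n_hh x₀ n t N hnn htt hnt]
    ring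
  have e2 : dv t (dv n (Psi x₀ n t N ε)) x = dv t (dv n (chi x₀ ε)) x * hh x₀ n t N x
      + dv n (chi x₀ ε) x * N * kk x₀ n t N x + dv t (chi x₀ ε) x * N * hh x₀ n t N x
      + N ^ 2 * (chi x₀ ε x * kk x₀ n t N x) := by
    rw [hn, dv_add (by fun_prop) (by fun_prop), dv_mul dcn dh, dv_const_mul (by fun_prop),
      dv_mul dc dh, dv_t_hh x₀ n t N hnn htt hnt]
    ring
  have e3 : dv t (dv t (Psi x₀ n t N ε)) x = dv t (dv t (chi x₀ ε)) x * hh x₀ n t N x
      + 2 * N * dv t (chi x₀ ε) x * kk x₀ n t N x - N ^ 2 * (chi x₀ ε x * hh x₀ n t N x) := by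
    rw [ht, dv_add (by fun_prop) (by fun_prop), dv_mul dct dh, dv_const_mul (by fun_prop),
      dv_mul dc dk, dv_t_hh x₀ n t N hnn htt hnt, dv_t_kk x₀ n t N hnn htt hnt]
    ring
  unfold SF TF sF
  rw [e1, e2, e3]
  field_simp
  ring

omit hnn htt hnt

theorem symGrad_uF (i j : Fin 3) (x : R3) :
    symGrad (uF x₀ n t N ε) i j x = TF x₀ n t N ε i j x + eF x₀ n t N ε i j x := by
  have sc := smooth_chi x₀ ε
  have sh := smooth_hh x₀ n t N
  have sk := smooth_kk x₀ n t N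
  have dc := sc.differentiable (by simp)
  have dh := sh.differentiable (by simp)
  have dk := sk.differentiable (by simp)
  have key : ∀ i j, pderiv (fun y => uF x₀ n t N ε y j) i x
      = (dv (ee i) (chi x₀ ε) x * hh x₀ n t N x
          + chi x₀ ε x * (N * (n i * hh x₀ n t N x + t i * kk x₀ n t N x))) * n j
        + (dv (ee i) (chi x₀ ε) x * kk x₀ n t N x
          + chi x₀ ε x * (N * (n i * kk x₀ n t N x - t i * hh x₀ n t N x))) * t j := by
    intro i j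
    rw [pderiv_eq]
    have e1 : (fun y => uF x₀ n t N ε y j) = fun y => (chi x₀ ε y * hh x₀ n t N y) * n j
        + (chi x₀ ε y * kk x₀ n t N y) * t j := by
      funext y
      simp [uF, Psi, Psk]
    rw [e1, dv_add (by fun_prop) (by fun_prop), dv_mul_const (by fun_prop),
      dv_mul_const (by fun_prop), dv_mul dc dh, dv_mul dc dk, dv_hh, dv_kk]
    simp [EuclideanSpace.inner_single_right]
  unfold symGrad
  rw [key, key]
  unfold TF eF
  ring

end

end Crest.Agent.R080.Bdry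
end
end

-- ▼ part R080/BdryD

/-!
Row 80 (S0107), T4 part D: geometry near a boundary point, pointwise estimates.
-/

set_option autoImplicit false

open MeasureTheory Filter
open scoped ContDiff Topology RealInnerProductSpace
open Crest.AnalysisR.VecCalc3 Crest.AnalysisR.PDE.Elasticity

noncomputable section
namespace Crest.Agent.R080.Bdry

/-! ### geometry -/

theorem taylor2 {f : R3 → ℝ} (hf : ContDiff ℝ ∞ f) (x₀ : R3) :
    ∃ K r : ℝ, 0 < K ∧ 0 < r ∧ ∀ x, ‖x - x₀‖ < r →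
      |f x - f x₀ - fderiv ℝ f x₀ (x - x₀)| ≤ K * ‖x - x₀‖ ^ 2 := by
  have h1 : ContDiff ℝ ∞ (fderiv ℝ f) := hf.fderiv_right (by simp)
  have h2 : ContDiffAt ℝ 1 (fderiv ℝ f) x₀ := (h1.of_le (by norm_cast)).contDiffAt
  obtain ⟨K, s, hs, hL⟩ := h2.exists_lipschitzOnWith
  obtain ⟨r, hr, hrs⟩ := Metric.mem_nhds_iff.mp hs
  refine ⟨(K : ℝ) + 1, r, by positivity, hr, fun x hx => ?_⟩
  have hconv : Convex ℝ (Metric.closedBall x₀ ‖x - x₀‖) := convex_closedBall _ _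
  have hsub : Metric.closedBall x₀ ‖x - x₀‖ ⊆ s := fun z hz => hrs (by
    rw [Metric.mem_ball]; exact lt_of_le_of_lt (Metric.mem_closedBall.mp hz) hx)
  have hx0s : x₀ ∈ s := mem_of_mem_nhds hs
  have hb : ∀ z ∈ Metric.closedBall x₀ ‖x - x₀‖,
      ‖fderiv ℝ f z - fderiv ℝ f x₀‖ ≤ K * ‖x - x₀‖ := by
    intro z hz
    have := hL.dist_le_mul z (hsub hz) x₀ hx0s
    rw [dist_eq_norm] at this
    refine this.trans ?_
    exact mul_le_mul_of_nonneg_left (Metric.mem_closedBall.mp hz) K.2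
  have h3 := hconv.norm_image_sub_le_of_norm_fderiv_le' (f := f) (φ := fderiv ℝ f x₀)
    (fun z _ => hf.differentiable (by simp) z) hb
    (Metric.mem_closedBall_self (norm_nonneg _)) (y := x)
    (by rw [Metric.mem_closedBall, dist_eq_norm])
  rw [← Real.norm_eq_abs]
  refine h3.trans ?_
  have : 0 ≤ ‖x - x₀‖ ^ 2 := by positivity
  nlinarith

/-- local picture of the domain near a boundary point -/
theorem exists_normal (G : Dom) {x₀ : R3} (hx : x₀ ∈ frontier G.Ω) :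
    ∃ (n : R3) (K r : ℝ), ‖n‖ = 1 ∧ 0 < K ∧ 0 < r ∧
      (∀ x, ‖x - x₀‖ < r → x ∈ G.Ω → ⟪n, x - x₀⟫ ≤ K * ‖x - x₀‖ ^ 2) ∧
      (∀ x, ‖x - x₀‖ < r → ⟪n, x - x₀⟫ < -(K * ‖x - x₀‖ ^ 2) → x ∈ G.Ω) := by
  have h0 := rho_eq_zero_of_frontier G hx
  have hreg := G.reg x₀ h0
  obtain ⟨K, r, hK, hr, hT⟩ := taylor2 G.smooth x₀
  set p : R3 := (InnerProductSpace.toDual ℝ R3).symm (fderiv ℝ G.rho x₀) with hp
  have hpi : ∀ y, fderiv ℝ G.rho x₀ y = ⟪p, y⟫ := fun y =>
    (InnerProductSpace.toDual_symm_apply).symm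
  have hpn : p ≠ 0 := by
    intro h; apply hreg
    ext y; rw [hpi, h]; simp
  have hpp : 0 < ‖p‖ := norm_pos_iff.mpr hpn
  refine ⟨‖p‖⁻¹ • p, K / ‖p‖, r, ?_, by positivity, hr, fun x hxr hxΩ => ?_, fun x hxr hxn => ?_⟩
  · rw [norm_smul, norm_inv, norm_norm, inv_mul_cancel₀ hpp.ne']
  · have h1 := hT x hxr
    rw [h0, hpi, sub_zero] at h1
    have h2 : G.rho x < 0 := by
      rw [G.eq] at hxΩ; exact hxΩ
    rw [inner_smul_left]
    simp only [conj_trivial]
    have h3 := (abs_le.mp h1).1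
    have h4 : ⟪p, x - x₀⟫ ≤ K * ‖x - x₀‖ ^ 2 := by linarith
    rw [inv_mul_eq_div, div_mul_eq_mul_div]
    exact div_le_div_of_nonneg_right h4 hpp.le
  · have h1 := hT x hxr
    rw [h0, hpi, sub_zero] at h1
    rw [inner_smul_left] at hxn
    simp only [conj_trivial] at hxn
    have h3 := (abs_le.mp h1).2
    have h4 : ⟪p, x - x₀⟫ < -(K * ‖x - x₀‖ ^ 2) := by
      rw [inv_mul_eq_div, div_mul_eq_mul_div, ← neg_div] at hxn
      exact (div_lt_div_iff_of_pos_right hpp).mp hxn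
    rw [G.eq]
    show G.rho x < 0
    linarith

theorem exists_frame {n : R3} (hn : ‖n‖ = 1) : ∃ b : OrthonormalBasis (Fin 3) ℝ R3, b 0 = n := by
  have hcard : Module.finrank ℝ R3 = Fintype.card (Fin 3) := by simp
  have hv : Orthonormal ℝ (({0} : Set (Fin 3)).domRestrict (fun _ => n)) := by
    constructor
    · intro i; simpa using hn
    · intro i j hij
      exfalso; apply hij
      ext
      have h1 := i.2; have h2 := j.2
      simp only [Set.mem_singleton_iff] at h1 h2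
      rw [h1, h2]
  obtain ⟨b, hb⟩ := hv.exists_orthonormalBasis_extension_of_card_eq hcard
  exact ⟨b, hb 0 rfl⟩

theorem box_volume (b : OrthonormalBasis (Fin 3) ℝ R3) (x₀ : R3) (lo hi : Fin 3 → ℝ) :
    volume {x : R3 | ∀ i, lo i ≤ ⟪b i, x - x₀⟫ ∧ ⟪b i, x - x₀⟫ ≤ hi i}
      = ∏ i, ENNReal.ofReal (hi i - lo i) := by
  have h1 : MeasurePreserving (fun x : R3 => x - x₀) volume volume :=
    measurePreserving_sub_right volume x₀
  have h2 := b.measurePreserving_repr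
  have h3 : MeasurePreserving (WithLp.ofLp : R3 → (Fin 3 → ℝ)) volume volume :=
    PiLp.volume_preserving_ofLp (Fin 3)
  have h4 := (h3.comp h2).comp h1
  have h5 : {x : R3 | ∀ i, lo i ≤ ⟪b i, x - x₀⟫ ∧ ⟪b i, x - x₀⟫ ≤ hi i}
      = ((WithLp.ofLp ∘ b.repr) ∘ fun x => x - x₀) ⁻¹' (Set.Icc lo hi) := by
    ext x
    simp only [Set.mem_ofPred_eq, Set.mem_preimage, Function.comp, Set.mem_Icc, Pi.le_def,
      b.repr_apply_apply]
    exact forall_and
  rw [h5, h4.measure_preimage measurableSet_Icc.nullMeasurableSet, Real.volume_Icc_pi]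


/-! ### pointwise inequalities -/

theorem entry_ineq {mu1 mu2 m Λ δ T e s B : ℝ} (hδ : 0 < δ) (hm : 0 ≤ m) (hmΛ : m ≤ Λ)
    (h2 : 0 ≤ mu2) (h2Λ : mu2 ≤ Λ) (h1 : 0 < mu1) (h1Λ : mu1⁻¹ ≤ Λ)
    (hlead : 2 * mu2 - 4 * m + 2 * m ^ 2 * mu1⁻¹ ≤ -δ) (he : |e| ≤ B) (hs : |s| ≤ B) :
    2 * mu2 * (T + e) ^ 2 - 2 * ((2 * m * T + s) * (T + e)) + (2 * m * T + s) ^ 2 / (2 * mu1)
      ≤ -(δ / 2) * T ^ 2 + ((8 * Λ + 2 + 2 * Λ ^ 2) ^ 2 / (2 * δ) + 3 * Λ + 2) * B ^ 2 := by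
  set ν := mu1⁻¹ with hν
  have hν0 : 0 ≤ ν := by positivity
  have hΛ : 0 ≤ Λ := hm.trans hmΛ
  set c := 4 * mu2 * e - 4 * m * e - 2 * s + 2 * m * ν * s with hc
  set C₁ := 8 * Λ + 2 + 2 * Λ ^ 2 with hC₁
  have hcB : |c| ≤ C₁ * B := by
    have a1 : |4 * mu2 * e| ≤ 4 * Λ * B := by
      rw [abs_mul, abs_of_nonneg (by positivity)]
      exact mul_le_mul (by linarith) he (abs_nonneg _) (by positivity)
    have a2 : |4 * m * e| ≤ 4 * Λ * B := by
      rw [abs_mul, abs_of_nonneg (by positivity)]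
      exact mul_le_mul (by linarith) he (abs_nonneg _) (by positivity)
    have a3 : |2 * s| ≤ 2 * B := by
      rw [abs_mul, abs_of_nonneg (by positivity)]
      linarith
    have a4 : |2 * m * ν * s| ≤ 2 * Λ * Λ * B := by
      rw [abs_mul, abs_of_nonneg (by positivity)]
      refine mul_le_mul (mul_le_mul (by linarith) h1Λ hν0 (by positivity)) hs (abs_nonneg _)
        (by positivity)
    have a5 : |c| ≤ |4 * mu2 * e| + |4 * m * e| + |2 * s| + |2 * m * ν * s| := by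
      rw [hc]
      calc _ ≤ |4 * mu2 * e - 4 * m * e - 2 * s| + |2 * m * ν * s| := abs_add_le _ _
        _ ≤ |4 * mu2 * e - 4 * m * e| + |2 * s| + |2 * m * ν * s| := by
            gcongr; exact abs_sub _ _
        _ ≤ _ := by gcongr; exact abs_sub _ _
    calc _ ≤ _ := a5
      _ ≤ 4 * Λ * B + 4 * Λ * B + 2 * B + 2 * Λ * Λ * B := by gcongr
      _ = _ := by rw [hC₁]; ring
  have hc2 : c ^ 2 ≤ (C₁ * B) ^ 2 := by
    rw [← sq_abs c]; exact pow_le_pow_left₀ (abs_nonneg _) hcB 2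
  have hTc : T * c ≤ δ / 2 * T ^ 2 + C₁ ^ 2 / (2 * δ) * B ^ 2 := by
    have h5 : 0 ≤ (δ * T - c) ^ 2 / (2 * δ) := by positivity
    have h6 : (δ * T - c) ^ 2 / (2 * δ) = δ / 2 * T ^ 2 - T * c + c ^ 2 / (2 * δ) := by
      field_simp; ring
    have h7 : c ^ 2 / (2 * δ) ≤ (C₁ * B) ^ 2 / (2 * δ) := by gcongr
    have h8 : (C₁ * B) ^ 2 / (2 * δ) = C₁ ^ 2 / (2 * δ) * B ^ 2 := by ring
    linarith
  have he2 : e ^ 2 ≤ B ^ 2 := by rw [← sq_abs e]; exact pow_le_pow_left₀ (abs_nonneg _) he 2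
  have hs2 : s ^ 2 ≤ B ^ 2 := by rw [← sq_abs s]; exact pow_le_pow_left₀ (abs_nonneg _) hs 2
  have hse : -(2 * (s * e)) ≤ 2 * B ^ 2 := by nlinarith [sq_nonneg (s + e)]
  have h9 : 2 * mu2 * e ^ 2 ≤ 2 * Λ * B ^ 2 := by gcongr
  have h10 : s ^ 2 * ν / 2 ≤ Λ * B ^ 2 := by
    have : s ^ 2 * ν ≤ B ^ 2 * Λ := by gcongr
    have : 0 ≤ B ^ 2 * Λ := by positivity
    linarith
  have h11 : (2 * mu2 - 4 * m + 2 * m ^ 2 * ν) * T ^ 2 ≤ -δ * T ^ 2 := by gcongr
  have h12 : 2 * mu2 * (T + e) ^ 2 - 2 * ((2 * m * T + s) * (T + e))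
      + (2 * m * T + s) ^ 2 / (2 * mu1)
      = (2 * mu2 - 4 * m + 2 * m ^ 2 * ν) * T ^ 2 + T * c + 2 * mu2 * e ^ 2 - 2 * (s * e)
        + s ^ 2 * ν / 2 := by
    rw [hc, hν]
    field_simp
    ring
  rw [h12]
  nlinarith

theorem inner3 (a b : R3) : ⟪a, b⟫ = a 0 * b 0 + a 1 * b 1 + a 2 * b 2 := by
  simp [PiLp.inner_apply, Fin.sum_univ_three, mul_comm]

theorem TF_trace (x₀ n t : R3) (N ε : ℝ) (hnn : ⟪n, n⟫ = 1) (htt : ⟪t, t⟫ = 1) (hnt : ⟪n, t⟫ = 0)
    (x : R3) : ∑ i, TF x₀ n t N ε i i x = 0 := by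
  have a : n 0 ^ 2 + n 1 ^ 2 + n 2 ^ 2 = 1 := by
    rw [inner3] at hnn; rw [← hnn]; ring
  have b : t 0 ^ 2 + t 1 ^ 2 + t 2 ^ 2 = 1 := by
    rw [inner3] at htt; rw [← htt]; ring
  have c : n 0 * t 0 + n 1 * t 1 + n 2 * t 2 = 0 := by
    rw [inner3] at hnt; exact hnt
  simp only [TF, Fin.sum_univ_three]
  have key : ∀ A h k : ℝ, A * (h * (n 0 * n 0 - t 0 * t 0) + k * (n 0 * t 0 + t 0 * n 0))
      + A * (h * (n 1 * n 1 - t 1 * t 1) + k * (n 1 * t 1 + t 1 * n 1))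
      + A * (h * (n 2 * n 2 - t 2 * t 2) + k * (n 2 * t 2 + t 2 * n 2))
      = A * (h * ((n 0 ^ 2 + n 1 ^ 2 + n 2 ^ 2) - (t 0 ^ 2 + t 1 ^ 2 + t 2 ^ 2))
        + 2 * k * (n 0 * t 0 + n 1 * t 1 + n 2 * t 2)) := by intros; ring
  rw [key, a, b, c]
  ring

theorem TF_sq (x₀ n t : R3) (N ε : ℝ) (hnn : ⟪n, n⟫ = 1) (htt : ⟪t, t⟫ = 1) (hnt : ⟪n, t⟫ = 0)
    (x : R3) : ∑ i, ∑ j, TF x₀ n t N ε i j x ^ 2
      = 2 * N ^ 2 * chi x₀ ε x ^ 2 * Real.exp (N * ⟪n, x - x₀⟫) ^ 2 := by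
  have a : n 0 ^ 2 + n 1 ^ 2 + n 2 ^ 2 = 1 := by
    rw [inner3] at hnn; rw [← hnn]; ring
  have b : t 0 ^ 2 + t 1 ^ 2 + t 2 ^ 2 = 1 := by
    rw [inner3] at htt; rw [← htt]; ring
  have c : n 0 * t 0 + n 1 * t 1 + n 2 * t 2 = 0 := by
    rw [inner3] at hnt; exact hnt
  rw [← hh_sq_add_kk_sq x₀ n t N x]
  simp only [TF, Fin.sum_univ_three]
  generalize hh x₀ n t N x = h
  generalize kk x₀ n t N x = k
  generalize chi x₀ ε x = χ
  have key : (N * χ * (h * (n 0 * n 0 - t 0 * t 0) + k * (n 0 * t 0 + t 0 * n 0))) ^ 2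
      + (N * χ * (h * (n 0 * n 1 - t 0 * t 1) + k * (n 0 * t 1 + t 0 * n 1))) ^ 2
      + (N * χ * (h * (n 0 * n 2 - t 0 * t 2) + k * (n 0 * t 2 + t 0 * n 2))) ^ 2
      + ((N * χ * (h * (n 1 * n 0 - t 1 * t 0) + k * (n 1 * t 0 + t 1 * n 0))) ^ 2
      + (N * χ * (h * (n 1 * n 1 - t 1 * t 1) + k * (n 1 * t 1 + t 1 * n 1))) ^ 2
      + (N * χ * (h * (n 1 * n 2 - t 1 * t 2) + k * (n 1 * t 2 + t 1 * n 2))) ^ 2)
      + ((N * χ * (h * (n 2 * n 0 - t 2 * t 0) + k * (n 2 * t 0 + t 2 * n 0))) ^ 2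
      + (N * χ * (h * (n 2 * n 1 - t 2 * t 1) + k * (n 2 * t 1 + t 2 * n 1))) ^ 2
      + (N * χ * (h * (n 2 * n 2 - t 2 * t 2) + k * (n 2 * t 2 + t 2 * n 2))) ^ 2)
      = N ^ 2 * χ ^ 2 * (h ^ 2 * ((n 0 ^ 2 + n 1 ^ 2 + n 2 ^ 2) ^ 2 + (t 0 ^ 2 + t 1 ^ 2 + t 2 ^ 2) ^ 2
            - 2 * (n 0 * t 0 + n 1 * t 1 + n 2 * t 2) ^ 2)
          + 4 * h * k * ((n 0 ^ 2 + n 1 ^ 2 + n 2 ^ 2) - (t 0 ^ 2 + t 1 ^ 2 + t 2 ^ 2))
            * (n 0 * t 0 + n 1 * t 1 + n 2 * t 2)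
          + k ^ 2 * (2 * (n 0 ^ 2 + n 1 ^ 2 + n 2 ^ 2) * (t 0 ^ 2 + t 1 ^ 2 + t 2 ^ 2)
            + 2 * (n 0 * t 0 + n 1 * t 1 + n 2 * t 2) ^ 2)) := by ring
  rw [key, a, b, c]
  ring

theorem abs_coord_le {n : R3} (hn : ‖n‖ ≤ 1) (i : Fin 3) : |n i| ≤ 1 := by
  have := PiLp.norm_apply_le n i
  rw [Real.norm_eq_abs] at this
  exact this.trans hn

theorem eF_bound (x₀ n t : R3) (N ε : ℝ) (hn : ‖n‖ ≤ 1) (ht : ‖t‖ ≤ 1) {D E : ℝ} (x : R3)
    (hD : ∀ e : R3, ‖e‖ ≤ 1 → |dv e (chi x₀ ε) x| ≤ D)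
    (hh' : |hh x₀ n t N x| ≤ E) (hk' : |kk x₀ n t N x| ≤ E) (i j : Fin 3) :
    |eF x₀ n t N ε i j x| ≤ 2 * E * D := by
  have hE : 0 ≤ E := (abs_nonneg _).trans hh'
  have hee : ∀ i : Fin 3, ‖ee i‖ ≤ 1 := fun i => by simp [ee]
  have hD0 : 0 ≤ D := (abs_nonneg _).trans (hD (ee 0) (hee 0))
  have p1 : ∀ (i j : Fin 3) (v : R3), ‖v‖ ≤ 1 → |dv (ee i) (chi x₀ ε) x * v j| ≤ D := by
    intro i j v hv
    rw [abs_mul]
    calc _ ≤ D * 1 := mul_le_mul (hD _ (hee i)) (abs_coord_le hv j) (abs_nonneg _) hD0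
      _ = D := mul_one D
  have p2 : ∀ (i j : Fin 3) (v : R3), ‖v‖ ≤ 1 →
      |dv (ee i) (chi x₀ ε) x * v j + dv (ee j) (chi x₀ ε) x * v i| ≤ 2 * D := by
    intro i j v hv
    calc _ ≤ _ := abs_add_le _ _
      _ ≤ D + D := add_le_add (p1 i j v hv) (p1 j i v hv)
      _ = 2 * D := by ring
  unfold eF
  rw [abs_div, abs_of_pos (by norm_num : (0 : ℝ) < 2), div_le_iff₀ (by norm_num)]
  calc _ ≤ _ := abs_add_le _ _
    _ ≤ E * (2 * D) + E * (2 * D) := by
        rw [abs_mul, abs_mul]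
        exact add_le_add (mul_le_mul hh' (p2 i j n hn) (abs_nonneg _) hE)
          (mul_le_mul hk' (p2 i j t ht) (abs_nonneg _) hE)
    _ = _ := by ring

theorem sF_bound (x₀ n t : R3) (N ε m : ℝ) (hN : 0 < N) (hm : 0 ≤ m) (hn : ‖n‖ ≤ 1) (ht : ‖t‖ ≤ 1)
    {D D2 E : ℝ} (x : R3)
    (hD : ∀ e : R3, ‖e‖ ≤ 1 → |dv e (chi x₀ ε) x| ≤ D)
    (h1 : |dv n (dv n (chi x₀ ε)) x| ≤ D2) (h2 : |dv t (dv n (chi x₀ ε)) x| ≤ D2)
    (h3 : |dv t (dv t (chi x₀ ε)) x| ≤ D2)
    (hh' : |hh x₀ n t N x| ≤ E) (hk' : |kk x₀ n t N x| ≤ E) (i j : Fin 3) :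
    |sF x₀ n t N ε m i j x| ≤ 8 * m * E * (D2 / N + 2 * D) := by
  have hE : 0 ≤ E := (abs_nonneg _).trans hh'
  have hDn := hD n hn
  have hDt := hD t ht
  have hD0 : 0 ≤ D := (abs_nonneg _).trans hDn
  have hD20 : 0 ≤ D2 := (abs_nonneg _).trans h1
  have hv : ∀ (v w : R3), ‖v‖ ≤ 1 → ‖w‖ ≤ 1 → ∀ i j : Fin 3, |v i * w j| ≤ 1 := by
    intro v w hv hw i j
    rw [abs_mul]
    exact mul_le_one₀ (abs_coord_le hv i) (abs_nonneg _) (abs_coord_le hw j)
  set W := D2 * E + 2 * N * D * E with hW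
  have hW0 : 0 ≤ W := by positivity
  have q0 : ∀ a d z : ℝ, |a| ≤ D2 → |d| ≤ D → |z| ≤ E → ∀ h : ℝ, |h| ≤ E →
      |a * h + 2 * N * d * z| ≤ W := by
    intro a d z ha hd hz h hh
    calc _ ≤ _ := abs_add_le _ _
      _ ≤ D2 * E + 2 * N * D * E := by
        rw [abs_mul a h, abs_mul (2 * N * d) z, abs_mul (2 * N) d, abs_of_pos (by positivity : 0 < 2 * N)]
        gcongr
  have q1 := q0 _ _ _ h1 hDn hh' _ hh'
  have q3 := q0 _ _ _ h3 hDt hk' _ hh'
  have q2 : |dv t (dv n (chi x₀ ε)) x * hh x₀ n t N x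
      + dv n (chi x₀ ε) x * N * kk x₀ n t N x + dv t (chi x₀ ε) x * N * hh x₀ n t N x| ≤ W := by
    calc _ ≤ |dv t (dv n (chi x₀ ε)) x * hh x₀ n t N x| + |dv n (chi x₀ ε) x * N * kk x₀ n t N x|
          + |dv t (chi x₀ ε) x * N * hh x₀ n t N x| := by
            refine (abs_add_le _ _).trans ?_
            gcongr
            exact abs_add_le _ _
      _ ≤ D2 * E + D * N * E + D * N * E := by
        simp only [abs_mul, abs_of_pos hN]
        gcongr
      _ = W := by rw [hW]; ring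
  have r1 : |t i * t j * (dv n (dv n (chi x₀ ε)) x * hh x₀ n t N x
      + 2 * N * dv n (chi x₀ ε) x * hh x₀ n t N x)| ≤ W := by
    rw [abs_mul]
    calc _ ≤ 1 * W := mul_le_mul (hv t t ht ht i j) q1 (abs_nonneg _) zero_le_one
      _ = W := one_mul W
  have r3 : |n i * n j * (dv t (dv t (chi x₀ ε)) x * hh x₀ n t N x
      + 2 * N * dv t (chi x₀ ε) x * kk x₀ n t N x)| ≤ W := by
    rw [abs_mul]
    calc _ ≤ 1 * W := mul_le_mul (hv n n hn hn i j) q3 (abs_nonneg _) zero_le_one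
      _ = W := one_mul W
  have r2 : |(t i * n j + n i * t j) * (dv t (dv n (chi x₀ ε)) x * hh x₀ n t N x
      + dv n (chi x₀ ε) x * N * kk x₀ n t N x + dv t (chi x₀ ε) x * N * hh x₀ n t N x)|
      ≤ 2 * W := by
    rw [abs_mul]
    have : |t i * n j + n i * t j| ≤ 2 := by
      calc _ ≤ _ := abs_add_le _ _
        _ ≤ 1 + 1 := add_le_add (hv t n ht hn i j) (hv n t hn ht i j)
        _ = 2 := by norm_num
    exact mul_le_mul this q2 (abs_nonneg _) (by norm_num)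
  unfold sF
  rw [abs_mul, abs_neg, abs_of_nonneg (by positivity : 0 ≤ 2 * m / N)]
  calc _ ≤ 2 * m / N * (W + 2 * W + W) := by
        refine mul_le_mul_of_nonneg_left ?_ (by positivity)
        refine (abs_add_le _ _).trans (add_le_add ?_ r3)
        exact (abs_sub _ _).trans (add_le_add r1 r2)
    _ = _ := by rw [hW]; field_simp; ring

end Crest.Agent.R080.Bdry
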