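import Crest.Agent.R080.Stmts2

-- ▼ part R080/SmAlg
section

/-!
Row 80 (S0107): the algebra of smooth complex functions on `ℝ³` with its commuting derivations
(helper417). Used by the Carleman estimate.
-/

set_option autoImplicit false

open MeasureTheory Filter
open scoped ContDiff Topology ComplexConjugate
open Crest.AnalysisR.VecCalc3

noncomputable section
namespace Crest.Agent.R080.Carl

theorem contDiff_pd' {f : R3 → ℂ} (j : Fin 3) (hf : ContDiff ℝ ∞ f) : ContDiff ℝ ∞ (pd j f) :=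
  (hf.fderiv_right (m := ∞) (by simp)).clm_apply contDiff_const

/-- the algebra of smooth functions -/
def Sm : Subalgebra ℂ (R3 → ℂ) where
  carrier := {f | ContDiff ℝ ∞ f}
  mul_mem' := fun {f g} (hf : ContDiff ℝ ∞ f) (hg : ContDiff ℝ ∞ g) =>
    show ContDiff ℝ ∞ (fun x => f x * g x) from hf.mul hg
  add_mem' := fun {f g} (hf : ContDiff ℝ ∞ f) (hg : ContDiff ℝ ∞ g) =>
    show ContDiff ℝ ∞ (fun x => f x + g x) from hf.add hg
  algebraMap_mem' := fun c => show ContDiff ℝ ∞ (fun _ : R3 => c) from contDiff_const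

namespace Sm

instance : CoeFun Sm (fun _ => R3 → ℂ) := ⟨fun f => f.1⟩

theorem smooth (f : Sm) : ContDiff ℝ ∞ (f : R3 → ℂ) := f.2

theorem diffb (f : Sm) : Differentiable ℝ (f : R3 → ℂ) := (smooth f).differentiable (by simp)

theorem cont (f : Sm) : Continuous (f : R3 → ℂ) := (smooth f).continuous

@[simp] theorem add_apply (f g : Sm) (x : R3) : (f + g) x = f x + g x := rfl
@[simp] theorem sub_apply (f g : Sm) (x : R3) : (f - g) x = f x - g x := rfl
@[simp] theorem neg_apply (f : Sm) (x : R3) : (-f) x = -f x := rfl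
@[simp] theorem mul_apply (f g : Sm) (x : R3) : (f * g) x = f x * g x := rfl
@[simp] theorem smul_apply (c : ℂ) (f : Sm) (x : R3) : (c • f) x = c * f x := rfl
@[simp] theorem zero_apply (x : R3) : (0 : Sm) x = 0 := rfl
@[simp] theorem one_apply (x : R3) : (1 : Sm) x = 1 := rfl
@[simp] theorem algebraMap_apply (c : ℂ) (x : R3) : (algebraMap ℂ Sm c) x = c := rfl

@[simp] theorem sum_apply {ι : Type*} (s : Finset ι) (f : ι → Sm) (x : R3) :
    (∑ i ∈ s, f i) x = ∑ i ∈ s, f i x := by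
  classical
  induction s using Finset.induction_on with
  | empty => simp
  | insert a s ha ih => rw [Finset.sum_insert ha, Finset.sum_insert ha, add_apply, ih]

@[ext] theorem ext' {f g : Sm} (h : ∀ x, f x = g x) : f = g := Subtype.ext (funext h)

/-- partial derivative as a derivation -/
def dd (j : Fin 3) : Derivation ℂ Sm Sm := Derivation.mk'
  { toFun := fun f => ⟨pd j f, contDiff_pd' j f.2⟩
    map_add' := fun f g => by
      ext x
      show fderiv ℝ (fun y => f y + g y) x (ee j) = pd j f x + pd j g x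
      have := fderiv_add (diffb f x) (diffb g x)
      have h2 : fderiv ℝ (fun y => f y + g y) x = fderiv ℝ f x + fderiv ℝ g x := this
      rw [h2]; rfl
    map_smul' := fun c f => by
      ext x
      show fderiv ℝ (fun y => c * f y) x (ee j) = c * pd j f x
      have h2 : fderiv ℝ (fun y => c * f y) x = c • fderiv ℝ f x :=
        fderiv_const_mul (diffb f x) c
      rw [h2]; rfl } (fun f g => by
    ext x
    show fderiv ℝ (fun y => f y * g y) x (ee j) = f x * pd j g x + g x * pd j f x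
    have h2 : fderiv ℝ (fun y => f y * g y) x = f x • fderiv ℝ g x + g x • fderiv ℝ f x :=
      fderiv_mul (diffb f x) (diffb g x)
    rw [h2]; rfl)


theorem dd_comm (i j : Fin 3) (f : Sm) : dd i (dd j f) = dd j (dd i f) := by
  ext x
  have hs : IsSymmSndFDerivAt ℝ (f : R3 → ℂ) x :=
    ((smooth f).contDiffAt).isSymmSndFDerivAt (by
      rw [minSmoothness_of_isRCLikeNormedField]
      exact ENat.LEInfty.out)
  have h1 : ∀ v w : R3, fderiv ℝ (fun y => fderiv ℝ (f : R3 → ℂ) y v) x w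
      = fderiv ℝ (fderiv ℝ (f : R3 → ℂ)) x w v := by
    intro v w
    have hd : DifferentiableAt ℝ (fderiv ℝ (f : R3 → ℂ)) x :=
      (((smooth f).fderiv_right (m := ∞) (by simp)).differentiable (by simp)) x
    rw [fderiv_clm_apply hd (differentiableAt_const v)]
    simp
  show fderiv ℝ (fun y => fderiv ℝ (f : R3 → ℂ) y (ee j)) x (ee i)
    = fderiv ℝ (fun y => fderiv ℝ (f : R3 → ℂ) y (ee i)) x (ee j)
  rw [h1, h1]
  exact hs _ _

/-- complex conjugate -/
def cj (f : Sm) : Sm := ⟨fun x => conj (f x), Complex.conjCLE.contDiff.comp (smooth f)⟩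

@[simp] theorem cj_apply (f : Sm) (x : R3) : cj f x = conj (f x) := rfl

theorem cj_add (f g : Sm) : cj (f + g) = cj f + cj g := by ext x; simp
theorem cj_sub (f g : Sm) : cj (f - g) = cj f - cj g := by ext x; simp
theorem cj_mul (f g : Sm) : cj (f * g) = cj f * cj g := by ext x; simp
theorem cj_sum {ι : Type*} (s : Finset ι) (f : ι → Sm) : cj (∑ i ∈ s, f i) = ∑ i ∈ s, cj (f i) := by
  ext x; simp
theorem cj_algebraMap (c : ℂ) : cj (algebraMap ℂ Sm c) = algebraMap ℂ Sm (conj c) := by ext x; simp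

theorem cj_dd (j : Fin 3) (f : Sm) : cj (dd j f) = dd j (cj f) := by
  ext x
  show conj (fderiv ℝ (f : R3 → ℂ) x (ee j)) = fderiv ℝ (fun y => conj (f y)) x (ee j)
  have h1 : fderiv ℝ (fun y => Complex.conjCLE (f y)) x
      = (Complex.conjCLE : ℂ →L[ℝ] ℂ).comp (fderiv ℝ (f : R3 → ℂ) x) :=
    Complex.conjCLE.comp_fderiv
  have h2 : fderiv ℝ (fun y => conj (f y)) x
      = (Complex.conjCLE : ℂ →L[ℝ] ℂ).comp (fderiv ℝ (f : R3 → ℂ) x) := h1
  rw [h2]; rfl

/-! ### supports -/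

/-- supported in the closed ball of radius `R` -/
def Cp (R : ℝ) (f : Sm) : Prop := tsupport (f : R3 → ℂ) ⊆ Metric.closedBall 0 R

variable {R : ℝ} {f g : Sm}

theorem Cp.apply_eq_zero (h : Cp R f) {x : R3} (hx : R < ‖x‖) : f x = 0 := by
  by_contra hne
  have : x ∈ Metric.closedBall (0 : R3) R := h (subset_tsupport _ hne)
  rw [mem_closedBall_zero_iff] at this
  linarith

theorem cp_of_zero (h : ∀ x : R3, R < ‖x‖ → f x = 0) : Cp R f := by
  refine closure_minimal ?_ Metric.isClosed_closedBall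
  intro x hx
  rw [mem_closedBall_zero_iff]
  by_contra hcon
  exact hx (h x (not_le.mp hcon))

theorem Cp.hcs (h : Cp R f) : HasCompactSupport (f : R3 → ℂ) :=
  (isCompact_closedBall (0 : R3) R).of_isClosed_subset (isClosed_tsupport _) h

theorem Cp.integrable (h : Cp R f) : Integrable (f : R3 → ℂ) :=
  (cont f).integrable_of_hasCompactSupport h.hcs

theorem Cp.add (hf : Cp R f) (hg : Cp R g) : Cp R (f + g) :=
  cp_of_zero fun x hx => by rw [add_apply, hf.apply_eq_zero hx, hg.apply_eq_zero hx, add_zero]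

theorem Cp.sub (hf : Cp R f) (hg : Cp R g) : Cp R (f - g) :=
  cp_of_zero fun x hx => by rw [sub_apply, hf.apply_eq_zero hx, hg.apply_eq_zero hx, sub_zero]

theorem Cp.mul_left (hg : Cp R g) (f : Sm) : Cp R (f * g) :=
  cp_of_zero fun x hx => by rw [mul_apply, hg.apply_eq_zero hx, mul_zero]

theorem Cp.mul_right (hf : Cp R f) (g : Sm) : Cp R (f * g) :=
  cp_of_zero fun x hx => by rw [mul_apply, hf.apply_eq_zero hx, zero_mul]

theorem Cp.smul (hf : Cp R f) (c : ℂ) : Cp R (c • f) :=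
  cp_of_zero fun x hx => by rw [smul_apply, hf.apply_eq_zero hx, mul_zero]

theorem Cp.cj (hf : Cp R f) : Cp R (cj f) :=
  cp_of_zero fun x hx => by rw [cj_apply, hf.apply_eq_zero hx, map_zero]

theorem Cp.sum {ι : Type*} (s : Finset ι) (F : ι → Sm) (h : ∀ i ∈ s, Cp R (F i)) :
    Cp R (∑ i ∈ s, F i) :=
  cp_of_zero fun x hx => by
    rw [sum_apply]
    exact Finset.sum_eq_zero fun i hi => (h i hi).apply_eq_zero hx

theorem Cp.dd (hf : Cp R f) (j : Fin 3) : Cp R (dd j f) := by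
  refine closure_minimal ?_ Metric.isClosed_closedBall
  intro x hx
  refine hf (support_fderiv_subset ℝ (f := (f : R3 → ℂ)) ?_)
  intro h0
  apply hx
  show fderiv ℝ (f : R3 → ℂ) x (ee j) = 0
  rw [h0]; rfl

/-! ### the integral -/

/-- integral -/
def J (f : Sm) : ℂ := ∫ x, f x

theorem J_dd (j : Fin 3) (hf : HasCompactSupport (f : R3 → ℂ)) : J (dd j f) = 0 := by
  have h := integral_mul_fderiv_eq_neg_fderiv_mul_of_integrable (μ := (volume : Measure R3))
    (f := fun _ : R3 => (1 : ℂ)) (g := (f : R3 → ℂ)) (v := ee j) ?_ ?_ ?_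
    (fun x _ => differentiableAt_const _) (fun x _ => diffb f x)
  · simp only [one_mul, fderiv_fun_const, Pi.zero_apply, _root_.zero_apply,
      zero_mul, integral_zero, neg_zero] at h
    exact h
  · simp
  · simp only [one_mul]
    exact (cont (dd j f)).integrable_of_hasCompactSupport (hf.fderiv_apply (𝕜 := ℝ) (ee j))
  · simp only [one_mul]
    exact (cont f).integrable_of_hasCompactSupport hf

theorem J_add (hf : Cp R f) (hg : Cp R g) : J (f + g) = J f + J g :=
  integral_add hf.integrable hg.integrable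

theorem J_sub (hf : Cp R f) (hg : Cp R g) : J (f - g) = J f - J g :=
  integral_sub hf.integrable hg.integrable

theorem J_smul (c : ℂ) : J (c • f) = c * J f :=
  integral_const_mul c _

theorem J_sum {ι : Type*} (s : Finset ι) (F : ι → Sm) (h : ∀ i ∈ s, Cp R (F i)) :
    J (∑ i ∈ s, F i) = ∑ i ∈ s, J (F i) := by
  unfold J
  simp only [sum_apply]
  exact integral_finsetSum _ fun i hi => (h i hi).integrable

/-- squared `L²` norm -/
def n2 (f : Sm) : ℝ := ∫ x, ‖f x‖ ^ 2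

theorem n2_nonneg (f : Sm) : 0 ≤ n2 f := integral_nonneg fun _ => by positivity

theorem J_mul_cj (f : Sm) : J (f * cj f) = (n2 f : ℂ) := by
  unfold J n2
  rw [← integral_complex_ofReal]
  refine integral_congr_ae (Eventually.of_forall fun x => ?_)
  simp only [mul_apply, cj_apply]
  rw [Complex.mul_conj, Complex.normSq_eq_norm_sq]

theorem Cp.integrable_sq (h : Cp R f) : Integrable (fun x => ‖f x‖ ^ 2) := by
  refine ((cont f).norm.pow 2).integrable_of_hasCompactSupport ?_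
  refine (isCompact_closedBall (0 : R3) R).of_isClosed_subset (isClosed_tsupport _) ?_
  refine closure_minimal ?_ Metric.isClosed_closedBall
  intro x hx
  rw [mem_closedBall_zero_iff]
  by_contra hcon
  apply hx
  show ‖f x‖ ^ 2 = 0
  rw [h.apply_eq_zero (not_le.mp hcon)]; simp

end Sm
end Crest.Agent.R080.Carl
end
end

-- ▼ part R080/CarlAlg
section

/-!
Row 80 (S0107), T8: the algebra of the scalar Carleman estimate (helper417).
-/

set_option autoImplicit false

open MeasureTheory Filter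
open scoped ContDiff Topology ComplexConjugate
open Crest.AnalysisR.VecCalc3

noncomputable section
namespace Crest.Agent.R080.Carl
open Sm

/-- constants as smooth functions -/
abbrev c : ℂ →+* Sm := algebraMap ℂ Sm

/-- real directional derivative -/
def Dv (v : Fin 3 → ℝ) : Derivation ℂ Sm Sm := ∑ j, (v j : ℂ) • dd j

theorem Dv_apply (v : Fin 3 → ℝ) (f : Sm) : Dv v f = ∑ j, c (v j : ℂ) * dd j f := by
  unfold Dv
  simp only [Fin.sum_univ_three, Derivation.add_apply, Derivation.smul_apply, Algebra.smul_def]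

/-- Laplacian -/
def Lp (f : Sm) : Sm := ∑ j, dd j (dd j f)

theorem Dv_c (v : Fin 3 → ℝ) (z : ℂ) : Dv v (c z) = 0 := Derivation.map_algebraMap _ _
theorem dd_c (j : Fin 3) (z : ℂ) : dd j (c z) = 0 := Derivation.map_algebraMap _ _

theorem dd_Dv (j : Fin 3) (v : Fin 3 → ℝ) (f : Sm) : dd j (Dv v f) = Dv v (dd j f) := by
  rw [Dv_apply, Dv_apply, map_sum]
  refine Finset.sum_congr rfl fun i _ => ?_
  rw [Derivation.leibniz, dd_c, smul_zero, add_zero, smul_eq_mul, dd_comm]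

theorem Dv_comm (v w : Fin 3 → ℝ) (f : Sm) : Dv v (Dv w f) = Dv w (Dv v f) := by
  rw [Dv_apply v, Dv_apply v f, map_sum]
  refine Finset.sum_congr rfl fun i _ => ?_
  rw [Derivation.leibniz, Dv_c, smul_zero, add_zero, smul_eq_mul, dd_Dv]

theorem Lp_Dv (v : Fin 3 → ℝ) (f : Sm) : Lp (Dv v f) = Dv v (Lp f) := by
  unfold Lp
  rw [map_sum]
  refine Finset.sum_congr rfl fun i _ => ?_
  rw [dd_Dv, dd_Dv]


theorem Lp_sub (f g : Sm) : Lp (f - g) = Lp f - Lp g := by
  unfold Lp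
  rw [← Finset.sum_sub_distrib]
  refine Finset.sum_congr rfl fun i _ => ?_
  rw [map_sub, map_sub]

theorem Lp_c_mul (z : ℂ) (f : Sm) : Lp (c z * f) = c z * Lp f := by
  unfold Lp
  rw [Finset.mul_sum]
  refine Finset.sum_congr rfl fun i _ => ?_
  rw [Derivation.leibniz, dd_c, smul_zero, add_zero, smul_eq_mul, Derivation.leibniz, dd_c,
    smul_zero, add_zero, smul_eq_mul]

theorem Lp_mul (f g : Sm) : Lp (f * g) = f * Lp g + 2 * (∑ j, dd j f * dd j g) + g * Lp f := by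
  unfold Lp
  rw [Finset.mul_sum, Finset.mul_sum, Finset.mul_sum, ← Finset.sum_add_distrib,
    ← Finset.sum_add_distrib]
  refine Finset.sum_congr rfl fun i _ => ?_
  simp only [Derivation.leibniz, map_add, smul_eq_mul]
  ring

/-- linear function -/
def yL (a : Fin 3 → ℝ) : R3 →L[ℝ] ℂ := ∑ j, (a j : ℂ) • (Complex.ofRealCLM.comp
  (EuclideanSpace.proj j : R3 →L[ℝ] ℝ))

theorem yL_apply (a : Fin 3 → ℝ) (x : R3) : yL a x = ∑ j, (a j : ℂ) * (x j : ℂ) := by
  simp [yL]

def yy (a : Fin 3 → ℝ) : Sm := ⟨yL a, show ContDiff ℝ ∞ (yL a) from (yL a).contDiff⟩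

theorem yy_apply (a : Fin 3 → ℝ) (x : R3) : yy a x = ((∑ j, a j * x j : ℝ) : ℂ) := by
  show yL a x = _
  rw [yL_apply]; push_cast; rfl

theorem dd_yy (j : Fin 3) (a : Fin 3 → ℝ) : dd j (yy a) = c (a j : ℂ) := by
  ext x
  show fderiv ℝ (yL a) x (ee j) = (a j : ℂ)
  rw [ContinuousLinearMap.fderiv, yL_apply, Finset.sum_eq_single j]
  · simp
  · intro i _ hij; simp [hij]
  · intro h; exact absurd (Finset.mem_univ j) h


variable (a b : Fin 3 → ℝ) (N K t : ℝ)

/-- `s = τ - K a·x` -/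
def ss : Sm := c (t : ℂ) - c (K : ℂ) * yy a

theorem ss_apply (x : R3) : ss a K t x = ((t - K * ∑ j, a j * x j : ℝ) : ℂ) := by
  unfold ss
  rw [sub_apply, mul_apply, yy_apply, algebraMap_apply, algebraMap_apply]
  push_cast; ring

theorem cj_ss : cj (ss a K t) = ss a K t := by
  ext x; rw [cj_apply, ss_apply, Complex.conj_ofReal]

theorem dd_ss (j : Fin 3) : dd j (ss a K t) = -(c (K : ℂ) * c (a j : ℂ)) := by
  unfold ss
  rw [map_sub, dd_c, Derivation.leibniz, dd_c, dd_yy]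
  simp

theorem Dv_ss (v : Fin 3 → ℝ) : Dv v (ss a K t) = -(c (K : ℂ) * c ((∑ j, v j * a j : ℝ) : ℂ)) := by
  rw [Dv_apply]
  have h : c ((∑ j, v j * a j : ℝ) : ℂ) = ∑ j, c (v j : ℂ) * c (a j : ℂ) := by
    rw [Complex.ofReal_sum, map_sum]
    refine Finset.sum_congr rfl fun j _ => ?_
    rw [Complex.ofReal_mul, map_mul]
  rw [h, Finset.mul_sum, ← Finset.sum_neg_distrib]
  refine Finset.sum_congr rfl fun j _ => ?_
  rw [dd_ss]; ring

/-- potential -/
def VV : Sm := c (N : ℂ) * (ss a K t * ss a K t - c (t : ℂ) * c (t : ℂ))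

/-- symmetric part -/
def SS (f : Sm) : Sm := Lp f + c (2 * Complex.I * t) * Dv b f + VV a N K t * f

/-- conjugate symmetric part -/
def SSb (f : Sm) : Sm := Lp f - c (2 * Complex.I * t) * Dv b f + VV a N K t * f

/-- antisymmetric part -/
def AA (f : Sm) : Sm := 2 * ss a K t * Dv a f - c (K : ℂ) * c (N : ℂ) * f

variable {a b N K t}

theorem Lp_ss_mul (f : Sm) : Lp (ss a K t * f) = ss a K t * Lp f - 2 * c (K : ℂ) * Dv a f := by
  rw [Lp_mul]
  have h1 : Lp (ss a K t) = 0 := by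
    unfold Lp
    refine Finset.sum_eq_zero fun j _ => ?_
    rw [dd_ss, map_neg, Derivation.leibniz, dd_c, dd_c]; simp
  have h2 : ∑ j, dd j (ss a K t) * dd j f = -(c (K : ℂ) * Dv a f) := by
    rw [Dv_apply, Finset.mul_sum, ← Finset.sum_neg_distrib]
    refine Finset.sum_congr rfl fun j _ => ?_
    rw [dd_ss]; ring
  rw [h1, h2]; ring

theorem E1 (hN : ∑ j, a j * a j = N) (u w : Sm) :
    u * AA a N K t w + AA a N K t u * w = Dv a (2 * ss a K t * u * w) := by
  have h2 : Dv a (2 : Sm) = 0 := by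
    have : (2 : Sm) = c 2 := (map_ofNat (algebraMap ℂ Sm) 2).symm
    rw [this, Dv_c]
  unfold AA
  simp only [Derivation.leibniz, smul_eq_mul, Dv_ss, hN, h2]
  ring

theorem E2 (u w : Sm) :
    u * SSb a b N K t w - SS a b N K t u * w =
      ∑ j, dd j (u * dd j w - w * dd j u) - c (2 * Complex.I * t) * Dv b (u * w) := by
  have h : ∑ j, dd j (u * dd j w - w * dd j u) = u * Lp w - w * Lp u := by
    unfold Lp
    rw [Finset.mul_sum, Finset.mul_sum, ← Finset.sum_sub_distrib]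
    refine Finset.sum_congr rfl fun j _ => ?_
    simp only [map_sub, Derivation.leibniz, smul_eq_mul]
    ring
  rw [h]
  unfold SS SSb
  simp only [Derivation.leibniz, smul_eq_mul]
  ring

theorem E3 (hN : ∑ j, a j * a j = N) (hab : ∑ j, b j * a j = 0) (z : Sm) :
    SS a b N K t (AA a N K t z) - AA a N K t (SS a b N K t z) =
      -(4 * c (K : ℂ) * Dv a (Dv a z))
        + 4 * c (K : ℂ) * c (N : ℂ) * c (N : ℂ) * (ss a K t * ss a K t) * z := by
  have hs : Dv a (ss a K t) = -(c (K : ℂ) * c (N : ℂ)) := by rw [Dv_ss, hN]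
  have hsb : Dv b (ss a K t) = 0 := by
    rw [Dv_ss, hab, Complex.ofReal_zero, map_zero, mul_zero, neg_zero]
  have h2 : ∀ v, Dv v (2 : Sm) = 0 := by
    intro v
    have : (2 : Sm) = c 2 := (map_ofNat (algebraMap ℂ Sm) 2).symm
    rw [this, Dv_c]
  have e1 : AA a N K t z = c 2 * (ss a K t * Dv a z) - c ((K : ℂ) * N) * z := by
    unfold AA
    rw [map_mul, map_ofNat]; ring
  have e2 : Lp (AA a N K t z) = 2 * (ss a K t * Dv a (Lp z) - 2 * c (K : ℂ) * Dv a (Dv a z))
      - c (K : ℂ) * c (N : ℂ) * Lp z := by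
    rw [e1, Lp_sub, Lp_c_mul, Lp_c_mul, Lp_ss_mul, Lp_Dv, map_mul, map_ofNat]
  have e3 : Dv b (AA a N K t z) = 2 * (ss a K t * Dv a (Dv b z)) - c (K : ℂ) * c (N : ℂ) * Dv b z := by
    rw [e1, map_sub, Derivation.leibniz, Derivation.leibniz, Derivation.leibniz, hsb, Dv_c, Dv_c,
      Dv_comm b a, map_mul, map_ofNat]
    simp only [smul_eq_mul]
    ring
  have e4 : Dv a (SS a b N K t z) = Dv a (Lp z) + c (2 * Complex.I * t) * Dv a (Dv b z)
      + VV a N K t * Dv a z - 2 * c (K : ℂ) * c (N : ℂ) * c (N : ℂ) * ss a K t * z := by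
    unfold SS VV
    simp only [map_add, map_sub, Derivation.leibniz, smul_eq_mul, Dv_c, hs]
    ring
  have e5 : SS a b N K t (AA a N K t z) = Lp (AA a N K t z)
      + c (2 * Complex.I * t) * Dv b (AA a N K t z) + VV a N K t * AA a N K t z := rfl
  have e6 : AA a N K t (SS a b N K t z) = 2 * ss a K t * Dv a (SS a b N K t z)
      - c (K : ℂ) * c (N : ℂ) * SS a b N K t z := rfl
  rw [e5, e6, e2, e3, e4]
  unfold AA SS
  ring

theorem key (hN : ∑ j, a j * a j = N) (hab : ∑ j, b j * a j = 0) (z w : Sm) :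
    SS a b N K t z * AA a N K t w + AA a N K t z * SSb a b N K t w =
      4 * c (K : ℂ) * (Dv a z * Dv a w)
        + 4 * c (K : ℂ) * c (N : ℂ) * c (N : ℂ) * ((ss a K t * z) * (ss a K t * w))
        + Dv a (2 * ss a K t * SS a b N K t z * w - c (4 * K) * (Dv a z * w))
        + (∑ j, dd j (AA a N K t z * dd j w - w * dd j (AA a N K t z))
          - c (2 * Complex.I * t) * Dv b (AA a N K t z * w)) := by
  have h1 := E1 (K := K) (t := t) hN (SS a b N K t z) w
  have h2 := E2 (a := a) (b := b) (N := N) (K := K) (t := t) (AA a N K t z) w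
  have h3 := E3 (K := K) (t := t) hN hab z
  rw [← h2, map_sub, ← h1]
  have h4 : Dv a (c (4 * K) * (Dv a z * w)) = 4 * c (K : ℂ) * (Dv a (Dv a z) * w + Dv a z * Dv a w) := by
    rw [Derivation.leibniz, Dv_c, Derivation.leibniz, map_mul, map_ofNat]
    simp only [smul_eq_mul]
    ring
  rw [h4]
  linear_combination (w : Sm) * h3

/-! ### conjugation -/

theorem cj_Dv (v : Fin 3 → ℝ) (f : Sm) : cj (Dv v f) = Dv v (cj f) := by
  rw [Dv_apply, Dv_apply, cj_sum]
  refine Finset.sum_congr rfl fun j _ => ?_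
  rw [cj_mul, cj_algebraMap, cj_dd, Complex.conj_ofReal]

theorem cj_Lp (f : Sm) : cj (Lp f) = Lp (cj f) := by
  unfold Lp
  rw [cj_sum]
  refine Finset.sum_congr rfl fun j _ => ?_
  rw [cj_dd, cj_dd]

theorem cj_VV : cj (VV a N K t) = VV a N K t := by
  unfold VV
  rw [cj_mul, cj_sub, cj_mul, cj_mul, cj_ss, cj_algebraMap, cj_algebraMap, Complex.conj_ofReal,
    Complex.conj_ofReal]

theorem cj_SS (f : Sm) : SSb a b N K t (cj f) = cj (SS a b N K t f) := by
  unfold SSb SS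
  rw [cj_add, cj_add, cj_mul, cj_mul, cj_VV, cj_Lp, cj_Dv, cj_algebraMap]
  have : (starRingEnd ℂ) (2 * Complex.I * t) = -(2 * Complex.I * t) := by
    rw [map_mul, map_mul, Complex.conj_I, Complex.conj_ofReal, Complex.conj_ofNat]; ring
  rw [this, map_neg]; ring

theorem cj_AA (f : Sm) : AA a N K t (cj f) = cj (AA a N K t f) := by
  unfold AA
  have h2 : cj (2 : Sm) = 2 := by
    have : (2 : Sm) = c 2 := (map_ofNat (algebraMap ℂ Sm) 2).symm
    rw [this, cj_algebraMap, Complex.conj_ofNat]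
  rw [cj_sub, cj_mul, cj_mul, cj_mul, cj_mul, cj_ss, cj_Dv, cj_algebraMap, cj_algebraMap,
    Complex.conj_ofReal, Complex.conj_ofReal, h2]

end Crest.Agent.R080.Carl
end
end

-- ▼ part R080/CarlEst
section

/-!
Row 80 (S0107), T8: the scalar Carleman estimate (helper417).
-/

set_option autoImplicit false

open MeasureTheory Filter
open scoped ContDiff Topology ComplexConjugate
open Crest.AnalysisR.VecCalc3

noncomputable section
namespace Crest.Agent.R080.Carl
open Sm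

variable {a b : Fin 3 → ℝ} {N K t R : ℝ}

theorem J_c_mul (z : ℂ) (f : Sm) : J (c z * f) = z * J f := by
  have : c z * f = z • f := by rw [Algebra.smul_def]
  rw [this, J_smul]

theorem Sm.Cp.Dv {f : Sm} (hf : Cp R f) (v : Fin 3 → ℝ) : Cp R (Dv v f) := by
  rw [Dv_apply]
  exact Cp.sum _ _ fun j _ => (hf.dd j).mul_left _

theorem Sm.Cp.Lp {f : Sm} (hf : Cp R f) : Cp R (Lp f) :=
  Cp.sum _ _ fun j _ => (hf.dd j).dd j

theorem Sm.Cp.SS {f : Sm} (hf : Cp R f) : Cp R (SS a b N K t f) :=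
  ((hf.Lp).add ((hf.Dv b).mul_left _)).add (hf.mul_left _)

theorem Sm.Cp.AA {f : Sm} (hf : Cp R f) : Cp R (AA a N K t f) :=
  ((hf.Dv a).mul_left _).sub (hf.mul_left _)

theorem J_Dv {f : Sm} (hf : Cp R f) (v : Fin 3 → ℝ) : J (Dv v f) = 0 := by
  rw [Dv_apply, J_sum (R := R) _ _ fun j _ => (hf.dd j).mul_left _]
  exact Finset.sum_eq_zero fun j _ => by rw [J_c_mul, J_dd j hf.hcs, mul_zero]

theorem energy (hN : ∑ j, a j * a j = N) (hab : ∑ j, b j * a j = 0) {z : Sm} (hz : Cp R z) :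
    n2 (SS a b N K t z + AA a N K t z) = n2 (SS a b N K t z) + n2 (AA a N K t z)
      + 4 * K * n2 (Dv a z) + 4 * K * N * N * n2 (ss a K t * z) := by
  have hw : Cp R (cj z) := hz.cj
  have hS : Cp R (SS a b N K t z) := hz.SS
  have hA : Cp R (AA a N K t z) := hz.AA
  have hD : Cp R (Dv a z) := hz.Dv a
  have h1 : (SS a b N K t z + AA a N K t z) * cj (SS a b N K t z + AA a N K t z)
      = SS a b N K t z * cj (SS a b N K t z) + AA a N K t z * cj (AA a N K t z)
        + c ((4 * K : ℝ) : ℂ) * (Dv a z * cj (Dv a z))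
        + c ((4 * K * N * N : ℝ) : ℂ) * ((ss a K t * z) * cj (ss a K t * z))
        + Dv a (2 * ss a K t * SS a b N K t z * cj z - c (4 * K) * (Dv a z * cj z))
        + (∑ j, dd j (AA a N K t z * dd j (cj z) - cj z * dd j (AA a N K t z)))
        - c (2 * Complex.I * t) * Dv b (AA a N K t z * cj z) := by
    have hk := key (K := K) (t := t) hN hab z (cj z)
    rw [cj_AA, cj_SS] at hk
    rw [cj_add, cj_Dv, cj_mul, cj_ss]
    have e1 : c ((4 * K : ℝ) : ℂ) = 4 * c (K : ℂ) := by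
      rw [Complex.ofReal_mul, map_mul, Complex.ofReal_ofNat, map_ofNat]
    have e2 : c ((4 * K * N * N : ℝ) : ℂ) = 4 * c (K : ℂ) * c (N : ℂ) * c (N : ℂ) := by
      rw [Complex.ofReal_mul, Complex.ofReal_mul, Complex.ofReal_mul, map_mul, map_mul, map_mul,
        Complex.ofReal_ofNat, map_ofNat]
    rw [e1, e2]
    linear_combination hk
  have g1 : Cp R (SS a b N K t z * cj (SS a b N K t z)) := hS.mul_right _
  have g2 : Cp R (AA a N K t z * cj (AA a N K t z)) := hA.mul_right _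
  have g3 : Cp R (c ((4 * K : ℝ) : ℂ) * (Dv a z * cj (Dv a z))) := (hD.mul_right _).mul_left _
  have g4 : Cp R (c ((4 * K * N * N : ℝ) : ℂ) * ((ss a K t * z) * cj (ss a K t * z))) :=
    ((hz.mul_left _).mul_right _).mul_left _
  have g5' : Cp R (2 * ss a K t * SS a b N K t z * cj z - c (4 * K) * (Dv a z * cj z)) :=
    (hw.mul_left _).sub ((hw.mul_left _).mul_left _)
  have g5 := g5'.Dv a
  have g6' : ∀ j, Cp R (AA a N K t z * dd j (cj z) - cj z * dd j (AA a N K t z)) :=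
    fun j => (hA.mul_right _).sub (hw.mul_right _)
  have g6 : Cp R (∑ j, dd j (AA a N K t z * dd j (cj z) - cj z * dd j (AA a N K t z))) :=
    Cp.sum _ _ fun j _ => (g6' j).dd j
  have g7' : Cp R (AA a N K t z * cj z) := hA.mul_right _
  have g7 : Cp R (c (2 * Complex.I * t) * Dv b (AA a N K t z * cj z)) := (g7'.Dv b).mul_left _
  have h2 := congrArg J h1
  rw [J_sub (R := R) (((((g1.add g2).add g3).add g4).add g5).add g6) g7,
    J_add (R := R) ((((g1.add g2).add g3).add g4).add g5) g6,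
    J_add (R := R) (((g1.add g2).add g3).add g4) g5,
    J_add (R := R) ((g1.add g2).add g3) g4,
    J_add (R := R) (g1.add g2) g3,
    J_add (R := R) g1 g2, J_mul_cj, J_mul_cj, J_mul_cj, J_c_mul, J_c_mul, J_mul_cj, J_mul_cj,
    J_Dv g5', J_c_mul, J_Dv g7', J_sum (R := R) _ _ (fun j _ => (g6' j).dd j)] at h2
  have h3 : ∑ j, J (dd j (AA a N K t z * dd j (cj z) - cj z * dd j (AA a N K t z))) = 0 :=
    Finset.sum_eq_zero fun j _ => J_dd j (g6' j).hcs
  rw [h3] at h2
  simp only [mul_zero, add_zero, sub_zero] at h2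
  exact_mod_cast h2

theorem norm_J_le {f : Sm} {g : R3 → ℝ} (hg : Integrable g) (h : ∀ x, ‖f x‖ ≤ g x) :
    ‖J f‖ ≤ ∫ x, g x := by
  unfold J
  exact norm_integral_le_of_norm_le hg (Eventually.of_forall h)

theorem norm_Dv_sq (v : Fin 3 → ℝ) (hN : ∑ j, v j * v j = N) (f : Sm) (x : R3) :
    ‖Dv v f x‖ ^ 2 ≤ N * ∑ j, ‖dd j f x‖ ^ 2 := by
  have h1 : ‖Dv v f x‖ ≤ ∑ j, |v j| * ‖dd j f x‖ := by
    rw [Dv_apply, sum_apply]
    refine (norm_sum_le _ _).trans (Finset.sum_le_sum fun j _ => ?_)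
    rw [mul_apply, algebraMap_apply, norm_mul, Complex.norm_real, Real.norm_eq_abs]
  have h2 := Finset.sum_mul_sq_le_sq_mul_sq Finset.univ (fun j => |v j|) (fun j => ‖dd j f x‖)
  have h3 : ∑ j, |v j| ^ 2 = N := by
    rw [← hN]
    exact Finset.sum_congr rfl fun j _ => by rw [sq_abs, sq]
  rw [h3] at h2
  have h4 : ‖Dv v f x‖ ^ 2 ≤ (∑ j, |v j| * ‖dd j f x‖) ^ 2 := by gcongr
  exact h4.trans h2

theorem gradient (hN : ∑ j, a j * a j = N) (hN2 : ∑ j, b j * b j = N)
    (hN0 : 0 < N) (hK : 0 < K) (ht : 0 < t)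
    (hy : ∀ x : R3, ‖x‖ ≤ R → |K * ∑ j, a j * x j| ≤ t / 2) {z : Sm} (hz : Cp R z) :
    ∑ j, n2 (dd j z) ≤ (1 / K) * n2 (SS a b N K t z) + (K + 13 / 2 * N * t ^ 2) * n2 z := by
  have hw : Cp R (cj z) := hz.cj
  have hS : Cp R (SS a b N K t z) := hz.SS
  set F : Sm := c (2 * Complex.I * t) * (Dv b z * cj z) + VV a N K t * z * cj z
    - SS a b N K t z * cj z with hF
  have hFc : Cp R F := ((((hz.Dv b).mul_right _).mul_left _).add (hw.mul_left _)).sub (hS.mul_right _)
  have h1 : ∑ j, dd j z * cj (dd j z) = F + ∑ j, dd j (dd j z * cj z) := by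
    have e : ∑ j, dd j (dd j z * cj z) = ∑ j, dd j z * cj (dd j z) + Lp z * cj z := by
      unfold Lp
      rw [Finset.sum_mul, ← Finset.sum_add_distrib]
      refine Finset.sum_congr rfl fun j _ => ?_
      rw [Derivation.leibniz, cj_dd]
      simp only [smul_eq_mul]
      ring
    rw [e, hF]
    unfold SS
    ring
  have h2 := congrArg J h1
  have g1 : ∀ j, Cp R (dd j z * cj (dd j z)) := fun j => (hz.dd j).mul_right _
  have g2 : ∀ j, Cp R (dd j z * cj z) := fun j => (hz.dd j).mul_right _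
  rw [J_add (R := R) hFc (Cp.sum _ _ fun j _ => (g2 j).dd j),
    J_sum (R := R) _ _ (fun j _ => g1 j), J_sum (R := R) _ _ (fun j _ => (g2 j).dd j)] at h2
  have h3 : ∑ j, J (dd j (dd j z * cj z)) = 0 := Finset.sum_eq_zero fun j _ => J_dd j (g2 j).hcs
  rw [h3, add_zero] at h2
  have h4 : ∑ j, J (dd j z * cj (dd j z)) = ((∑ j, n2 (dd j z) : ℝ) : ℂ) := by
    rw [Complex.ofReal_sum]
    exact Finset.sum_congr rfl fun j _ => J_mul_cj _
  rw [h4] at h2
  have hG0 : 0 ≤ ∑ j, n2 (dd j z) := Finset.sum_nonneg fun j _ => n2_nonneg _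
  have h5 : ∑ j, n2 (dd j z) = ‖J F‖ := by
    rw [← h2, Complex.norm_real, Real.norm_eq_abs, abs_of_nonneg hG0]
  -- pointwise bound
  have hpt : ∀ x, ‖F x‖ ≤ (1 / (2 * K)) * ‖SS a b N K t z x‖ ^ 2
      + (K / 2 + 13 / 4 * N * t ^ 2) * ‖z x‖ ^ 2 + (1 / 2) * ∑ j, ‖dd j z x‖ ^ 2 := by
    intro x
    by_cases hx : ‖x‖ ≤ R
    · have n1 : ‖F x‖ ≤ 2 * t * ‖Dv b z x‖ * ‖z x‖ + (5 / 4 * N * t ^ 2) * ‖z x‖ ^ 2
          + ‖SS a b N K t z x‖ * ‖z x‖ := by
        have e1 : F x = (2 * Complex.I * t) * (Dv b z x * conj (z x))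
            + VV a N K t x * z x * conj (z x) - SS a b N K t z x * conj (z x) := rfl
        have hV : ‖VV a N K t x‖ ≤ 5 / 4 * N * t ^ 2 := by
          have e2 : VV a N K t x = ((N * ((t - K * ∑ j, a j * x j) * (t - K * ∑ j, a j * x j)
              - t * t) : ℝ) : ℂ) := by
            unfold VV
            simp only [mul_apply, sub_apply, algebraMap_apply, ss_apply]
            push_cast; ring
          rw [e2, Complex.norm_real, Real.norm_eq_abs, abs_mul, abs_of_pos hN0]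
          have h7 := hy x hx
          set q := K * ∑ j, a j * x j with hq
          have h8 := abs_le.mp h7
          have h9 : |(t - q) * (t - q) - t * t| ≤ 5 / 4 * t ^ 2 := by
            rw [abs_le]; constructor <;> nlinarith
          nlinarith
        rw [e1]
        refine (norm_sub_le _ _).trans ?_
        refine add_le_add ((norm_add_le _ _).trans ?_) ?_
        · refine add_le_add ?_ ?_
          · rw [norm_mul, norm_mul, norm_mul, norm_mul, Complex.norm_I, Complex.norm_real,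
              Real.norm_eq_abs, abs_of_pos ht, RCLike.norm_conj]
            simp only [Complex.norm_ofNat, mul_one]
            linarith
          · rw [norm_mul, norm_mul, RCLike.norm_conj, mul_assoc, ← sq]
            gcongr
        · rw [norm_mul, RCLike.norm_conj]
      have n2' := norm_Dv_sq b hN2 z x
      set X := ‖Dv b z x‖
      set Y := ‖z x‖
      set Z := ‖SS a b N K t z x‖
      set G := ∑ j, ‖dd j z x‖ ^ 2
      have m1 : 2 * t * X * Y ≤ (1 / (2 * N)) * X ^ 2 + 2 * N * t ^ 2 * Y ^ 2 := by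
        have : 0 ≤ (X - 2 * N * t * Y) ^ 2 := sq_nonneg _
        have h10 : (1 / (2 * N)) * X ^ 2 + 2 * N * t ^ 2 * Y ^ 2 - 2 * t * X * Y
            = (1 / (2 * N)) * (X - 2 * N * t * Y) ^ 2 := by
          field_simp; ring
        have h11 : 0 ≤ (1 / (2 * N)) * (X - 2 * N * t * Y) ^ 2 := by positivity
        linarith
      have m2 : (1 / (2 * N)) * X ^ 2 ≤ (1 / 2) * G := by
        rw [div_mul_eq_mul_div, one_mul, div_le_iff₀ (by positivity)]
        nlinarith
      have m3 : Z * Y ≤ (1 / (2 * K)) * Z ^ 2 + K / 2 * Y ^ 2 := by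
        have h10 : (1 / (2 * K)) * Z ^ 2 + K / 2 * Y ^ 2 - Z * Y
            = (1 / (2 * K)) * (Z - K * Y) ^ 2 := by
          field_simp; ring
        have h11 : 0 ≤ (1 / (2 * K)) * (Z - K * Y) ^ 2 := by positivity
        linarith
      nlinarith
    · have hx' : R < ‖x‖ := not_le.mp hx
      rw [hFc.apply_eq_zero hx', norm_zero]
      positivity
  have i1 : Integrable fun x => ‖SS a b N K t z x‖ ^ 2 := hS.integrable_sq
  have i2 : Integrable fun x => ‖z x‖ ^ 2 := hz.integrable_sq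
  have i3 : Integrable fun x => ∑ j, ‖dd j z x‖ ^ 2 :=
    integrable_finsetSum _ fun j _ => (hz.dd j).integrable_sq
  have h6 := norm_J_le (((i1.const_mul _).add (i2.const_mul _)).add (i3.const_mul _)) hpt
  have h7 : ∫ x, ((1 / (2 * K)) * ‖SS a b N K t z x‖ ^ 2
      + (K / 2 + 13 / 4 * N * t ^ 2) * ‖z x‖ ^ 2 + (1 / 2) * ∑ j, ‖dd j z x‖ ^ 2)
      = (1 / (2 * K)) * n2 (SS a b N K t z) + (K / 2 + 13 / 4 * N * t ^ 2) * n2 z
        + (1 / 2) * ∑ j, n2 (dd j z) := by
    have i1' : Integrable fun x => (1 / (2 * K)) * ‖SS a b N K t z x‖ ^ 2 := i1.const_mul _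
    have i2' : Integrable fun x => (K / 2 + 13 / 4 * N * t ^ 2) * ‖z x‖ ^ 2 := i2.const_mul _
    have i12 : Integrable fun x => (1 / (2 * K)) * ‖SS a b N K t z x‖ ^ 2
      + (K / 2 + 13 / 4 * N * t ^ 2) * ‖z x‖ ^ 2 := i1'.add i2'
    have i3' : Integrable fun x => (1 / 2 : ℝ) * ∑ j, ‖dd j z x‖ ^ 2 := i3.const_mul _
    rw [integral_add i12 i3', integral_add i1' i2', integral_const_mul, integral_const_mul,
      integral_const_mul, integral_finsetSum _ fun j _ => (hz.dd j).integrable_sq]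
    rfl
  have h8 : ‖J F‖ ≤ (1 / (2 * K)) * n2 (SS a b N K t z) + (K / 2 + 13 / 4 * N * t ^ 2) * n2 z
        + (1 / 2) * ∑ j, n2 (dd j z) := by
    rw [← h7]; exact h6
  rw [← h5] at h8
  have h9 : (1 / (2 * K)) * n2 (SS a b N K t z) = (1 / 2) * ((1 / K) * n2 (SS a b N K t z)) := by
    field_simp
  nlinarith

theorem scalar_est (hN : ∑ j, a j * a j = N) (hN2 : ∑ j, b j * b j = N)
    (hab : ∑ j, b j * a j = 0) (hN0 : 0 < N) (hK : 0 < K) (ht : 0 < t)
    (hy : ∀ x : R3, ‖x‖ ≤ R → |K * ∑ j, a j * x j| ≤ t / 2) (hKt : K ≤ N ^ 2 * t ^ 2)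
    {z : Sm} (hz : Cp R z) :
    K * (t ^ 2 * n2 z + ∑ j, n2 (dd j z)) ≤
      (1 / N ^ 2 + 2 + 7 / N) * n2 (SS a b N K t z + AA a N K t z) := by
  have h1 := energy (K := K) (t := t) hN hab hz
  have h2 := gradient hN hN2 hN0 hK ht hy hz
  have h3 : t ^ 2 / 4 * n2 z ≤ n2 (ss a K t * z) := by
    unfold n2
    rw [← integral_const_mul]
    refine integral_mono ((hz.integrable_sq).const_mul _) ((hz.mul_left _).integrable_sq) fun x => ?_
    show t ^ 2 / 4 * ‖z x‖ ^ 2 ≤ ‖(ss a K t * z) x‖ ^ 2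
    by_cases hx : ‖x‖ ≤ R
    · rw [mul_apply, norm_mul, mul_pow]
      refine mul_le_mul_of_nonneg_right ?_ (by positivity)
      rw [ss_apply, Complex.norm_real, Real.norm_eq_abs, sq_abs]
      have h8 := abs_le.mp (hy x hx)
      nlinarith
    · rw [hz.apply_eq_zero (not_le.mp hx), norm_zero]
      have h0 : t ^ 2 / 4 * (0 : ℝ) ^ 2 = 0 := by ring
      rw [h0]
      positivity
  set P := n2 (SS a b N K t z + AA a N K t z)
  set G := ∑ j, n2 (dd j z)
  set Z := n2 z
  have hZ : 0 ≤ Z := n2_nonneg z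
  have hS : 0 ≤ n2 (SS a b N K t z) := n2_nonneg _
  have hA : 0 ≤ n2 (AA a N K t z) := n2_nonneg _
  have hD : 0 ≤ n2 (Dv a z) := n2_nonneg _
  have hs : 0 ≤ n2 (ss a K t * z) := n2_nonneg _
  have h4 : K * N ^ 2 * t ^ 2 * Z ≤ P := by
    have : 4 * K * N * N * n2 (ss a K t * z) ≥ 4 * K * N * N * (t ^ 2 / 4 * Z) := by gcongr
    have h40 : 0 ≤ 4 * K * n2 (Dv a z) := by positivity
    nlinarith
  have h5 : n2 (SS a b N K t z) ≤ P := by
    have h40 : 0 ≤ 4 * K * n2 (Dv a z) := by positivity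
    have h41 : 0 ≤ 4 * K * N * N * n2 (ss a K t * z) := by positivity
    linarith
  have hP : 0 ≤ P := n2_nonneg _
  have h6 : K * G ≤ P + P + 13 / 2 * (P / N) := by
    have h60 : K * G ≤ n2 (SS a b N K t z) + (K * K + 13 / 2 * N * t ^ 2 * K) * Z := by
      have := mul_le_mul_of_nonneg_left h2 hK.le
      have e : K * ((1 / K) * n2 (SS a b N K t z) + (K + 13 / 2 * N * t ^ 2) * Z)
          = n2 (SS a b N K t z) + (K * K + 13 / 2 * N * t ^ 2 * K) * Z := by
        field_simp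
      rwa [e] at this
    have h61 : K * K * Z ≤ P := by
      have : K * K * Z ≤ K * (N ^ 2 * t ^ 2) * Z := by gcongr
      linarith [h4]
    have h62 : N * t ^ 2 * K * Z ≤ P / N := by
      rw [le_div_iff₀ hN0]
      calc N * t ^ 2 * K * Z * N = K * N ^ 2 * t ^ 2 * Z := by ring
        _ ≤ P := h4
    nlinarith
  have h7 : K * (t ^ 2 * Z) ≤ P / N ^ 2 := by
    rw [le_div_iff₀ (by positivity)]
    calc K * (t ^ 2 * Z) * N ^ 2 = K * N ^ 2 * t ^ 2 * Z := by ring
      _ ≤ P := h4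
  have h8 : 0 ≤ P / N := by positivity
  calc K * (t ^ 2 * Z + G) = K * (t ^ 2 * Z) + K * G := by ring
    _ ≤ P / N ^ 2 + (P + P + 13 / 2 * (P / N)) := add_le_add h7 h6
    _ ≤ P / N ^ 2 + 2 * P + 7 * (P / N) := by linarith
    _ = (1 / N ^ 2 + 2 + 7 / N) * P := by ring

end Crest.Agent.R080.Carl
end
end

-- ▼ part R080/CarlLow

/-!
Row 80 (S0107), T8: weights and lower order terms for the Carleman estimate (helper417).
-/

set_option autoImplicit false

open MeasureTheory Filter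
open scoped ContDiff Topology ComplexConjugate
open Crest.AnalysisR.VecCalc3

noncomputable section
namespace Crest.Agent.R080.Carl
open Sm

variable {a b : Fin 3 → ℝ} {N K t R : ℝ}

/-- the Gaussian weights -/
def EE (a : Fin 3 → ℝ) (k : ℝ) : Sm :=
  ⟨fun x => Complex.exp ((k : ℂ) / 2 * (yy a x * yy a x)),
    show ContDiff ℝ ∞ _ from Complex.contDiff_exp.comp
      (contDiff_const.mul ((smooth (yy a)).mul (smooth (yy a))))⟩

theorem EE_apply (k : ℝ) (x : R3) :
    EE a k x = ((Real.exp (k / 2 * (∑ j, a j * x j) ^ 2) : ℝ) : ℂ) := by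
  show Complex.exp ((k : ℂ) / 2 * (yy a x * yy a x)) = _
  rw [yy_apply, Complex.ofReal_exp]
  congr 1
  push_cast; ring

theorem EE_mul_neg (k : ℝ) : EE a k * EE a (-k) = 1 := by
  ext x
  rw [mul_apply, EE_apply, EE_apply, ← Complex.ofReal_mul, ← Real.exp_add, one_apply]
  have : k / 2 * (∑ j, a j * x j) ^ 2 + -k / 2 * (∑ j, a j * x j) ^ 2 = 0 := by ring
  rw [this, Real.exp_zero, Complex.ofReal_one]

theorem dd_EE (j : Fin 3) (k : ℝ) : dd j (EE a k) = c (k : ℂ) * c (a j : ℂ) * yy a * EE a k := by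
  ext x
  have h1 : dd j (c ((k : ℂ) / 2) * (yy a * yy a)) x = (k : ℂ) * a j * yy a x := by
    rw [Derivation.leibniz, dd_c, Derivation.leibniz, dd_yy]
    simp only [smul_eq_mul, mul_zero, add_zero, mul_apply, add_apply, algebraMap_apply]
    ring
  show fderiv ℝ (fun x => Complex.exp ((k : ℂ) / 2 * (yy a x * yy a x))) x (ee j) = _
  have hd : DifferentiableAt ℝ (fun x : R3 => (k : ℂ) / 2 * (yy a x * yy a x)) x :=
    diffb (c ((k : ℂ) / 2) * (yy a * yy a)) x
  have h2 : HasFDerivAt (fun x : R3 => Complex.exp ((k : ℂ) / 2 * (yy a x * yy a x)))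
      (Complex.exp ((k : ℂ) / 2 * (yy a x * yy a x)) •
        fderiv ℝ (fun x : R3 => (k : ℂ) / 2 * (yy a x * yy a x)) x) x :=
    HasFDerivAt.cexp hd.hasFDerivAt
  rw [h2.fderiv]
  have h3 : fderiv ℝ (fun x : R3 => (k : ℂ) / 2 * (yy a x * yy a x)) x (ee j)
      = (k : ℂ) * a j * yy a x := h1
  show Complex.exp ((k : ℂ) / 2 * (yy a x * yy a x)) *
    fderiv ℝ (fun x : R3 => (k : ℂ) / 2 * (yy a x * yy a x)) x (ee j) = _
  rw [h3]
  show _ = (k : ℂ) * a j * yy a x * Complex.exp ((k : ℂ) / 2 * (yy a x * yy a x))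
  ring

theorem c_sum_mul (f g : Fin 3 → ℝ) :
    c ((∑ j, f j * g j : ℝ) : ℂ) = ∑ j, c (f j : ℂ) * c (g j : ℂ) := by
  rw [Complex.ofReal_sum, map_sum]
  refine Finset.sum_congr rfl fun j _ => ?_
  rw [Complex.ofReal_mul, map_mul]

/-- conjugation by the weight `E = exp (-(K/2) y²)` -/
theorem conj_formula (hN : ∑ j, a j * a j = N) (hab : ∑ j, b j * a j = 0) (z : Sm) :
    Lp (EE a (-K) * z) + 2 * c (t : ℂ) * (Dv a (EE a (-K) * z) + c Complex.I * Dv b (EE a (-K) * z))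
      = EE a (-K) * (SS a b N K t z + AA a N K t z) := by
  set E := EE a (-K) with hE
  have hdE : ∀ j, dd j E = -(c (K : ℂ) * c (a j : ℂ) * yy a * E) := by
    intro j
    rw [hE, dd_EE, Complex.ofReal_neg, map_neg]; ring
  have hDE : ∀ v : Fin 3 → ℝ, Dv v E = -(c (K : ℂ) * c ((∑ j, v j * a j : ℝ) : ℂ) * yy a * E) := by
    intro v
    rw [Dv_apply, c_sum_mul]
    rw [Finset.mul_sum, Finset.sum_mul, Finset.sum_mul, ← Finset.sum_neg_distrib]
    refine Finset.sum_congr rfl fun j _ => ?_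
    rw [hdE]; ring
  have hLE : Lp E = (c (K : ℂ) * c (K : ℂ) * c (N : ℂ) * yy a * yy a - c (K : ℂ) * c (N : ℂ)) * E := by
    unfold Lp
    have h1 : ∀ j, dd j (dd j E) = c (a j : ℂ) * c (a j : ℂ) *
        (c (K : ℂ) * c (K : ℂ) * yy a * yy a * E - c (K : ℂ) * E) := by
      intro j
      rw [hdE, map_neg, Derivation.leibniz, Derivation.leibniz, Derivation.leibniz, dd_c, dd_c,
        dd_yy, hdE]
      simp only [smul_eq_mul]
      ring
    rw [Finset.sum_congr rfl fun j _ => h1 j, ← Finset.sum_mul, ← hN, c_sum_mul]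
    ring
  have hsum : ∑ j, dd j E * dd j z = -(c (K : ℂ) * yy a * E * Dv a z) := by
    rw [Dv_apply, Finset.mul_sum, ← Finset.sum_neg_distrib]
    refine Finset.sum_congr rfl fun j _ => ?_
    rw [hdE]; ring
  have hDa : Dv a E = -(c (K : ℂ) * c (N : ℂ) * yy a * E) := by rw [hDE, hN]
  have hDb : Dv b E = 0 := by
    rw [hDE, hab, Complex.ofReal_zero, map_zero]; ring
  rw [Lp_mul, hsum, hLE, Derivation.leibniz, Derivation.leibniz, hDa, hDb]
  unfold SS AA VV ss
  simp only [smul_eq_mul, map_mul, map_ofNat]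
  ring

section
variable {ι : Type} [Fintype ι]

/-- the full operator in the algebra -/
def FF (θ : Fin 3 → ℂ) (A : Fin 3 → ι → ι → Sm) (B : ι → ι → Sm) (t : ℝ) (v : ι → Sm) (i : ι) : Sm :=
  Lp (v i) + 2 * c (t : ℂ) * ∑ j, c (θ j) * dd j (v i)
    + ∑ j, ∑ l, A j i l * (dd j (v l) + c (t : ℂ) * c (θ j) * v l) + ∑ l, B i l * v l

/-- the lower order part after conjugation -/
def LL (θ : Fin 3 → ℂ) (a : Fin 3 → ℝ) (K : ℝ) (A : Fin 3 → ι → ι → Sm) (B : ι → ι → Sm) (t : ℝ)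
    (z : ι → Sm) (i : ι) : Sm :=
  ∑ j, ∑ l, A j i l * (dd j (z l) + (c (t : ℂ) * c (θ j) - c (K : ℂ) * c (a j : ℂ) * yy a) * z l)
    + ∑ l, B i l * z l

theorem FF_conj (hN : ∑ j, a j * a j = N) (hab : ∑ j, b j * a j = 0) (θ : Fin 3 → ℂ)
    (hθ : ∀ j, θ j = (a j : ℂ) + Complex.I * (b j : ℂ))
    (A : Fin 3 → ι → ι → Sm) (B : ι → ι → Sm) (z : ι → Sm) (i : ι) :
    FF θ A B t (fun l => EE a (-K) * z l) i
      = EE a (-K) * (SS a b N K t (z i) + AA a N K t (z i) + LL θ a K A B t z i) := by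
  have h1 := conj_formula (K := K) (t := t) hN hab (z i)
  have h2 : ∑ j, c (θ j) * dd j (EE a (-K) * z i)
      = Dv a (EE a (-K) * z i) + c Complex.I * Dv b (EE a (-K) * z i) := by
    rw [Dv_apply, Dv_apply, Finset.mul_sum, ← Finset.sum_add_distrib]
    refine Finset.sum_congr rfl fun j _ => ?_
    rw [hθ, map_add, map_mul]; ring
  have h3 : ∀ j l, dd j (EE a (-K) * z l)
      = EE a (-K) * (dd j (z l) - c (K : ℂ) * c (a j : ℂ) * yy a * z l) := by
    intro j l
    rw [Derivation.leibniz, dd_EE, Complex.ofReal_neg, map_neg]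
    simp only [smul_eq_mul]
    ring
  unfold FF
  rw [h2, h1]
  unfold LL
  have h4 : ∑ j, ∑ l, A j i l * (dd j (EE a (-K) * z l) + c (t : ℂ) * c (θ j) * (EE a (-K) * z l))
      = EE a (-K) * ∑ j, ∑ l, A j i l * (dd j (z l)
        + (c (t : ℂ) * c (θ j) - c (K : ℂ) * c (a j : ℂ) * yy a) * z l) := by
    rw [Finset.mul_sum]
    refine Finset.sum_congr rfl fun j _ => ?_
    rw [Finset.mul_sum]
    refine Finset.sum_congr rfl fun l _ => ?_
    rw [h3]; ring
  have h5 : ∑ l, B i l * (EE a (-K) * z l) = EE a (-K) * ∑ l, B i l * z l := by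
    rw [Finset.mul_sum]
    refine Finset.sum_congr rfl fun l _ => ?_
    ring
  rw [h4, h5]; ring

/-- pointwise size of a vector field and its gradient -/
def qz (t : ℝ) (z : ι → Sm) (x : R3) : ℝ := ∑ l, (t ^ 2 * ‖z l x‖ ^ 2 + ∑ j, ‖dd j (z l) x‖ ^ 2)

theorem LL_bound (θ : Fin 3 → ℂ) (A : Fin 3 → ι → ι → Sm) (B : ι → ι → Sm) (M : ℝ) (hM : 0 ≤ M)
    (x : R3) (hA : ∀ j i l, ‖A j i l x‖ ≤ M) (hB : ∀ i l, ‖B i l x‖ ≤ M) (ht : 1 ≤ t)
    (hy : ∀ j, |K * a j * ∑ k, a k * x k| ≤ t) (z : ι → Sm) (i : ι) :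
    ‖LL θ a K A B t z i x‖ ^ 2 ≤
      (M * (3 * (∑ j, ‖θ j‖) + 4)) ^ 2 * (4 * Fintype.card ι) * qz t z x := by
  set T := ∑ j, ‖θ j‖ with hT
  have hT0 : 0 ≤ T := Finset.sum_nonneg fun _ _ => norm_nonneg _
  have hθ : ∀ j, ‖θ j‖ ≤ T := fun j =>
    Finset.single_le_sum (f := fun j => ‖θ j‖) (fun _ _ => norm_nonneg _) (Finset.mem_univ j)
  have h1 : ‖LL θ a K A B t z i x‖ ≤ M * (3 * T + 4) * ∑ l, (t * ‖z l x‖ + ∑ j, ‖dd j (z l) x‖) := by
    unfold LL
    rw [add_apply, sum_apply, sum_apply]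
    have e1 : ∀ j, ‖(∑ l, A j i l * (dd j (z l)
        + (c (t : ℂ) * c (θ j) - c (K : ℂ) * c (a j : ℂ) * yy a) * z l)) x‖
        ≤ ∑ l, M * (‖dd j (z l) x‖ + (T + 1) * (t * ‖z l x‖)) := by
      intro j
      rw [sum_apply]
      refine (norm_sum_le _ _).trans (Finset.sum_le_sum fun l _ => ?_)
      rw [mul_apply, norm_mul]
      refine mul_le_mul (hA j i l) ?_ (norm_nonneg _) hM
      rw [add_apply]
      refine (norm_add_le _ _).trans (add_le_add le_rfl ?_)
      rw [mul_apply, norm_mul, sub_apply, mul_apply, mul_apply, mul_apply, algebraMap_apply,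
        algebraMap_apply, algebraMap_apply, algebraMap_apply, yy_apply]
      have e2 : ‖(t : ℂ) * θ j - (K : ℂ) * (a j : ℂ) * ((∑ k, a k * x k : ℝ) : ℂ)‖ ≤ (T + 1) * t := by
        refine (norm_sub_le _ _).trans ?_
        rw [norm_mul, ← Complex.ofReal_mul, ← Complex.ofReal_mul, Complex.norm_real,
          Complex.norm_real, Real.norm_eq_abs, Real.norm_eq_abs, abs_of_nonneg (by linarith)]
        have := hy j
        have h3 : t * ‖θ j‖ ≤ t * T := by gcongr; exact hθ j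
        linarith
      calc ‖(t : ℂ) * θ j - (K : ℂ) * (a j : ℂ) * ((∑ k, a k * x k : ℝ) : ℂ)‖ * ‖z l x‖
          ≤ ((T + 1) * t) * ‖z l x‖ := by gcongr
        _ = (T + 1) * (t * ‖z l x‖) := by ring
    have e3 : ‖∑ l, (B i l * z l) x‖ ≤ ∑ l, M * (t * ‖z l x‖) := by
      refine (norm_sum_le _ _).trans (Finset.sum_le_sum fun l _ => ?_)
      rw [mul_apply, norm_mul]
      refine mul_le_mul (hB i l) ?_ (norm_nonneg _) hM
      nlinarith [norm_nonneg (z l x)]
    calc ‖∑ j, (∑ l, A j i l * (dd j (z l)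
        + (c (t : ℂ) * c (θ j) - c (K : ℂ) * c (a j : ℂ) * yy a) * z l)) x + ∑ l, (B i l * z l) x‖
        ≤ ‖∑ j, (∑ l, A j i l * (dd j (z l)
        + (c (t : ℂ) * c (θ j) - c (K : ℂ) * c (a j : ℂ) * yy a) * z l)) x‖
          + ‖∑ l, (B i l * z l) x‖ := norm_add_le _ _
      _ ≤ (∑ j : Fin 3, ∑ l, M * (‖dd j (z l) x‖ + (T + 1) * (t * ‖z l x‖)))
          + ∑ l, M * (t * ‖z l x‖) := by
          refine add_le_add ((norm_sum_le _ _).trans (Finset.sum_le_sum fun j _ => e1 j)) e3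
      _ = M * ∑ l, (∑ j, ‖dd j (z l) x‖ + (3 * (T + 1) + 1) * (t * ‖z l x‖)) := by
          rw [Finset.sum_comm, ← Finset.sum_add_distrib, Finset.mul_sum]
          refine Finset.sum_congr rfl fun l _ => ?_
          simp only [Fin.sum_univ_three]
          ring
      _ ≤ M * ∑ l, (3 * T + 4) * (t * ‖z l x‖ + ∑ j, ‖dd j (z l) x‖) := by
          gcongr with l _
          have h3 : 0 ≤ ∑ j, ‖dd j (z l) x‖ := Finset.sum_nonneg fun _ _ => norm_nonneg _
          nlinarith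
      _ = M * (3 * T + 4) * ∑ l, (t * ‖z l x‖ + ∑ j, ‖dd j (z l) x‖) := by
          rw [← Finset.mul_sum]; ring
  have h2 : (∑ l, (t * ‖z l x‖ + ∑ j, ‖dd j (z l) x‖)) ^ 2 ≤ (4 * Fintype.card ι) * qz t z x := by
    have e1 := sq_sum_le_card_mul_sum_sq (s := (Finset.univ : Finset ι))
      (f := fun l => t * ‖z l x‖ + ∑ j, ‖dd j (z l) x‖)
    refine e1.trans ?_
    rw [Finset.card_univ]
    have e2 : ∀ l, (t * ‖z l x‖ + ∑ j, ‖dd j (z l) x‖) ^ 2
        ≤ 4 * (t ^ 2 * ‖z l x‖ ^ 2 + ∑ j, ‖dd j (z l) x‖ ^ 2) := by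
      intro l
      simp only [Fin.sum_univ_three]
      set p := t * ‖z l x‖ with hp
      set q := ‖dd 0 (z l) x‖
      set r := ‖dd 1 (z l) x‖
      set s := ‖dd 2 (z l) x‖
      have : t ^ 2 * ‖z l x‖ ^ 2 = p ^ 2 := by rw [hp]; ring
      rw [this]
      nlinarith [sq_nonneg (p - q), sq_nonneg (p - r), sq_nonneg (p - s), sq_nonneg (q - r),
        sq_nonneg (q - s), sq_nonneg (r - s)]
    calc (Fintype.card ι : ℝ) * ∑ l, (t * ‖z l x‖ + ∑ j, ‖dd j (z l) x‖) ^ 2
        ≤ (Fintype.card ι : ℝ) * ∑ l, 4 * (t ^ 2 * ‖z l x‖ ^ 2 + ∑ j, ‖dd j (z l) x‖ ^ 2) := by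
          gcongr with l _
          exact e2 l
      _ = (4 * Fintype.card ι) * qz t z x := by
          unfold qz
          rw [← Finset.mul_sum]; ring
  calc ‖LL θ a K A B t z i x‖ ^ 2
      ≤ (M * (3 * T + 4) * ∑ l, (t * ‖z l x‖ + ∑ j, ‖dd j (z l) x‖)) ^ 2 := by gcongr
    _ = (M * (3 * T + 4)) ^ 2 * (∑ l, (t * ‖z l x‖ + ∑ j, ‖dd j (z l) x‖)) ^ 2 := by ring
    _ ≤ (M * (3 * T + 4)) ^ 2 * ((4 * Fintype.card ι) * qz t z x) := by gcongr
    _ = _ := by ring

/-- integrated size -/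
def QQ (t : ℝ) (z : ι → Sm) : ℝ := ∑ l, (t ^ 2 * n2 (z l) + ∑ j, n2 (dd j (z l)))

theorem integrable_qq {z : ι → Sm} (hz : ∀ l, Cp R (z l)) : Integrable (qz t z) := by
  unfold qz
  exact integrable_finsetSum _ fun l _ => (((hz l).integrable_sq).const_mul _).add
    (integrable_finsetSum _ fun j _ => ((hz l).dd j).integrable_sq)

theorem integral_qq {z : ι → Sm} (hz : ∀ l, Cp R (z l)) : ∫ x, qz t z x = QQ t z := by
  unfold qz QQ
  have i1 : ∀ l, Integrable fun x => t ^ 2 * ‖z l x‖ ^ 2 := fun l =>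
    ((hz l).integrable_sq).const_mul _
  have i2 : ∀ l, Integrable fun x => ∑ j, ‖dd j (z l) x‖ ^ 2 := fun l =>
    integrable_finsetSum _ fun j _ => ((hz l).dd j).integrable_sq
  have i3 : ∀ l, Integrable fun x => t ^ 2 * ‖z l x‖ ^ 2 + ∑ j, ‖dd j (z l) x‖ ^ 2 := fun l =>
    (i1 l).add (i2 l)
  rw [integral_finsetSum _ fun l _ => i3 l]
  refine Finset.sum_congr rfl fun l _ => ?_
  rw [integral_add (i1 l) (i2 l), integral_const_mul,
    integral_finsetSum _ fun j _ => ((hz l).dd j).integrable_sq]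
  rfl

theorem exists_bound (R : ℝ) (A : Fin 3 → ι → ι → Sm) (B : ι → ι → Sm) :
    ∃ M : ℝ, 0 ≤ M ∧ ∀ x : R3, ‖x‖ ≤ R → (∀ j i l, ‖A j i l x‖ ≤ M) ∧ (∀ i l, ‖B i l x‖ ≤ M) := by
  have h : ∀ f : Sm, ∃ C : ℝ, ∀ x : R3, ‖x‖ ≤ R → ‖f x‖ ≤ C := by
    intro f
    obtain ⟨C, hC⟩ := (isCompact_closedBall (0 : R3) R).exists_bound_of_continuousOn
      (f := (f : R3 → ℂ)) (cont f).continuousOn
    exact ⟨C, fun x hx => hC x (by rwa [mem_closedBall_zero_iff])⟩
  choose C hC using h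
  have hs1 : ∀ j i l, |C (A j i l)| ≤ ∑ j, ∑ i, ∑ l, |C (A j i l)| := by
    intro j i l
    calc |C (A j i l)| ≤ ∑ l, |C (A j i l)| :=
          Finset.single_le_sum (f := fun l => |C (A j i l)|) (fun _ _ => abs_nonneg _)
            (Finset.mem_univ l)
      _ ≤ ∑ i, ∑ l, |C (A j i l)| :=
          Finset.single_le_sum (f := fun i => ∑ l, |C (A j i l)|)
            (fun _ _ => Finset.sum_nonneg fun _ _ => abs_nonneg _) (Finset.mem_univ i)
      _ ≤ ∑ j, ∑ i, ∑ l, |C (A j i l)| :=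
          Finset.single_le_sum (f := fun j => ∑ i, ∑ l, |C (A j i l)|)
            (fun _ _ => Finset.sum_nonneg fun _ _ => Finset.sum_nonneg fun _ _ => abs_nonneg _)
            (Finset.mem_univ j)
  have hs2 : ∀ i l, |C (B i l)| ≤ ∑ i, ∑ l, |C (B i l)| := by
    intro i l
    calc |C (B i l)| ≤ ∑ l, |C (B i l)| :=
          Finset.single_le_sum (f := fun l => |C (B i l)|) (fun _ _ => abs_nonneg _)
            (Finset.mem_univ l)
      _ ≤ ∑ i, ∑ l, |C (B i l)| :=
          Finset.single_le_sum (f := fun i => ∑ l, |C (B i l)|)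
            (fun _ _ => Finset.sum_nonneg fun _ _ => abs_nonneg _) (Finset.mem_univ i)
  have h1 : 0 ≤ ∑ j, ∑ i, ∑ l, |C (A j i l)| :=
    Finset.sum_nonneg fun _ _ => Finset.sum_nonneg fun _ _ => Finset.sum_nonneg fun _ _ =>
      abs_nonneg _
  have h2 : 0 ≤ ∑ i, ∑ l, |C (B i l)| :=
    Finset.sum_nonneg fun _ _ => Finset.sum_nonneg fun _ _ => abs_nonneg _
  refine ⟨(∑ j, ∑ i, ∑ l, |C (A j i l)|) + ∑ i, ∑ l, |C (B i l)|, add_nonneg h1 h2,
    fun x hx => ⟨fun j i l => ?_, fun i l => ?_⟩⟩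
  · have := hC (A j i l) x hx
    have := hs1 j i l
    have := le_abs_self (C (A j i l))
    linarith
  · have := hC (B i l) x hx
    have := hs2 i l
    have := le_abs_self (C (B i l))
    linarith

theorem Cp_FF {θ : Fin 3 → ℂ} {A : Fin 3 → ι → ι → Sm} {B : ι → ι → Sm} {v : ι → Sm}
    (hv : ∀ l, Cp R (v l)) (i : ι) : Cp R (FF θ A B t v i) := by
  unfold FF
  refine (((hv i).Lp.add ?_).add ?_).add ?_
  · exact (Cp.sum _ _ fun j _ => ((hv i).dd j).mul_left _).mul_left _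
  · exact Cp.sum _ _ fun j _ => Cp.sum _ _ fun l _ =>
      (((hv l).dd j).add ((hv l).mul_left _)).mul_left _
  · exact Cp.sum _ _ fun l _ => (hv l).mul_left _

theorem abs_dot_le (a : Fin 3 → ℝ) (x : R3) (hx : ‖x‖ ≤ R) :
    |∑ j, a j * x j| ≤ (∑ j, |a j|) * R := by
  rw [Finset.sum_mul]
  refine (Finset.abs_sum_le_sum_abs _ _).trans (Finset.sum_le_sum fun j _ => ?_)
  rw [abs_mul]
  gcongr
  have h1 : ‖x j‖ ≤ ‖x‖ := PiLp.norm_apply_le x j
  rw [Real.norm_eq_abs] at h1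
  exact h1.trans hx

end

end Crest.Agent.R080.Carl

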