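import Crest.Agent.R080.Stmts2

-- ▼ part R080/CauchyA
section

/-!
Row 80, T5a: the kernel `1/(2πz)` on `ℂ`, the Cauchy-Pompeiu formula at the origin, and
convolution along planes.
-/

set_option autoImplicit false

open MeasureTheory Filter Set
open scoped ContDiff Topology Real

noncomputable section
namespace Crest.Agent.R080.CauchyP

/-- the Cauchy kernel `1/(2πz)` -/
def kc (z : ℂ) : ℂ := (2 * π * z)⁻¹

lemma measurable_kc : Measurable kc := by
  unfold kc
  fun_prop

lemma integrableOn_kc (r : ℝ) : IntegrableOn kc (Metric.closedBall (0 : ℂ) r) volume := by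
  refine ⟨measurable_kc.aestronglyMeasurable, ?_⟩
  unfold HasFiniteIntegral
  rw [← lintegral_indicator Metric.isClosed_closedBall.measurableSet,
    ← Complex.lintegral_comp_polarCoord_symm]
  have hle : ∀ p ∈ polarCoord.target,
      ENNReal.ofReal p.1 • (Metric.closedBall (0 : ℂ) r).indicator (fun z => ‖kc z‖ₑ)
        (Complex.polarCoord.symm p) ≤
      (Ioc 0 r ×ˢ Ioo (-π) π).indicator (fun _ => (1 : ENNReal)) p := by
    intro p hp
    rw [polarCoord_target] at hp
    obtain ⟨hp1, hp2⟩ := hp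
    simp only [mem_Ioi] at hp1
    have hn : ‖Complex.polarCoord.symm p‖ = p.1 := by
      rw [Complex.norm_polarCoord_symm, abs_of_pos hp1]
    by_cases hr : p.1 ≤ r
    · rw [indicator_of_mem (show p ∈ Ioc 0 r ×ˢ Ioo (-π) π from ⟨⟨hp1, hr⟩, hp2⟩)]
      rw [indicator_of_mem (by rw [mem_closedBall_zero_iff, hn]; exact hr)]
      have : ‖kc (Complex.polarCoord.symm p)‖ₑ = ENNReal.ofReal ((2 * π * p.1)⁻¹) := by
        rw [← ofReal_norm]
        congr 1
        unfold kc
        rw [norm_inv, norm_mul, norm_mul, hn]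
        simp [abs_of_pos Real.pi_pos]
      rw [this, smul_eq_mul, ← ENNReal.ofReal_mul hp1.le]
      rw [ENNReal.ofReal_le_one]
      have : p.1 * (2 * π * p.1)⁻¹ = (2 * π)⁻¹ := by
        field_simp
      rw [this]
      apply inv_le_one_of_one_le₀
      nlinarith [Real.pi_gt_three]
    · rw [indicator_of_notMem (by rw [mem_closedBall_zero_iff, hn]; exact hr)]
      simp
  calc _ ≤ ∫⁻ p in polarCoord.target,
        (Ioc 0 r ×ˢ Ioo (-π) π).indicator (fun _ => (1 : ENNReal)) p :=
        setLIntegral_mono' (by exact polarCoord.open_target.measurableSet) hle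
    _ ≤ ∫⁻ p, (Ioc 0 r ×ˢ Ioo (-π) π).indicator (fun _ => (1 : ENNReal)) p :=
        setLIntegral_le_lintegral _ _
    _ = volume (Ioc 0 r ×ˢ Ioo (-π) π) := by
        rw [lintegral_indicator (measurableSet_Ioc.prod measurableSet_Ioo)]
        simp
    _ < ⊤ := by
        rw [Measure.volume_eq_prod, Measure.prod_prod]
        exact ENNReal.mul_lt_top (by simp) (by simp [ENNReal.ofReal_lt_top])

lemma locallyIntegrable_kc : LocallyIntegrable kc volume := by
  rw [locallyIntegrable_iff]
  intro k hk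
  obtain ⟨r, hr⟩ := hk.isBounded.subset_closedBall (0 : ℂ)
  exact (integrableOn_kc r).mono_set hr

/-- unit circle point -/
def eu (α : ℝ) : ℂ := Complex.exp (α * Complex.I)

lemma norm_eu (α : ℝ) : ‖eu α‖ = 1 := Complex.norm_exp_ofReal_mul_I α

lemma eu_ne (α : ℝ) : eu α ≠ 0 := Complex.exp_ne_zero _

lemma continuous_eu : Continuous eu := by unfold eu; fun_prop


lemma hasDerivAt_eu (α : ℝ) : HasDerivAt eu (Complex.I * eu α) α := by
  unfold eu
  have h1 : HasDerivAt (fun x : ℝ => (x : ℂ) * Complex.I) (1 * Complex.I) α :=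
    (Complex.ofRealCLM.hasDerivAt (x := α)).mul_const Complex.I
  have h2 := h1.cexp
  convert h2 using 1
  ring

lemma polar_symm_eq (p : ℝ × ℝ) : Complex.polarCoord.symm p = p.1 * eu p.2 := by
  rw [Complex.polarCoord_symm_apply, eu, Complex.exp_mul_I]
  simp

/-- the algebraic identity `∂_x + i ∂_y = e (∂_e + i ∂_{ie})` -/
lemma dbar_rot (L : ℂ →L[ℝ] ℂ) (α : ℝ) :
    L 1 + Complex.I * L Complex.I = eu α * (L (eu α) + Complex.I * L (Complex.I * eu α)) := by
  have h1 : eu α = (Real.cos α) • (1 : ℂ) + (Real.sin α) • Complex.I := by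
    rw [eu, Complex.exp_mul_I]; simp
  have h2 : Complex.I * eu α = (-Real.sin α) • (1 : ℂ) + (Real.cos α) • Complex.I := by
    rw [h1]; simp [mul_add]; ring_nf; simp; ring
  rw [h2]
  nth_rewrite 2 [h1]
  rw [map_add, map_add, map_smul, map_smul, map_smul, map_smul, h1]
  simp only [Complex.real_smul]
  have hcs : (Real.cos α : ℂ) ^ 2 + (Real.sin α : ℂ) ^ 2 = 1 := by
    have := Real.cos_sq_add_sin_sq α
    exact_mod_cast this
  have hI : Complex.I ^ 2 = -1 := Complex.I_sq
  rw [Complex.ofReal_neg]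
  generalize L 1 = a
  generalize L Complex.I = b
  generalize (Real.cos α : ℂ) = c at *
  generalize (Real.sin α : ℂ) = s at *
  linear_combination (-(a + Complex.I * b)) * hcs + (a * s ^ 2 - b * c * s) * hI

/-- Cauchy-Pompeiu formula at the origin for compactly supported functions -/
theorem pompeiu (f : ℂ → ℂ) (hf : ContDiff ℝ 1 f) (hc : HasCompactSupport f) :
    ∫ z, kc z * (fderiv ℝ f z 1 + Complex.I * fderiv ℝ f z Complex.I) = -f 0 := by
  -- the two pieces in polar coordinates
  set A : ℝ × ℝ → ℂ := fun p => fderiv ℝ f (p.1 * eu p.2) (eu p.2) with hA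
  set B : ℝ × ℝ → ℂ := fun p => fderiv ℝ f (p.1 * eu p.2) (Complex.I * eu p.2) with hB
  have hfd : Continuous (fderiv ℝ f) := hf.continuous_fderiv (by simp)
  have hpt : Continuous (fun p : ℝ × ℝ => ((p.1 : ℂ) * eu p.2)) := by
    have := continuous_eu
    fun_prop
  have hAc : Continuous A := by
    have h2 : Continuous fun p : ℝ × ℝ => eu p.2 := continuous_eu.comp continuous_snd
    exact (hfd.comp hpt).clm_apply h2
  have hBc : Continuous B := by
    have h2 : Continuous fun p : ℝ × ℝ => Complex.I * eu p.2 :=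
      continuous_const.mul (continuous_eu.comp continuous_snd)
    exact (hfd.comp hpt).clm_apply h2
  obtain ⟨ρ, hρ0, hρ⟩ : ∃ ρ : ℝ, 0 < ρ ∧ ∀ z : ℂ, ρ ≤ ‖z‖ → fderiv ℝ f z = 0 := by
    obtain ⟨r, hr⟩ := (hc.fderiv (𝕜 := ℝ)).isCompact.isBounded.subset_closedBall (0 : ℂ)
    refine ⟨|r| + 1, by positivity, fun z hz => ?_⟩
    by_contra h
    have : z ∈ Metric.closedBall (0 : ℂ) r := hr (subset_tsupport _ h)
    rw [mem_closedBall_zero_iff] at this
    have := le_abs_self r
    linarith
  obtain ⟨ρ', hρ'⟩ : ∃ ρ' : ℝ, ∀ z : ℂ, ρ' ≤ ‖z‖ → f z = 0 := by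
    obtain ⟨r, hr⟩ := hc.isCompact.isBounded.subset_closedBall (0 : ℂ)
    refine ⟨|r| + 1, fun z hz => ?_⟩
    by_contra h
    have : z ∈ Metric.closedBall (0 : ℂ) r := hr (subset_tsupport _ h)
    rw [mem_closedBall_zero_iff] at this
    have := le_abs_self r
    linarith
  have hA0 : ∀ p : ℝ × ℝ, ρ ≤ |p.1| → A p = 0 := by
    intro p hp
    have : fderiv ℝ f (p.1 * eu p.2) = 0 := by
      apply hρ
      rw [norm_mul, norm_eu]; simpa using hp
    simp [hA, this]
  have hB0 : ∀ p : ℝ × ℝ, ρ ≤ |p.1| → B p = 0 := by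
    intro p hp
    have : fderiv ℝ f (p.1 * eu p.2) = 0 := by
      apply hρ
      rw [norm_mul, norm_eu]; simpa using hp
    simp [hB, this]
  have key : ∀ G : ℝ × ℝ → ℂ, Continuous G → (∀ p : ℝ × ℝ, ρ ≤ |p.1| → G p = 0) →
      IntegrableOn G (Ioi 0 ×ˢ Ioo (-π) π) volume := by
    intro G hG hG0
    have h1 : IntegrableOn G (Icc 0 ρ ×ˢ Icc (-π) π) volume :=
      hG.continuousOn.integrableOn_compact (isCompact_Icc.prod isCompact_Icc)
    have h2 : IntegrableOn G (Ioi ρ ×ˢ Ioo (-π) π) volume := by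
      refine IntegrableOn.congr_fun (f := fun _ => (0 : ℂ)) integrableOn_zero (fun p hp => ?_)
        (measurableSet_Ioi.prod measurableSet_Ioo)
      have : ρ ≤ |p.1| := by
        have h := hp.1
        simp only [mem_Ioi] at h
        rw [abs_of_pos (hρ0.trans h)]; exact h.le
      exact (hG0 p this).symm
    refine (h1.union h2).mono_set ?_
    intro p hp
    by_cases h : p.1 ≤ ρ
    · left; exact ⟨⟨le_of_lt hp.1, h⟩, ⟨hp.2.1.le, hp.2.2.le⟩⟩
    · right; exact ⟨not_le.mp h, hp.2⟩
  have hAi := key A hAc hA0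
  have hBi := key B hBc hB0
  rw [← Complex.integral_comp_polarCoord_symm]
  have e1 : ∫ p in polarCoord.target, p.1 • (kc (Complex.polarCoord.symm p) *
      (fderiv ℝ f (Complex.polarCoord.symm p) 1
        + Complex.I * fderiv ℝ f (Complex.polarCoord.symm p) Complex.I))
      = ∫ p in (Ioi 0 ×ˢ Ioo (-π) π : Set (ℝ × ℝ)), ((2 * π : ℂ)⁻¹ * A p
        + (2 * π : ℂ)⁻¹ * Complex.I * B p) := by
    rw [polarCoord_target]
    refine setIntegral_congr_fun (measurableSet_Ioi.prod measurableSet_Ioo) fun p hp => ?_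
    have hp1 : (0 : ℝ) < p.1 := hp.1
    rw [polar_symm_eq, dbar_rot _ p.2, kc, Complex.real_smul]
    have h1 : (p.1 : ℂ) ≠ 0 := by exact_mod_cast hp1.ne'
    have h2 : (π : ℂ) ≠ 0 := by exact_mod_cast Real.pi_ne_zero
    have h3 := eu_ne p.2
    simp only [hA, hB]
    field_simp
  rw [e1, integral_add (hAi.const_mul _) (hBi.const_mul _)]
  rw [MeasureTheory.integral_const_mul, MeasureTheory.integral_const_mul]
  have eA : ∫ p in (Ioi 0 ×ˢ Ioo (-π) π : Set (ℝ × ℝ)), A p = -(2 * π) * f 0 := by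
    change ∫ p in (Ioi 0 ×ˢ Ioo (-π) π : Set (ℝ × ℝ)), A p ∂(volume.prod volume) = _
    rw [← setIntegral_prod_swap, setIntegral_prod (fun z : ℝ × ℝ => A z.swap) hAi.swap]
    have h1 : ∀ α : ℝ, ∫ r in Ioi (0 : ℝ), A (r, α) = -f 0 := by
      intro α
      have hg : ContDiff ℝ 1 (fun r : ℝ => f (r * eu α)) :=
        hf.comp ((Complex.ofRealCLM.contDiff).mul contDiff_const)
      have hgc : HasCompactSupport (fun r : ℝ => f (r * eu α)) := by
        refine HasCompactSupport.intro (isCompact_Icc (a := -ρ') (b := ρ')) fun r hr => ?_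
        apply hρ'
        rw [norm_mul, norm_eu, mul_one, Complex.norm_real, Real.norm_eq_abs]
        by_contra h
        exact hr (abs_le.mp (not_le.mp h).le)
      have := hgc.integral_Ioi_deriv_eq hg 0
      simp only [Complex.ofReal_zero, zero_mul] at this
      rw [← this]
      congr 1
      ext r
      have hd : HasDerivAt (fun r : ℝ => (r : ℂ) * eu α) (eu α) r := by
        have := (Complex.ofRealCLM.hasDerivAt (x := r)).mul_const (eu α)
        simpa using this
      have := ((hf.differentiable (by simp)) _).hasFDerivAt.comp_hasDerivAt r hd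
      exact this.deriv.symm
    simp only [Prod.swap_prod_mk, h1]
    have hv : (volume (Ioo (-π) π)).toReal = 2 * π := by
      rw [Real.volume_Ioo, ENNReal.toReal_ofReal (by linarith [Real.pi_pos])]; ring
    rw [setIntegral_const, measureReal_def, hv, Complex.real_smul]
    push_cast
    ring
  have eB : ∫ p in (Ioi 0 ×ˢ Ioo (-π) π : Set (ℝ × ℝ)), B p = 0 := by
    change ∫ p in (Ioi 0 ×ˢ Ioo (-π) π : Set (ℝ × ℝ)), B p ∂(volume.prod volume) = _
    rw [setIntegral_prod _ hBi]
    have h1 : ∀ r ∈ Ioi (0 : ℝ), ∫ α in Ioo (-π) π, B (r, α) = 0 := by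
      intro r hr
      have hr0 : (r : ℂ) ≠ 0 := by exact_mod_cast (ne_of_gt hr)
      have hd : ∀ α : ℝ, HasDerivAt (fun α : ℝ => (r : ℂ)⁻¹ * f (r * eu α)) (B (r, α)) α := by
        intro α
        have h2 := ((hf.differentiable (by simp)) _).hasFDerivAt.comp_hasDerivAt α
          ((hasDerivAt_eu α).const_mul (r : ℂ))
        have h3 := h2.const_mul (r : ℂ)⁻¹
        refine h3.congr_deriv ?_
        have : (r : ℂ) * (Complex.I * eu α) = r • (Complex.I * eu α) := by simp
        rw [this, map_smul, Complex.real_smul]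
        simp only [hB]
        field_simp
      rw [← integral_Ioc_eq_integral_Ioo,
        ← intervalIntegral.integral_of_le (by linarith [Real.pi_pos])]
      rw [intervalIntegral.integral_eq_sub_of_hasDerivAt (fun α _ => hd α)]
      · have h1 : eu π = -1 := by simp [eu, Complex.exp_pi_mul_I]
        have h2 : eu (-π) = -1 := by
          unfold eu
          rw [Complex.ofReal_neg, neg_mul, Complex.exp_neg, Complex.exp_pi_mul_I]
          norm_num
        simp only [h1, h2, sub_self]
      · apply Continuous.intervalIntegrable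
        exact hBc.comp (by fun_prop)
    rw [setIntegral_congr_fun measurableSet_Ioi h1]
    simp
  rw [eA, eB]
  have h2 : (π : ℂ) ≠ 0 := by exact_mod_cast Real.pi_ne_zero
  field_simp
  ring

end Crest.Agent.R080.CauchyP
end
end

-- ▼ part R080/Cauchy

/-!
Row 80, T5a: the Cauchy transform along planes.
-/

set_option autoImplicit false

open MeasureTheory Filter Set
open scoped ContDiff Topology Real

noncomputable section
namespace Crest.Agent.R080
namespace CauchyP

variable {V : Type} [NormedAddCommGroup V] [NormedSpace ℝ V]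

/-- the Cauchy transform of `φ` along the plane `ι` -/
def cauchyP (ι : ℂ →L[ℝ] V) (φ : V → ℂ) (x : V) : ℂ := ∫ z, kc z * φ (x - ι z)

lemma lt_norm_add {c R : ℝ} (hc : 0 < c) {ι : ℂ →L[ℝ] V} (hι : ∀ z, c * ‖z‖ ≤ ‖ι z‖)
    {ρ : ℝ} {x : V} (hx : ‖x‖ ≤ ρ) {z : ℂ}
    (hz : (R + ρ) / c < ‖z‖) : R < ‖x + ι z‖ := by
  have h1 := hι z
  have h2 : R + ρ < ‖z‖ * c := by rwa [div_lt_iff₀ hc] at hz
  have h3 : ‖ι z‖ ≤ ‖x + ι z‖ + ‖x‖ := by
    have := norm_sub_le (x + ι z) x
    simpa using this
  linarith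

lemma lt_norm_sub {c R : ℝ} (hc : 0 < c) {ι : ℂ →L[ℝ] V} (hι : ∀ z, c * ‖z‖ ≤ ‖ι z‖)
    {ρ : ℝ} {x : V} (hx : ‖x‖ ≤ ρ) {z : ℂ}
    (hz : (R + ρ) / c < ‖z‖) : R < ‖x - ι z‖ := by
  have := lt_norm_add (R := R) hc hι hx (z := -z) (by rwa [norm_neg])
  rwa [map_neg, ← sub_eq_add_neg] at this

lemma hasCompactSupport_of {F : Type*} [NormedAddCommGroup F] [FiniteDimensional ℝ V] {R : ℝ}
    {φ : V → F} (hR : ∀ x, R ≤ ‖x‖ → φ x = 0) : HasCompactSupport φ := by
  have : ProperSpace V := FiniteDimensional.proper_real V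
  apply HasCompactSupport.of_support_subset_isCompact (isCompact_closedBall (0 : V) R)
  intro x hx
  rw [mem_closedBall_zero_iff]
  by_contra h
  exact hx (hR x (not_le.1 h).le)

lemma hasCompactSupport_slice {F : Type*} [NormedAddCommGroup F] {c R : ℝ} (hc : 0 < c)
    {ι : ℂ →L[ℝ] V} (hι : ∀ z, c * ‖z‖ ≤ ‖ι z‖)
    {φ : V → F} (hR : ∀ x, R < ‖x‖ → φ x = 0) (x : V) :
    HasCompactSupport (fun z => φ (x - ι z)) := by
  apply HasCompactSupport.of_support_subset_isCompact
    (isCompact_closedBall (0 : ℂ) ((R + ‖x‖) / c))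
  intro z hz
  rw [mem_closedBall_zero_iff]
  by_contra h
  exact hz (hR _ (lt_norm_sub hc hι le_rfl (not_le.1 h)))

lemma fderiv_zero_of {R : ℝ} {φ : V → ℂ} (hR : ∀ x, R ≤ ‖x‖ → φ x = 0) (x : V) (hx : R < ‖x‖) :
    fderiv ℝ φ x = 0 := by
  have h : φ =ᶠ[𝓝 x] fun _ => 0 := by
    have : {y : V | R < ‖y‖} ∈ 𝓝 x := (isOpen_lt continuous_const continuous_norm).mem_nhds hx
    filter_upwards [this] with y hy
    exact hR y (le_of_lt hy)
  rw [h.fderiv_eq]
  simp

theorem cauchyP_contDiff [FiniteDimensional ℝ V] {c R : ℝ} (hc : 0 < c) {ι : ℂ →L[ℝ] V}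
    (hι : ∀ z, c * ‖z‖ ≤ ‖ι z‖) {φ : V → ℂ} (hφ : ContDiff ℝ ∞ φ)
    (hR : ∀ x, R ≤ ‖x‖ → φ x = 0) : ContDiff ℝ ∞ (cauchyP ι φ) := by
  rw [contDiff_iff_contDiffAt]
  intro x₀
  set ρ : ℝ := ‖x₀‖ + 1
  have hs : IsOpen (Metric.ball (0 : V) ρ) := Metric.isOpen_ball
  have hcv : ContDiffOn ℝ ((⊤ : ℕ∞) : WithTop ℕ∞) (fun q : V × ℂ =>
      (convolution kc ((fun (p : V) (w : ℂ) => φ (p + ι w)) q.1)
        (ContinuousLinearMap.mul ℝ ℂ) volume) q.2) (Metric.ball (0 : V) ρ ×ˢ univ) := by
    refine contDiffOn_convolution_right_with_param (n := (⊤ : ℕ∞))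
      (g := fun (p : V) (w : ℂ) => φ (p + ι w)) (k := Metric.closedBall (0 : ℂ) ((R + ρ) / c))
      (ContinuousLinearMap.mul ℝ ℂ) hs (isCompact_closedBall _ _) ?_
      locallyIntegrable_kc ?_
    · intro p w hp hw
      rw [mem_ball_zero_iff] at hp
      rw [mem_closedBall_zero_iff, not_le] at hw
      exact hR _ (lt_norm_add hc hι hp.le hw).le
    · apply ContDiff.contDiffOn
      exact hφ.comp (contDiff_fst.add (ι.contDiff.comp contDiff_snd))
  have h1 : ContDiffOn ℝ ∞ (cauchyP ι φ) (Metric.ball (0 : V) ρ) := by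
    have h2 := hcv.comp (f := fun x : V => (x, (0 : ℂ))) (s := Metric.ball (0 : V) ρ)
      (by fun_prop) (fun x hx => ⟨hx, mem_univ _⟩)
    refine h2.congr fun x hx => ?_
    simp only [Function.comp, cauchyP, convolution, ContinuousLinearMap.mul_apply', zero_add,
      map_neg, sub_eq_add_neg]
  exact h1.contDiffAt (hs.mem_nhds (by simp [ρ]))

theorem hasFDerivAt_cauchyP [FiniteDimensional ℝ V] {c R : ℝ} (hc : 0 < c) {ι : ℂ →L[ℝ] V}
    (hι : ∀ z, c * ‖z‖ ≤ ‖ι z‖) {φ : V → ℂ} (hφ : ContDiff ℝ 1 φ)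
    (hR : ∀ x, R ≤ ‖x‖ → φ x = 0) (x : V) :
    Integrable (fun z => kc z • fderiv ℝ φ (x - ι z)) ∧
    HasFDerivAt (cauchyP ι φ) (∫ z, kc z • fderiv ℝ φ (x - ι z)) x := by
  have : ProperSpace V := FiniteDimensional.proper_real V
  have hcs := hasCompactSupport_of (V := V) hR
  have hdc : Continuous (fderiv ℝ φ) := hφ.continuous_fderiv one_ne_zero
  obtain ⟨B, hB⟩ := hdc.bounded_above_of_compact_support (hcs.fderiv ℝ)
  have hB0 : 0 ≤ B := (norm_nonneg _).trans (hB 0)
  set L : ℝ := (R + (‖x‖ + 1)) / c with hL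
  set bound : ℂ → ℝ := fun z => B * (Metric.closedBall (0 : ℂ) L).indicator (fun z => ‖kc z‖) z
    with hbound
  have hbi : Integrable bound := by
    apply Integrable.const_mul
    rw [integrable_indicator_iff measurableSet_closedBall]
    exact (integrableOn_kc L).norm
  have hmeas : ∀ y : V, AEStronglyMeasurable (fun z => kc z * φ (y - ι z)) volume := fun y =>
    measurable_kc.aestronglyMeasurable.mul
      (hφ.continuous.comp (by fun_prop : Continuous fun z => y - ι z)).aestronglyMeasurable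
  have hmeas' : ∀ y : V, AEStronglyMeasurable (fun z => kc z • fderiv ℝ φ (y - ι z)) volume :=
    fun y => measurable_kc.aestronglyMeasurable.smul
      (hdc.comp (by fun_prop : Continuous fun z => y - ι z)).aestronglyMeasurable
  have hle : ∀ y ∈ Metric.ball x 1, ∀ z : ℂ, ‖kc z • fderiv ℝ φ (y - ι z)‖ ≤ bound z := by
    intro y hy z
    have hy' : ‖y‖ ≤ ‖x‖ + 1 := by
      rw [mem_ball_iff_norm] at hy
      have := norm_add_le (y - x) x
      simp only [sub_add_cancel] at this
      linarith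
    simp only [hbound]
    by_cases hz : z ∈ Metric.closedBall (0 : ℂ) L
    · rw [indicator_of_mem hz, norm_smul, mul_comm]
      exact mul_le_mul_of_nonneg_right (hB _) (norm_nonneg _)
    · rw [indicator_of_notMem hz]
      rw [mem_closedBall_zero_iff, not_le] at hz
      rw [norm_smul, fderiv_zero_of hR _ (lt_norm_sub hc hι hy' hz), norm_zero]
      simp
  have hint : Integrable (fun z => kc z * φ (x - ι z)) := by
    have h1 := locallyIntegrable_kc.integrable_smul_right_of_hasCompactSupport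
      (g := fun z => φ (x - ι z)) (hφ.continuous.comp (by fun_prop))
      (hasCompactSupport_slice hc hι (fun y hy => hR y hy.le) x)
    simpa [mul_comm] using h1
  refine ⟨hbi.mono' (hmeas' x) (Eventually.of_forall (hle x (by simp))), ?_⟩
  refine hasFDerivAt_integral_of_dominated_of_fderiv_le (Metric.ball_mem_nhds x one_pos)
    (Eventually.of_forall hmeas) hint (hmeas' x)
    (Eventually.of_forall fun z y hy => hle y hy z) hbi (Eventually.of_forall fun z y hy => ?_)
  have h1 : HasFDerivAt φ (fderiv ℝ φ (y - ι z)) (y - ι z) :=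
    (hφ.differentiable one_ne_zero _).hasFDerivAt
  have h2 : HasFDerivAt (fun y : V => φ (y - ι z)) (fderiv ℝ φ (y - ι z)) y :=
    h1.comp y ((hasFDerivAt_id y).sub_const (ι z))
  exact h2.const_mul (kc z)

theorem Dp_cauchyP [FiniteDimensional ℝ V] {c R : ℝ} (hc : 0 < c) {ι : ℂ →L[ℝ] V}
    (hι : ∀ z, c * ‖z‖ ≤ ‖ι z‖) {φ : V → ℂ} (hφ : ContDiff ℝ 1 φ)
    (hR : ∀ x, R ≤ ‖x‖ → φ x = 0) (x : V) : Dp ι (cauchyP ι φ) x = φ x := by
  obtain ⟨hi, hd⟩ := hasFDerivAt_cauchyP hc hι hφ hR x
  unfold Dp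
  rw [hd.fderiv, ContinuousLinearMap.integral_apply hi, ContinuousLinearMap.integral_apply hi,
    ← integral_const_mul]
  have hi1 : ∀ v, Integrable (fun z => (kc z • fderiv ℝ φ (x - ι z)) v) := fun v =>
    hi.apply_continuousLinearMap v
  rw [← integral_add (hi1 _) ((hi1 _).const_mul _)]
  set f : ℂ → ℂ := fun z => φ (x - ι z) with hf
  have hfd : ∀ z w, fderiv ℝ f z w = - fderiv ℝ φ (x - ι z) (ι w) := by
    intro z w
    have h1 : HasFDerivAt φ (fderiv ℝ φ (x - ι z)) (x - ι z) :=
      (hφ.differentiable one_ne_zero _).hasFDerivAt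
    have h2 : HasFDerivAt f ((fderiv ℝ φ (x - ι z)).comp (-ι)) z :=
      h1.comp z (ι.hasFDerivAt.const_sub x)
    rw [h2.fderiv]
    simp
  have hp := pompeiu f (hφ.comp (contDiff_const.sub ι.contDiff))
    (hasCompactSupport_slice hc hι (fun y hy => hR y hy.le) x)
  have h0 : f 0 = φ x := by simp [hf]
  rw [h0] at hp
  rw [← neg_inj, ← hp, ← integral_neg]
  refine integral_congr_ae (Eventually.of_forall fun z => ?_)
  simp only [hfd, smul_apply, smul_eq_mul]
  ring

lemma norm_kc_le {z : ℂ} (hz : 1 ≤ ‖z‖) : ‖kc z‖ ≤ 1 := by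
  unfold kc
  rw [norm_inv, norm_mul, norm_mul, Complex.norm_real, Complex.norm_ofNat,
    Real.norm_of_nonneg Real.pi_pos.le]
  apply inv_le_one_of_one_le₀
  have := Real.pi_gt_three
  nlinarith

theorem cauchyP_bound {c R : ℝ} (hc : 0 < c) {ι : ℂ →L[ℝ] V}
    (hι : ∀ z, c * ‖z‖ ≤ ‖ι z‖) {φ : V → ℂ}
    (hR : ∀ x, R ≤ ‖x‖ → φ x = 0) {b : ℝ} (hb : ∀ x, ‖φ x‖ ≤ b) (x : V) :
    ‖cauchyP ι φ x‖ ≤ ((∫ z in Metric.closedBall (0 : ℂ) 1, ‖kc z‖)
      + volume.real (Metric.closedBall (0 : ℂ) (2 * R / c)) + 1) * b := by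
  have hb0 : 0 ≤ b := (norm_nonneg _).trans (hb 0)
  have hn : 0 ≤ ∫ z in Metric.closedBall (0 : ℂ) 1, ‖kc z‖ :=
    integral_nonneg fun _ => norm_nonneg _
  by_cases hS : ∃ z₀ : ℂ, φ (x - ι z₀) ≠ 0
  · obtain ⟨z₀, hz₀⟩ := hS
    have hz₀' : ‖x - ι z₀‖ < R := by
      by_contra h
      exact hz₀ (hR _ (not_lt.1 h))
    set g : ℂ → ℝ := fun z => ((Metric.closedBall (0 : ℂ) 1).indicator (fun z => ‖kc z‖) z
      + (Metric.closedBall z₀ (2 * R / c)).indicator (fun _ => (1 : ℝ)) z) * b with hg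
    have hi1 : Integrable ((Metric.closedBall (0 : ℂ) 1).indicator (fun z => ‖kc z‖)) := by
      rw [integrable_indicator_iff measurableSet_closedBall]
      exact (integrableOn_kc 1).norm
    have hi2 : Integrable ((Metric.closedBall z₀ (2 * R / c)).indicator (fun _ => (1 : ℝ))) := by
      rw [integrable_indicator_iff measurableSet_closedBall]
      exact integrableOn_const (measure_closedBall_lt_top.ne)
    have hgi : Integrable g := (hi1.add hi2).mul_const b
    have hgint : ∫ z, g z = ((∫ z in Metric.closedBall (0 : ℂ) 1, ‖kc z‖)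
      + volume.real (Metric.closedBall (0 : ℂ) (2 * R / c))) * b := by
      simp only [hg]
      rw [integral_mul_const, integral_add hi1 hi2, integral_indicator measurableSet_closedBall,
        integral_indicator measurableSet_closedBall]
      simp only [integral_const, smul_eq_mul, mul_one, measureReal_restrict_apply_univ]
      congr 2
      rw [Measure.real, Measure.real, Measure.addHaar_closedBall_center]
    calc ‖cauchyP ι φ x‖ ≤ ∫ z, g z := by
          refine norm_integral_le_of_norm_le hgi (Eventually.of_forall fun z => ?_)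
          simp only [hg]
          by_cases hz : φ (x - ι z) = 0
          · rw [hz, mul_zero, norm_zero]
            apply mul_nonneg _ hb0
            apply add_nonneg <;> apply indicator_nonneg <;> intros <;> positivity
          · have hz' : ‖x - ι z‖ < R := by
              by_contra h
              exact hz (hR _ (not_lt.1 h))
            have hmem : z ∈ Metric.closedBall z₀ (2 * R / c) := by
              rw [mem_closedBall_iff_norm, le_div_iff₀ hc, mul_comm]
              refine (hι _).trans ?_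
              rw [map_sub]
              have : ι z - ι z₀ = (x - ι z₀) - (x - ι z) := by abel
              rw [this]
              refine (norm_sub_le _ _).trans ?_
              linarith
            rw [norm_mul, indicator_of_mem hmem]
            apply mul_le_mul _ (hb _) (norm_nonneg _) _
            · by_cases h1 : z ∈ Metric.closedBall (0 : ℂ) 1
              · rw [indicator_of_mem h1]
                linarith
              · rw [indicator_of_notMem h1, zero_add]
                rw [mem_closedBall_zero_iff, not_le] at h1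
                exact norm_kc_le h1.le
            · apply add_nonneg _ zero_le_one
              apply indicator_nonneg; intros; positivity
      _ = _ := hgint
      _ ≤ _ := by
        apply mul_le_mul_of_nonneg_right _ hb0
        linarith
  · push Not at hS
    have : cauchyP ι φ x = 0 := by
      unfold cauchyP
      simp [hS]
    rw [this, norm_zero]
    have : 0 ≤ volume.real (Metric.closedBall (0 : ℂ) (2 * R / c)) := measureReal_nonneg
    positivity

end CauchyP

open CauchyP in
theorem t_Cauchy : StmtCauchy := by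
  intro V _ _ _ c R hc hR
  refine ⟨_, ?_, fun ι hι φ hφ hφR b hb => ⟨cauchyP ι φ, cauchyP_contDiff hc hι hφ hφR,
    Dp_cauchyP hc hι (hφ.of_le (by exact_mod_cast le_top)) hφR, cauchyP_bound hc hι hφR hb⟩⟩
  have h1 : 0 ≤ ∫ z in Metric.closedBall (0 : ℂ) 1, ‖kc z‖ :=
    integral_nonneg fun _ => norm_nonneg _
  have h2 : 0 ≤ volume.real (Metric.closedBall (0 : ℂ) (2 * R / c)) := measureReal_nonneg
  positivity

end Crest.Agent.R080
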