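import Crest.Agent.R080.Defs

/-!
Row 80 (S0107): basic topological facts on a `Dom`, and elementary facts on `pd`.
-/

set_option autoImplicit false

open MeasureTheory Filter
open scoped ContDiff Topology
open Crest.AnalysisR.VecCalc3 Crest.AnalysisR.PDE.Elasticity

noncomputable section
namespace Crest.Agent.R080

namespace DB
variable (G : Dom)

theorem continuous_rho : Continuous G.rho := G.smooth.continuous

theorem differentiable_rho : Differentiable ℝ G.rho := G.smooth.differentiable (by simp)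

theorem mem_iff {x : R3} : x ∈ G.Ω ↔ G.rho x < 0 := by rw [G.eq]; rfl

theorem isOpen : IsOpen G.Ω := by
  rw [G.eq]; exact isOpen_lt (DB.continuous_rho G) continuous_const

theorem measurableSet : MeasurableSet G.Ω := (DB.isOpen G).measurableSet

theorem closure_subset : closure G.Ω ⊆ {x | G.rho x ≤ 0} := by
  apply closure_minimal _ (isClosed_le (DB.continuous_rho G) continuous_const)
  intro x hx; exact ((DB.mem_iff G).1 hx).le

/-- moving from a boundary point in a direction `e` with `d_e ρ < 0` one enters `Ω` -/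
theorem eventually_mem_of_neg {x e : R3} (hx : G.rho x = 0) (he : fderiv ℝ G.rho x e < 0) :
    ∀ᶠ t in 𝓝[>] (0 : ℝ), x + t • e ∈ G.Ω := by
  have h1 : HasDerivAt (fun t : ℝ => G.rho (x + t • e)) (fderiv ℝ G.rho x e) 0 := by
    have h2 : HasDerivAt (fun t : ℝ => x + t • e) e 0 := by
      simpa using ((hasDerivAt_id (0 : ℝ)).smul_const e).const_add x
    have h3 : HasFDerivAt G.rho (fderiv ℝ G.rho x) (x + (0 : ℝ) • e) := by
      simpa using ((DB.differentiable_rho G) x).hasFDerivAt
    exact h3.comp_hasDerivAt (0 : ℝ) h2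
  have h4 := h1.tendsto_slope_zero_right
  have h5 := h4.eventually (eventually_lt_nhds he)
  filter_upwards [h5, self_mem_nhdsWithin] with t ht ht0
  rw [(DB.mem_iff G)]
  have ht0' : (0 : ℝ) < t := ht0
  simp only [zero_add, zero_smul, add_zero, hx, sub_zero, smul_eq_mul] at ht
  by_contra hcon
  push_neg at hcon
  have : 0 ≤ t⁻¹ * G.rho (x + t • e) := mul_nonneg (inv_nonneg.2 ht0'.le) hcon
  linarith

theorem exists_dir {x : R3} (hx : G.rho x = 0) : ∃ e, fderiv ℝ G.rho x e < 0 := by
  have h := G.reg x hx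
  obtain ⟨e, he⟩ : ∃ e, fderiv ℝ G.rho x e ≠ 0 := by
    by_contra hcon
    push_neg at hcon
    exact h (ContinuousLinearMap.ext hcon)
  rcases lt_or_gt_of_ne he with h1 | h1
  · exact ⟨e, h1⟩
  · exact ⟨-e, by simpa using h1⟩

theorem mem_closure_of_eq_zero {x : R3} (hx : G.rho x = 0) : x ∈ closure G.Ω := by
  obtain ⟨e, he⟩ := (DB.exists_dir G) hx
  have h1 := (DB.eventually_mem_of_neg G) hx he
  have h2 : Tendsto (fun t : ℝ => x + t • e) (𝓝[>] (0 : ℝ)) (𝓝 x) := by
    have h3 : Continuous (fun t : ℝ => x + t • e) := by fun_prop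
    have h4 := (h3.tendsto 0).mono_left (nhdsWithin_le_nhds (s := Set.Ioi (0 : ℝ)))
    simpa using h4
  exact mem_closure_of_tendsto h2 h1

theorem closure_eq : closure G.Ω = {x | G.rho x ≤ 0} := by
  refine Set.Subset.antisymm (DB.closure_subset G) fun x hx => ?_
  rcases (show G.rho x ≤ 0 from hx).lt_or_eq with h | h
  · exact subset_closure ((DB.mem_iff G).2 h)
  · exact (DB.mem_closure_of_eq_zero G) h

theorem mem_closure_iff {x : R3} : x ∈ closure G.Ω ↔ G.rho x ≤ 0 := by
  rw [(DB.closure_eq G)]; rfl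

theorem frontier_eq : frontier G.Ω = {x | G.rho x = 0} := by
  rw [(DB.isOpen G).frontier_eq]
  ext x
  simp only [Set.mem_diff, (DB.mem_closure_iff G), (DB.mem_iff G), Set.mem_setOf_eq, not_lt]
  exact ⟨fun h => le_antisymm h.1 h.2, fun h => ⟨h.le, h.ge⟩⟩


theorem isCompact_closure : IsCompact (closure G.Ω) := G.bdd.isCompact_closure



theorem nonempty : G.Ω.Nonempty := G.conn.nonempty


/-- continuous functions are integrable on `Ω` -/
theorem integrableOn {E : Type*} [NormedAddCommGroup E] {f : R3 → E}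
    (hf : ContinuousOn f (closure G.Ω)) : IntegrableOn f G.Ω :=
  (hf.integrableOn_compact (DB.isCompact_closure G)).mono_set subset_closure

theorem integrableOn' {E : Type*} [NormedAddCommGroup E] {f : R3 → E}
    (hf : Continuous f) : IntegrableOn f G.Ω := (DB.integrableOn G) hf.continuousOn

/-! ### `pd` -/

theorem continuous_pd {f : R3 → ℂ} (hf : ContDiff ℝ 1 f) (j : Fin 3) : Continuous (pd j f) :=
  (hf.continuous_fderiv (by norm_num)).clm_apply continuous_const

theorem contDiff_pd {f : R3 → ℂ} (hf : ContDiff ℝ ∞ f) (j : Fin 3) : ContDiff ℝ ∞ (pd j f) :=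
  (hf.fderiv_right (m := ∞) (by simp)).clm_apply contDiff_const


theorem pd_add {f g : R3 → ℂ} {x : R3} (hf : DifferentiableAt ℝ f x)
    (hg : DifferentiableAt ℝ g x) (j : Fin 3) :
    pd j (fun y => f y + g y) x = pd j f x + pd j g x := by
  unfold pd
  rw [fderiv_fun_add hf hg]; rfl

theorem pd_sub {f g : R3 → ℂ} {x : R3} (hf : DifferentiableAt ℝ f x)
    (hg : DifferentiableAt ℝ g x) (j : Fin 3) :
    pd j (fun y => f y - g y) x = pd j f x - pd j g x := by
  unfold pd
  rw [fderiv_fun_sub hf hg]; rfl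


theorem pd_mul {f g : R3 → ℂ} {x : R3} (hf : DifferentiableAt ℝ f x)
    (hg : DifferentiableAt ℝ g x) (j : Fin 3) :
    pd j (fun y => f y * g y) x = pd j f x * g x + f x * pd j g x := by
  unfold pd
  rw [fderiv_fun_mul hf hg]
  simp only [ContinuousLinearMap.add_apply, ContinuousLinearMap.smul_apply, smul_eq_mul]
  ring

theorem pd_const_mul {f : R3 → ℂ} {x : R3} (c : ℂ) (hf : DifferentiableAt ℝ f x) (j : Fin 3) :
    pd j (fun y => c * f y) x = c * pd j f x := by
  unfold pd
  rw [fderiv_const_mul hf]; rfl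

theorem pd_const (c : ℂ) (x : R3) (j : Fin 3) : pd j (fun _ => c) x = 0 := by
  unfold pd
  simp

theorem pd_sum {ι : Type*} (s : Finset ι) {f : ι → R3 → ℂ} {x : R3}
    (hf : ∀ i ∈ s, DifferentiableAt ℝ (f i) x) (j : Fin 3) :
    pd j (fun y => ∑ i ∈ s, f i y) x = ∑ i ∈ s, pd j (f i) x := by
  unfold pd
  rw [fderiv_fun_sum hf]
  simp


theorem pd_congr {f g : R3 → ℂ} {x : R3} (h : f =ᶠ[𝓝 x] g) (j : Fin 3) :
    pd j f x = pd j g x := by
  unfold pd
  rw [h.fderiv_eq]


theorem tsupport_pd_subset (f : R3 → ℂ) (j : Fin 3) : tsupport (pd j f) ⊆ tsupport f := by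
  apply closure_minimal _ (isClosed_tsupport f)
  intro x hx
  by_contra hcon
  apply hx
  have h1 : f =ᶠ[𝓝 x] fun _ => (0 : ℂ) := notMem_tsupport_iff_eventuallyEq.1 hcon
  rw [pd_congr h1, pd_const]


end DB
end Crest.Agent.R080
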