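import Crest.Agent.R080.Stmts2

/-!
Row 80 (S0107): basic smoothness / algebra facts about `pd`, `DD`, `Lap`, the moduli, `th`, `nu`,
`Amat`, and a cutoff function. (helper208)
-/

set_option autoImplicit false

open MeasureTheory Filter
open scoped ContDiff Topology
open Crest.AnalysisR.VecCalc3 Crest.AnalysisR.PDE.Elasticity

noncomputable section
namespace Crest.Agent.R080.Gg

/-! ### derivatives -/

lemma contDiff_pd {f : R3 → ℂ} (hf : ContDiff ℝ ∞ f) (j : Fin 3) : ContDiff ℝ ∞ (pd j f) := by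
  unfold pd
  exact (hf.fderiv_right (m := ∞) (by simp)).clm_apply contDiff_const

lemma contDiff_DD {f : R3 → ℂ} (hf : ContDiff ℝ ∞ f) (θ : Fin 3 → ℂ) :
    ContDiff ℝ ∞ (DD θ f) := by
  unfold DD
  exact ContDiff.sum fun j _ => contDiff_const.mul (contDiff_pd hf j)

lemma contDiff_Lap {f : R3 → ℂ} (hf : ContDiff ℝ ∞ f) : ContDiff ℝ ∞ (Lap f) := by
  unfold Lap
  exact ContDiff.sum fun j _ => contDiff_pd (contDiff_pd hf j) j

/-- division of complex valued real-smooth functions -/
lemma contDiff_cdiv {E : Type*} [NormedAddCommGroup E] [NormedSpace ℝ E] {f g : E → ℂ}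
    (hf : ContDiff ℝ ∞ f) (hg : ContDiff ℝ ∞ g) (h : ∀ x, g x ≠ 0) :
    ContDiff ℝ ∞ (fun x => f x / g x) := by
  simp only [div_eq_mul_inv]
  exact hf.mul (hg.inv h)

lemma contDiff_cf {f : R3 → ℝ} (hf : ContDiff ℝ ∞ f) : ContDiff ℝ ∞ (cf f) :=
  Complex.ofRealCLM.contDiff.comp hf

lemma pd_add {f g : R3 → ℂ} (hf : Differentiable ℝ f) (hg : Differentiable ℝ g) (j : Fin 3)
    (x : R3) : pd j (fun y => f y + g y) x = pd j f x + pd j g x := by
  unfold pd
  rw [fderiv_fun_add (hf x) (hg x)]; rfl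

lemma pd_sub {f g : R3 → ℂ} (hf : Differentiable ℝ f) (hg : Differentiable ℝ g) (j : Fin 3)
    (x : R3) : pd j (fun y => f y - g y) x = pd j f x - pd j g x := by
  unfold pd
  rw [fderiv_fun_sub (hf x) (hg x)]; rfl

lemma pd_neg {f : R3 → ℂ} (j : Fin 3) (x : R3) : pd j (fun y => -f y) x = -pd j f x := by
  unfold pd
  rw [fderiv_fun_neg]; rfl

lemma pd_const_mul {f : R3 → ℂ} (hf : Differentiable ℝ f) (c : ℂ) (j : Fin 3) (x : R3) :
    pd j (fun y => c * f y) x = c * pd j f x := by
  unfold pd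
  rw [fderiv_const_mul (hf x)]; rfl

lemma pd_mul {f g : R3 → ℂ} (hf : Differentiable ℝ f) (hg : Differentiable ℝ g) (j : Fin 3)
    (x : R3) : pd j (fun y => f y * g y) x = f x * pd j g x + g x * pd j f x := by
  unfold pd
  rw [fderiv_fun_mul (hf x) (hg x)]; rfl

lemma pd_const (c : ℂ) (j : Fin 3) (x : R3) : pd j (fun _ => c) x = 0 := by
  unfold pd; simp

lemma pd_congr_of_eventuallyEq {f g : R3 → ℂ} {x : R3} (h : f =ᶠ[𝓝 x] g) (j : Fin 3) :
    pd j f x = pd j g x := by
  unfold pd; rw [h.fderiv_eq]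

lemma DD_congr_of_eventuallyEq {f g : R3 → ℂ} {x : R3} (h : f =ᶠ[𝓝 x] g) (θ : Fin 3 → ℂ) :
    DD θ f x = DD θ g x := by
  unfold DD
  exact Finset.sum_congr rfl fun j _ => by rw [pd_congr_of_eventuallyEq h]

lemma DD_add {f g : R3 → ℂ} (hf : Differentiable ℝ f) (hg : Differentiable ℝ g) (θ : Fin 3 → ℂ)
    (x : R3) : DD θ (fun y => f y + g y) x = DD θ f x + DD θ g x := by
  simp only [DD, pd_add hf hg, mul_add, Finset.sum_add_distrib]

lemma DD_sub {f g : R3 → ℂ} (hf : Differentiable ℝ f) (hg : Differentiable ℝ g) (θ : Fin 3 → ℂ)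
    (x : R3) : DD θ (fun y => f y - g y) x = DD θ f x - DD θ g x := by
  simp only [DD, pd_sub hf hg, mul_sub, Finset.sum_sub_distrib]

lemma DD_neg {f : R3 → ℂ} (θ : Fin 3 → ℂ) (x : R3) : DD θ (fun y => -f y) x = -DD θ f x := by
  simp only [DD, pd_neg, mul_neg, Finset.sum_neg_distrib]

lemma DD_const_mul {f : R3 → ℂ} (hf : Differentiable ℝ f) (c : ℂ) (θ : Fin 3 → ℂ) (x : R3) :
    DD θ (fun y => c * f y) x = c * DD θ f x := by
  simp only [DD, pd_const_mul hf, Finset.mul_sum]
  exact Finset.sum_congr rfl fun j _ => by ring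

lemma DD_mul {f g : R3 → ℂ} (hf : Differentiable ℝ f) (hg : Differentiable ℝ g) (θ : Fin 3 → ℂ)
    (x : R3) : DD θ (fun y => f y * g y) x = f x * DD θ g x + g x * DD θ f x := by
  simp only [DD, pd_mul hf hg, mul_add, Finset.sum_add_distrib, Finset.mul_sum]
  congr 1 <;> exact Finset.sum_congr rfl fun j _ => by ring

lemma DD_const (c : ℂ) (θ : Fin 3 → ℂ) (x : R3) : DD θ (fun _ => c) x = 0 := by
  simp [DD, pd_const]



lemma DD_smul_left (c : ℂ) (θ : Fin 3 → ℂ) (f : R3 → ℂ) (x : R3) :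
    DD (fun j => c * θ j) f x = c * DD θ f x := by
  simp [DD, Finset.mul_sum, mul_assoc]




/-- symmetry of second partial derivatives -/
lemma pd_pd_comm {f : R3 → ℂ} (hf : ContDiff ℝ ∞ f) (i j : Fin 3) (x : R3) :
    pd i (pd j f) x = pd j (pd i f) x := by
  have hf2 : ContDiff ℝ 2 f := hf.of_le (by
    have : ((2 : ℕ∞) : WithTop ℕ∞) ≤ ((⊤ : ℕ∞) : WithTop ℕ∞) := WithTop.coe_le_coe.2 le_top
    exact this)
  have hsymm : IsSymmSndFDerivAt ℝ f x := by
    apply ContDiffAt.isSymmSndFDerivAt (n := 2) hf2.contDiffAt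
    simp
  have hd : DifferentiableAt ℝ (fderiv ℝ f) x :=
    ((hf2.fderiv_right (m := 1) (by norm_num)).differentiable (by norm_num)) x
  have key : ∀ a b : Fin 3, pd a (pd b f) x = fderiv ℝ (fderiv ℝ f) x (ee a) (ee b) := by
    intro a b
    unfold pd
    rw [fderiv_clm_apply hd (differentiableAt_const _)]
    simp
  rw [key, key]
  exact hsymm _ _

lemma DD_pd_comm {f : R3 → ℂ} (hf : ContDiff ℝ ∞ f) (θ : Fin 3 → ℂ) (j : Fin 3) (x : R3) :
    DD θ (pd j f) x = pd j (DD θ f) x := by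
  have h1 : pd j (DD θ f) x = ∑ i, θ i * pd j (pd i f) x := by
    have hd : ∀ i, DifferentiableAt ℝ (fun y => θ i * pd i f y) x := fun i =>
      ((contDiff_const.mul (contDiff_pd hf i)).differentiable (by simp)) x
    have : pd j (DD θ f) x = pd j (fun y => ∑ i, θ i * pd i f y) x := rfl
    rw [this]
    have e : pd j (fun y => ∑ i, θ i * pd i f y) x
        = ∑ i, fderiv ℝ (fun y => θ i * pd i f y) x (ee j) := by
      rw [show pd j (fun y => ∑ i, θ i * pd i f y) x
        = fderiv ℝ (fun y => ∑ i, θ i * pd i f y) x (ee j) from rfl,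
        fderiv_fun_sum fun i _ => hd i, sum_apply]
    rw [e]
    refine Finset.sum_congr rfl fun i _ => ?_
    exact pd_const_mul ((contDiff_pd hf i).differentiable (by simp)) _ _ _
  rw [h1]
  unfold DD
  exact Finset.sum_congr rfl fun i _ => by rw [pd_pd_comm hf]

/-! ### moduli -/

section mod
variable (P : Moduli)

lemma m_pos (x : R3) : 0 < P.m x := inv_pos.2 (P.mu_pos x)
lemma m_ne (x : R3) : P.m x ≠ 0 := ((m_pos P) x).ne'
lemma sm_pos (x : R3) : 0 < P.sm x := Real.sqrt_pos.2 ((m_pos P) x)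
lemma sm_ne (x : R3) : P.sm x ≠ 0 := ((sm_pos P) x).ne'
lemma sm_sq (x : R3) : P.sm x ^ 2 = P.m x := Real.sq_sqrt ((m_pos P) x).le
lemma mu_ne (x : R3) : P.mu x ≠ 0 := (P.mu_pos x).ne'
lemma mu_mul_m (x : R3) : P.mu x * P.m x = 1 := mul_inv_cancel₀ ((mu_ne P) x)

lemma lam_two_mu_pos (x : R3) : 0 < P.lam x + 2 * P.mu x := by
  have h1 := P.mu_pos x
  have h2 := P.bulk_pos x
  linarith






lemma contDiff_m : ContDiff ℝ ∞ P.m := P.smooth_mu.inv (mu_ne P)
lemma contDiff_sm : ContDiff ℝ ∞ P.sm := (contDiff_m P).sqrt (m_ne P)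
lemma contDiff_kap : ContDiff ℝ ∞ P.kap :=
  ((P.smooth_lam.add P.smooth_mu).mul P.smooth_mu).div
    (contDiff_const.mul (P.smooth_lam.add (contDiff_const.mul P.smooth_mu)))
    fun x => mul_ne_zero two_ne_zero ((lam_two_mu_pos P) x).ne'

lemma contDiff_cm : ContDiff ℝ ∞ (fun x => (P.m x : ℂ)) := contDiff_cf (contDiff_m P)
lemma contDiff_csm : ContDiff ℝ ∞ (fun x => (P.sm x : ℂ)) := contDiff_cf (contDiff_sm P)
lemma contDiff_ckap : ContDiff ℝ ∞ (fun x => (P.kap x : ℂ)) := contDiff_cf (contDiff_kap P)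
lemma contDiff_cmu : ContDiff ℝ ∞ (fun x => (P.mu x : ℂ)) := contDiff_cf P.smooth_mu

end mod

/-! ### null vectors -/

lemma isNull_th {s : Fin 2 → ℂ} (hs : s ≠ 0) : IsNull (th s) := by
  constructor
  · intro h
    apply hs
    have h0 : s 0 ^ 2 - s 1 ^ 2 = 0 := by simpa [th] using congrFun h 0
    have h1 : Complex.I * (s 0 ^ 2 + s 1 ^ 2) = 0 := by simpa [th] using congrFun h 1
    have h1' : s 0 ^ 2 + s 1 ^ 2 = 0 := by
      rcases mul_eq_zero.1 h1 with h | h
      · exact absurd h Complex.I_ne_zero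
      · exact h
    have a : s 0 ^ 2 = 0 := by linear_combination (h0 + h1') / 2
    have b : s 1 ^ 2 = 0 := by linear_combination (h1' - h0) / 2
    funext i
    fin_cases i
    · simpa using a
    · simpa using b
  · simp only [Fin.sum_univ_three, th]
    simp
    have : Complex.I ^ 2 = -1 := Complex.I_sq
    linear_combination (s 0 ^ 2 + s 1 ^ 2) ^ 2 * this

lemma continuous_th : Continuous th := by
  refine continuous_pi fun j => ?_
  fin_cases j <;> simp [th] <;> fun_prop

/-- the spinor entries kill the first columns -/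
lemma Amat_mul_perp (P : Moduli) (s : Fin 2 → ℂ) (a : Option (Fin 2)) (x : R3) :
    Amat P s a (some 0) x * (-s 1) + Amat P s a (some 1) x * s 0 = 0 := by
  cases a <;> simp only [Amat] <;> ring

lemma contDiff_Amat (P : Moduli) (s : Fin 2 → ℂ) (a b : Option (Fin 2)) :
    ContDiff ℝ ∞ (Amat P s a b) := by
  have hm := contDiff_cf (contDiff_m P)
  have h1 := contDiff_DD hm (th s)
  cases a with
  | none =>
    cases b with
    | none => exact ((contDiff_ckap P).neg).mul h1
    | some j => exact (((contDiff_ckap P).neg).mul (contDiff_csm P)).mul contDiff_const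
  | some i =>
    have h2 := contDiff_DD hm (nu s i)
    cases b with
    | none =>
      exact ((contDiff_cdiv (contDiff_ckap P) (contDiff_csm P)
        (fun x => Complex.ofReal_ne_zero.2 ((sm_ne P) x))).mul h1).mul h2
    | some j =>
      refine (((contDiff_ckap P).sub (contDiff_cdiv contDiff_const
        (contDiff_const.mul (contDiff_cm P)) fun x => ?_)).mul contDiff_const).mul h2
      exact mul_ne_zero two_ne_zero (Complex.ofReal_ne_zero.2 ((m_ne P) x))

lemma continuous_DD_prod {X : Type*} [TopologicalSpace X] {f : R3 → ℂ} (hf : ContDiff ℝ ∞ f)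
    {θ : X → Fin 3 → ℂ} (hθ : Continuous θ) :
    Continuous fun p : X × R3 => DD (θ p.1) f p.2 := by
  unfold DD
  refine continuous_finsetSum _ fun j _ => ?_
  exact ((continuous_apply j).comp (hθ.comp continuous_fst)).mul
    ((contDiff_pd hf j).continuous.comp continuous_snd)

lemma continuous_nu (i : Fin 2) : Continuous fun s => nu s i := by
  refine continuous_pi fun j => ?_
  fin_cases i <;> fin_cases j <;> simp [nu] <;> fun_prop

/-- joint continuity of the coefficient matrix -/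
lemma continuous_Amat (P : Moduli) (a b : Option (Fin 2)) :
    Continuous fun p : (Fin 2 → ℂ) × R3 => Amat P p.1 a b p.2 := by
  have hm := contDiff_cf (contDiff_m P)
  have h1 : Continuous fun p : (Fin 2 → ℂ) × R3 => DD (th p.1) (cf P.m) p.2 :=
    continuous_DD_prod hm continuous_th
  have hk : Continuous fun p : (Fin 2 → ℂ) × R3 => (P.kap p.2 : ℂ) :=
    (contDiff_ckap P).continuous.comp continuous_snd
  have hsm : Continuous fun p : (Fin 2 → ℂ) × R3 => (P.sm p.2 : ℂ) :=
    (contDiff_csm P).continuous.comp continuous_snd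
  have hmm : Continuous fun p : (Fin 2 → ℂ) × R3 => (P.m p.2 : ℂ) :=
    (contDiff_cm P).continuous.comp continuous_snd
  have hs : ∀ j : Fin 2, Continuous fun p : (Fin 2 → ℂ) × R3 => p.1 j := fun j =>
    (continuous_apply j).comp continuous_fst
  cases a with
  | none =>
    cases b with
    | none => exact hk.neg.mul h1
    | some j => exact (hk.neg.mul hsm).mul (hs j)
  | some i =>
    have h2 : Continuous fun p : (Fin 2 → ℂ) × R3 => DD (nu p.1 i) (cf P.m) p.2 :=
      continuous_DD_prod hm (continuous_nu i)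
    cases b with
    | none =>
      exact ((hk.div hsm fun p => Complex.ofReal_ne_zero.2 ((sm_ne P) p.2)).mul h1).mul h2
    | some j =>
      refine ((hk.sub (continuous_const.div (continuous_const.mul hmm) fun p => ?_)).mul
        (hs j)).mul h2
      exact mul_ne_zero two_ne_zero (Complex.ofReal_ne_zero.2 ((m_ne P) p.2))

/-! ### cutoff functions -/

/-- a smooth complex valued compactly supported cutoff, equal to `1` on a given ball -/
lemma exists_cutoff (r R : ℝ) (h0 : 0 < r) (h : r < R) :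
    ∃ χ : R3 → ℂ, ContDiff ℝ ∞ χ ∧ HasCompactSupport χ ∧ (∀ x, ‖x‖ ≤ r → χ x = 1) ∧
      (∀ x, R ≤ ‖x‖ → χ x = 0) ∧ ∀ x, ‖χ x‖ ≤ 1 := by
  let f : ContDiffBump (0 : R3) := ⟨r, R, h0, h⟩
  refine ⟨fun x => (f x : ℂ), Complex.ofRealCLM.contDiff.comp f.contDiff, ?_, ?_, ?_, ?_⟩
  · exact f.hasCompactSupport.comp_left (g := fun t : ℝ => (t : ℂ)) (by simp)
  · intro x hx
    have : f x = 1 := f.one_of_mem_closedBall (by simpa using hx)
    simp [this]
  · intro x hx
    have : f x = 0 := f.zero_of_le_dist (by simpa using hx)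
    simp [this]
  · intro x
    rw [Complex.norm_real, Real.norm_eq_abs, abs_of_nonneg f.nonneg]
    exact f.le_one

/-- `closure Ω` is contained in a ball -/
lemma dom_exists_ball (G : Dom) : ∃ R : ℝ, 0 < R ∧ closure G.Ω ⊆ Metric.ball (0 : R3) R := by
  obtain ⟨R, hR⟩ := G.bdd.closure.subset_ball (0 : R3)
  refine ⟨max R 1, lt_max_of_lt_right one_pos, hR.trans (Metric.ball_subset_ball (le_max_left _ _))⟩

lemma dom_isCompact_closure (G : Dom) : IsCompact (closure G.Ω) :=
  Metric.isCompact_of_isClosed_isBounded isClosed_closure G.bdd.closure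



lemma dom_volume_lt_top (G : Dom) : volume G.Ω < ⊤ :=
  G.bdd.measure_lt_top

lemma dom_integrableOn (G : Dom) {F : R3 → ℂ} (hF : Continuous F) : IntegrableOn F G.Ω :=
  (hF.continuousOn.integrableOn_compact (dom_isCompact_closure G)).mono_set subset_closure

end Crest.Agent.R080.Gg
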