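import Crest.Agent.R080.RI
import Crest.Agent.R080.SlabLoc
import Crest.Agent.R080.ModBasic
import Crest.Agent.R080.Stmts2
import Crest.Agent.R080.Stmts

-- ▼ part R080/RIFull
section

/-!
Row 80 (S0107), T7b: `StmtRI` from the Cauchy transform, small fundamental matrices and plane
fundamental matrices (helper631, helper692).
-/

set_option autoImplicit false

namespace Crest.Agent.R080

theorem t_RI (hC : StmtCauchy) (hS : StmtSmallFM) (hP : StmtPlaneFM) : StmtRI :=
  t_RI' hC (t_LocU hS hP)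

end Crest.Agent.R080
end

-- ▼ part R080/Gauge
section

/-!
Row 80 (S0107), T15: the gauge functional `Φ` and its structure (`t_Gauge`). (helper208)
-/

set_option autoImplicit false

open MeasureTheory Filter
open scoped ContDiff Topology
open Crest.AnalysisR.VecCalc3 Crest.AnalysisR.PDE.Elasticity

noncomputable section
namespace Crest.Agent.R080.Gg

/-- index set of the reduced system -/
abbrev Opt := Option (Fin 2)
/-- matrix fields -/
abbrev Fld := Opt → Opt → R3 → ℂ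

/-- smooth matrix fields -/
def SmF (φ : Fld) : Prop := ∀ a b, ContDiff ℝ ∞ (φ a b)

/-- `ψ` solves `𝓓*ψ = φ` near the closure of `Ω` -/
def Sol (G : Dom) (P₁ P₂ : Moduli) (s : Fin 2 → ℂ) (ψ φ : Fld) : Prop :=
  ∀ᶠ x in 𝓝ˢ (closure G.Ω), ∀ a b, Dstar P₁ P₂ s ψ a b x = φ a b x

lemma sm_diff {f : R3 → ℂ} (hf : ContDiff ℝ ∞ f) : Differentiable ℝ f :=
  hf.differentiable (by simp)

lemma Dstar_lin (P₁ P₂ : Moduli) (s : Fin 2 → ℂ) (c d : ℂ) {ψ ψ' : Fld} (h : SmF ψ)
    (h' : SmF ψ') (a b : Opt) (x : R3) :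
    Dstar P₁ P₂ s (fun a b x => c * ψ a b x + d * ψ' a b x) a b x
      = c * Dstar P₁ P₂ s ψ a b x + d * Dstar P₁ P₂ s ψ' a b x := by
  have e : DD (th s) (fun y => c * ψ a b y + d * ψ' a b y) x
      = c * DD (th s) (ψ a b) x + d * DD (th s) (ψ' a b) x := by
    rw [DD_add ((sm_diff (h a b)).const_mul c) ((sm_diff (h' a b)).const_mul d),
      DD_const_mul (sm_diff (h a b)), DD_const_mul (sm_diff (h' a b))]
  simp only [Dstar]
  rw [e]
  simp only [Fintype.sum_option, Fin.sum_univ_two]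
  ring

lemma SmF.lin {ψ ψ' : Fld} (h : SmF ψ) (h' : SmF ψ') (c d : ℂ) :
    SmF (fun a b x => c * ψ a b x + d * ψ' a b x) := fun a b =>
  (contDiff_const.mul (h a b)).add (contDiff_const.mul (h' a b))

lemma contDiff_pairing_integrand (P₁ P₂ : Moduli) (s : Fin 2 → ℂ) {ψ : Fld} (h : SmF ψ) :
    ContDiff ℝ ∞ fun x => ∑ a, ∑ b, (Amat P₂ s a b x - Amat P₁ s a b x) * ψ a b x :=
  ContDiff.sum fun a _ => ContDiff.sum fun b _ =>
    ((contDiff_Amat P₂ s a b).sub (contDiff_Amat P₁ s a b)).mul (h a b)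

lemma pairing_lin (G : Dom) (P₁ P₂ : Moduli) (s : Fin 2 → ℂ) (c d : ℂ) {ψ ψ' : Fld} (h : SmF ψ)
    (h' : SmF ψ') :
    pairing G P₁ P₂ s (fun a b x => c * ψ a b x + d * ψ' a b x)
      = c * pairing G P₁ P₂ s ψ + d * pairing G P₁ P₂ s ψ' := by
  have i1 := dom_integrableOn G (contDiff_pairing_integrand P₁ P₂ s h).continuous
  have i2 := dom_integrableOn G (contDiff_pairing_integrand P₁ P₂ s h').continuous
  unfold pairing
  rw [← integral_const_mul, ← integral_const_mul, ← integral_add (i1.const_mul c) (i2.const_mul d)]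
  refine integral_congr_ae (ae_of_all _ fun x => ?_)
  simp only [Fintype.sum_option, Fin.sum_univ_two]
  ring

/-! ### solvability, locally uniformly in the parameter -/

lemma bdd_cut {χ f : R3 → ℂ} (hχ : Continuous χ) (hc : HasCompactSupport χ)
    (hf : Continuous f) : ∃ B : ℝ, ∀ x, ‖-(χ x * f x)‖ ≤ B := by
  have hcs : HasCompactSupport (fun x => χ x * f x) := hc.mul_right
  obtain ⟨B, hB⟩ := hcs.exists_bound_of_continuous (hχ.mul hf)
  exact ⟨B, fun x => by rw [norm_neg]; exact hB x⟩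

lemma bdd_cut_all {χ : R3 → ℂ} (hχ : Continuous χ) (hc : HasCompactSupport χ) {φ : Fld}
    (hφ : SmF φ) : ∃ B : ℝ, ∀ (p : Opt × Opt) x, ‖-(χ x * φ p.1 p.2 x)‖ ≤ B := by
  choose B hB using fun p : Opt × Opt => bdd_cut hχ hc (hφ p.1 p.2).continuous
  obtain ⟨b, hb⟩ := Finite.exists_le B
  exact ⟨b, fun p x => (hB p x).trans (hb p)⟩

lemma bdd_coeff (G : Dom) (P₁ P₂ : Moduli) (s₀ : Fin 2 → ℂ) :
    ∃ K : ℝ, ∀ (p : Opt × Opt) (s : Fin 2 → ℂ) (x : R3),
      s ∈ Metric.closedBall s₀ 1 → x ∈ closure G.Ω →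
      ‖Amat P₂ s p.1 p.2 x - Amat P₁ s p.1 p.2 x‖ ≤ K := by
  have hKc : IsCompact (Metric.closedBall s₀ 1 ×ˢ closure G.Ω) :=
    (isCompact_closedBall s₀ 1).prod (dom_isCompact_closure G)
  have : ∀ p : Opt × Opt, ∃ K : ℝ, ∀ y ∈ Metric.closedBall s₀ 1 ×ˢ closure G.Ω,
      ‖Amat P₂ y.1 p.1 p.2 y.2 - Amat P₁ y.1 p.1 p.2 y.2‖ ≤ K := fun p =>
    hKc.exists_bound_of_continuousOn
      ((continuous_Amat P₂ p.1 p.2).sub (continuous_Amat P₁ p.1 p.2)).continuousOn
  choose K hK using this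
  obtain ⟨k, hk⟩ := Finite.exists_le K
  exact ⟨k, fun p s x hs hx => (hK p (s, x) ⟨hs, hx⟩).trans (hk p)⟩

/-- the coefficient matrix of `𝓓*` seen as a first order system -/
def coefA (P₁ P₂ : Moduli) (s : Fin 2 → ℂ) (p q : Opt × Opt) (x : R3) : ℂ :=
  (if p.2 = q.2 then -Amat P₂ s q.1 p.1 x else 0)
    + (if p.1 = q.1 then Amat P₁ s p.2 q.2 x else 0)

lemma contDiff_coefA (P₁ P₂ : Moduli) (s : Fin 2 → ℂ) (p q : Opt × Opt) :
    ContDiff ℝ ∞ (coefA P₁ P₂ s p q) := by
  unfold coefA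
  refine ContDiff.add ?_ ?_
  · by_cases h : p.2 = q.2
    · simp only [if_pos h]; exact (contDiff_Amat P₂ s q.1 p.1).neg
    · simp only [if_neg h]; exact contDiff_const
  · by_cases h : p.1 = q.1
    · simp only [if_pos h]; exact contDiff_Amat P₁ s p.2 q.2
    · simp only [if_neg h]; exact contDiff_const

lemma continuous_coefA (P₁ P₂ : Moduli) (p q : Opt × Opt) :
    Continuous fun y : (Fin 2 → ℂ) × R3 => coefA P₁ P₂ y.1 p q y.2 := by
  unfold coefA
  refine Continuous.add ?_ ?_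
  · by_cases h : p.2 = q.2
    · simp only [if_pos h]; exact (continuous_Amat P₂ q.1 p.1).neg
    · simp only [if_neg h]; exact continuous_const
  · by_cases h : p.1 = q.1
    · simp only [if_pos h]; exact continuous_Amat P₁ p.2 q.2
    · simp only [if_neg h]; exact continuous_const

lemma continuous_coefA' (P₁ P₂ : Moduli) (p q : Opt × Opt) {X : Type*} [TopologicalSpace X]
    {f : X → Fin 2 → ℂ} {g : X → R3} (hf : Continuous f) (hg : Continuous g) :
    Continuous fun y => coefA P₁ P₂ (f y) p q (g y) :=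
  Continuous.comp (g := fun y : (Fin 2 → ℂ) × R3 => coefA P₁ P₂ y.1 p q y.2)
    (f := fun y => (f y, g y)) (continuous_coefA P₁ P₂ p q) (hf.prodMk hg)

lemma sum_coefA (P₁ P₂ : Moduli) (s : Fin 2 → ℂ) (a b : Opt) (ψ : Opt × Opt → R3 → ℂ) (x : R3) :
    ∑ j, coefA P₁ P₂ s (a, b) j x * ψ j x
      = -∑ c, Amat P₂ s c a x * ψ (c, b) x + ∑ c, ψ (a, c) x * Amat P₁ s b c x := by
  rw [Fintype.sum_prod_type]
  simp only [coefA, add_mul, Finset.sum_add_distrib, ite_mul, zero_mul]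
  congr 1
  · simp
  · rw [Finset.sum_comm]
    simp [mul_comm]

/-- transfer of an eventual statement from a subtype of nonzero vectors -/
lemma eventually_of_subtype {s₀ : Fin 2 → ℂ} (hs₀ : s₀ ≠ 0)
    {p : {s : Fin 2 → ℂ // s ≠ 0} → Prop}
    (h : ∀ᶠ s in 𝓝 (⟨s₀, hs₀⟩ : {s : Fin 2 → ℂ // s ≠ 0}), p s) :
    ∀ᶠ s in 𝓝 s₀, ∀ h : s ≠ 0, p ⟨s, h⟩ := by
  rw [nhds_subtype_eq_comap, eventually_comap] at h
  filter_upwards [h] with s hs h
  exact hs ⟨s, h⟩ rfl

lemma solve_loc (hRI : StmtRI) (G : Dom) (P₁ P₂ : Moduli) (s₀ : Fin 2 → ℂ) (hs₀ : s₀ ≠ 0)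
    (φ : Fld) (hφ : SmF φ) :
    ∃ C : ℝ, ∀ᶠ s in 𝓝 s₀, ∃ ψ : Fld, SmF ψ ∧ Sol G P₁ P₂ s ψ φ ∧
      ‖pairing G P₁ P₂ s ψ‖ ≤ C := by
  obtain ⟨R, hR0, hR⟩ := dom_exists_ball G
  obtain ⟨χ, hχ, hχc, hχ1, -, -⟩ := exists_cutoff R (R + 1) hR0 (by linarith)
  have hAc : ∀ i j, Continuous fun p : {s : Fin 2 → ℂ // s ≠ 0} × R3 =>
      coefA P₁ P₂ p.1.1 i j p.2 := fun i j =>
    continuous_coefA' P₁ P₂ i j (continuous_subtype_val.comp continuous_fst) continuous_snd
  obtain ⟨M, hM⟩ := hRI (Opt × Opt) {s : Fin 2 → ℂ // s ≠ 0} (fun s => th s.1)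
    (continuous_th.comp continuous_subtype_val) (fun s => isNull_th s.2)
    (fun s => coefA P₁ P₂ s.1) (fun s => contDiff_coefA P₁ P₂ s.1) hAc R ⟨s₀, hs₀⟩
  -- bounds
  obtain ⟨B, hB⟩ := bdd_cut_all hχ.continuous hχc hφ
  obtain ⟨K, hK⟩ := bdd_coeff G P₁ P₂ s₀
  refine ⟨(∑ _a : Opt, ∑ _b : Opt, K * (M * B)) * volume.real G.Ω, ?_⟩
  -- transfer from the subtype
  have hM' := eventually_of_subtype hs₀ hM
  filter_upwards [hM', isOpen_ne.mem_nhds hs₀, Metric.closedBall_mem_nhds s₀ one_pos]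
    with s h1 h2 h3
  obtain ⟨ψ, hψ1, hψ2, hψ3⟩ := h1 h2 (fun p x => -(χ x * φ p.1 p.2 x))
    (fun p => (hχ.mul (hφ _ _)).neg) B hB
  refine ⟨fun a b => ψ (a, b), fun a b => hψ1 _, ?_, ?_⟩
  · have hnear : Metric.ball (0 : R3) R ∈ 𝓝ˢ (closure G.Ω) :=
      Metric.isOpen_ball.mem_nhdsSet.2 hR
    filter_upwards [hnear] with x hx a b
    have hx' : ‖x‖ < R := by simpa using hx
    have h4 := hψ2 x hx' (a, b)
    simp only [Dstar]
    rw [h4, sum_coefA, hχ1 x hx'.le]
    ring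
  · have hle : ∀ x ∈ G.Ω, ‖∑ a, ∑ b, (Amat P₂ s a b x - Amat P₁ s a b x) * ψ (a, b) x‖
        ≤ ∑ _a : Opt, ∑ _b : Opt, K * (M * B) := by
      intro x hx
      have hxc : x ∈ closure G.Ω := subset_closure hx
      have hxR : ‖x‖ < R := by simpa using hR hxc
      refine norm_sum_le_of_le _ fun a _ => norm_sum_le_of_le _ fun b _ => ?_
      rw [norm_mul]
      exact mul_le_mul (hK (a, b) s x h3 hxc) (hψ3 (a, b) x hxR) (norm_nonneg _)
        ((norm_nonneg _).trans (hK (a, b) s x h3 hxc))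
    exact norm_setIntegral_le_of_norm_le_const (dom_volume_lt_top G) hle

lemma solve (hRI : StmtRI) (G : Dom) (P₁ P₂ : Moduli) {s : Fin 2 → ℂ} (hs : s ≠ 0)
    {φ : Fld} (hφ : SmF φ) : ∃ ψ : Fld, SmF ψ ∧ Sol G P₁ P₂ s ψ φ := by
  obtain ⟨C, hC⟩ := solve_loc hRI G P₁ P₂ s hs φ hφ
  obtain ⟨ψ, h1, h2, -⟩ := hC.self_of_nhds
  exact ⟨ψ, h1, h2⟩

/-! ### the functional -/

open Classical in
/-- the gauge functional -/
def Phi (G : Dom) (P₁ P₂ : Moduli) (s : Fin 2 → ℂ) (φ : Fld) : ℂ :=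
  if h : ∃ ψ : Fld, SmF ψ ∧ Sol G P₁ P₂ s ψ φ then pairing G P₁ P₂ s h.choose else 0

section
variable {G : Dom} {P₁ P₂ : Moduli} (hO : StmtOrth) (hD : SameData G P₁ P₂)
include hO hD

lemma Phi_eq {s : Fin 2 → ℂ} (hs : s ≠ 0) {ψ φ : Fld} (hψ : SmF ψ)
    (h : Sol G P₁ P₂ s ψ φ) : Phi G P₁ P₂ s φ = pairing G P₁ P₂ s ψ := by
  have hex : ∃ ψ : Fld, SmF ψ ∧ Sol G P₁ P₂ s ψ φ := ⟨ψ, hψ, h⟩
  have e : Phi G P₁ P₂ s φ = pairing G P₁ P₂ s hex.choose := by
    unfold Phi; rw [dif_pos hex]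
  rw [e]
  obtain ⟨h1, h2⟩ := hex.choose_spec
  have h3 := hO G P₁ P₂ hD s hs _ (h1.lin hψ 1 (-1)) (by
    filter_upwards [h2, h] with x hx hx' a b
    rw [Dstar_lin P₁ P₂ s 1 (-1) h1 hψ, hx, hx']; ring)
  rw [pairing_lin G P₁ P₂ s 1 (-1) h1 hψ] at h3
  linear_combination h3

variable (hRI : StmtRI)
include hRI

lemma Phi_lin {s : Fin 2 → ℂ} (hs : s ≠ 0) {φ φ' : Fld} (hφ : SmF φ) (hφ' : SmF φ') (c d : ℂ) :
    Phi G P₁ P₂ s (fun a b x => c * φ a b x + d * φ' a b x)
      = c * Phi G P₁ P₂ s φ + d * Phi G P₁ P₂ s φ' := by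
  obtain ⟨ψ, h1, h2⟩ := solve hRI G P₁ P₂ hs hφ
  obtain ⟨ψ', h1', h2'⟩ := solve hRI G P₁ P₂ hs hφ'
  rw [Phi_eq hO hD hs h1 h2, Phi_eq hO hD hs h1' h2', ← pairing_lin G P₁ P₂ s c d h1 h1']
  refine Phi_eq hO hD hs (h1.lin h1' c d) ?_
  filter_upwards [h2, h2'] with x hx hx' a b
  rw [Dstar_lin P₁ P₂ s c d h1 h1', hx, hx']

lemma Phi_congr {s : Fin 2 → ℂ} (hs : s ≠ 0) {φ φ' : Fld} (hφ : SmF φ)
    (h : ∀ᶠ x in 𝓝ˢ (closure G.Ω), ∀ a b, φ a b x = φ' a b x) :
    Phi G P₁ P₂ s φ = Phi G P₁ P₂ s φ' := by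
  obtain ⟨ψ, h1, h2⟩ := solve hRI G P₁ P₂ hs hφ
  rw [Phi_eq hO hD hs h1 h2]
  symm
  refine Phi_eq hO hD hs h1 ?_
  filter_upwards [h, h2] with x hx hx' a b
  rw [hx', hx]

lemma Phi_zero {s : Fin 2 → ℂ} (hs : s ≠ 0) : Phi G P₁ P₂ s (fun _ _ _ => 0) = 0 := by
  have h0 : SmF (fun _ _ _ => 0) := fun _ _ => contDiff_const
  have := Phi_lin hO hD hRI hs h0 h0 0 0
  simpa using this

lemma Phi_sum {s : Fin 2 → ℂ} (hs : s ≠ 0) (N : ℕ) (t : ℕ → ℂ) (c : ℕ → Fld)
    (hc : ∀ k, SmF (c k)) :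
    Phi G P₁ P₂ s (fun a b x => ∑ k ∈ Finset.range N, t k * c k a b x)
      = ∑ k ∈ Finset.range N, t k * Phi G P₁ P₂ s (c k) := by
  induction N with
  | zero => simpa using Phi_zero hO hD hRI hs
  | succ n ih =>
    have hs1 : SmF (fun a b x => ∑ k ∈ Finset.range n, t k * c k a b x) := fun a b =>
      ContDiff.sum fun k _ => contDiff_const.mul (hc k a b)
    have := Phi_lin hO hD hRI hs hs1 (hc n) 1 (t n)
    simp only [one_mul] at this
    simp only [Finset.sum_range_succ]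
    rw [this, ih]

lemma Phi_bdd {s₀ : Fin 2 → ℂ} (hs₀ : s₀ ≠ 0) {φ : Fld} (hφ : SmF φ) :
    ∃ C : ℝ, ∀ᶠ s in 𝓝 s₀, ‖Phi G P₁ P₂ s φ‖ ≤ C := by
  obtain ⟨C, hC⟩ := solve_loc hRI G P₁ P₂ s₀ hs₀ φ hφ
  refine ⟨C, ?_⟩
  filter_upwards [hC, isOpen_ne.mem_nhds hs₀] with s hs hs'
  obtain ⟨ψ, h1, h2, h3⟩ := hs
  rw [Phi_eq hO hD hs' h1 h2]
  exact h3

end

/-! ### polynomial dependence on an affine parameter -/

/-- smooth complex functions on `ℝ³` -/
def SmA : Subalgebra ℂ (R3 → ℂ) where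
  carrier := {f | ContDiff ℝ ∞ f}
  mul_mem' := fun {a b} (ha : ContDiff ℝ ∞ a) (hb : ContDiff ℝ ∞ b) => ha.mul hb
  add_mem' := fun {a b} (ha : ContDiff ℝ ∞ a) (hb : ContDiff ℝ ∞ b) => ha.add hb
  algebraMap_mem' := fun c => (contDiff_const : ContDiff ℝ ∞ fun _ : R3 => c)

/-- evaluation at a point -/
def ev (x : R3) : SmA →+* ℂ := (Pi.evalRingHom (fun _ : R3 => ℂ) x).comp SmA.val.toRingHom

lemma ev_apply (x : R3) (f : SmA) : ev x f = (f : R3 → ℂ) x := rfl

/-- functions depending polynomially on `z`, with smooth coefficients -/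
def PF (F : ℂ → R3 → ℂ) : Prop := ∃ p : Polynomial SmA, ∀ z x, F z x = p.eval₂ (ev x) z

namespace PF

lemma add {F G : ℂ → R3 → ℂ} (hF : PF F) (hG : PF G) : PF fun z x => F z x + G z x := by
  obtain ⟨p, hp⟩ := hF
  obtain ⟨q, hq⟩ := hG
  exact ⟨p + q, fun z x => by rw [Polynomial.eval₂_add, ← hp, ← hq]⟩

lemma mul {F G : ℂ → R3 → ℂ} (hF : PF F) (hG : PF G) : PF fun z x => F z x * G z x := by
  obtain ⟨p, hp⟩ := hF
  obtain ⟨q, hq⟩ := hG
  exact ⟨p * q, fun z x => by rw [Polynomial.eval₂_mul, ← hp, ← hq]⟩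

lemma const {f : R3 → ℂ} (hf : ContDiff ℝ ∞ f) : PF fun _ x => f x :=
  ⟨Polynomial.C ⟨f, hf⟩, fun z x => by rw [Polynomial.eval₂_C]; rfl⟩

lemma cst (c : ℂ) : PF fun _ _ => c := const (f := fun _ => c) contDiff_const

lemma id : PF fun z _ => z := ⟨Polynomial.X, fun z x => by rw [Polynomial.eval₂_X]⟩

lemma neg {F : ℂ → R3 → ℂ} (hF : PF F) : PF fun z x => -F z x := by
  have := (cst (-1)).mul hF
  simpa using this

lemma sub {F G : ℂ → R3 → ℂ} (hF : PF F) (hG : PF G) : PF fun z x => F z x - G z x := by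
  have := hF.add hG.neg
  simpa [sub_eq_add_neg] using this

lemma sum {ι : Type*} (s : Finset ι) {F : ι → ℂ → R3 → ℂ} (hF : ∀ i, PF (F i)) :
    PF fun z x => ∑ i ∈ s, F i z x := by
  classical
  induction s using Finset.induction_on with
  | empty => simpa using cst 0
  | insert a s ha ih =>
    simp only [Finset.sum_insert ha]
    exact (hF a).add ih

lemma pow {F : ℂ → R3 → ℂ} (hF : PF F) (n : ℕ) : PF fun z x => F z x ^ n := by
  induction n with
  | zero => simpa using cst 1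
  | succ n ih => simp only [pow_succ]; exact ih.mul hF

/-- simultaneous expansion of a finite family -/
lemma expand {ι : Type*} [Finite ι] {F : ι → ℂ → R3 → ℂ} (hF : ∀ i, PF (F i)) :
    ∃ (N : ℕ) (c : ℕ → ι → R3 → ℂ), (∀ k i, ContDiff ℝ ∞ (c k i)) ∧
      ∀ i z x, F i z x = ∑ k ∈ Finset.range N, z ^ k * c k i x := by
  choose p hp using hF
  obtain ⟨N, hN⟩ := Finite.exists_le fun i => (p i).natDegree
  refine ⟨N + 1, fun k i => ((p i).coeff k : SmA), fun k i => ((p i).coeff k).2, fun i z x => ?_⟩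
  rw [hp, Polynomial.eval₂_eq_sum_range' _ (Nat.lt_succ_of_le (hN i))]
  refine Finset.sum_congr rfl fun k _ => ?_
  rw [ev_apply, mul_comm]

end PF

/-- an affine path of spinors -/
def pth (u v : Fin 2 → ℂ) (z : ℂ) : Fin 2 → ℂ := fun i => u i + z * v i

lemma continuous_pth (u v : Fin 2 → ℂ) : Continuous (pth u v) := by
  unfold pth; fun_prop

lemma PF_pth (u v : Fin 2 → ℂ) (i : Fin 2) : PF fun z _ => pth u v z i :=
  (PF.cst (u i)).add (PF.id.mul (PF.cst (v i)))

lemma PF_th (u v : Fin 2 → ℂ) (j : Fin 3) : PF fun z _ => th (pth u v z) j := by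
  have h0 := PF_pth u v 0
  have h1 := PF_pth u v 1
  fin_cases j
  · exact (h0.pow 2).sub (h1.pow 2)
  · exact (PF.cst Complex.I).mul ((h0.pow 2).add (h1.pow 2))
  · exact ((PF.cst 2).mul h0).mul h1

lemma PF_nu (u v : Fin 2 → ℂ) (i : Fin 2) (j : Fin 3) : PF fun z _ => nu (pth u v z) i j := by
  have h0 := PF_pth u v 0
  have h1 := PF_pth u v 1
  fin_cases i
  · fin_cases j
    · exact h0
    · exact (PF.cst Complex.I).mul h0
    · exact h1
  · fin_cases j
    · exact h1.neg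
    · exact (PF.cst Complex.I).mul h1
    · exact h0

lemma PF_DD {θ : ℂ → Fin 3 → ℂ} (hθ : ∀ j, PF fun z _ => θ z j) {f : R3 → ℂ}
    (hf : ContDiff ℝ ∞ f) : PF fun z x => DD (θ z) f x := by
  unfold DD
  exact PF.sum _ fun j => (hθ j).mul (PF.const (contDiff_pd hf j))

lemma PF_Amat (P : Moduli) (u v : Fin 2 → ℂ) (a b : Opt) :
    PF fun z x => Amat P (pth u v z) a b x := by
  have hm := contDiff_cf (contDiff_m P)
  have h1 := PF_DD (PF_th u v) hm
  cases a with
  | none =>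
    cases b with
    | none => exact (PF.const (contDiff_ckap P).neg).mul h1
    | some j =>
      exact (PF.const ((contDiff_ckap P).neg.mul (contDiff_csm P))).mul (PF_pth u v j)
  | some i =>
    have h2 := PF_DD (PF_nu u v i) hm
    cases b with
    | none =>
      exact ((PF.const (contDiff_cdiv (contDiff_ckap P) (contDiff_csm P)
        (fun x => Complex.ofReal_ne_zero.2 (sm_ne P x)))).mul h1).mul h2
    | some j =>
      refine ((PF.const ((contDiff_ckap P).sub (contDiff_cdiv contDiff_const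
        (contDiff_const.mul (contDiff_cm P)) fun x => ?_))).mul (PF_pth u v j)).mul h2
      exact mul_ne_zero two_ne_zero (Complex.ofReal_ne_zero.2 (m_ne P x))

lemma PF_Dstar (P₁ P₂ : Moduli) (u v : Fin 2 → ℂ) {ψ : Fld} (hψ : SmF ψ) (a b : Opt) :
    PF fun z x => Dstar P₁ P₂ (pth u v z) ψ a b x := by
  unfold Dstar
  refine ((PF_DD (PF_th u v) (hψ a b)).neg.sub (PF.sum _ fun c => ?_)).add
    (PF.sum _ fun c => ?_)
  · exact (PF_Amat P₂ u v c a).mul (PF.const (hψ c b))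
  · exact (PF.const (hψ a c)).mul (PF_Amat P₁ u v b c)

lemma differentiable_pairing (G : Dom) (P₁ P₂ : Moduli) (u v : Fin 2 → ℂ) {ψ : Fld}
    (hψ : SmF ψ) : Differentiable ℂ fun z => pairing G P₁ P₂ (pth u v z) ψ := by
  have h : PF fun z x => ∑ a, ∑ b,
      (Amat P₂ (pth u v z) a b x - Amat P₁ (pth u v z) a b x) * ψ a b x :=
    PF.sum _ fun a => PF.sum _ fun b =>
      ((PF_Amat P₂ u v a b).sub (PF_Amat P₁ u v a b)).mul (PF.const (hψ a b))
  obtain ⟨N, c, hc, he⟩ := PF.expand (ι := Unit) (fun _ => h)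
  have e : (fun z => pairing G P₁ P₂ (pth u v z) ψ)
      = fun z => ∑ k ∈ Finset.range N, z ^ k * ∫ x in G.Ω, c k () x := by
    funext z
    unfold pairing
    simp only [he () z]
    rw [integral_finsetSum _ fun k _ =>
      (dom_integrableOn G (hc k ()).continuous).const_mul _]
    simp only [integral_const_mul]
  rw [e]
  fun_prop

section
variable {G : Dom} {P₁ P₂ : Moduli} (hO : StmtOrth) (hD : SameData G P₁ P₂) (hRI : StmtRI)
include hO hD hRI

/-- the key expansion at a point of the path -/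
lemma Phi_expand {u v : Fin 2 → ℂ} (hne : ∀ z, pth u v z ≠ 0) {φ : Fld} (hφ : SmF φ) (z₀ : ℂ) :
    ∃ (N : ℕ) (c : ℕ → Fld) (p : ℂ → ℂ), (∀ k, SmF (c k)) ∧ Differentiable ℂ p ∧
      ∀ z, Phi G P₁ P₂ (pth u v z) φ = p z - ∑ k ∈ Finset.range N,
        (z ^ k - z₀ ^ k) * Phi G P₁ P₂ (pth u v z) (c k) := by
  obtain ⟨ψ, hψ, hsol⟩ := solve hRI G P₁ P₂ (hne z₀) hφ
  obtain ⟨N, c, hc, he⟩ := PF.expand (ι := Opt × Opt)
    (F := fun i z x => Dstar P₁ P₂ (pth u v z) ψ i.1 i.2 x)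
    (fun i => PF_Dstar P₁ P₂ u v hψ i.1 i.2)
  have hc' : ∀ k, SmF (fun a b => c k (a, b)) := fun k a b => hc k (a, b)
  refine ⟨N, fun k a b => c k (a, b), fun z => pairing G P₁ P₂ (pth u v z) ψ, hc',
    differentiable_pairing G P₁ P₂ u v hψ, fun z => ?_⟩
  have hs : ∀ t : ℕ → ℂ,
      SmF (fun a b x => ∑ k ∈ Finset.range N, t k * c k (a, b) x) := fun t a b =>
    ContDiff.sum fun k _ => contDiff_const.mul (hc k (a, b))
  have h1 : Phi G P₁ P₂ (pth u v z)
      (fun a b x => ∑ k ∈ Finset.range N, z ^ k * c k (a, b) x)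
      = pairing G P₁ P₂ (pth u v z) ψ := by
    refine Phi_eq hO hD (hne z) hψ (Filter.Eventually.of_forall fun x a b => ?_)
    exact he (a, b) z x
  have h2 : Phi G P₁ P₂ (pth u v z) φ = Phi G P₁ P₂ (pth u v z)
      (fun a b x => ∑ k ∈ Finset.range N, z₀ ^ k * c k (a, b) x) := by
    refine Phi_congr hO hD hRI (hne z) hφ ?_
    filter_upwards [hsol] with x hx a b
    rw [← hx a b]
    exact he (a, b) z₀ x
  rw [Phi_sum hO hD hRI (hne z) N (fun k => z ^ k) _ hc'] at h1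
  rw [h2, Phi_sum hO hD hRI (hne z) N (fun k => z₀ ^ k) _ hc']
  change _ = pairing G P₁ P₂ (pth u v z) ψ - _
  rw [← h1, ← Finset.sum_sub_distrib]
  exact Finset.sum_congr rfl fun k _ => by ring

lemma Phi_continuousAt {u v : Fin 2 → ℂ} (hne : ∀ z, pth u v z ≠ 0) {φ : Fld} (hφ : SmF φ)
    (z₀ : ℂ) : ContinuousAt (fun z => Phi G P₁ P₂ (pth u v z) φ) z₀ := by
  obtain ⟨N, c, p, hc, hp, he⟩ := Phi_expand hO hD hRI hne hφ z₀
  have e : (fun z => Phi G P₁ P₂ (pth u v z) φ) = fun z => p z - ∑ k ∈ Finset.range N,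
      (z ^ k - z₀ ^ k) * Phi G P₁ P₂ (pth u v z) (c k) := funext he
  have h0 : Phi G P₁ P₂ (pth u v z₀) φ = p z₀ := by rw [he z₀]; simp
  rw [ContinuousAt, h0, e]
  have h1 : Tendsto p (𝓝 z₀) (𝓝 (p z₀)) := hp.continuous.continuousAt
  have h2 : Tendsto (fun z => ∑ k ∈ Finset.range N,
      (z ^ k - z₀ ^ k) * Phi G P₁ P₂ (pth u v z) (c k)) (𝓝 z₀) (𝓝 (∑ k ∈ Finset.range N, 0)) := by
    refine tendsto_finsetSum _ fun k _ => ?_
    have h3 : Tendsto (fun z : ℂ => z ^ k - z₀ ^ k) (𝓝 z₀) (𝓝 0) := by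
      have : Continuous fun z : ℂ => z ^ k - z₀ ^ k := by fun_prop
      simpa using this.tendsto z₀
    obtain ⟨C, hC⟩ := Phi_bdd hO hD hRI (hne z₀) (hc k)
    have hC' : ∀ᶠ z in 𝓝 z₀, ‖Phi G P₁ P₂ (pth u v z) (c k)‖ ≤ C :=
      (continuous_pth u v).continuousAt.eventually hC
    exact h3.zero_mul_isBoundedUnder_le ⟨C, by simpa using hC'⟩
  simpa using h1.sub h2

lemma Phi_differentiable {u v : Fin 2 → ℂ} (hne : ∀ z, pth u v z ≠ 0) {φ : Fld} (hφ : SmF φ) :
    Differentiable ℂ (fun z => Phi G P₁ P₂ (pth u v z) φ) := by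
  intro z₀
  obtain ⟨N, c, p, hc, hp, he⟩ := Phi_expand hO hD hRI hne hφ z₀
  have e : (fun z => Phi G P₁ P₂ (pth u v z) φ) = fun z => p z - ∑ k ∈ Finset.range N,
      (z ^ k - z₀ ^ k) * Phi G P₁ P₂ (pth u v z) (c k) := funext he
  rw [e]
  refine (hp z₀).sub (DifferentiableAt.fun_sum fun k _ => ?_)
  -- product of a function vanishing at `z₀` and a continuous function
  have hd : HasDerivAt (fun z : ℂ => z ^ k - z₀ ^ k) (k * z₀ ^ (k - 1)) z₀ := by
    simpa using (hasDerivAt_pow k z₀).sub_const (z₀ ^ k)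
  have hg := Phi_continuousAt hO hD hRI hne (hc k) z₀
  refine HasDerivAt.differentiableAt
    (f' := (k * z₀ ^ (k - 1)) * Phi G P₁ P₂ (pth u v z₀) (c k)) ?_
  rw [hasDerivAt_iff_tendsto_slope] at hd ⊢
  have hg' : Tendsto (fun z => Phi G P₁ P₂ (pth u v z) (c k)) (𝓝[≠] z₀)
      (𝓝 (Phi G P₁ P₂ (pth u v z₀) (c k))) := hg.mono_left nhdsWithin_le_nhds
  refine (hd.mul hg').congr' ?_
  filter_upwards with z
  simp only [slope_def_field, sub_self, zero_mul, sub_zero]
  ring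

end

/-! ### scaling -/

lemma single_smooth (a b : Opt) {η : R3 → ℂ} (hη : ContDiff ℝ ∞ η) : SmF (single a b η) := by
  intro a' b'
  unfold single
  by_cases h : a' = a ∧ b' = b
  · simp only [if_pos h]; exact hη
  · simp only [if_neg h]; exact contDiff_const


/-- the weights of the scaling -/
def wt (c : ℂ) : Opt → ℂ
  | none => 1
  | some _ => c

lemma th_smul (c : ℂ) (s : Fin 2 → ℂ) : th (c • s) = fun j => c ^ 2 * th s j := by
  funext j
  fin_cases j <;> simp [th] <;> ring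

lemma nu_smul (c : ℂ) (s : Fin 2 → ℂ) (i : Fin 2) : nu (c • s) i = fun j => c * nu s i j := by
  funext j
  fin_cases i <;> fin_cases j <;> simp [nu] <;> ring

lemma Amat_smul (P : Moduli) (c : ℂ) (s : Fin 2 → ℂ) (a b : Opt) (x : R3) :
    wt c b * Amat P (c • s) a b x = c ^ 2 * wt c a * Amat P s a b x := by
  cases a <;> cases b <;>
    simp only [Amat, wt, th_smul, nu_smul, DD_smul_left, Pi.smul_apply, smul_eq_mul] <;> ring

/-- the rescaled field -/
def scl (c : ℂ) (ψ : Fld) : Fld := fun a b x => (wt c a)⁻¹ * wt c b * ψ a b x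

lemma scl_smooth (c : ℂ) {ψ : Fld} (h : SmF ψ) : SmF (scl c ψ) := fun a b =>
  contDiff_const.mul (h a b)

lemma wt_ne {c : ℂ} (hc : c ≠ 0) (a : Opt) : wt c a ≠ 0 := by
  cases a
  · exact one_ne_zero
  · exact hc

lemma Amat_smul' (P : Moduli) {c : ℂ} (hc : c ≠ 0) (s : Fin 2 → ℂ) (a b : Opt) (x : R3) :
    Amat P (c • s) a b x = c ^ 2 * wt c a * (wt c b)⁻¹ * Amat P s a b x := by
  have h := Amat_smul P c s a b x
  have hb := wt_ne hc b
  field_simp
  linear_combination h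

lemma Dstar_scl (P₁ P₂ : Moduli) {c : ℂ} (hc : c ≠ 0) (s : Fin 2 → ℂ) {ψ : Fld} (h : SmF ψ)
    (a b : Opt) (x : R3) :
    Dstar P₁ P₂ (c • s) (scl c ψ) a b x
      = c ^ 2 * ((wt c a)⁻¹ * wt c b * Dstar P₁ P₂ s ψ a b x) := by
  have h1 : DD (th (c • s)) (scl c ψ a b) x
      = c ^ 2 * ((wt c a)⁻¹ * wt c b * DD (th s) (ψ a b) x) := by
    rw [th_smul, DD_smul_left]
    unfold scl
    rw [DD_const_mul (sm_diff (h a b))]
  have h2 : ∑ d, Amat P₂ (c • s) d a x * scl c ψ d b x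
      = c ^ 2 * ((wt c a)⁻¹ * wt c b * ∑ d, Amat P₂ s d a x * ψ d b x) := by
    simp only [Finset.mul_sum]
    refine Finset.sum_congr rfl fun d _ => ?_
    rw [Amat_smul' P₂ hc, scl]
    have := wt_ne hc d
    field_simp
  have h3 : ∑ d, scl c ψ a d x * Amat P₁ (c • s) b d x
      = c ^ 2 * ((wt c a)⁻¹ * wt c b * ∑ d, ψ a d x * Amat P₁ s b d x) := by
    simp only [Finset.mul_sum]
    refine Finset.sum_congr rfl fun d _ => ?_
    rw [Amat_smul' P₁ hc, scl]
    have := wt_ne hc d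
    field_simp
  simp only [Dstar]
  rw [h1, h2, h3]
  ring

lemma pairing_scl (G : Dom) (P₁ P₂ : Moduli) {c : ℂ} (hc : c ≠ 0) (s : Fin 2 → ℂ) (ψ : Fld) :
    pairing G P₁ P₂ (c • s) (scl c ψ) = c ^ 2 * pairing G P₁ P₂ s ψ := by
  unfold pairing
  rw [← integral_const_mul]
  refine integral_congr_ae (ae_of_all _ fun x => ?_)
  simp only [Finset.mul_sum]
  refine Finset.sum_congr rfl fun a _ => Finset.sum_congr rfl fun b _ => ?_
  rw [Amat_smul' P₂ hc, Amat_smul' P₁ hc, scl]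
  have h1 := wt_ne hc a
  have h2 := wt_ne hc b
  field_simp

section
variable {G : Dom} {P₁ P₂ : Moduli} (hO : StmtOrth) (hD : SameData G P₁ P₂) (hRI : StmtRI)
include hO hD hRI

lemma Phi_scl {c : ℂ} (hc : c ≠ 0) {s : Fin 2 → ℂ} (hs : s ≠ 0) {φ : Fld} (hφ : SmF φ) :
    Phi G P₁ P₂ (c • s) (scl c φ) = Phi G P₁ P₂ s φ := by
  obtain ⟨ψ, h1, h2⟩ := solve hRI G P₁ P₂ hs hφ
  have hcs : c • s ≠ 0 := smul_ne_zero hc hs
  rw [Phi_eq hO hD hs h1 h2]
  have h3 : Phi G P₁ P₂ (c • s) (fun a b x => c ^ 2 * scl c φ a b x + 0 * scl c φ a b x)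
      = pairing G P₁ P₂ (c • s) (scl c ψ) := by
    refine Phi_eq hO hD hcs (scl_smooth c h1) ?_
    filter_upwards [h2] with x hx a b
    rw [Dstar_scl P₁ P₂ hc s h1, hx]
    simp [scl]
  rw [Phi_lin hO hD hRI hcs (scl_smooth c hφ) (scl_smooth c hφ), pairing_scl G P₁ P₂ hc] at h3
  have h4 : c ^ 2 ≠ 0 := pow_ne_zero 2 hc
  apply mul_left_cancel₀ h4
  linear_combination h3

lemma Phi_single_scl {c : ℂ} (hc : c ≠ 0) {s : Fin 2 → ℂ} (hs : s ≠ 0) (a b : Opt) {η : R3 → ℂ}
    (hη : ContDiff ℝ ∞ η) :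
    wt c b * Phi G P₁ P₂ (c • s) (single a b η) = wt c a * Phi G P₁ P₂ s (single a b η) := by
  have hsm := single_smooth a b hη
  have h := Phi_scl hO hD hRI hc hs hsm
  have hcs : c • s ≠ 0 := smul_ne_zero hc hs
  have e : scl c (single a b η) = fun a' b' x =>
      ((wt c a)⁻¹ * wt c b) * single a b η a' b' x + 0 * single a b η a' b' x := by
    funext a' b' x
    unfold scl single
    by_cases h : a' = a ∧ b' = b
    · rw [if_pos h, h.1, h.2]; ring
    · rw [if_neg h]; simp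
  rw [e, Phi_lin hO hD hRI hcs hsm hsm] at h
  have ha := wt_ne hc a
  rw [← h]
  field_simp
  ring

end

/-! ### Liouville -/

lemma pth_left (z : ℂ) : pth ![1, 0] ![0, 1] z = ![1, z] := by
  funext i; fin_cases i <;> simp [pth]

lemma pth_right (z : ℂ) : pth ![0, 1] ![1, 0] z = ![z, 1] := by
  funext i; fin_cases i <;> simp [pth]

lemma left_ne (z : ℂ) : (![1, z] : Fin 2 → ℂ) ≠ 0 := fun h => by
  have := congrFun h 0
  simp at this

lemma right_ne (z : ℂ) : (![z, 1] : Fin 2 → ℂ) ≠ 0 := fun h => by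
  have := congrFun h 1
  simp at this

lemma left_eq_smul {z : ℂ} (hz : z ≠ 0) : (![1, z] : Fin 2 → ℂ) = z • ![z⁻¹, 1] := by
  funext i; fin_cases i <;> simp [hz]

lemma right_eq_smul {z : ℂ} (hz : z ≠ 0) : (![z, 1] : Fin 2 → ℂ) = z • ![1, z⁻¹] := by
  funext i; fin_cases i <;> simp [hz]

lemma spinor_cases (s : Fin 2 → ℂ) (hs : s ≠ 0) :
    (∃ c z : ℂ, c ≠ 0 ∧ s = c • ![1, z]) ∨ (∃ c : ℂ, c ≠ 0 ∧ s = c • ![0, 1]) := by
  by_cases h : s 0 = 0
  · right
    have h1 : s 1 ≠ 0 := by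
      intro h1
      exact hs (by funext i; fin_cases i <;> simp [h, h1])
    exact ⟨s 1, h1, by funext i; fin_cases i <;> simp [h]⟩
  · left
    exact ⟨s 0, s 1 / s 0, h, by funext i; fin_cases i <;> simp [h, mul_div_cancel₀]⟩

lemma tendsto_left {g : ℂ → ℂ} (hg : ContinuousAt g 0) :
    Tendsto (fun z : ℂ => g z⁻¹) (cocompact ℂ) (𝓝 (g 0)) := by
  rw [← Metric.cobounded_eq_cocompact]
  exact hg.tendsto.comp tendsto_inv₀_cobounded

/-- Liouville on the sphere, degree `0` -/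
lemma liouville_zero {Ψ : (Fin 2 → ℂ) → ℂ}
    (hf : Differentiable ℂ fun z => Ψ ![1, z]) (hg : Differentiable ℂ fun z => Ψ ![z, 1])
    (hs : ∀ c : ℂ, c ≠ 0 → ∀ s : Fin 2 → ℂ, s ≠ 0 → Ψ (c • s) = Ψ s) :
    ∃ k : ℂ, ∀ s : Fin 2 → ℂ, s ≠ 0 → Ψ s = k := by
  have hne : ∀ᶠ z in cocompact ℂ, z ≠ 0 := by
    rw [← Metric.cobounded_eq_cocompact]; exact Bornology.eventually_ne_cobounded 0
  have h1 : Tendsto (fun z : ℂ => Ψ ![1, z]) (cocompact ℂ) (𝓝 (Ψ ![0, 1])) := by
    refine (tendsto_left (g := fun z => Ψ ![z, 1]) hg.continuous.continuousAt).congr' ?_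
    filter_upwards [hne] with z hz
    rw [left_eq_smul hz, hs z hz _ (right_ne _)]
  have h2 := hf.eq_const_of_tendsto_cocompact h1
  refine ⟨Ψ ![0, 1], fun s h => ?_⟩
  rcases spinor_cases s h with ⟨c, z, hc, rfl⟩ | ⟨c, hc, rfl⟩
  · rw [hs c hc _ (left_ne z)]
    exact congrFun h2 z
  · rw [hs c hc _ (right_ne 0)]

/-- Liouville on the sphere, degree `-1` -/
lemma liouville_neg {Ψ : (Fin 2 → ℂ) → ℂ}
    (hf : Differentiable ℂ fun z => Ψ ![1, z]) (hg : Differentiable ℂ fun z => Ψ ![z, 1])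
    (hs : ∀ c : ℂ, c ≠ 0 → ∀ s : Fin 2 → ℂ, s ≠ 0 → c * Ψ (c • s) = Ψ s) :
    ∀ s : Fin 2 → ℂ, s ≠ 0 → Ψ s = 0 := by
  have hs' : ∀ c : ℂ, c ≠ 0 → ∀ s : Fin 2 → ℂ, s ≠ 0 → Ψ (c • s) = c⁻¹ * Ψ s := by
    intro c hc s h
    rw [← hs c hc s h]; field_simp
  have hne : ∀ᶠ z in cocompact ℂ, z ≠ 0 := by
    rw [← Metric.cobounded_eq_cocompact]; exact Bornology.eventually_ne_cobounded 0
  have h1 : Tendsto (fun z : ℂ => Ψ ![1, z]) (cocompact ℂ) (𝓝 0) := by
    have h2 := tendsto_left (g := fun z => z * Ψ ![z, 1])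
      (continuous_id.mul hg.continuous).continuousAt
    simp only [zero_mul] at h2
    refine h2.congr' ?_
    filter_upwards [hne] with z hz
    rw [left_eq_smul hz, hs' z hz _ (right_ne _)]
  have h2 : ∀ z, Ψ ![1, z] = 0 := fun z => congrFun (hf.eq_const_of_tendsto_cocompact h1) z
  have h3 : ∀ z : ℂ, z ≠ 0 → Ψ ![z, 1] = 0 := by
    intro z hz
    rw [right_eq_smul hz, hs' z hz _ (left_ne _), h2, mul_zero]
  have h4 : Ψ ![0, 1] = 0 := by
    have hc : Tendsto (fun z : ℂ => Ψ ![z, 1]) (𝓝[≠] 0) (𝓝 (Ψ ![0, 1])) :=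
      (hg.continuous.tendsto 0).mono_left nhdsWithin_le_nhds
    have hc' : Tendsto (fun z : ℂ => Ψ ![z, 1]) (𝓝[≠] 0) (𝓝 0) := by
      refine tendsto_const_nhds.congr' ?_
      filter_upwards [self_mem_nhdsWithin] with z hz
      exact (h3 z hz).symm
    exact tendsto_nhds_unique hc hc'
  intro s h
  rcases spinor_cases s h with ⟨c, z, hc, rfl⟩ | ⟨c, hc, rfl⟩
  · rw [hs' c hc _ (left_ne z), h2, mul_zero]
  · rw [hs' c hc _ (right_ne 0), h4, mul_zero]

section
variable {G : Dom} {P₁ P₂ : Moduli} (hO : StmtOrth) (hD : SameData G P₁ P₂) (hRI : StmtRI)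
include hO hD hRI

lemma Phi_diff_left {φ : Fld} (hφ : SmF φ) :
    Differentiable ℂ fun z => Phi G P₁ P₂ ![1, z] φ := by
  have h := Phi_differentiable hO hD hRI (u := ![1, 0]) (v := ![0, 1])
    (fun z => by rw [pth_left]; exact left_ne z) hφ
  simpa only [pth_left] using h

lemma Phi_diff_right {φ : Fld} (hφ : SmF φ) :
    Differentiable ℂ fun z => Phi G P₁ P₂ ![z, 1] φ := by
  have h := Phi_differentiable hO hD hRI (u := ![0, 1]) (v := ![1, 0])
    (fun z => by rw [pth_right]; exact right_ne z) hφ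
  simpa only [pth_right] using h

lemma Phi_deg_zero (a b : Opt) (hab : ∀ c, wt c a = wt c b) {η : R3 → ℂ}
    (hη : ContDiff ℝ ∞ η) :
    ∃ k : ℂ, ∀ s : Fin 2 → ℂ, s ≠ 0 → Phi G P₁ P₂ s (single a b η) = k := by
  have hsm := single_smooth a b hη
  refine liouville_zero (Phi_diff_left hO hD hRI hsm) (Phi_diff_right hO hD hRI hsm)
    fun c hc s hs => ?_
  have := Phi_single_scl hO hD hRI hc hs a b hη
  rw [hab c] at this
  exact mul_left_cancel₀ (wt_ne hc b) this

lemma Phi_deg_neg (j : Fin 2) {η : R3 → ℂ} (hη : ContDiff ℝ ∞ η) :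
    ∀ s : Fin 2 → ℂ, s ≠ 0 → Phi G P₁ P₂ s (single none (some j) η) = 0 := by
  have hsm := single_smooth none (some j) hη
  refine liouville_neg (Phi_diff_left hO hD hRI hsm) (Phi_diff_right hO hD hRI hsm)
    fun c hc s hs => ?_
  have := Phi_single_scl hO hD hRI hc hs none (some j) hη
  simpa [wt] using this

omit hO hD in
/-- solvability of the vector adjoint system -/
lemma solve_vec {s : Fin 2 → ℂ} (hs : s ≠ 0) (i : Opt) {η : R3 → ℂ} (hη : ContDiff ℝ ∞ η) :
    ∃ ζ : Opt → R3 → ℂ, (∀ a, ContDiff ℝ ∞ (ζ a)) ∧ ∀ᶠ x in 𝓝ˢ (closure G.Ω), ∀ a,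
      -DD (th s) (ζ a) x - ∑ c, Amat P₂ s c a x * ζ c x = if a = i then η x else 0 := by
  obtain ⟨R, hR0, hR⟩ := dom_exists_ball G
  obtain ⟨χ, hχ, hχc, hχ1, -, -⟩ := exists_cutoff R (R + 1) hR0 (by linarith)
  obtain ⟨B, hB⟩ := bdd_cut hχ.continuous hχc hη.continuous
  have hB0 : 0 ≤ B := (norm_nonneg _).trans (hB 0)
  obtain ⟨M, hM⟩ := hRI Opt Unit (fun _ => th s) continuous_const (fun _ => isNull_th hs)
    (fun _ a c x => -Amat P₂ s c a x) (fun _ a c => (contDiff_Amat P₂ s c a).neg)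
    (fun a c => (contDiff_Amat P₂ s c a).continuous.neg.comp continuous_snd) R ()
  obtain ⟨ζ, h1, h2, -⟩ := hM.self_of_nhds
    (fun a x => if a = i then -(χ x * η x) else 0) (fun a => by
      by_cases h : a = i
      · simp only [if_pos h]; exact (hχ.mul hη).neg
      · simp only [if_neg h]; exact contDiff_const) B (fun a x => by
      by_cases h : a = i
      · simp only [if_pos h]; exact hB x
      · simp only [if_neg h]; simpa using hB0)
  refine ⟨ζ, h1, ?_⟩
  have hnear : Metric.ball (0 : R3) R ∈ 𝓝ˢ (closure G.Ω) :=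
    Metric.isOpen_ball.mem_nhdsSet.2 hR
  filter_upwards [hnear] with x hx a
  have hx' : ‖x‖ < R := by simpa using hx
  rw [h2 x hx' a]
  by_cases h : a = i
  · simp only [if_pos h, hχ1 x hx'.le, neg_mul, Finset.sum_neg_distrib]; ring
  · simp only [if_neg h, neg_mul, Finset.sum_neg_distrib]; ring

/-- the vector `(0, -s₁, s₀)` -/
def perp (s : Fin 2 → ℂ) : Opt → ℂ
  | none => 0
  | some j => if j = 0 then -s 1 else s 0

omit hO hD hRI in
lemma Amat_perp (P : Moduli) (s : Fin 2 → ℂ) (a : Opt) (x : R3) :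
    ∑ b, Amat P s a b x * perp s b = 0 := by
  have := Amat_mul_perp P s a x
  simp only [Fintype.sum_option, Fin.sum_univ_two, perp]
  simpa using this

lemma Phi_perp {s : Fin 2 → ℂ} (hs : s ≠ 0) (i : Opt) {η : R3 → ℂ} (hη : ContDiff ℝ ∞ η) :
    Phi G P₁ P₂ s (fun a b x => (-s 1) * single i (some 0) η a b x
      + (s 0) * single i (some 1) η a b x) = 0 := by
  obtain ⟨ζ, h1, h2⟩ := solve_vec (G := G) (P₂ := P₂) hRI hs i hη
  have hψ : SmF (fun a b x => ζ a x * perp s b) := fun a b => (h1 a).mul contDiff_const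
  have e : Phi G P₁ P₂ s (fun a b x => (-s 1) * single i (some 0) η a b x
      + (s 0) * single i (some 1) η a b x)
      = pairing G P₁ P₂ s (fun a b x => ζ a x * perp s b) := by
    refine Phi_eq hO hD hs hψ ?_
    filter_upwards [h2] with x hx a b
    have hx' := hx a
    have e1 : DD (th s) (fun x => ζ a x * perp s b) x = DD (th s) (ζ a) x * perp s b := by
      have : (fun x => ζ a x * perp s b) = fun x => perp s b * ζ a x := by
        funext x; ring
      rw [this, DD_const_mul (sm_diff (h1 a))]; ring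
    have e2 : ∑ c, Amat P₂ s c a x * (ζ c x * perp s b)
        = (∑ c, Amat P₂ s c a x * ζ c x) * perp s b := by
      rw [Finset.sum_mul]; exact Finset.sum_congr rfl fun c _ => by ring
    have e3 : ∑ c, ζ a x * perp s c * Amat P₁ s b c x = 0 := by
      have := Amat_perp P₁ s b x
      calc ∑ c, ζ a x * perp s c * Amat P₁ s b c x
          = ζ a x * ∑ c, Amat P₁ s b c x * perp s c := by
            rw [Finset.mul_sum]; exact Finset.sum_congr rfl fun c _ => by ring
        _ = 0 := by rw [this, mul_zero]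
    have e4 : Dstar P₁ P₂ s (fun a b x => ζ a x * perp s b) a b x
        = (if a = i then η x else 0) * perp s b := by
      simp only [Dstar]
      rw [e1, e2, e3, ← hx']
      ring
    rw [e4]
    unfold single perp
    rcases b with _ | j
    · by_cases h : a = i <;> simp [h]
    · fin_cases j <;> by_cases h : a = i <;> simp [h, mul_comm]
  rw [e]
  unfold pairing
  have : ∀ x, ∑ a, ∑ b, (Amat P₂ s a b x - Amat P₁ s a b x) * (ζ a x * perp s b) = 0 := by
    intro x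
    refine Finset.sum_eq_zero fun a _ => ?_
    have h1 := Amat_perp P₂ s a x
    have h2 := Amat_perp P₁ s a x
    calc ∑ b, (Amat P₂ s a b x - Amat P₁ s a b x) * (ζ a x * perp s b)
        = ζ a x * (∑ b, Amat P₂ s a b x * perp s b - ∑ b, Amat P₁ s a b x * perp s b) := by
          rw [← Finset.sum_sub_distrib, Finset.mul_sum]
          exact Finset.sum_congr rfl fun b _ => by ring
      _ = 0 := by rw [h1, h2]; ring
  simp only [this, integral_zero]

lemma Phi_some_some (i j : Fin 2) {η : R3 → ℂ} (hη : ContDiff ℝ ∞ η) :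
    ∀ s : Fin 2 → ℂ, s ≠ 0 → Phi G P₁ P₂ s (single (some i) (some j) η) = 0 := by
  have key : ∀ s : Fin 2 → ℂ, s ≠ 0 →
      (-s 1) * Phi G P₁ P₂ s (single (some i) (some 0) η)
        + (s 0) * Phi G P₁ P₂ s (single (some i) (some 1) η) = 0 := by
    intro s hs
    rw [← Phi_lin hO hD hRI hs (single_smooth _ _ hη) (single_smooth _ _ hη)]
    exact Phi_perp hO hD hRI hs (some i) hη
  obtain ⟨k, hk⟩ := Phi_deg_zero hO hD hRI (some i) (some j) (fun _ => rfl) hη
  have hk0 : k = 0 := by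
    fin_cases j
    · have h := key ![0, 1] (right_ne 0)
      rw [← hk ![0, 1] (right_ne 0)]
      simpa using h
    · have h := key ![1, 0] (left_ne 0)
      rw [← hk ![1, 0] (left_ne 0)]
      simpa using h
  intro s hs
  rw [hk s hs, hk0]

end

end Crest.Agent.R080.Gg

namespace Crest.Agent.R080

open Gg in
/-- T15: the gauge functional and its structure -/
theorem t_Gauge (hO : StmtOrth) (hRI : StmtRI) : StmtGauge := by
  intro G P₁ P₂ hD
  refine ⟨Phi G P₁ P₂, ?_, ?_, ?_, ?_, ?_, ?_⟩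
  · intro s hs ψ φ hψ hφ h
    exact Phi_eq hO hD hs hψ h
  · intro s hs φ φ' hφ hφ'
    have := Phi_lin hO hD hRI hs hφ hφ' 1 1
    simpa only [one_mul] using this
  · intro s hs c φ hφ
    have := Phi_lin hO hD hRI hs hφ hφ c 0
    simpa only [zero_mul, add_zero] using this
  · intro η hη
    exact Phi_deg_zero hO hD hRI none none (fun _ => rfl) hη
  · intro η hη s hs j
    exact Phi_deg_neg hO hD hRI j hη s hs
  · intro η hη s hs i j
    exact Phi_some_some hO hD hRI i j hη s hs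

end Crest.Agent.R080
end
private theorem rz_8116f63bee : type_of% @_root_.Crest.Agent.R080.Gg.perp.eq_1 := @_root_.Crest.Agent.R080.Gg.perp.eq_1 -- L784
private theorem rz_34ccc59a20 : type_of% @_root_.Crest.Agent.R080.Gg.wt.eq_1 := @_root_.Crest.Agent.R080.Gg.wt.eq_1 -- L514
end

-- ▼ part R080/BdryLoc
section

/-!
Row 80 (S0107), T16a: boundary localization.
-/

set_option autoImplicit false

open MeasureTheory Filter
open scoped ContDiff Topology
open Crest.AnalysisR.VecCalc3 Crest.AnalysisR.PDE.Elasticity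

noncomputable section
namespace Crest.Agent.R080

namespace BdryLoc

theorem isOpen_Omega (G : Dom) : IsOpen G.Ω := by
  rw [G.eq]; exact isOpen_lt G.smooth.continuous continuous_const

theorem rho_eq_zero_of_frontier (G : Dom) {x : R3} (hx : x ∈ frontier G.Ω) : G.rho x = 0 := by
  rw [G.eq] at hx
  exact frontier_lt_subset_eq G.smooth.continuous continuous_const hx

/-- quotient of a smooth function by `F` on the set where it is supported -/
theorem contDiff_div_of_support {F φ : R3 → ℂ} (hF : ContDiff ℝ ∞ F) (hφ : ContDiff ℝ ∞ φ)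
    (h : ∀ y ∈ tsupport φ, F y ≠ 0) : ContDiff ℝ ∞ fun y => φ y / F y := by
  rw [contDiff_iff_contDiffAt]
  intro y
  by_cases hy : y ∈ tsupport φ
  · simp only [div_eq_mul_inv]
    exact hφ.contDiffAt.mul (hF.contDiffAt.inv (h y hy))
  · have h0 : (fun y => φ y / F y) =ᶠ[𝓝 y] fun _ => 0 := by
      have : (tsupport φ)ᶜ ∈ 𝓝 y := (isClosed_tsupport φ).isOpen_compl.mem_nhds hy
      filter_upwards [this] with z hz
      have : φ z = 0 := image_eq_zero_of_notMem_tsupport hz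
      simp [this]
    exact (contDiffAt_const (c := (0 : ℂ))).congr_of_eventuallyEq h0

/-- the core: constancy of translated bump integrals -/
theorem core (G : Dom) (F : R3 → ℂ) (hF : ContDiff ℝ ∞ F) (x : R3) (hx : x ∈ frontier G.Ω)
    (e : R3) (he : 0 < fderiv ℝ G.rho x e)
    (h : ∀ χ : R3 → ℂ, ContDiff ℝ ∞ χ → HasCompactSupport χ →
      ∫ y in G.Ω, fderiv ℝ (fun z => F z * χ z) y e = 0) : F x = 0 := by
  by_contra hFx
  have hρx : G.rho x = 0 := rho_eq_zero_of_frontier G hx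
  -- the function t ↦ ρ (x + t e)
  have hder : HasDerivAt (fun t : ℝ => G.rho (x + t • e)) (fderiv ℝ G.rho x e) 0 := by
    have h1 : HasFDerivAt G.rho (fderiv ℝ G.rho x) (x + (0 : ℝ) • e) := by
      simpa using (G.smooth.differentiable (by simp)).differentiableAt.hasFDerivAt (x := x)
    have h2 : HasDerivAt (fun t : ℝ => x + t • e) e 0 := by
      simpa using ((hasDerivAt_id (0 : ℝ)).smul_const e).const_add x
    exact h1.comp_hasDerivAt (0 : ℝ) h2
  -- small δ
  have hpos : ∀ᶠ t in 𝓝[>] (0 : ℝ), 0 < G.rho (x + t • e) := by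
    have := (hasDerivAt_iff_tendsto_slope.1 hder).eventually (lt_mem_nhds he)
    have h3 : 𝓝[>] (0 : ℝ) ≤ 𝓝[≠] 0 := nhdsWithin_mono _ (fun t ht => ne_of_gt ht)
    filter_upwards [h3 this, self_mem_nhdsWithin] with t ht ht0
    have ht0' : (0 : ℝ) < t := ht0
    simp only [slope, vsub_eq_sub, sub_zero, smul_eq_mul, zero_smul, add_zero, hρx] at ht
    have := mul_pos ht0' ht
    rwa [← mul_assoc, mul_inv_cancel₀ ht0'.ne', one_mul] at this
  have hneg : ∀ᶠ t in 𝓝[>] (0 : ℝ), G.rho (x - t • e) < 0 := by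
    have := (hasDerivAt_iff_tendsto_slope.1 hder).eventually (lt_mem_nhds he)
    have h3 : 𝓝[<] (0 : ℝ) ≤ 𝓝[≠] 0 := nhdsWithin_mono _ (fun t ht => ne_of_lt ht)
    have h4 : ∀ᶠ t in 𝓝[<] (0 : ℝ), G.rho (x + t • e) < 0 := by
      filter_upwards [h3 this, self_mem_nhdsWithin] with t ht ht0
      have ht0' : t < 0 := ht0
      simp only [slope, vsub_eq_sub, sub_zero, smul_eq_mul, zero_smul, add_zero, hρx] at ht
      have := mul_neg_of_neg_of_pos ht0' ht
      rwa [← mul_assoc, mul_inv_cancel₀ ht0'.ne, one_mul] at this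
    have h5 : Tendsto (fun t : ℝ => -t) (𝓝[>] 0) (𝓝[<] 0) := by
      refine tendsto_nhdsWithin_of_tendsto_nhds_of_eventually_within _ ?_ ?_
      · have : Tendsto (fun t : ℝ => -t) (𝓝 0) (𝓝 (-0)) := tendsto_id.neg
        rw [neg_zero] at this
        exact this.mono_left nhdsWithin_le_nhds
      · filter_upwards [self_mem_nhdsWithin] with t ht
        have : (0:ℝ) < t := ht
        simpa using this
    filter_upwards [h5.eventually h4] with t ht
    simpa [sub_eq_add_neg] using ht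
  -- neighbourhood on which F ≠ 0
  obtain ⟨R, hR, hFR⟩ : ∃ R > 0, ∀ y ∈ Metric.ball x R, F y ≠ 0 :=
    Metric.eventually_nhds_iff_ball.1 (hF.continuous.continuousAt.eventually_ne hFx)
  have hsmall : ∀ᶠ t in 𝓝[>] (0 : ℝ), t * ‖e‖ < R / 2 := by
    have : Tendsto (fun t : ℝ => t * ‖e‖) (𝓝 0) (𝓝 (0 * ‖e‖)) := tendsto_id.mul_const _
    rw [zero_mul] at this
    exact (this.mono_left nhdsWithin_le_nhds).eventually (gt_mem_nhds (by positivity))
  obtain ⟨δ, ⟨⟨hδ1, hδ2⟩, hδ3⟩, hδ0⟩ :=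
    (((hpos.and hneg).and hsmall).and self_mem_nhdsWithin).exists
  have hδ0' : (0 : ℝ) < δ := hδ0
  -- small radius
  have hc1 : ∀ᶠ y in 𝓝 (x - δ • e), G.rho y < 0 :=
    G.smooth.continuous.continuousAt.eventually (gt_mem_nhds hδ2)
  have hc2 : ∀ᶠ y in 𝓝 (x + δ • e), 0 < G.rho y :=
    G.smooth.continuous.continuousAt.eventually (lt_mem_nhds hδ1)
  obtain ⟨r1, hr1, hb1⟩ := Metric.eventually_nhds_iff_ball.1 hc1
  obtain ⟨r2, hr2, hb2⟩ := Metric.eventually_nhds_iff_ball.1 hc2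
  set r := min (min r1 r2) (R / 2) / 2 with hr
  have hr0 : 0 < r := by positivity
  have hr1' : r < r1 := by
    have : min (min r1 r2) (R / 2) ≤ r1 := (min_le_left _ _).trans (min_le_left _ _)
    rw [hr]; linarith
  have hr2' : r < r2 := by
    have : min (min r1 r2) (R / 2) ≤ r2 := (min_le_left _ _).trans (min_le_right _ _)
    rw [hr]; linarith
  have hrR : r < R / 2 := by
    have : min (min r1 r2) (R / 2) ≤ R / 2 := min_le_right _ _
    rw [hr]; linarith
  set c := x - δ • e with hc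
  let β : ContDiffBump c := ⟨r / 2, r, by positivity, by linarith⟩
  have hβs : ContDiff ℝ ∞ (β : R3 → ℝ) := β.contDiff
  have hβsupp : tsupport (β : R3 → ℝ) = Metric.closedBall c r := β.tsupport_eq
  -- translated bumps
  set φ : ℝ → R3 → ℂ := fun t y => ((β (y - t • e) : ℝ) : ℂ) with hφ
  have hφs : ∀ t, ContDiff ℝ ∞ (φ t) := fun t =>
    Complex.ofRealCLM.contDiff.comp (hβs.comp (contDiff_id.sub contDiff_const))
  have hφzero : ∀ t y, r ≤ dist (y - t • e) c → φ t y = 0 := by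
    intro t y hy
    simp only [hφ]
    rw [β.zero_of_le_dist hy]; simp
  have hφts : ∀ t, tsupport (φ t) ⊆ Metric.closedBall (c + t • e) r := by
    intro t
    refine closure_minimal ?_ Metric.isClosed_closedBall
    intro y hy
    rw [Function.mem_support] at hy
    by_contra hyc
    rw [Metric.mem_closedBall, not_le] at hyc
    refine hy (hφzero t y ?_)
    have : dist (y - t • e) c = dist y (c + t • e) := by
      rw [dist_eq_norm, dist_eq_norm]; congr 1; abel
    rw [this]; exact hyc.le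
  have hφc : ∀ t, HasCompactSupport (φ t) := fun t =>
    (isCompact_closedBall _ _).of_isClosed_subset (isClosed_tsupport _) (hφts t)
  have hballR : ∀ t ∈ Set.Icc (0 : ℝ) (2 * δ), Metric.closedBall (c + t • e) r ⊆
      Metric.ball x R := by
    intro t ht y hy
    rw [Metric.mem_closedBall, dist_eq_norm] at hy
    rw [Metric.mem_ball, dist_eq_norm]
    have h1 : y - x = (y - (c + t • e)) + (t - δ) • e := by
      rw [hc, sub_smul]; abel
    rw [h1]
    have h2 : ‖(t - δ) • e‖ ≤ δ * ‖e‖ := by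
      rw [norm_smul]
      refine mul_le_mul_of_nonneg_right ?_ (norm_nonneg _)
      rw [Real.norm_eq_abs, abs_le]
      constructor <;> linarith [ht.1, ht.2]
    calc ‖(y - (c + t • e)) + (t - δ) • e‖ ≤ ‖y - (c + t • e)‖ + ‖(t - δ) • e‖ := norm_add_le _ _
      _ ≤ r + δ * ‖e‖ := add_le_add hy h2
      _ < R := by linarith
  -- the integral of the derivative vanishes
  have hzero : ∀ t ∈ Set.Icc (0 : ℝ) (2 * δ), ∫ y in G.Ω, fderiv ℝ (φ t) y e = 0 := by
    intro t ht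
    have hne : ∀ y ∈ tsupport (φ t), F y ≠ 0 := fun y hy =>
      hFR y (hballR t ht (hφts t hy))
    have h1 := h (fun y => φ t y / F y) (contDiff_div_of_support hF (hφs t) hne) ?_
    · have h2 : (fun z => F z * (φ t z / F z)) = φ t := by
        funext z
        by_cases hz : F z = 0
        · have : φ t z = 0 := by
            by_contra hne'
            exact hne z (subset_tsupport _ (Function.mem_support.2 hne')) hz
          rw [this]; simp
        · field_simp
      rw [h2] at h1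
      exact h1
    · refine (hφc t).mono ?_
      intro z hz
      rw [Function.mem_support] at hz ⊢
      intro h0
      exact hz (by rw [h0, zero_div])
  -- H(t) = ∫_Ω φ_t
  set H : ℝ → ℂ := fun t => ∫ y in G.Ω, φ t y with hH
  have hmeas : MeasurableSet G.Ω := (isOpen_Omega G).measurableSet
  have hfin : volume G.Ω < ⊤ := G.bdd.measure_lt_top
  have : IsFiniteMeasure (volume.restrict G.Ω) := ⟨by simpa using hfin⟩
  -- derivative bound
  obtain ⟨C, hC⟩ : ∃ C : ℝ, ∀ y, ‖fderiv ℝ (β : R3 → ℝ) y‖ ≤ C := by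
    have h1 : Continuous (fderiv ℝ (β : R3 → ℝ)) := hβs.continuous_fderiv (by simp)
    have h2 : HasCompactSupport (fderiv ℝ (β : R3 → ℝ)) := β.hasCompactSupport.fderiv ℝ
    exact h2.exists_bound_of_continuous h1
  have hder1 : ∀ t y, HasDerivAt (fun t => φ t y) (-(fderiv ℝ (φ t) y e)) t := by
    intro t y
    have h1 : HasFDerivAt (fun z : R3 => ((β z : ℝ) : ℂ))
        (Complex.ofRealCLM.comp (fderiv ℝ (β : R3 → ℝ) (y - t • e))) (y - t • e) := by
      exact Complex.ofRealCLM.hasFDerivAt.comp _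
        ((hβs.differentiable (by simp)).differentiableAt.hasFDerivAt)
    have h2 : HasDerivAt (fun t : ℝ => y - t • e) (-e) t := by
      simpa using ((hasDerivAt_id t).smul_const e).const_sub y
    have h3 := h1.comp_hasDerivAt t h2
    have h4 : fderiv ℝ (φ t) y = Complex.ofRealCLM.comp (fderiv ℝ (β : R3 → ℝ) (y - t • e)) := by
      have h5 : HasFDerivAt (fun y : R3 => y - t • e) (ContinuousLinearMap.id ℝ R3) y :=
        (hasFDerivAt_id y).sub_const _
      have h6 := (h1.comp y h5).fderiv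
      simpa [hφ, Function.comp_def] using h6
    rw [h4]
    simpa [Function.comp_def] using h3
  have hHd : ∀ t, HasDerivAt H (∫ y in G.Ω, -(fderiv ℝ (φ t) y e)) t := by
    intro t
    refine (hasDerivAt_integral_of_dominated_loc_of_deriv_le (s := Set.univ)
      (F := fun t y => φ t y) (F' := fun t y => -(fderiv ℝ (φ t) y e))
      (bound := fun _ => C * ‖e‖) univ_mem ?_ ?_ ?_ ?_ ?_ ?_).2
    · exact Eventually.of_forall fun t => (hφs t).continuous.aestronglyMeasurable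
    · exact ((hφs t).continuous.integrable_of_hasCompactSupport (hφc t)).integrableOn
    · exact (((hφs t).continuous_fderiv (by simp)).clm_apply continuous_const).neg.aestronglyMeasurable
    · refine Eventually.of_forall fun y t _ => ?_
      have h4 : fderiv ℝ (φ t) y = Complex.ofRealCLM.comp (fderiv ℝ (β : R3 → ℝ) (y - t • e)) := by
        have h1 : HasFDerivAt (fun z : R3 => ((β z : ℝ) : ℂ))
          (Complex.ofRealCLM.comp (fderiv ℝ (β : R3 → ℝ) (y - t • e))) (y - t • e) := by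
          exact Complex.ofRealCLM.hasFDerivAt.comp _
            ((hβs.differentiable (by simp)).differentiableAt.hasFDerivAt)
        have h5 : HasFDerivAt (fun y : R3 => y - t • e) (ContinuousLinearMap.id ℝ R3) y :=
          (hasFDerivAt_id y).sub_const _
        have h6 := (h1.comp y h5).fderiv
        simpa [hφ, Function.comp_def] using h6
      rw [norm_neg, h4]
      simp only [ContinuousLinearMap.comp_apply, Complex.ofRealCLM_apply, Complex.norm_real]
      calc ‖fderiv ℝ (β : R3 → ℝ) (y - t • e) e‖ ≤ ‖fderiv ℝ (β : R3 → ℝ) (y - t • e)‖ * ‖e‖ :=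
            ContinuousLinearMap.le_opNorm _ _
        _ ≤ C * ‖e‖ := mul_le_mul_of_nonneg_right (hC _) (norm_nonneg _)
    · exact integrable_const _
    · exact Eventually.of_forall fun y t _ => hder1 t y
  -- H is constant on [0, 2δ]
  have hconst : H (2 * δ) = H 0 := by
    have hcont : ContinuousOn H (Set.Icc 0 (2 * δ)) := fun t _ =>
      (hHd t).continuousAt.continuousWithinAt
    refine constant_of_has_deriv_right_zero hcont ?_ (2 * δ) ⟨by positivity, le_rfl⟩
    intro t ht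
    have := (hHd t).hasDerivWithinAt (s := Set.Ici t)
    rwa [integral_neg, hzero t ⟨ht.1, ht.2.le⟩, neg_zero] at this
  -- H (2δ) = 0
  have hH2 : H (2 * δ) = 0 := by
    simp only [hH]
    refine setIntegral_eq_zero_of_forall_eq_zero fun y hy => ?_
    by_contra hne
    have hy' : y ∈ Metric.closedBall (c + (2 * δ) • e) r :=
      hφts _ (subset_tsupport _ (Function.mem_support.2 hne))
    have hce : c + (2 * δ) • e = x + δ • e := by
      rw [hc, two_mul, add_smul]; abel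
    rw [hce] at hy'
    have h1 : 0 < G.rho y := hb2 y (Metric.closedBall_subset_ball hr2' hy')
    have h2 : G.rho y < 0 := by
      have := hy; rw [G.eq] at this; exact this
    linarith
  -- H 0 ≠ 0
  have hH0 : H 0 ≠ 0 := by
    have h1 : H 0 = ((∫ y, β y : ℝ) : ℂ) := by
      simp only [hH, hφ, zero_smul, sub_zero]
      rw [integral_complex_ofReal]
      congr 1
      refine setIntegral_eq_integral_of_forall_compl_eq_zero fun y hy => ?_
      by_contra hne
      have hy' : y ∈ Metric.closedBall c r := by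
        rw [← hβsupp]; exact subset_tsupport _ (Function.mem_support.2 hne)
      have : G.rho y < 0 := hb1 y (Metric.closedBall_subset_ball hr1' hy')
      exact hy (by rw [G.eq]; exact this)
    rw [h1]
    have h2 : 0 < ∫ y, β y := β.integral_pos
    exact_mod_cast h2.ne'
  exact hH0 (by rw [← hconst, hH2])

end BdryLoc

theorem t_BdryLoc : StmtBdryLoc := by
  intro G F hF x hx e he h
  rcases lt_or_gt_of_ne he with hlt | hgt
  · refine BdryLoc.core G F hF x hx (-e) (by rw [map_neg]; linarith) ?_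
    intro χ hχ hc
    have := h χ hχ hc
    simp only [map_neg]
    rw [integral_neg, this, neg_zero]
  · exact BdryLoc.core G F hF x hx e hgt h

end Crest.Agent.R080
end
end

-- ▼ part R080/RelBasic
section

/-!
Row 80 (S0107), T16b part 1: smoothness facts and the master identity.
-/

set_option autoImplicit false

open MeasureTheory Filter
open scoped ContDiff Topology
open Crest.AnalysisR.VecCalc3 Crest.AnalysisR.PDE.Elasticity

noncomputable section
namespace Crest.Agent.R080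
namespace Rel

/-! ### calculus -/

theorem contDiff_cf {f : R3 → ℝ} (hf : ContDiff ℝ ∞ f) : ContDiff ℝ ∞ (cf f) :=
  Complex.ofRealCLM.contDiff.comp hf

theorem contDiff_pderiv {f : R3 → ℝ} (hf : ContDiff ℝ ∞ f) (j : Fin 3) :
    ContDiff ℝ ∞ (fun x => pderiv f j x) :=
  (hf.fderiv_right (m := ∞) (by simp)).clm_apply contDiff_const

theorem contDiff_pd {f : R3 → ℂ} (hf : ContDiff ℝ ∞ f) (j : Fin 3) :
    ContDiff ℝ ∞ (pd j f) :=
  (hf.fderiv_right (m := ∞) (by simp)).clm_apply contDiff_const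

theorem contDiff_DD {f : R3 → ℂ} (hf : ContDiff ℝ ∞ f) (θ : Fin 3 → ℂ) :
    ContDiff ℝ ∞ (DD θ f) := by
  have : DD θ f = fun x => ∑ j, θ j * pd j f x := rfl
  rw [this]
  exact ContDiff.sum fun j _ => contDiff_const.mul (contDiff_pd hf j)

theorem pd_cf {f : R3 → ℝ} (hf : ContDiff ℝ ∞ f) (j : Fin 3) (x : R3) :
    pd j (cf f) x = ((pderiv f j x : ℝ) : ℂ) := by
  have h1 : HasFDerivAt f (fderiv ℝ f x) x :=
    (hf.differentiable (by simp)).differentiableAt.hasFDerivAt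
  have h2 : HasFDerivAt (cf f) (Complex.ofRealCLM.comp (fderiv ℝ f x)) x :=
    Complex.ofRealCLM.hasFDerivAt.comp x h1
  unfold pd pderiv
  rw [h2.fderiv]
  rfl

theorem DD_cf {f : R3 → ℝ} (hf : ContDiff ℝ ∞ f) (θ : Fin 3 → ℂ) (x : R3) :
    DD θ (cf f) x = ∑ j, θ j * ((pderiv f j x : ℝ) : ℂ) := by
  unfold DD
  exact Finset.sum_congr rfl fun j _ => by rw [pd_cf hf]

theorem pd_mul {f g : R3 → ℂ} (hf : ContDiff ℝ ∞ f) (hg : ContDiff ℝ ∞ g) (j : Fin 3) (x : R3) :
    pd j (fun y => f y * g y) x = f x * pd j g x + pd j f x * g x := by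
  have h1 : HasFDerivAt f (fderiv ℝ f x) x :=
    (hf.differentiable (by simp)).differentiableAt.hasFDerivAt
  have h2 : HasFDerivAt g (fderiv ℝ g x) x :=
    (hg.differentiable (by simp)).differentiableAt.hasFDerivAt
  unfold pd
  have h3 : (fun y => f y * g y) = f * g := rfl
  rw [h3, (h1.mul h2).fderiv]
  simp [mul_comm]

/-! ### moduli -/

section Moduli
variable (P : Moduli)

theorem lam_mu_pos (x : R3) : 0 < P.lam x + P.mu x := by
  have := P.mu_pos x; have := P.bulk_pos x; linarith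

theorem lam_two_mu_pos (x : R3) : 0 < P.lam x + 2 * P.mu x := by
  have := P.mu_pos x; have := P.bulk_pos x; linarith

theorem m_pos (x : R3) : 0 < P.m x := inv_pos.2 (P.mu_pos x)

theorem sm_pos (x : R3) : 0 < P.sm x := Real.sqrt_pos.2 (m_pos P x)

theorem kap_pos (x : R3) : 0 < P.kap x := by
  unfold Moduli.kap
  have := P.mu_pos x; have := lam_mu_pos P x; have := lam_two_mu_pos P x
  positivity

theorem smooth_m : ContDiff ℝ ∞ P.m := P.smooth_mu.inv fun x => (P.mu_pos x).ne'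

theorem smooth_sm : ContDiff ℝ ∞ P.sm := (smooth_m P).sqrt fun x => (m_pos P x).ne'

theorem smooth_kap : ContDiff ℝ ∞ P.kap :=
  ((P.smooth_lam.add P.smooth_mu).mul P.smooth_mu).div
    (contDiff_const.mul (P.smooth_lam.add (contDiff_const.mul P.smooth_mu)))
    fun x => by have := lam_two_mu_pos P x; positivity

theorem smooth_cfm_inv : ContDiff ℝ ∞ (fun x => 1 / (2 * P.m x)) :=
  contDiff_const.div (contDiff_const.mul (smooth_m P)) fun x => by
    have := m_pos P x; positivity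

end Moduli

theorem smooth_aa (P₁ P₂ : Moduli) : ContDiff ℝ ∞ (aa P₁ P₂) :=
  ((smooth_kap P₂).mul (smooth_sm P₂)).div ((smooth_kap P₁).mul (smooth_sm P₁)) fun x =>
    (mul_pos (kap_pos P₁ x) (sm_pos P₁ x)).ne'

theorem smooth_qq (P₁ P₂ : Moduli) (l : Fin 3) : ContDiff ℝ ∞ (qq P₁ P₂ l) :=
  ((((smooth_kap P₁).sub (smooth_cfm_inv P₁)).mul (contDiff_pderiv (smooth_m P₁) l)).sub
    (((smooth_kap P₂).sub (smooth_cfm_inv P₂)).mul (contDiff_pderiv (smooth_m P₂) l))).div
    ((smooth_kap P₁).mul (smooth_sm P₁)) fun x =>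
    (mul_pos (kap_pos P₁ x) (sm_pos P₁ x)).ne'

theorem smooth_Amat (P : Moduli) (s : Fin 2 → ℂ) (a b : Option (Fin 2)) :
    ContDiff ℝ ∞ (Amat P s a b) := by
  have hk := contDiff_cf (smooth_kap P)
  have hs := contDiff_cf (smooth_sm P)
  have hsne : ∀ x, (P.sm x : ℂ) ≠ 0 := fun x => by exact_mod_cast (sm_pos P x).ne'
  have hmne : ∀ x, 2 * (P.m x : ℂ) ≠ 0 := fun x => by
    have := (m_pos P x).ne'
    simpa using this
  have hm := contDiff_cf (smooth_m P)
  rcases a with _ | i <;> rcases b with _ | j <;> simp only [Amat]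
  · exact hk.neg.mul (contDiff_DD hm _)
  · exact (hk.neg.mul hs).mul contDiff_const
  · simp only [div_eq_mul_inv]
    exact ((hk.mul (hs.inv hsne)).mul (contDiff_DD hm _)).mul (contDiff_DD hm _)
  · simp only [div_eq_mul_inv]
    exact ((hk.sub (contDiff_const.mul ((contDiff_const.mul hm).inv hmne))).mul
      contDiff_const).mul (contDiff_DD hm _)

/-! ### the functional -/

theorem single_apply (a b : Option (Fin 2)) (η : R3 → ℂ) (a' b' : Option (Fin 2)) (x : R3) :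
    single a b η a' b' x = if a' = a ∧ b' = b then η x else 0 := by
  unfold single; split_ifs <;> rfl

theorem smooth_single {a b : Option (Fin 2)} {η : R3 → ℂ} (hη : ContDiff ℝ ∞ η)
    (a' b' : Option (Fin 2)) : ContDiff ℝ ∞ (single a b η a' b') := by
  unfold single
  split_ifs
  · exact hη
  · exact contDiff_const

theorem DD_single (θ : Fin 3 → ℂ) (a b : Option (Fin 2)) (η : R3 → ℂ) (a' b' : Option (Fin 2))
    (x : R3) : DD θ (single a b η a' b') x = single a b (DD θ η) a' b' x := by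
  unfold single
  split_ifs
  · rfl
  · simp [DD, pd]

theorem smooth_Dstar (P₁ P₂ : Moduli) (s : Fin 2 → ℂ)
    (ψ : Option (Fin 2) → Option (Fin 2) → R3 → ℂ) (hψ : ∀ a b, ContDiff ℝ ∞ (ψ a b))
    (a b : Option (Fin 2)) : ContDiff ℝ ∞ (Dstar P₁ P₂ s ψ a b) := by
  have : Dstar P₁ P₂ s ψ a b = fun x =>
    -DD (th s) (ψ a b) x - ∑ c, Amat P₂ s c a x * ψ c b x + ∑ c, ψ a c x * Amat P₁ s b c x := rfl
  rw [this]
  exact (((contDiff_DD (hψ a b) _).neg).sub
    (ContDiff.sum fun c _ => (smooth_Amat P₂ s c a).mul (hψ c b))).add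
    (ContDiff.sum fun c _ => (hψ a c).mul (smooth_Amat P₁ s b c))

/-- linearity package for the functional -/
structure Lin (Φ : (Option (Fin 2) → Option (Fin 2) → R3 → ℂ) → ℂ) : Prop where
  add : ∀ φ φ' : Option (Fin 2) → Option (Fin 2) → R3 → ℂ,
    (∀ a b, ContDiff ℝ ∞ (φ a b)) → (∀ a b, ContDiff ℝ ∞ (φ' a b)) →
    Φ (fun a b x => φ a b x + φ' a b x) = Φ φ + Φ φ'
  smul : ∀ (c : ℂ) (φ : Option (Fin 2) → Option (Fin 2) → R3 → ℂ),
    (∀ a b, ContDiff ℝ ∞ (φ a b)) → Φ (fun a b x => c * φ a b x) = c * Φ φ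

theorem Lin.zero {Φ : (Option (Fin 2) → Option (Fin 2) → R3 → ℂ) → ℂ} (h : Lin Φ) :
    Φ (fun _ _ _ => 0) = 0 := by
  have := h.smul 0 (fun _ _ _ => 0) (fun _ _ => contDiff_const)
  simpa using this

theorem Lin.sum {Φ : (Option (Fin 2) → Option (Fin 2) → R3 → ℂ) → ℂ} (h : Lin Φ)
    {κ : Type} [DecidableEq κ] (S : Finset κ) (f : κ → Option (Fin 2) → Option (Fin 2) → R3 → ℂ)
    (hf : ∀ k a b, ContDiff ℝ ∞ (f k a b)) :
    Φ (fun a b x => ∑ k ∈ S, f k a b x) = ∑ k ∈ S, Φ (f k) := by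
  induction S using Finset.induction_on with
  | empty => simpa using h.zero
  | insert k S hk ih =>
    simp only [Finset.sum_insert hk]
    rw [h.add (f k) (fun a b x => ∑ k ∈ S, f k a b x) (hf k)
      (fun a b => ContDiff.sum fun k _ => hf k a b), ih]

theorem master (G : Dom) (P₁ P₂ : Moduli) (s : Fin 2 → ℂ)
    (Φ : (Option (Fin 2) → Option (Fin 2) → R3 → ℂ) → ℂ) (hΦ : Lin Φ)
    (h1 : ∀ ψ φ : Option (Fin 2) → Option (Fin 2) → R3 → ℂ,
        (∀ a b, ContDiff ℝ ∞ (ψ a b)) → (∀ a b, ContDiff ℝ ∞ (φ a b)) →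
        (∀ᶠ x in 𝓝ˢ (closure G.Ω), ∀ a b, Dstar P₁ P₂ s ψ a b x = φ a b x) →
        Φ φ = pairing G P₁ P₂ s ψ)
    (a0 b0 : Option (Fin 2)) (η : R3 → ℂ) (hη : ContDiff ℝ ∞ η) :
    -Φ (single a0 b0 (DD (th s) η)) - ∑ c, Φ (single c b0 (fun x => Amat P₂ s a0 c x * η x))
      + ∑ d, Φ (single a0 d (fun x => η x * Amat P₁ s d b0 x))
      = ∫ x in G.Ω, (Amat P₂ s a0 b0 x - Amat P₁ s a0 b0 x) * η x := by
  have e1 := h1 (single a0 b0 η) (Dstar P₁ P₂ s (single a0 b0 η)) (smooth_single hη)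
    (smooth_Dstar P₁ P₂ s _ (smooth_single hη)) (Eventually.of_forall fun x a b => rfl)
  have e2 : pairing G P₁ P₂ s (single a0 b0 η)
      = ∫ x in G.Ω, (Amat P₂ s a0 b0 x - Amat P₁ s a0 b0 x) * η x := by
    unfold pairing
    congr 1
    funext x
    simp only [single_apply, ite_and, mul_ite, mul_zero]
    simp
  have e3 : Dstar P₁ P₂ s (single a0 b0 η) = fun a b x =>
      ((-1) * single a0 b0 (DD (th s) η) a b x
        + (-1) * ∑ c, single c b0 (fun x => Amat P₂ s a0 c x * η x) a b x)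
      + ∑ d, single a0 d (fun x => η x * Amat P₁ s d b0 x) a b x := by
    funext a b x
    unfold Dstar
    rw [DD_single]
    have t1 : ∑ c, Amat P₂ s c a x * single a0 b0 η c b x
        = ∑ c, single c b0 (fun x => Amat P₂ s a0 c x * η x) a b x := by
      simp only [single_apply, ite_and, mul_ite, mul_zero]
      simp
    have t2 : ∑ c, single a0 b0 η a c x * Amat P₁ s b c x
        = ∑ d, single a0 d (fun x => η x * Amat P₁ s d b0 x) a b x := by
      simp only [single_apply, ite_and, ite_mul, zero_mul]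
      by_cases ha : a = a0 <;> simp [ha]
    rw [t1, t2]
    ring
  have hs1 : ∀ c a b, ContDiff ℝ ∞ (single c b0 (fun x => Amat P₂ s a0 c x * η x) a b) :=
    fun c a b => smooth_single ((smooth_Amat P₂ s a0 c).mul hη) a b
  have hs2 : ∀ d a b, ContDiff ℝ ∞ (single a0 d (fun x => η x * Amat P₁ s d b0 x) a b) :=
    fun d a b => smooth_single (hη.mul (smooth_Amat P₁ s d b0)) a b
  have hs0 : ∀ a b, ContDiff ℝ ∞ (single a0 b0 (DD (th s) η) a b) :=
    fun a b => smooth_single (contDiff_DD hη _) a b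
  have hs1' : ∀ a b, ContDiff ℝ ∞
      (fun x => ∑ c, single c b0 (fun x => Amat P₂ s a0 c x * η x) a b x) :=
    fun a b => ContDiff.sum fun c _ => hs1 c a b
  have hs2' : ∀ a b, ContDiff ℝ ∞
      (fun x => ∑ d, single a0 d (fun x => η x * Amat P₁ s d b0 x) a b x) :=
    fun a b => ContDiff.sum fun d _ => hs2 d a b
  have e4 : Φ (Dstar P₁ P₂ s (single a0 b0 η)) =
      -Φ (single a0 b0 (DD (th s) η)) - ∑ c, Φ (single c b0 (fun x => Amat P₂ s a0 c x * η x))
      + ∑ d, Φ (single a0 d (fun x => η x * Amat P₁ s d b0 x)) := by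
    rw [e3, hΦ.add _ _ (fun a b => (contDiff_const.mul (hs0 a b)).add
        (contDiff_const.mul (hs1' a b))) hs2',
      hΦ.add _ _ (fun a b => contDiff_const.mul (hs0 a b)) (fun a b => contDiff_const.mul (hs1' a b)),
      hΦ.smul _ _ hs0, hΦ.smul _ _ hs1', hΦ.sum _ _ hs1, hΦ.sum _ _ hs2]
    ring
  rw [← e4, e1, e2]

end Rel
end Crest.Agent.R080
end
end

-- ▼ part R080/Relations
section

/-!
Row 80 (S0107), T16b: the relations between the moduli.
-/

set_option autoImplicit false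

open MeasureTheory Filter
open scoped ContDiff Topology
open Crest.AnalysisR.VecCalc3 Crest.AnalysisR.PDE.Elasticity

noncomputable section
namespace Crest.Agent.R080
namespace Rel

theorem integrableOn_cont (G : Dom) {f : R3 → ℂ} (hf : Continuous f) : IntegrableOn f G.Ω :=
  (hf.continuousOn.integrableOn_compact G.bdd.isCompact_closure).mono_set subset_closure

/-- blocks of the functional at a fixed spinor -/
structure Blk (G : Dom) (P₁ P₂ : Moduli) (s : Fin 2 → ℂ)
    (Φ : (Option (Fin 2) → Option (Fin 2) → R3 → ℂ) → ℂ) : Prop where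
  mst : ∀ (a0 b0 : Option (Fin 2)) (η : R3 → ℂ), ContDiff ℝ ∞ η →
    -Φ (single a0 b0 (DD (th s) η)) - ∑ c, Φ (single c b0 (fun x => Amat P₂ s a0 c x * η x))
      + ∑ d, Φ (single a0 d (fun x => η x * Amat P₁ s d b0 x))
      = ∫ x in G.Ω, (Amat P₂ s a0 b0 x - Amat P₁ s a0 b0 x) * η x
  z1 : ∀ η : R3 → ℂ, ContDiff ℝ ∞ η → ∀ j, Φ (single none (some j) η) = 0
  z2 : ∀ η : R3 → ℂ, ContDiff ℝ ∞ η → ∀ i j, Φ (single (some i) (some j) η) = 0

section
variable {G : Dom} {P₁ P₂ : Moduli} {s : Fin 2 → ℂ}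
  {Φ : (Option (Fin 2) → Option (Fin 2) → R3 → ℂ) → ℂ}

theorem ksm_ne (P : Moduli) (x : R3) : (P.kap x : ℂ) * (P.sm x : ℂ) ≠ 0 := by
  exact_mod_cast (mul_pos (kap_pos P x) (sm_pos P x)).ne'

theorem smooth_ksm (P : Moduli) : ContDiff ℝ ∞ fun x => (P.kap x : ℂ) * (P.sm x : ℂ) :=
  (contDiff_cf (smooth_kap P)).mul (contDiff_cf (smooth_sm P))

theorem Blk.gg (h : Blk G P₁ P₂ s Φ) {j : Fin 2} (hj : s j ≠ 0) (ζ : R3 → ℂ)
    (hζ : ContDiff ℝ ∞ ζ) :
    Φ (single none none ζ) = ∫ x in G.Ω, ((aa P₁ P₂ x : ℂ) - 1) * ζ x := by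
  have hne : ∀ x, (P₁.kap x : ℂ) * (P₁.sm x : ℂ) * s j ≠ 0 := fun x => mul_ne_zero (ksm_ne P₁ x) hj
  set η : R3 → ℂ := fun x => -(ζ x * ((P₁.kap x : ℂ) * (P₁.sm x : ℂ) * s j)⁻¹) with hη
  have hηs : ContDiff ℝ ∞ η :=
    (hζ.mul (((smooth_ksm P₁).mul contDiff_const).inv hne)).neg
  have e := h.mst none (some j) η hηs
  rw [h.z1 _ (contDiff_DD hηs _), Fintype.sum_option, Fintype.sum_option,
    h.z1 _ ((smooth_Amat P₂ s none none).mul hηs),
    Finset.sum_eq_zero (fun i _ => h.z2 _ ((smooth_Amat P₂ s none (some i)).mul hηs) i j),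
    Finset.sum_eq_zero (fun i _ => h.z1 _ (hηs.mul (smooth_Amat P₁ s (some i) (some j))) i)] at e
  have e1 : (fun x => η x * Amat P₁ s none (some j) x) = ζ := by
    funext x
    simp only [hη, Amat]
    have := ksm_ne P₁ x
    have h1 : (P₁.kap x : ℂ) ≠ 0 := left_ne_zero_of_mul this
    have h2 : (P₁.sm x : ℂ) ≠ 0 := right_ne_zero_of_mul this
    field_simp
  rw [e1] at e
  have e2 : (fun x => (Amat P₂ s none (some j) x - Amat P₁ s none (some j) x) * η x)
      = fun x => ((aa P₁ P₂ x : ℂ) - 1) * ζ x := by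
    funext x
    simp only [hη, Amat, aa]
    push_cast
    have := ksm_ne P₁ x
    have h1 : (P₁.kap x : ℂ) ≠ 0 := left_ne_zero_of_mul this
    have h2 : (P₁.sm x : ℂ) ≠ 0 := right_ne_zero_of_mul this
    field_simp
    ring
  rw [e2] at e
  simpa using e

theorem Blk.ig (h : Blk G P₁ P₂ s Φ) {j : Fin 2} (hj : s j ≠ 0) (i : Fin 2) (ζ : R3 → ℂ)
    (hζ : ContDiff ℝ ∞ ζ) :
    Φ (single (some i) none ζ) = ∫ x in G.Ω, (∑ l, nu s i l * (qq P₁ P₂ l x : ℂ)) * ζ x := by
  have hne : ∀ x, (P₁.kap x : ℂ) * (P₁.sm x : ℂ) * s j ≠ 0 := fun x => mul_ne_zero (ksm_ne P₁ x) hj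
  set η : R3 → ℂ := fun x => -(ζ x * ((P₁.kap x : ℂ) * (P₁.sm x : ℂ) * s j)⁻¹) with hη
  have hηs : ContDiff ℝ ∞ η :=
    (hζ.mul (((smooth_ksm P₁).mul contDiff_const).inv hne)).neg
  have e := h.mst (some i) (some j) η hηs
  rw [h.z2 _ (contDiff_DD hηs _), Fintype.sum_option, Fintype.sum_option,
    h.z1 _ ((smooth_Amat P₂ s (some i) none).mul hηs),
    Finset.sum_eq_zero (fun k _ => h.z2 _ ((smooth_Amat P₂ s (some i) (some k)).mul hηs) k j),
    Finset.sum_eq_zero (fun k _ => h.z2 _ (hηs.mul (smooth_Amat P₁ s (some k) (some j))) i k)] at e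
  have e1 : (fun x => η x * Amat P₁ s none (some j) x) = ζ := by
    funext x
    simp only [hη, Amat]
    have := ksm_ne P₁ x
    have h1 : (P₁.kap x : ℂ) ≠ 0 := left_ne_zero_of_mul this
    have h2 : (P₁.sm x : ℂ) ≠ 0 := right_ne_zero_of_mul this
    field_simp
  rw [e1] at e
  have e2 : (fun x => (Amat P₂ s (some i) (some j) x - Amat P₁ s (some i) (some j) x) * η x)
      = fun x => (∑ l, nu s i l * (qq P₁ P₂ l x : ℂ)) * ζ x := by
    funext x
    simp only [hη, Amat, qq, DD_cf (smooth_m P₁), DD_cf (smooth_m P₂), Fin.sum_univ_three]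
    push_cast
    have := ksm_ne P₁ x
    have h1 : (P₁.kap x : ℂ) ≠ 0 := left_ne_zero_of_mul this
    have h2 : (P₁.sm x : ℂ) ≠ 0 := right_ne_zero_of_mul this
    have h3 : (P₁.m x : ℂ) ≠ 0 := by exact_mod_cast (m_pos P₁ x).ne'
    have h4 : (P₂.m x : ℂ) ≠ 0 := by exact_mod_cast (m_pos P₂ x).ne'
    field_simp
    ring
  rw [e2] at e
  simpa using e

theorem sum_s_nu (s : Fin 2 → ℂ) (l : Fin 3) : s 0 * nu s 0 l + s 1 * nu s 1 l = th s l := by
  fin_cases l <;> simp [nu, th] <;> ring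

theorem six {Ω : Set R3} {f1 f2 f3 f4 f5 f6 : R3 → ℂ} (i1 : IntegrableOn f1 Ω)
    (i2 : IntegrableOn f2 Ω) (i3 : IntegrableOn f3 Ω) (i4 : IntegrableOn f4 Ω)
    (i5 : IntegrableOn f5 Ω) (i6 : IntegrableOn f6 Ω) :
    ∫ x in Ω, (((((f1 x + f2 x) + f3 x) + f4 x) - f5 x) + f6 x) =
      (∫ x in Ω, f1 x) + (∫ x in Ω, f2 x) + (∫ x in Ω, f3 x) + (∫ x in Ω, f4 x)
        - (∫ x in Ω, f5 x) + ∫ x in Ω, f6 x := by
  rw [integral_add _ i6, integral_sub _ i5, integral_add _ i4, integral_add _ i3,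
    integral_add i1 i2]
  · exact i1.add i2
  · exact (i1.add i2).add i3
  · exact ((i1.add i2).add i3).add i4
  · exact (((i1.add i2).add i3).add i4).sub i5

/-- right hand side of `∂_j a = f_j` -/
def ff (P₁ P₂ : Moduli) (j : Fin 3) (x : R3) : ℝ :=
  aa P₁ P₂ x * (P₁.kap x * pderiv P₁.m j x - P₂.kap x * pderiv P₂.m j x)
      - P₂.kap x * P₂.sm x * qq P₁ P₂ j x

/-- right hand side of `∂_j q_l = g_{jl} + φ δ_{jl}` -/
def gjl (P₁ P₂ : Moduli) (j l : Fin 3) (x : R3) : ℝ :=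
  P₂.kap x / P₂.sm x * aa P₁ P₂ x * pderiv P₂.m j x * pderiv P₂.m l x
      + (P₂.kap x - 1 / (2 * P₂.m x)) * qq P₁ P₂ j x * pderiv P₂.m l x
      + P₁.kap x * pderiv P₁.m j x * qq P₁ P₂ l x
      - P₁.kap x / P₁.sm x * pderiv P₁.m j x * pderiv P₁.m l x

theorem smooth_ff (P₁ P₂ : Moduli) (j : Fin 3) : ContDiff ℝ ∞ (ff P₁ P₂ j) :=
  ((smooth_aa P₁ P₂).mul (((smooth_kap P₁).mul (contDiff_pderiv (smooth_m P₁) j)).sub
    ((smooth_kap P₂).mul (contDiff_pderiv (smooth_m P₂) j)))).sub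
    (((smooth_kap P₂).mul (smooth_sm P₂)).mul (smooth_qq P₁ P₂ j))

theorem smooth_gjl (P₁ P₂ : Moduli) (j l : Fin 3) : ContDiff ℝ ∞ (gjl P₁ P₂ j l) :=
  ((((((smooth_kap P₂).div (smooth_sm P₂) fun x => (sm_pos P₂ x).ne').mul
    (smooth_aa P₁ P₂)).mul (contDiff_pderiv (smooth_m P₂) j)).mul
    (contDiff_pderiv (smooth_m P₂) l)).add
    ((((smooth_kap P₂).sub (smooth_cfm_inv P₂)).mul (smooth_qq P₁ P₂ j)).mul
      (contDiff_pderiv (smooth_m P₂) l)) |>.add
    (((smooth_kap P₁).mul (contDiff_pderiv (smooth_m P₁) j)).mul (smooth_qq P₁ P₂ l))).sub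
    ((((smooth_kap P₁).div (smooth_sm P₁) fun x => (sm_pos P₁ x).ne').mul
      (contDiff_pderiv (smooth_m P₁) j)).mul (contDiff_pderiv (smooth_m P₁) l))

/-- `L_j(η) = ∫_Ω (a-1) ∂_j η + f_j η` -/
def LL (G : Dom) (P₁ P₂ : Moduli) (j : Fin 3) (η : R3 → ℂ) : ℂ :=
  ∫ x in G.Ω, (((aa P₁ P₂ x : ℂ) - 1) * pd j η x + (ff P₁ P₂ j x : ℂ) * η x)

/-- `W_{jl}(η) = ∫_Ω q_l ∂_j η + g_{jl} η` -/
def WW (G : Dom) (P₁ P₂ : Moduli) (j l : Fin 3) (η : R3 → ℂ) : ℂ :=
  ∫ x in G.Ω, ((qq P₁ P₂ l x : ℂ) * pd j η x + (gjl P₁ P₂ j l x : ℂ) * η x)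

theorem Blk.I1 (h : Blk G P₁ P₂ s Φ) {j : Fin 2} (hj : s j ≠ 0) (η : R3 → ℂ)
    (hη : ContDiff ℝ ∞ η) : ∑ k, th s k * LL G P₁ P₂ k η = 0 := by
  have e := h.mst none none η hη
  have sA2 := smooth_Amat P₂ s
  have sA1 := smooth_Amat P₁ s
  rw [Fintype.sum_option, Fintype.sum_option, Fin.sum_univ_two,
    h.gg hj _ (contDiff_DD hη _), h.gg hj _ ((sA2 none none).mul hη),
    h.ig hj 0 _ ((sA2 none (some 0)).mul hη), h.ig hj 1 _ ((sA2 none (some 1)).mul hη),
    h.gg hj _ (hη.mul (sA1 none none)),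
    Finset.sum_eq_zero (fun k _ => h.z1 _ (hη.mul (sA1 (some k) none)) k)] at e
  have ca : Continuous fun x => (aa P₁ P₂ x : ℂ) - 1 :=
    ((contDiff_cf (smooth_aa P₁ P₂)).continuous).sub continuous_const
  have cq : ∀ i, Continuous fun x => ∑ l, nu s i l * (qq P₁ P₂ l x : ℂ) := fun i =>
    continuous_finsetSum _ fun l _ =>
      continuous_const.mul (contDiff_cf (smooth_qq P₁ P₂ l)).continuous
  have i1 := integrableOn_cont G (ca.mul (contDiff_DD hη (th s)).continuous)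
  have i2 := integrableOn_cont G (ca.mul ((sA2 none none).mul hη).continuous)
  have i3 := integrableOn_cont G ((cq 0).mul ((sA2 none (some 0)).mul hη).continuous)
  have i4 := integrableOn_cont G ((cq 1).mul ((sA2 none (some 1)).mul hη).continuous)
  have i5 := integrableOn_cont G (ca.mul (hη.mul (sA1 none none)).continuous)
  have i6 := integrableOn_cont G ((((sA2 none none).continuous).sub
    (sA1 none none).continuous).mul hη.continuous)
  have key : ∑ k, th s k * LL G P₁ P₂ k η = ∫ x in G.Ω,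
      (((((((aa P₁ P₂ x : ℂ) - 1) * DD (th s) η x)
        + ((aa P₁ P₂ x : ℂ) - 1) * (Amat P₂ s none none x * η x))
        + (∑ l, nu s 0 l * (qq P₁ P₂ l x : ℂ)) * (Amat P₂ s none (some 0) x * η x))
        + (∑ l, nu s 1 l * (qq P₁ P₂ l x : ℂ)) * (Amat P₂ s none (some 1) x * η x))
        - ((aa P₁ P₂ x : ℂ) - 1) * (η x * Amat P₁ s none none x))
        + (Amat P₂ s none none x - Amat P₁ s none none x) * η x := by
    simp only [LL]
    simp_rw [← integral_const_mul]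
    rw [← integral_finsetSum]
    · refine integral_congr_ae (Eventually.of_forall fun x => ?_)
      simp only [Amat, DD, pd_cf (smooth_m P₁), pd_cf (smooth_m P₂), ff, Fin.sum_univ_three,
        ← sum_s_nu]
      push_cast
      ring
    · intro k _
      refine (integrableOn_cont G ?_)
      exact continuous_const.mul ((ca.mul (contDiff_pd hη k).continuous).add
        ((contDiff_cf (smooth_ff P₁ P₂ k)).continuous.mul hη.continuous))
  refine key.trans ((six i1 i2 i3 i4 i5 i6).trans ?_)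
  simp only [Pi.mul_apply, Pi.sub_apply]
  linear_combination -e

theorem Blk.I2 (h : Blk G P₁ P₂ s Φ) {j : Fin 2} (hj : s j ≠ 0) (i : Fin 2) (η : R3 → ℂ)
    (hη : ContDiff ℝ ∞ η) :
    ∑ k, ∑ l, th s k * nu s i l * WW G P₁ P₂ k l η = 0 := by
  have e := h.mst (some i) none η hη
  have sA2 := smooth_Amat P₂ s
  have sA1 := smooth_Amat P₁ s
  rw [Fintype.sum_option, Fintype.sum_option, Fin.sum_univ_two,
    h.ig hj i _ (contDiff_DD hη _), h.gg hj _ ((sA2 (some i) none).mul hη),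
    h.ig hj 0 _ ((sA2 (some i) (some 0)).mul hη), h.ig hj 1 _ ((sA2 (some i) (some 1)).mul hη),
    h.ig hj i _ (hη.mul (sA1 none none)),
    Finset.sum_eq_zero (fun k _ => h.z2 _ (hη.mul (sA1 (some k) none)) i k)] at e
  have ca : Continuous fun x => (aa P₁ P₂ x : ℂ) - 1 :=
    ((contDiff_cf (smooth_aa P₁ P₂)).continuous).sub continuous_const
  have cq : ∀ i, Continuous fun x => ∑ l, nu s i l * (qq P₁ P₂ l x : ℂ) := fun i =>
    continuous_finsetSum _ fun l _ =>
      continuous_const.mul (contDiff_cf (smooth_qq P₁ P₂ l)).continuous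
  have i1 := integrableOn_cont G ((cq i).mul (contDiff_DD hη (th s)).continuous)
  have i2 := integrableOn_cont G (ca.mul ((sA2 (some i) none).mul hη).continuous)
  have i3 := integrableOn_cont G ((cq 0).mul ((sA2 (some i) (some 0)).mul hη).continuous)
  have i4 := integrableOn_cont G ((cq 1).mul ((sA2 (some i) (some 1)).mul hη).continuous)
  have i5 := integrableOn_cont G ((cq i).mul (hη.mul (sA1 none none)).continuous)
  have i6 := integrableOn_cont G ((((sA2 (some i) none).continuous).sub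
    (sA1 (some i) none).continuous).mul hη.continuous)
  have key : ∑ k, ∑ l, th s k * nu s i l * WW G P₁ P₂ k l η = ∫ x in G.Ω,
      (((((((∑ l, nu s i l * (qq P₁ P₂ l x : ℂ)) * DD (th s) η x)
        + ((aa P₁ P₂ x : ℂ) - 1) * (Amat P₂ s (some i) none x * η x))
        + (∑ l, nu s 0 l * (qq P₁ P₂ l x : ℂ)) * (Amat P₂ s (some i) (some 0) x * η x))
        + (∑ l, nu s 1 l * (qq P₁ P₂ l x : ℂ)) * (Amat P₂ s (some i) (some 1) x * η x))
        - (∑ l, nu s i l * (qq P₁ P₂ l x : ℂ)) * (η x * Amat P₁ s none none x))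
        + (Amat P₂ s (some i) none x - Amat P₁ s (some i) none x) * η x) := by
    simp only [WW]
    simp_rw [← integral_const_mul]
    have hint : ∀ k l, IntegrableOn (fun x => th s k * nu s i l *
        ((qq P₁ P₂ l x : ℂ) * pd k η x + (gjl P₁ P₂ k l x : ℂ) * η x)) G.Ω := fun k l =>
      integrableOn_cont G (continuous_const.mul
        (((contDiff_cf (smooth_qq P₁ P₂ l)).continuous.mul (contDiff_pd hη k).continuous).add
        ((contDiff_cf (smooth_gjl P₁ P₂ k l)).continuous.mul hη.continuous)))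
    have h1 : ∀ k, ∑ l, ∫ x in G.Ω, th s k * nu s i l *
        ((qq P₁ P₂ l x : ℂ) * pd k η x + (gjl P₁ P₂ k l x : ℂ) * η x)
        = ∫ x in G.Ω, ∑ l, th s k * nu s i l *
        ((qq P₁ P₂ l x : ℂ) * pd k η x + (gjl P₁ P₂ k l x : ℂ) * η x) := fun k =>
      (integral_finsetSum _ fun l _ => hint k l).symm
    simp_rw [h1]
    rw [← integral_finsetSum]
    · refine integral_congr_ae (Eventually.of_forall fun x => ?_)
      simp only [Amat, DD, pd_cf (smooth_m P₁), pd_cf (smooth_m P₂), gjl, Fin.sum_univ_three,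
        ← sum_s_nu]
      push_cast
      ring
    · intro k _
      exact integrable_finsetSum _ fun l _ => hint k l
  refine key.trans ((six i1 i2 i3 i4 i5 i6).trans ?_)
  simp only [Pi.mul_apply, Pi.sub_apply]
  linear_combination -e

end

/-! ### interior identities -/

theorem zero_on_frontier (G : Dom) {η : R3 → ℂ} (hη : tsupport η ⊆ G.Ω) {x : R3}
    (hx : x ∈ frontier G.Ω) : η x = 0 := by
  by_contra hne
  have h1 : x ∈ G.Ω := hη (subset_tsupport _ (Function.mem_support.2 hne))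
  have h2 := (BdryLoc.isOpen_Omega G).frontier_eq ▸ hx
  exact h2.2 h1

theorem du (G : Dom) (h : R3 → ℝ) (hc : Continuous h)
    (H : ∀ η : R3 → ℂ, ContDiff ℝ ∞ η → HasCompactSupport η → tsupport η ⊆ G.Ω →
      ∫ x in G.Ω, (h x : ℂ) * η x = 0) : ∀ x ∈ G.Ω, h x = 0 := by
  have hU := BdryLoc.isOpen_Omega G
  have h1 : ∀ᵐ x ∂(volume : Measure R3), x ∈ G.Ω → h x = 0 := by
    refine hU.ae_eq_zero_of_integral_contDiff_smul_eq_zero
      (hc.locallyIntegrable.locallyIntegrableOn _) ?_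
    intro g hg hgc hgs
    have h2 := H (cf g) (contDiff_cf hg) ?_ ?_
    · have h3 : ∫ x in G.Ω, g x • h x = ∫ x, g x • h x := by
        refine setIntegral_eq_integral_of_forall_compl_eq_zero fun x hx => ?_
        have : g x = 0 := by
          by_contra hne
          exact hx (hgs (subset_tsupport _ (Function.mem_support.2 hne)))
        rw [this, zero_smul]
      rw [← h3]
      have h4 : ∫ x in G.Ω, (h x : ℂ) * cf g x = ((∫ x in G.Ω, g x • h x : ℝ) : ℂ) := by
        rw [← integral_complex_ofReal]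
        refine integral_congr_ae (Eventually.of_forall fun x => ?_)
        simp [mul_comm]
      rw [h4] at h2
      exact_mod_cast h2
    · exact hgc.comp_left (g := fun t : ℝ => (t : ℂ)) (by simp)
    · refine (closure_mono ?_).trans hgs
      intro x hx
      rw [Function.mem_support] at hx ⊢
      intro h0; exact hx (by simp [cf, h0])
  have h2 : h =ᵐ[volume.restrict G.Ω] (fun _ => 0) :=
    (ae_restrict_iff' hU.measurableSet).2 h1
  intro x hx
  exact Measure.eqOn_open_of_ae_eq h2 hU hc.continuousOn continuous_const.continuousOn hx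

theorem pd_rmul {p : R3 → ℝ} (hp : ContDiff ℝ ∞ p) {η : R3 → ℂ} (hη : ContDiff ℝ ∞ η)
    (j : Fin 3) (x : R3) :
    pd j (fun y => (p y : ℂ) * η y) x = (p x : ℂ) * pd j η x + (pderiv p j x : ℂ) * η x := by
  rw [pd_mul (contDiff_cf hp) hη, pd_cf hp]

theorem ibp (hZ : StmtZ) (G : Dom) (j : Fin 3) {p g : R3 → ℝ} (hp : ContDiff ℝ ∞ p)
    (hg : ContDiff ℝ ∞ g) (η : R3 → ℂ) (hη : ContDiff ℝ ∞ η) (hs : tsupport η ⊆ G.Ω) :
    ∫ x in G.Ω, ((p x : ℂ) * pd j η x + (g x : ℂ) * η x)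
      = ∫ x in G.Ω, ((g x - pderiv p j x : ℝ) : ℂ) * η x := by
  have e := hZ G (fun x => (p x : ℂ) * η x) (((contDiff_cf hp).mul hη).of_le (by simp)) ?_ j
  · have i1 : IntegrableOn (fun x => (p x : ℂ) * pd j η x + (g x : ℂ) * η x) G.Ω :=
      integrableOn_cont G (((contDiff_cf hp).mul (contDiff_pd hη j)).add
        ((contDiff_cf hg).mul hη)).continuous
    have i2 : IntegrableOn (fun x => pd j (fun x => (p x : ℂ) * η x) x) G.Ω :=
      integrableOn_cont G (contDiff_pd ((contDiff_cf hp).mul hη) j).continuous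
    rw [← sub_zero (∫ x in G.Ω, ((p x : ℂ) * pd j η x + (g x : ℂ) * η x)), ← e,
      ← integral_sub i1 i2]
    refine integral_congr_ae (Eventually.of_forall fun x => ?_)
    simp only [pd_rmul hp hη]
    push_cast
    ring
  · intro x hx
    rw [zero_on_frontier G hs hx, mul_zero]

/-! ### linear algebra over the null cone -/

section
variable {G : Dom} {P₁ P₂ : Moduli} {Φ : (Fin 2 → ℂ) →
    (Option (Fin 2) → Option (Fin 2) → R3 → ℂ) → ℂ}

theorem LL_zero (blk : ∀ s, s ≠ 0 → Blk G P₁ P₂ s (Φ s)) (η : R3 → ℂ) (hη : ContDiff ℝ ∞ η)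
    (j : Fin 3) : LL G P₁ P₂ j η = 0 := by
  have e1 := (blk ![1, 0] (by simp)).I1 (j := 0) (by simp) η hη
  have e2 := (blk ![0, 1] (by simp)).I1 (j := 1) (by simp) η hη
  have e3 := (blk ![1, 1] (by simp)).I1 (j := 0) (by simp) η hη
  simp only [th, Fin.sum_univ_three, Matrix.cons_val_zero, Matrix.cons_val_one,
    Matrix.cons_val] at e1 e2 e3
  have h0 : LL G P₁ P₂ 0 η = 0 := by linear_combination (1/2) * e1 - (1/2) * e2
  have h1 : LL G P₁ P₂ 1 η = 0 := by
    linear_combination (-Complex.I/2) * (e1 + e2) + LL G P₁ P₂ 1 η * Complex.I_sq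
  have h2 : LL G P₁ P₂ 2 η = 0 := by linear_combination (1/2) * e3 - Complex.I * h1
  fin_cases j
  · exact h0
  · exact h1
  · exact h2

theorem WW_rel (blk : ∀ s, s ≠ 0 → Blk G P₁ P₂ s (Φ s)) (η : R3 → ℂ) (hη : ContDiff ℝ ∞ η) :
    (∀ j l, j ≠ l → WW G P₁ P₂ j l η = 0) ∧ (∀ j, WW G P₁ P₂ j j η = WW G P₁ P₂ 0 0 η) := by
  have e1 := (blk ![1, 0] (by simp)).I2 (j := 0) (by simp) 0 η hη
  have e2 := (blk ![1, 0] (by simp)).I2 (j := 0) (by simp) 1 η hη
  have e3 := (blk ![0, 1] (by simp)).I2 (j := 1) (by simp) 0 η hη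
  have e4 := (blk ![0, 1] (by simp)).I2 (j := 1) (by simp) 1 η hη
  have e5 := (blk ![1, 1] (by simp)).I2 (j := 0) (by simp) 0 η hη
  have e6 := (blk ![1, 1] (by simp)).I2 (j := 0) (by simp) 1 η hη
  have e7 := (blk ![1, -1] (by simp)).I2 (j := 0) (by simp) 0 η hη
  have e8 := (blk ![1, -1] (by simp)).I2 (j := 0) (by simp) 1 η hη
  simp only [th, nu, Fin.sum_univ_three, Matrix.cons_val_zero, Matrix.cons_val_one,
    Matrix.cons_val, if_true, one_ne_zero, if_false] at e1 e2 e3 e4 e5 e6 e7 e8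
  have h02 : WW G P₁ P₂ 0 2 η = 0 := by linear_combination (1/2) * (e2 - e3)
  have h12 : WW G P₁ P₂ 1 2 η = 0 := by
    linear_combination (-Complex.I/2) * (e2 + e3) + WW G P₁ P₂ 1 2 η * Complex.I_sq
  have h10 : WW G P₁ P₂ 1 0 η = 0 := by
    linear_combination (-Complex.I/8) * (e5 - e6 + e7 + e8) + WW G P₁ P₂ 1 0 η * Complex.I_sq
  have h20 : WW G P₁ P₂ 2 0 η = 0 := by
    linear_combination (1/8) * ((e5 - e6) - (e7 + e8))
  have h01 : WW G P₁ P₂ 0 1 η = 0 := by
    linear_combination (-Complex.I/2) * (e1 - e4) +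
      (WW G P₁ P₂ 0 1 η + WW G P₁ P₂ 1 0 η) * Complex.I_sq - h10
  have h21 : WW G P₁ P₂ 2 1 η = 0 := by
    linear_combination (-Complex.I/8) * ((e5 + e6) - (e7 - e8)) +
      (WW G P₁ P₂ 1 2 η + WW G P₁ P₂ 2 1 η) * Complex.I_sq - h12
  have h11 : WW G P₁ P₂ 1 1 η = WW G P₁ P₂ 0 0 η := by
    linear_combination (-1/2) * (e1 + e4) + WW G P₁ P₂ 1 1 η * Complex.I_sq
  have h22 : WW G P₁ P₂ 2 2 η = WW G P₁ P₂ 0 0 η := by
    linear_combination (1/8) * ((e5 + e6) + (e7 - e8)) - WW G P₁ P₂ 1 1 η * Complex.I_sq + h11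
  refine ⟨fun j l hjl => ?_, fun j => ?_⟩
  · fin_cases j <;> fin_cases l
    · exact absurd rfl hjl
    · exact h01
    · exact h02
    · exact h10
    · exact absurd rfl hjl
    · exact h12
    · exact h20
    · exact h21
    · exact absurd rfl hjl
  · fin_cases j
    · rfl
    · exact h11
    · exact h22

end

theorem sum_ee (e : R3) : e = ∑ j, e j • ee j := by
  ext k
  fin_cases k <;> simp [ee, Fin.sum_univ_three]

end Rel

open Crest.Agent.R080.Rel in
theorem t_Relations (hG : StmtGauge) (hb : StmtBdry) (hZ : StmtZ) (hL : StmtBdryLoc) :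
    StmtRelations := by
  intro G P₁ P₂ hS
  obtain ⟨Φ, h1, h2, h3, -, h5, h6⟩ := hG G P₁ P₂ hS
  have blk : ∀ s, s ≠ 0 → Blk G P₁ P₂ s (Φ s) := fun s hs =>
    { mst := master G P₁ P₂ s (Φ s) ⟨h2 s hs, h3 s hs⟩ (h1 s hs)
      z1 := fun η hη j => h5 η hη s hs j
      z2 := fun η hη i j => h6 η hη s hs i j }
  have hU := BdryLoc.isOpen_Omega G
  -- interior identity for a
  have ga : ∀ j, ∀ x ∈ G.Ω, pderiv (aa P₁ P₂) j x = ff P₁ P₂ j x := by
    intro j x hx
    have hp : ContDiff ℝ ∞ (fun x => aa P₁ P₂ x - 1) := (smooth_aa P₁ P₂).sub contDiff_const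
    have hpd : ∀ x, pderiv (fun x => aa P₁ P₂ x - 1) j x = pderiv (aa P₁ P₂) j x := by
      intro x; simp [pderiv, fderiv_sub_const]
    have := du G (fun x => ff P₁ P₂ j x - pderiv (aa P₁ P₂) j x)
      ((smooth_ff P₁ P₂ j).sub (contDiff_pderiv (smooth_aa P₁ P₂) j)).continuous ?_ x hx
    · linarith
    · intro η hη _ hs
      have e := ibp hZ G j hp (smooth_ff P₁ P₂ j) η hη hs
      simp only [hpd] at e
      rw [← e, ← LL_zero blk η hη j, LL]
      push_cast
      rfl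
  -- interior identities for q
  have gq : ∀ j l, j ≠ l → ∀ x ∈ G.Ω, pderiv (qq P₁ P₂ l) j x = gjl P₁ P₂ j l x := by
    intro j l hjl x hx
    have := du G (fun x => gjl P₁ P₂ j l x - pderiv (qq P₁ P₂ l) j x)
      ((smooth_gjl P₁ P₂ j l).sub (contDiff_pderiv (smooth_qq P₁ P₂ l) j)).continuous ?_ x hx
    · linarith
    · intro η hη _ hs
      rw [← ibp hZ G j (smooth_qq P₁ P₂ l) (smooth_gjl P₁ P₂ j l) η hη hs]
      exact (WW_rel blk η hη).1 j l hjl
  have gd : ∀ j, ∀ x ∈ G.Ω, pderiv (qq P₁ P₂ j) j x - gjl P₁ P₂ j j x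
      = pderiv (qq P₁ P₂ 0) 0 x - gjl P₁ P₂ 0 0 x := by
    intro j x hx
    have := du G (fun x => (gjl P₁ P₂ j j x - pderiv (qq P₁ P₂ j) j x)
        - (gjl P₁ P₂ 0 0 x - pderiv (qq P₁ P₂ 0) 0 x))
      (((smooth_gjl P₁ P₂ j j).sub (contDiff_pderiv (smooth_qq P₁ P₂ j) j)).sub
        ((smooth_gjl P₁ P₂ 0 0).sub (contDiff_pderiv (smooth_qq P₁ P₂ 0) 0))).continuous ?_ x hx
    · linarith
    · intro η hη _ hs
      have e1 := ibp hZ G j (smooth_qq P₁ P₂ j) (smooth_gjl P₁ P₂ j j) η hη hs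
      have e2 := ibp hZ G 0 (smooth_qq P₁ P₂ 0) (smooth_gjl P₁ P₂ 0 0) η hη hs
      have e3 := (WW_rel blk η hη).2 j
      unfold WW at e3
      rw [e1, e2] at e3
      have i1 : ∀ j, IntegrableOn (fun x => ((gjl P₁ P₂ j j x - pderiv (qq P₁ P₂ j) j x : ℝ) : ℂ)
          * η x) G.Ω := fun j => integrableOn_cont G
        ((contDiff_cf ((smooth_gjl P₁ P₂ j j).sub
          (contDiff_pderiv (smooth_qq P₁ P₂ j) j))).mul hη).continuous
      rw [← sub_eq_zero, ← integral_sub (i1 j) (i1 0)] at e3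
      rw [← e3]
      refine integral_congr_ae (Eventually.of_forall fun x => ?_)
      push_cast
      ring
  -- boundary integrals
  have hcoord : ∀ x ∈ frontier G.Ω, ∃ j, fderiv ℝ G.rho x (ee j) ≠ 0 := by
    intro x hx
    by_contra hcon
    simp only [not_exists, not_not] at hcon
    refine G.reg x (BdryLoc.rho_eq_zero_of_frontier G hx) ?_
    ext e
    rw [sum_ee e, map_sum]
    simp only [map_smul, hcon, smul_zero, Finset.sum_const_zero]
    simp
  have bq : ∀ j l, j ≠ l → ∀ χ : R3 → ℂ, ContDiff ℝ ∞ χ →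
      ∫ x in G.Ω, pd j (fun y => (qq P₁ P₂ l y : ℂ) * χ y) x = 0 := by
    intro j l hjl χ hχ
    rw [← (WW_rel blk χ hχ).1 j l hjl, WW]
    refine setIntegral_congr_fun hU.measurableSet fun x hx => ?_
    simp only [pd_rmul (smooth_qq P₁ P₂ l) hχ, gq j l hjl x hx]
  have bd : ∀ j, ∀ χ : R3 → ℂ, ContDiff ℝ ∞ χ →
      ∫ x in G.Ω, pd j (fun y => (qq P₁ P₂ j y : ℂ) * χ y) x
      = ∫ x in G.Ω, pd 0 (fun y => (qq P₁ P₂ 0 y : ℂ) * χ y) x := by
    have aux : ∀ j, ∀ χ : R3 → ℂ, ContDiff ℝ ∞ χ →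
      ∫ x in G.Ω, pd j (fun y => (qq P₁ P₂ j y : ℂ) * χ y) x = WW G P₁ P₂ j j χ +
        ∫ x in G.Ω, ((pderiv (qq P₁ P₂ 0) 0 x - gjl P₁ P₂ 0 0 x : ℝ) : ℂ) * χ x := by
      intro j χ hχ
      rw [WW, ← integral_add]
      · refine setIntegral_congr_fun hU.measurableSet fun x hx => ?_
        simp only [pd_rmul (smooth_qq P₁ P₂ j) hχ, ← gd j x hx]
        push_cast
        ring
      · exact integrableOn_cont G (((contDiff_cf (smooth_qq P₁ P₂ j)).mul
          (contDiff_pd hχ j)).add ((contDiff_cf (smooth_gjl P₁ P₂ j j)).mul hχ)).continuous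
      · exact integrableOn_cont G ((contDiff_cf ((contDiff_pderiv (smooth_qq P₁ P₂ 0) 0).sub
          (smooth_gjl P₁ P₂ 0 0))).mul hχ).continuous
    intro j χ hχ
    rw [aux j χ hχ, aux 0 χ hχ, (WW_rel blk χ hχ).2 j]
  have q0 : ∀ x ∈ frontier G.Ω, ∀ j l, j ≠ l → fderiv ℝ G.rho x (ee j) ≠ 0 →
      qq P₁ P₂ l x = 0 := by
    intro x hx j l hjl hj
    have := hL G (cf (qq P₁ P₂ l)) (contDiff_cf (smooth_qq P₁ P₂ l)) x hx (ee j) hj
      (fun χ hχ _ => bq j l hjl χ hχ)
    exact Complex.ofReal_eq_zero.1 this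
  have q1 : ∀ x ∈ frontier G.Ω, ∀ l, qq P₁ P₂ l x = 0 := by
    intro x hx l
    by_cases hex : ∃ j, j ≠ l ∧ fderiv ℝ G.rho x (ee j) ≠ 0
    · obtain ⟨j, hjl, hj⟩ := hex
      exact q0 x hx j l hjl hj
    · simp only [not_exists, not_and, not_not] at hex
      obtain ⟨k, hk⟩ := hcoord x hx
      have hkl : k = l := by
        by_contra hne
        exact hk (hex k hne)
      subst hkl
      obtain ⟨j, hj⟩ : ∃ j : Fin 3, j ≠ k := exists_ne k
      have hqj : qq P₁ P₂ j x = 0 := q0 x hx k j hj.symm hk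
      have hρ : fderiv ℝ G.rho x (ee k + ee j) ≠ 0 := by
        rw [map_add, hex j hj, add_zero]; exact hk
      have hsm : ContDiff ℝ ∞ (cf fun x => qq P₁ P₂ k x - qq P₁ P₂ j x) :=
        contDiff_cf ((smooth_qq P₁ P₂ k).sub (smooth_qq P₁ P₂ j))
      have := hL G (cf fun x => qq P₁ P₂ k x - qq P₁ P₂ j x) hsm x hx (ee k + ee j) hρ ?_
      · have h7 : qq P₁ P₂ k x - qq P₁ P₂ j x = 0 := Complex.ofReal_eq_zero.1 this
        linarith
      · intro χ hχ _
        have hs : ∀ l, ContDiff ℝ ∞ (fun y => (qq P₁ P₂ l y : ℂ) * χ y) := fun l =>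
          (contDiff_cf (smooth_qq P₁ P₂ l)).mul hχ
        have hI : ∀ j l, IntegrableOn (fun x => pd j (fun y => (qq P₁ P₂ l y : ℂ) * χ y) x) G.Ω :=
          fun j l => integrableOn_cont G (contDiff_pd (hs l) j).continuous
        have hfun : (fun z => cf (fun x => qq P₁ P₂ k x - qq P₁ P₂ j x) z * χ z)
            = (fun y => (qq P₁ P₂ k y : ℂ) * χ y) - (fun y => (qq P₁ P₂ j y : ℂ) * χ y) := by
          funext z
          simp only [cf, Pi.sub_apply]
          push_cast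
          ring
        have hder : ∀ y, fderiv ℝ (fun z => cf (fun x => qq P₁ P₂ k x - qq P₁ P₂ j x) z * χ z) y
            (ee k + ee j) =
            ((pd k (fun y => (qq P₁ P₂ k y : ℂ) * χ y) y - pd k (fun y => (qq P₁ P₂ j y : ℂ) * χ y) y)
            + pd j (fun y => (qq P₁ P₂ k y : ℂ) * χ y) y)
            - pd j (fun y => (qq P₁ P₂ j y : ℂ) * χ y) y := by
          intro y
          rw [hfun, fderiv_sub ((hs k).differentiable (by simp)).differentiableAt
            ((hs j).differentiable (by simp)).differentiableAt]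
          simp only [sub_apply, map_add, pd]
          ring
        simp only [hder]
        rw [integral_sub _ (hI j j), integral_add _ (hI j k), integral_sub (hI k k) (hI k j),
          bd k χ hχ, bd j χ hχ, bq k j hj.symm χ hχ, bq j k hj χ hχ]
        · ring
        · exact (hI k k).sub (hI k j)
        · exact ((hI k k).sub (hI k j)).add (hI j k)
  refine ⟨?_, ?_, hb G P₁ P₂ hS, ?_, q1⟩
  · intro x hx j
    exact ga j x hx
  · intro x hx
    refine ⟨pderiv (qq P₁ P₂ 0) 0 x - gjl P₁ P₂ 0 0 x, fun j l => ?_⟩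
    by_cases hjl : j = l
    · subst hjl
      rw [if_pos rfl, ← gd j x hx, gjl]
      ring
    · rw [if_neg hjl, gq j l hjl x hx, gjl]
      ring
  · intro x hx
    obtain ⟨j, hj⟩ := hcoord x hx
    have := hL G (fun x => (aa P₁ P₂ x : ℂ) - 1)
      ((contDiff_cf (smooth_aa P₁ P₂)).sub contDiff_const) x hx (ee j) hj ?_
    · have h7 : (aa P₁ P₂ x : ℂ) = 1 := by linear_combination this
      exact_mod_cast h7
    · intro χ hχ _
      rw [← LL_zero blk χ hχ j, LL]
      refine setIntegral_congr_fun hU.measurableSet fun x hx => ?_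
      have h8 : fderiv ℝ (fun z => ((aa P₁ P₂ z : ℂ) - 1) * χ z) x (ee j)
          = pd j (fun z => ((aa P₁ P₂ z - 1 : ℝ) : ℂ) * χ z) x := by
        unfold pd
        push_cast
        rfl
      have h9 : pderiv (fun x => aa P₁ P₂ x - 1) j x = pderiv (aa P₁ P₂) j x := by
        simp [pderiv, fderiv_sub_const]
      simp only [h8]
      rw [pd_rmul ((smooth_aa P₁ P₂).sub contDiff_const) hχ, h9, ga j x hx]
      push_cast
      ring

end Crest.Agent.R080
end
end

-- ▼ part R080/FinalAux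
section

/-!
Row 80 (S0107), T17: auxiliary lemmas for the final step (calculus of `pderiv`, domain facts,
lines to the boundary, the core uniqueness lemma).
-/

set_option autoImplicit false

open MeasureTheory Filter Set
open scoped ContDiff Topology
open Crest.AnalysisR.VecCalc3 Crest.AnalysisR.PDE.Elasticity

noncomputable section
namespace Crest.Agent.R080.FinalAux

/-! ### calculus of `pderiv` -/

theorem contDiff_pderiv {f : R3 → ℝ} (hf : ContDiff ℝ ∞ f) (j : Fin 3) :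
    ContDiff ℝ ∞ (pderiv f j) := by
  have h : ContDiff ℝ ∞ (fderiv ℝ f) := hf.fderiv_right (m := ∞) (by simp)
  exact h.clm_apply contDiff_const

theorem differentiable_of {f : R3 → ℝ} (hf : ContDiff ℝ ∞ f) : Differentiable ℝ f :=
  hf.differentiable (by simp)

theorem pderiv_mul {f g : R3 → ℝ} (hf : ContDiff ℝ ∞ f) (hg : ContDiff ℝ ∞ g) (j : Fin 3)
    (x : R3) : pderiv (fun y => f y * g y) j x = pderiv f j x * g x + f x * pderiv g j x := by
  unfold pderiv
  rw [fderiv_fun_mul (differentiable_of hf x) (differentiable_of hg x)]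
  simp only [add_apply, smul_apply, smul_eq_mul]
  ring

theorem pderiv_add {f g : R3 → ℝ} (hf : ContDiff ℝ ∞ f) (hg : ContDiff ℝ ∞ g) (j : Fin 3)
    (x : R3) : pderiv (fun y => f y + g y) j x = pderiv f j x + pderiv g j x := by
  unfold pderiv
  rw [fderiv_fun_add (differentiable_of hf x) (differentiable_of hg x)]
  rfl

theorem pderiv_sub {f g : R3 → ℝ} (hf : ContDiff ℝ ∞ f) (hg : ContDiff ℝ ∞ g) (j : Fin 3)
    (x : R3) : pderiv (fun y => f y - g y) j x = pderiv f j x - pderiv g j x := by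
  unfold pderiv
  rw [fderiv_fun_sub (differentiable_of hf x) (differentiable_of hg x)]
  rfl

theorem pderiv_congr {f g : R3 → ℝ} {x : R3} (h : f =ᶠ[𝓝 x] g) (j : Fin 3) :
    pderiv f j x = pderiv g j x := by
  unfold pderiv
  rw [h.fderiv_eq]

theorem pderiv_congr_on {Ω : Set R3} (hΩ : IsOpen Ω) {f g : R3 → ℝ} (h : ∀ x ∈ Ω, f x = g x)
    {x : R3} (hx : x ∈ Ω) (j : Fin 3) : pderiv f j x = pderiv g j x :=
  pderiv_congr (Filter.eventually_of_mem (hΩ.mem_nhds hx) h) j

theorem pderiv_comm {f : R3 → ℝ} (hf : ContDiff ℝ ∞ f) (i j : Fin 3) (x : R3) :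
    pderiv (pderiv f i) j x = pderiv (pderiv f j) i x := by
  have hs : IsSymmSndFDerivAt ℝ f x := by
    have h2 : ContDiff ℝ 2 f := by exact_mod_cast (contDiff_infty.1 hf 2)
    apply h2.contDiffAt.isSymmSndFDerivAt
    simp only [minSmoothness_of_isRCLikeNormedField, le_refl]
  have h : ContDiff ℝ ∞ (fderiv ℝ f) := hf.fderiv_right (m := ∞) (by simp)
  have hd : DifferentiableAt ℝ (fderiv ℝ f) x := h.differentiable (by simp) x
  have key : ∀ i j : Fin 3, pderiv (pderiv f i) j x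
      = fderiv ℝ (fderiv ℝ f) x (EuclideanSpace.single j 1) (EuclideanSpace.single i 1) := by
    intro i j
    unfold pderiv
    rw [fderiv_clm_apply hd (differentiableAt_const _)]
    simp
  rw [key i j, key j i]
  exact hs _ _

theorem pderiv_log {f : R3 → ℝ} (hf : ContDiff ℝ ∞ f) (j : Fin 3) (x : R3) (h0 : f x ≠ 0) :
    pderiv (fun y => Real.log (f y)) j x = pderiv f j x / f x := by
  unfold pderiv
  rw [fderiv.log (differentiable_of hf x) h0]
  simp [div_eq_inv_mul]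

theorem continuous_pderiv {f : R3 → ℝ} (hf : ContDiff ℝ ∞ f) (j : Fin 3) :
    Continuous (pderiv f j) := (contDiff_pderiv hf j).continuous

/-- the derivative along a line in direction `e₀` -/
theorem hasDerivAt_line {f : R3 → ℝ} (hf : ContDiff ℝ ∞ f) (x : R3) (t : ℝ) :
    HasDerivAt (fun s : ℝ => f (x + s • EuclideanSpace.single (0 : Fin 3) (1 : ℝ)))
      (pderiv f 0 (x + t • EuclideanSpace.single (0 : Fin 3) (1 : ℝ))) t := by
  have h1 : HasFDerivAt f (fderiv ℝ f (x + t • EuclideanSpace.single (0 : Fin 3) (1 : ℝ)))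
      (x + t • EuclideanSpace.single (0 : Fin 3) (1 : ℝ)) :=
    (differentiable_of hf _).hasFDerivAt
  have h2 : HasDerivAt (fun s : ℝ => x + s • EuclideanSpace.single (0 : Fin 3) (1 : ℝ))
      (EuclideanSpace.single (0 : Fin 3) (1 : ℝ)) t := by
    have := ((hasDerivAt_id t).smul_const (EuclideanSpace.single (0 : Fin 3) (1 : ℝ))).const_add x
    simpa using this
  exact h1.comp_hasDerivAt t h2


/-! ### domain facts -/

theorem isOpen_dom (G : Dom) : IsOpen G.Ω := by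
  rw [G.eq]
  exact isOpen_lt G.smooth.continuous continuous_const

theorem rho_eq_zero_of_frontier (G : Dom) {x : R3} (hx : x ∈ frontier G.Ω) : G.rho x = 0 := by
  have h1 : x ∈ closure G.Ω := hx.1
  have h2 : x ∉ G.Ω := by
    intro h
    exact hx.2 (by rwa [(isOpen_dom G).interior_eq])
  have h3 : G.rho x ≤ 0 := by
    have hc : IsClosed {y | G.rho y ≤ 0} := isClosed_le G.smooth.continuous continuous_const
    have hsub : G.Ω ⊆ {y | G.rho y ≤ 0} := by
      intro y hy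
      rw [G.eq] at hy
      exact le_of_lt (show G.rho y < 0 from hy)
    exact closure_minimal hsub hc h1
  have h4 : 0 ≤ G.rho x := by
    by_contra h
    push Not at h
    apply h2
    rw [G.eq]
    exact h
  exact le_antisymm h3 h4

/-- along a line, a differentiable function vanishing at `0` with derivative `c` -/
theorem tendsto_div_line (G : Dom) (x e : R3) :
    HasDerivAt (fun s : ℝ => G.rho (x + s • e)) (fderiv ℝ G.rho x e) 0 := by
  have h1 : HasFDerivAt G.rho (fderiv ℝ G.rho (x + (0 : ℝ) • e)) (x + (0 : ℝ) • e) :=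
    ((G.smooth.differentiable (by simp)) _).hasFDerivAt
  have h2 : HasDerivAt (fun s : ℝ => x + s • e) e 0 := by
    have := ((hasDerivAt_id (0 : ℝ)).smul_const e).const_add x
    simpa using this
  have h3 := h1.comp_hasDerivAt (0 : ℝ) h2
  simp only [zero_smul, add_zero] at h3
  exact h3

theorem mem_frontier_of_rho (G : Dom) {x : R3} (hx : G.rho x = 0) : x ∈ frontier G.Ω := by
  have hne := G.reg x hx
  obtain ⟨v, hv⟩ : ∃ v, fderiv ℝ G.rho x v ≠ 0 := by
    by_contra h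
    push Not at h
    exact hne (ContinuousLinearMap.ext h)
  obtain ⟨e, he⟩ : ∃ e, fderiv ℝ G.rho x e < 0 := by
    rcases lt_or_gt_of_ne hv with h | h
    · exact ⟨v, h⟩
    · exact ⟨-v, by simpa using h⟩
  have hd := tendsto_div_line G x e
  have hneg : ∀ᶠ s in 𝓝[>] (0 : ℝ), G.rho (x + s • e) < 0 := by
    have h1 := (hasDerivAt_iff_tendsto_slope.1 hd).eventually (gt_mem_nhds he)
    have h2 : 𝓝[>] (0 : ℝ) ≤ 𝓝[≠] 0 := nhdsWithin_mono _ (fun y (hy : 0 < y) => ne_of_gt hy)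
    filter_upwards [h2 h1, self_mem_nhdsWithin] with s hs hs0
    have hs0' : 0 < s := hs0
    simp only [slope_def_field, zero_smul, add_zero, hx, sub_zero] at hs
    have := (div_lt_iff₀ hs0').1 hs
    simpa using this
  have hcl : x ∈ closure G.Ω := by
    have ht : Tendsto (fun s : ℝ => x + s • e) (𝓝[>] 0) (𝓝 x) := by
      have : Tendsto (fun s : ℝ => x + s • e) (𝓝 0) (𝓝 (x + (0 : ℝ) • e)) := by
        apply Continuous.tendsto
        fun_prop
      simp only [zero_smul, add_zero] at this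
      exact this.mono_left nhdsWithin_le_nhds
    refine mem_closure_of_tendsto ht ?_
    filter_upwards [hneg] with s hs
    rw [G.eq]
    exact hs
  refine ⟨hcl, ?_⟩
  rw [(isOpen_dom G).interior_eq, G.eq]
  simp [hx]

/-- a line from an interior point reaches the frontier -/
theorem exists_exit {Ω : Set R3} (hopen : IsOpen Ω) (hbdd : Bornology.IsBounded Ω) {x : R3}
    (hx : x ∈ Ω) :
    ∃ T : ℝ, 0 < T ∧ (∀ t, 0 ≤ t → t < T →
      x + t • EuclideanSpace.single (0 : Fin 3) (1 : ℝ) ∈ Ω) ∧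
      x + T • EuclideanSpace.single (0 : Fin 3) (1 : ℝ) ∈ frontier Ω := by
  set e : R3 := EuclideanSpace.single (0 : Fin 3) (1 : ℝ) with he
  have hen : ‖e‖ = 1 := by simp [he]
  set S : Set ℝ := {t | 0 ≤ t ∧ x + t • e ∉ Ω} with hS
  have hcont : Continuous fun t : ℝ => x + t • e := by fun_prop
  have hclosed : IsClosed S := by
    have h1 : IsClosed {t : ℝ | 0 ≤ t} := isClosed_Ici
    have h2 : IsClosed {t : ℝ | x + t • e ∉ Ω} := by
      have : {t : ℝ | x + t • e ∉ Ω} = (fun t : ℝ => x + t • e) ⁻¹' Ωᶜ := rfl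
      rw [this]
      exact hopen.isClosed_compl.preimage hcont
    exact h1.inter h2
  obtain ⟨R, hR⟩ := hbdd.subset_ball (0 : R3)
  have hne : S.Nonempty := by
    refine ⟨|R| + ‖x‖, by positivity, ?_⟩
    intro h
    have h1 := hR h
    rw [Metric.mem_ball, dist_zero_right] at h1
    have h2 : ‖(|R| + ‖x‖) • e‖ = |R| + ‖x‖ := by
      rw [norm_smul, hen, mul_one, Real.norm_of_nonneg (by positivity)]
    have h3 : ‖(|R| + ‖x‖) • e‖ ≤ ‖x + (|R| + ‖x‖) • e‖ + ‖x‖ := by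
      have : (|R| + ‖x‖) • e = (x + (|R| + ‖x‖) • e) - x := by abel
      calc ‖(|R| + ‖x‖) • e‖ = ‖(x + (|R| + ‖x‖) • e) - x‖ := by rw [← this]
        _ ≤ _ := norm_sub_le _ _
    have h4 := le_abs_self R
    linarith
  have hbelow : BddBelow S := ⟨0, fun t ht => ht.1⟩
  have hmem : sInf S ∈ S := hclosed.csInf_mem hne hbelow
  have hpos : 0 < sInf S := by
    rcases eq_or_lt_of_le hmem.1 with h | h
    · exfalso
      apply hmem.2
      rw [← h]
      simpa using hx
    · exact h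
  have hin : ∀ t, 0 ≤ t → t < sInf S → x + t • e ∈ Ω := by
    intro t ht0 ht
    by_contra hcon
    exact absurd (csInf_le hbelow (show t ∈ S from ⟨ht0, hcon⟩)) (not_le.2 ht)
  refine ⟨sInf S, hpos, hin, ?_, ?_⟩
  · have ht : Tendsto (fun s : ℝ => x + s • e) (𝓝[<] (sInf S)) (𝓝 (x + (sInf S) • e)) :=
      (hcont.tendsto _).mono_left nhdsWithin_le_nhds
    refine mem_closure_of_tendsto ht ?_
    have h0 : ∀ᶠ s in 𝓝[<] (sInf S), 0 < s :=
      nhdsWithin_le_nhds (lt_mem_nhds hpos)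
    filter_upwards [h0, self_mem_nhdsWithin] with s hs hs'
    exact hin s hs.le hs'
  · rw [hopen.interior_eq]
    exact hmem.2

/-- a function with zero gradient inside and zero on the frontier vanishes inside -/
theorem eq_zero_of_line {Ω : Set R3} (hopen : IsOpen Ω) (hbdd : Bornology.IsBounded Ω)
    {f : R3 → ℝ} (hf : ContDiff ℝ ∞ f) (h0 : ∀ x ∈ Ω, pderiv f 0 x = 0)
    (hb : ∀ x ∈ frontier Ω, f x = 0) : ∀ x ∈ Ω, f x = 0 := by
  intro x hx
  obtain ⟨T, hT, hin, hfr⟩ := exists_exit hopen hbdd hx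
  set e : R3 := EuclideanSpace.single (0 : Fin 3) (1 : ℝ) with he
  have hcont : ContinuousOn (fun s : ℝ => f (x + s • e)) (Icc 0 T) := by
    apply Continuous.continuousOn
    exact hf.continuous.comp (by fun_prop)
  have hconst : ∀ t ∈ Icc (0 : ℝ) T, f (x + t • e) = f (x + (0 : ℝ) • e) := by
    apply constant_of_has_deriv_right_zero hcont
    intro t ht
    have := hasDerivAt_line hf x t
    rw [h0 _ (hin t ht.1 ht.2)] at this
    exact this.hasDerivWithinAt
  have h1 := hconst T ⟨hT.le, le_refl T⟩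
  rw [hb _ hfr] at h1
  simpa using h1.symm

end Crest.Agent.R080.FinalAux
end
end

-- ▼ part R080/FinalCore
section

/-!
Row 80 (S0107), T17: the core uniqueness lemma for the overdetermined first order system
`∂_j F_l = δ_jl ψ + u_j F_l + v_l F_j`.
-/

set_option autoImplicit false

open MeasureTheory Filter Set
open scoped ContDiff Topology
open Crest.AnalysisR.VecCalc3 Crest.AnalysisR.PDE.Elasticity

noncomputable section
namespace Crest.Agent.R080.FinalAux

/-- a smooth function vanishing on the frontier has gradient proportional to that of `rho` -/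
theorem exists_mult (G : Dom) {f : R3 → ℝ} (hf : ContDiff ℝ ∞ f)
    (hb : ∀ x ∈ frontier G.Ω, f x = 0) {y : R3} (hy : y ∈ frontier G.Ω) :
    ∃ c : ℝ, ∀ e : R3, fderiv ℝ f y e = c * fderiv ℝ G.rho y e := by
  have hy0 := rho_eq_zero_of_frontier G hy
  have hext : IsLocalExtrOn f {x | G.rho x = G.rho y} y := by
    left
    change ∀ᶠ x in 𝓝[{x | G.rho x = G.rho y}] y, f y ≤ f x
    filter_upwards [self_mem_nhdsWithin] with x hx
    have hx0 : G.rho x = 0 := by
      have : G.rho x = G.rho y := hx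
      rw [this, hy0]
    rw [hb y hy, hb x (mem_frontier_of_rho G hx0)]
  have h1 : HasStrictFDerivAt G.rho (fderiv ℝ G.rho y) y :=
    G.smooth.contDiffAt.hasStrictFDerivAt (by simp)
  have h2 : HasStrictFDerivAt f (fderiv ℝ f y) y :=
    hf.contDiffAt.hasStrictFDerivAt (by simp)
  obtain ⟨a, b, hab, h⟩ := hext.exists_multipliers_of_hasStrictFDerivAt_1d h1 h2
  have hb0 : b ≠ 0 := by
    intro hb0
    rw [hb0] at h hab
    have ha : a ≠ 0 := by
      rintro rfl
      exact hab rfl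
    rw [zero_smul, add_zero] at h
    rcases smul_eq_zero.1 h with h3 | h3
    · exact ha h3
    · exact G.reg y hy0 h3
  refine ⟨-(a / b), fun e => ?_⟩
  have h3 : a * fderiv ℝ G.rho y e + b * fderiv ℝ f y e = 0 := by
    have := congrArg (fun L : R3 →L[ℝ] ℝ => L e) h
    simpa using this
  field_simp
  linarith

/-- backward uniqueness for a linear differential inequality -/
theorem lin_ode_zero {ι : Type} [Fintype ι] (y y' : ι → ℝ → ℝ) {T B : ℝ} (hT : 0 < T)
    (hB : 0 ≤ B) (hy : ∀ i, ContinuousOn (y i) (Icc 0 T))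
    (hd : ∀ i, ∀ t ∈ Ico 0 T, HasDerivAt (y i) (y' i t) t)
    (hb : ∀ i, ∀ t ∈ Ico 0 T, |y' i t| ≤ B * ∑ j, |y j t|) (hT0 : ∀ i, y i T = 0) :
    ∀ i, y i 0 = 0 := by
  set n : ℝ := (Fintype.card ι : ℝ) with hn
  set w : ℝ → ℝ := fun t => ∑ i, y i t ^ 2 with hw
  set g : ℝ → ℝ := fun t => w t * Real.exp (2 * B * n * t) with hg
  have hwd : ∀ t ∈ Ico 0 T, HasDerivAt w (∑ i, 2 * y i t * y' i t) t := by
    intro t ht
    have : HasDerivAt (fun t => ∑ i, y i t ^ 2) (∑ i, 2 * y i t * y' i t) t := by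
      apply HasDerivAt.fun_sum
      intro i _
      have := (hd i t ht).fun_pow 2
      simpa using this
    exact this
  have hgd : ∀ t ∈ Ico 0 T, HasDerivAt g ((∑ i, 2 * y i t * y' i t) * Real.exp (2 * B * n * t)
      + w t * (Real.exp (2 * B * n * t) * (2 * B * n))) t := by
    intro t ht
    refine (hwd t ht).mul ?_
    have h1 : HasDerivAt (fun t : ℝ => 2 * B * n * t) (2 * B * n) t := by
      simpa using (hasDerivAt_id t).const_mul (2 * B * n)
    exact h1.exp
  have hcont : ContinuousOn g (Icc 0 T) := by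
    apply ContinuousOn.mul
    · apply continuousOn_finsetSum
      intro i _
      exact (hy i).pow 2
    · fun_prop
  have hsub : interior (Icc (0 : ℝ) T) ⊆ Ico 0 T := by
    rw [interior_Icc]
    exact Ioo_subset_Ico_self
  have hmono : MonotoneOn g (Icc 0 T) := by
    apply monotoneOn_of_deriv_nonneg (convex_Icc 0 T) hcont
    · intro t ht
      exact (hgd t (hsub ht)).differentiableAt.differentiableWithinAt
    · intro t ht
      have ht' := hsub ht
      rw [(hgd t ht').deriv]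
      have hS : 0 ≤ ∑ j, |y j t| := Finset.sum_nonneg fun j _ => abs_nonneg _
      have h1 : -(∑ i, 2 * y i t * y' i t) ≤ 2 * B * (∑ j, |y j t|) ^ 2 := by
        rw [← Finset.sum_neg_distrib]
        calc ∑ i, -(2 * y i t * y' i t) ≤ ∑ i, 2 * |y i t| * (B * ∑ j, |y j t|) := by
              apply Finset.sum_le_sum
              intro i _
              have h2 : -(2 * y i t * y' i t) ≤ |2 * y i t * y' i t| := neg_le_abs _
              have h3 : |2 * y i t * y' i t| = 2 * |y i t| * |y' i t| := by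
                rw [abs_mul, abs_mul, abs_of_pos (by norm_num : (0 : ℝ) < 2)]
              rw [h3] at h2
              exact h2.trans (mul_le_mul_of_nonneg_left (hb i t ht') (by positivity))
          _ = 2 * B * (∑ j, |y j t|) ^ 2 := by
              rw [← Finset.sum_mul, ← Finset.mul_sum]
              ring
      have h2 : (∑ j, |y j t|) ^ 2 ≤ n * w t := by
        have := sq_sum_le_card_mul_sum_sq (s := (Finset.univ : Finset ι)) (f := fun j => |y j t|)
        simp only [sq_abs, Finset.card_univ] at this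
        exact this
      have h3 : 0 ≤ (∑ i, 2 * y i t * y' i t) + w t * (2 * B * n) := by
        have h4 : 2 * B * (∑ j, |y j t|) ^ 2 ≤ 2 * B * (n * w t) :=
          mul_le_mul_of_nonneg_left h2 (by positivity)
        nlinarith
      have h5 : (∑ i, 2 * y i t * y' i t) * Real.exp (2 * B * n * t)
          + w t * (Real.exp (2 * B * n * t) * (2 * B * n))
          = ((∑ i, 2 * y i t * y' i t) + w t * (2 * B * n)) * Real.exp (2 * B * n * t) := by ring
      rw [h5]
      exact mul_nonneg h3 (Real.exp_pos _).le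
  have h0 : g 0 ≤ g T := hmono ⟨le_refl _, hT.le⟩ ⟨hT.le, le_refl _⟩ hT.le
  have hgT : g T = 0 := by
    simp [hg, hw, hT0]
  have hg0 : g 0 = ∑ i, y i 0 ^ 2 := by
    simp [hg, hw]
  rw [hgT, hg0] at h0
  intro i
  have h1 : y i 0 ^ 2 ≤ ∑ i, y i 0 ^ 2 :=
    Finset.single_le_sum (f := fun i => y i 0 ^ 2) (fun j _ => sq_nonneg _) (Finset.mem_univ i)
  have h2 : y i 0 ^ 2 = 0 := le_antisymm (h1.trans h0) (sq_nonneg _)
  exact pow_eq_zero_iff (two_ne_zero) |>.1 h2

/-- relations between continuous functions extend from `Ω` to its closure -/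
theorem eq_on_closure {Ω : Set R3} {f g : R3 → ℝ} (hf : Continuous f) (hg : Continuous g)
    (h : ∀ x ∈ Ω, f x = g x) : ∀ x ∈ closure Ω, f x = g x := by
  have hc : IsClosed {x | f x = g x} := isClosed_eq hf hg
  exact closure_minimal h hc

section core
variable (G : Dom) (F u v : Fin 3 → R3 → ℝ) (ψ : R3 → ℝ)

theorem core_bdry (hF : ∀ l, ContDiff ℝ ∞ (F l)) (hu : ∀ l, ContDiff ℝ ∞ (u l))
    (hv : ∀ l, ContDiff ℝ ∞ (v l)) (hψ : ContDiff ℝ ∞ ψ)
    (heq : ∀ x ∈ G.Ω, ∀ j l, pderiv (F l) j x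
      = (if j = l then ψ x else 0) + u j x * F l x + v l x * F j x)
    (hb : ∀ x ∈ frontier G.Ω, ∀ l, F l x = 0) : ∀ x ∈ frontier G.Ω, ψ x = 0 := by
  intro y hy
  have hext : ∀ j l, pderiv (F l) j y = (if j = l then ψ y else 0) := by
    intro j l
    have h1 : ∀ x ∈ closure G.Ω, pderiv (F l) j x
        = (if j = l then ψ x else 0) + u j x * F l x + v l x * F j x := by
      apply eq_on_closure (continuous_pderiv (hF l) j)
      · have h2 : Continuous fun x => if j = l then ψ x else 0 := by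
          split_ifs
          · exact hψ.continuous
          · exact continuous_const
        have h3 := (hu j).continuous
        have h4 := (hv l).continuous
        have h5 := (hF l).continuous
        have h6 := (hF j).continuous
        fun_prop
      · intro x hx
        exact heq x hx j l
    have h2 := h1 y hy.1
    rw [hb y hy l, hb y hy j] at h2
    simpa using h2
  by_contra hne
  obtain ⟨c, hc⟩ := exists_mult G (hF 0) (fun x hx => hb x hx 0) hy
  obtain ⟨d, hd⟩ := exists_mult G (hF 1) (fun x hx => hb x hx 1) hy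
  have e1 := hext 0 0
  have e2 := hext 1 0
  have e3 := hext 1 1
  simp only [pderiv, hc, hd, if_true] at e1 e2 e3
  rw [if_neg (by decide)] at e2
  rcases mul_eq_zero.1 e2 with h | h
  · rw [h, zero_mul] at e1
    exact hne e1.symm
  · rw [h, mul_zero] at e3
    exact hne e3.symm

theorem core_psi (hF : ∀ l, ContDiff ℝ ∞ (F l)) (hu : ∀ l, ContDiff ℝ ∞ (u l))
    (hv : ∀ l, ContDiff ℝ ∞ (v l))
    (heq : ∀ x ∈ G.Ω, ∀ j l, pderiv (F l) j x
      = (if j = l then ψ x else 0) + u j x * F l x + v l x * F j x) {x : R3} (hx : x ∈ G.Ω) :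
    pderiv ψ 0 x = pderiv (u 0) 1 x * F 1 x + u 0 x * pderiv (F 1) 1 x
      + (pderiv (v 1) 1 x * F 0 x + v 1 x * pderiv (F 0) 1 x)
      - ((pderiv (u 1) 0 x + pderiv (v 1) 0 x) * F 1 x
        + (u 1 x + v 1 x) * pderiv (F 1) 0 x) := by
  have h1 : ∀ y ∈ G.Ω, ψ y = pderiv (F 1) 1 y - (u 1 y + v 1 y) * F 1 y := by
    intro y hy
    have := heq y hy 1 1
    rw [if_pos rfl] at this
    rw [this]; ring
  have h2 : ∀ y ∈ G.Ω, pderiv (F 1) 0 y = u 0 y * F 1 y + v 1 y * F 0 y := by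
    intro y hy
    have := heq y hy 0 1
    rw [if_neg (by decide)] at this
    rw [this]; ring
  have huv : ContDiff ℝ ∞ fun y => u 1 y + v 1 y := (hu 1).add (hv 1)
  rw [pderiv_congr_on (isOpen_dom G) h1 hx 0,
    pderiv_sub (contDiff_pderiv (hF 1) 1) (huv.mul (hF 1)),
    pderiv_mul huv (hF 1), pderiv_add (hu 1) (hv 1), pderiv_comm (hF 1) 1 0,
    pderiv_congr_on (isOpen_dom G) h2 hx 1,
    pderiv_add ((hu 0).mul (hF 1)) ((hv 1).mul (hF 0)), pderiv_mul (hu 0) (hF 1),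
    pderiv_mul (hv 1) (hF 0)]

theorem core (hF : ∀ l, ContDiff ℝ ∞ (F l)) (hu : ∀ l, ContDiff ℝ ∞ (u l))
    (hv : ∀ l, ContDiff ℝ ∞ (v l)) (hψ : ContDiff ℝ ∞ ψ)
    (heq : ∀ x ∈ G.Ω, ∀ j l, pderiv (F l) j x
      = (if j = l then ψ x else 0) + u j x * F l x + v l x * F j x)
    (hb : ∀ x ∈ frontier G.Ω, ∀ l, F l x = 0) : ∀ x ∈ G.Ω, ∀ l, F l x = 0 := by
  have hψb := core_bdry G F u v ψ hF hu hv hψ heq hb
  have hcomp : IsCompact (closure G.Ω) := G.bdd.isCompact_closure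
  have hbd : ∀ f : R3 → ℝ, Continuous f → ∃ B : ℝ, ∀ x ∈ closure G.Ω, |f x| ≤ B := by
    intro f hf
    obtain ⟨B, hB⟩ := hcomp.exists_bound_of_continuousOn (f := f) hf.continuousOn
    exact ⟨B, fun x hx => by simpa using hB x hx⟩
  have huc := fun j => (hu j).continuous
  have hvc := fun j => (hv j).continuous
  have hupc := fun j k => continuous_pderiv (hu j) k
  have hvpc := fun j k => continuous_pderiv (hv j) k
  -- coefficients of the equation for ψ
  set c0 : R3 → ℝ := fun x => pderiv (v 1) 1 x + v 1 x * u 1 x - (u 1 x + v 1 x) * v 1 x with hc0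
  set c1 : R3 → ℝ := fun x => pderiv (u 0) 1 x + u 0 x * (u 1 x + v 1 x) + v 1 x * v 0 x
    - (pderiv (u 1) 0 x + pderiv (v 1) 0 x) - (u 1 x + v 1 x) * u 0 x with hc1
  have hc0c : Continuous c0 := by
    have h1 := huc 1
    have h2 := hvc 1
    have h3 := hvpc 1 1
    fun_prop
  have hc1c : Continuous c1 := by
    have h1 := huc 1
    have h2 := hvc 1
    have h3 := huc 0
    have h4 := hvc 0
    have h5 := hupc 0 1
    have h6 := hupc 1 0
    have h7 := hvpc 1 0
    fun_prop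
  have hψ' : ∀ x ∈ G.Ω, pderiv ψ 0 x = u 0 x * ψ x + c0 x * F 0 x + c1 x * F 1 x := by
    intro x hx
    rw [core_psi G F u v ψ hF hu hv heq hx, heq x hx 1 1, heq x hx 1 0, heq x hx 0 1,
      if_pos rfl, if_neg (by decide), if_neg (by decide)]
    simp only [hc0, hc1]
    ring
  obtain ⟨B0, hB0⟩ := hbd (u 0) (huc 0)
  obtain ⟨B1, hB1⟩ := hbd (v 0) (hvc 0)
  obtain ⟨B2, hB2⟩ := hbd (v 1) (hvc 1)
  obtain ⟨B3, hB3⟩ := hbd (v 2) (hvc 2)
  obtain ⟨B4, hB4⟩ := hbd c0 hc0c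
  obtain ⟨B5, hB5⟩ := hbd c1 hc1c
  set B : ℝ := 1 + |B0| + |B1| + |B2| + |B3| + |B4| + |B5| with hBdef
  have p0 := abs_nonneg B0
  have p1 := abs_nonneg B1
  have p2 := abs_nonneg B2
  have p3 := abs_nonneg B3
  have p4 := abs_nonneg B4
  have p5 := abs_nonneg B5
  have hB1' : 1 ≤ B := by rw [hBdef]; linarith
  have hu0 : ∀ x ∈ closure G.Ω, |u 0 x| ≤ B := fun x hx => by
    have := hB0 x hx; have := le_abs_self B0; rw [hBdef]; linarith
  have hv' : ∀ l, ∀ x ∈ closure G.Ω, |v l x| ≤ B := by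
    intro l x hx
    fin_cases l
    · have h := hB1 x hx
      have := le_abs_self B1
      change |v 0 x| ≤ B
      rw [hBdef]; linarith
    · have h := hB2 x hx
      have := le_abs_self B2
      change |v 1 x| ≤ B
      rw [hBdef]; linarith
    · have h := hB3 x hx
      have := le_abs_self B3
      change |v 2 x| ≤ B
      rw [hBdef]; linarith
  have hc0' : ∀ x ∈ closure G.Ω, |c0 x| ≤ B := fun x hx => by
    have := hB4 x hx; have := le_abs_self B4; rw [hBdef]; linarith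
  have hc1' : ∀ x ∈ closure G.Ω, |c1 x| ≤ B := fun x hx => by
    have := hB5 x hx; have := le_abs_self B5; rw [hBdef]; linarith
  intro x hx
  obtain ⟨T, hT, hin, hfr⟩ := exists_exit (isOpen_dom G) G.bdd hx
  set e : R3 := EuclideanSpace.single (0 : Fin 3) (1 : ℝ) with he
  let Y : Option (Fin 3) → R3 → ℝ := fun i => i.elim ψ F
  have hY : ∀ i, ContDiff ℝ ∞ (Y i) := by
    intro i
    cases i with
    | none => exact hψ
    | some l => exact hF l
  have hbound : ∀ z ∈ G.Ω, ∀ i, |pderiv (Y i) 0 z| ≤ (2 * B) * ∑ j, |Y j z| := by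
    intro z hz i
    have hzc := subset_closure hz
    have hsum : ∑ j, |Y j z| = |ψ z| + (|F 0 z| + |F 1 z| + |F 2 z|) := by
      rw [Fintype.sum_option, Fin.sum_univ_three]
      rfl
    have q := abs_nonneg (ψ z)
    have q0 := abs_nonneg (F 0 z)
    have q1 := abs_nonneg (F 1 z)
    have q2 := abs_nonneg (F 2 z)
    have hBp : 0 ≤ B := by linarith
    have m : |ψ z| ≤ B * |ψ z| := by nlinarith
    have n : 0 ≤ B * |ψ z| := by positivity
    have n0 : 0 ≤ B * |F 0 z| := by positivity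
    have n1 : 0 ≤ B * |F 1 z| := by positivity
    have n2 : 0 ≤ B * |F 2 z| := by positivity
    have hmul : ∀ a b : ℝ, |a| ≤ B → |a * b| ≤ B * |b| := by
      intro a b hab
      rw [abs_mul]
      exact mul_le_mul_of_nonneg_right hab (abs_nonneg b)
    rw [hsum]
    cases i with
    | none =>
      change |pderiv ψ 0 z| ≤ _
      rw [hψ' z hz]
      have r1 := hmul _ (ψ z) (hu0 z hzc)
      have r2 := hmul _ (F 0 z) (hc0' z hzc)
      have r3 := hmul _ (F 1 z) (hc1' z hzc)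
      have r4 := abs_add_three (u 0 z * ψ z) (c0 z * F 0 z) (c1 z * F 1 z)
      linarith
    | some l =>
      change |pderiv (F l) 0 z| ≤ _
      rw [heq z hz 0 l]
      have r0 : |(if (0 : Fin 3) = l then ψ z else 0)| ≤ |ψ z| := by
        split_ifs
        · exact le_refl _
        · simp
      have r1 := hmul _ (F l z) (hu0 z hzc)
      have r2 := hmul _ (F 0 z) (hv' l z hzc)
      have r4 := abs_add_three (if (0 : Fin 3) = l then ψ z else 0) (u 0 z * F l z)
        (v l z * F 0 z)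
      have r5 : |F l z| ≤ |F 0 z| + |F 1 z| + |F 2 z| := by
        fin_cases l
        · change |F 0 z| ≤ _
          linarith
        · change |F 1 z| ≤ _
          linarith
        · change |F 2 z| ≤ _
          linarith
      have r6 : B * |F l z| ≤ B * (|F 0 z| + |F 1 z| + |F 2 z|) :=
        mul_le_mul_of_nonneg_left r5 hBp
      nlinarith
  have hmain := lin_ode_zero (ι := Option (Fin 3)) (fun i t => Y i (x + t • e))
    (fun i t => pderiv (Y i) 0 (x + t • e)) (T := T) (B := 2 * B) hT (by linarith)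
    (by
      intro i
      apply Continuous.continuousOn
      exact (hY i).continuous.comp (by fun_prop))
    (by
      intro i t _
      exact hasDerivAt_line (hY i) x t)
    (by
      intro i t ht
      exact hbound _ (hin t ht.1 ht.2) i)
    (by
      intro i
      cases i with
      | none => exact hψb _ hfr
      | some l => exact hb _ hfr l)
  intro l
  have := hmain (some l)
  simpa [Y] using this

end core

end Crest.Agent.R080.FinalAux
end
end

-- ▼ part R080/Final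

/-!
Row 80 (S0107), T17: the relations force equality of the moduli.
-/

set_option autoImplicit false

open MeasureTheory Filter Set
open scoped ContDiff Topology
open Crest.AnalysisR.VecCalc3 Crest.AnalysisR.PDE.Elasticity

noncomputable section
namespace Crest.Agent.R080.FinalAux

section moduli
variable (P : Moduli)

theorem lam_mu_pos (x : R3) : 0 < P.lam x + P.mu x := by
  have h1 := P.mu_pos x
  have h2 := P.bulk_pos x
  linarith

theorem lam_2mu_pos (x : R3) : 0 < P.lam x + 2 * P.mu x := by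
  have h1 := P.mu_pos x
  have h2 := P.bulk_pos x
  linarith

theorem m_pos (x : R3) : 0 < P.m x := inv_pos.2 (P.mu_pos x)

theorem sm_pos (x : R3) : 0 < P.sm x := Real.sqrt_pos.2 (m_pos P x)

theorem sm_mul (x : R3) : P.sm x * P.sm x = P.m x := Real.mul_self_sqrt (m_pos P x).le

theorem kap_pos (x : R3) : 0 < P.kap x := by
  unfold Moduli.kap
  exact div_pos (mul_pos (lam_mu_pos P x) (P.mu_pos x)) (mul_pos two_pos (lam_2mu_pos P x))

theorem kap_m (x : R3) : 2 * (P.kap x * P.m x) - 1 < 0 := by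
  have h1 := P.mu_pos x
  have h2 := lam_2mu_pos P x
  have h3 : 2 * (P.kap x * P.m x) = (P.lam x + P.mu x) / (P.lam x + 2 * P.mu x) := by
    unfold Moduli.kap Moduli.m
    field_simp
  rw [h3, sub_neg, div_lt_one h2]
  linarith

theorem contDiff_m : ContDiff ℝ ∞ P.m := P.smooth_mu.inv (fun x => (P.mu_pos x).ne')

theorem contDiff_sm : ContDiff ℝ ∞ P.sm := (contDiff_m P).sqrt (fun x => (m_pos P x).ne')

theorem contDiff_kap : ContDiff ℝ ∞ P.kap := by
  refine ContDiff.div ((P.smooth_lam.add P.smooth_mu).mul P.smooth_mu)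
    (contDiff_const.mul (P.smooth_lam.add (contDiff_const.mul P.smooth_mu))) ?_
  intro x
  exact (mul_pos two_pos (lam_2mu_pos P x)).ne'

theorem pderiv_sm (j : Fin 3) (x : R3) :
    pderiv P.sm j x / P.sm x = pderiv P.m j x / P.m x / 2 := by
  have h1 : pderiv (fun y => P.sm y * P.sm y) j x
      = pderiv P.sm j x * P.sm x + P.sm x * pderiv P.sm j x :=
    pderiv_mul (contDiff_sm P) (contDiff_sm P) j x
  have h2 : (fun y => P.sm y * P.sm y) = P.m := funext (sm_mul P)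
  rw [h2] at h1
  rw [h1, ← sm_mul P x]
  have h3 := (sm_pos P x).ne'
  field_simp
  ring

end moduli

section final
variable (G : Dom) (P₁ P₂ : Moduli)

/-- `f = log √m₁ - log √m₂` -/
def ff (x : R3) : ℝ := Real.log (P₁.sm x) - Real.log (P₂.sm x)

/-- `∂_l m / m` -/
def lg (P : Moduli) (l : Fin 3) (x : R3) : ℝ := pderiv P.m l x / P.m x

theorem contDiff_lg (P : Moduli) (l : Fin 3) : ContDiff ℝ ∞ (lg P l) :=
  (contDiff_pderiv (contDiff_m P) l).div (contDiff_m P) (fun x => (m_pos P x).ne')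

theorem contDiff_logsm (P : Moduli) : ContDiff ℝ ∞ (fun x => Real.log (P.sm x)) :=
  (contDiff_sm P).log (fun x => (sm_pos P x).ne')

theorem contDiff_ff : ContDiff ℝ ∞ (ff P₁ P₂) := (contDiff_logsm P₁).sub (contDiff_logsm P₂)

theorem pderiv_ff (l : Fin 3) (x : R3) :
    pderiv (ff P₁ P₂) l x = (lg P₁ l x - lg P₂ l x) / 2 := by
  have h1 : pderiv (ff P₁ P₂) l x = pderiv (fun y => Real.log (P₁.sm y)) l x
      - pderiv (fun y => Real.log (P₂.sm y)) l x :=
    pderiv_sub (contDiff_logsm P₁) (contDiff_logsm P₂) l x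
  rw [h1, pderiv_log (contDiff_sm P₁) l x (sm_pos P₁ x).ne',
    pderiv_log (contDiff_sm P₂) l x (sm_pos P₂ x).ne', pderiv_sm, pderiv_sm]
  unfold lg
  ring

/-- `c = (2 κ₁ m₁ - 1) / (κ₁ √m₁)` -/
def cof (x : R3) : ℝ := (2 * (P₁.kap x * P₁.m x) - 1) / (P₁.kap x * P₁.sm x)

theorem ks_pos (P : Moduli) (x : R3) : 0 < P.kap x * P.sm x := mul_pos (kap_pos P x) (sm_pos P x)

theorem contDiff_ks (P : Moduli) : ContDiff ℝ ∞ (fun x => P.kap x * P.sm x) :=
  (contDiff_kap P).mul (contDiff_sm P)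

theorem cof_ne (x : R3) : cof P₁ x ≠ 0 :=
  (div_neg_of_neg_of_pos (kap_m P₁ x) (ks_pos P₁ x)).ne

theorem contDiff_cof : ContDiff ℝ ∞ (cof P₁) :=
  ((contDiff_const.mul ((contDiff_kap P₁).mul (contDiff_m P₁))).sub contDiff_const).div
    (contDiff_ks P₁) (fun x => (ks_pos P₁ x).ne')

theorem contDiff_aa : ContDiff ℝ ∞ (aa P₁ P₂) :=
  (contDiff_ks P₂).div (contDiff_ks P₁) (fun x => (ks_pos P₁ x).ne')

theorem aa_pos (x : R3) : 0 < aa P₁ P₂ x := div_pos (ks_pos P₂ x) (ks_pos P₁ x)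

theorem contDiff_qq (l : Fin 3) : ContDiff ℝ ∞ (qq P₁ P₂ l) := by
  have h : ∀ P : Moduli, ContDiff ℝ ∞ (fun x => (P.kap x - 1 / (2 * P.m x)) * pderiv P.m l x) := by
    intro P
    refine ContDiff.mul (ContDiff.sub (contDiff_kap P) (contDiff_const.div
      (contDiff_const.mul (contDiff_m P)) ?_)) (contDiff_pderiv (contDiff_m P) l)
    intro x
    exact (mul_pos two_pos (m_pos P x)).ne'
  exact ((h P₁).sub (h P₂)).div (contDiff_ks P₁) (fun x => (ks_pos P₁ x).ne')

variable {G P₁ P₂}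

/-- gradient of `a` -/
theorem grad_a' (H : Relations G P₁ P₂) {x : R3} (hx : x ∈ G.Ω) (j : Fin 3) :
    pderiv (aa P₁ P₂) j x = aa P₁ P₂ x * pderiv (ff P₁ P₂) j x := by
  rw [H.grad_a x hx j, pderiv_ff]
  have h1 := (m_pos P₁ x).ne'
  have h2 := (m_pos P₂ x).ne'
  have h3 := (kap_pos P₁ x).ne'
  have h4 := (sm_pos P₁ x).ne'
  unfold qq aa lg
  field_simp
  ring

theorem log_aa (H : Relations G P₁ P₂) : ∀ x ∈ G.Ω, Real.log (aa P₁ P₂ x) = ff P₁ P₂ x := by
  have hlog : ContDiff ℝ ∞ (fun x => Real.log (aa P₁ P₂ x)) :=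
    (contDiff_aa P₁ P₂).log (fun x => (aa_pos P₁ P₂ x).ne')
  have h := eq_zero_of_line (isOpen_dom G) G.bdd (hlog.sub (contDiff_ff P₁ P₂))
    (by
      intro x hx
      have h1 : pderiv (fun x => Real.log (aa P₁ P₂ x) - ff P₁ P₂ x) 0 x
        = pderiv (fun x => Real.log (aa P₁ P₂ x)) 0 x - pderiv (ff P₁ P₂) 0 x :=
        pderiv_sub hlog (contDiff_ff P₁ P₂) 0 x
      change pderiv (fun x => Real.log (aa P₁ P₂ x) - ff P₁ P₂ x) 0 x = 0
      rw [h1, pderiv_log (contDiff_aa P₁ P₂) 0 x (aa_pos P₁ P₂ x).ne', grad_a' H hx]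
      have := (aa_pos P₁ P₂ x).ne'
      field_simp
      ring)
    (by
      intro x hx
      have h1 : P₁.sm x = P₂.sm x := by
        unfold Moduli.sm Moduli.m
        rw [H.bdry_m x hx]
      change Real.log (aa P₁ P₂ x) - ff P₁ P₂ x = 0
      unfold ff
      rw [H.bdry_a x hx, h1]
      simp)
  intro x hx
  have h2 : Real.log (aa P₁ P₂ x) - ff P₁ P₂ x = 0 := h x hx
  linarith

theorem aa_eq (H : Relations G P₁ P₂) : ∀ x ∈ G.Ω, aa P₁ P₂ x = P₁.sm x / P₂.sm x := by
  intro x hx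
  have h1 := log_aa H x hx
  unfold ff at h1
  rw [← Real.log_div (sm_pos P₁ x).ne' (sm_pos P₂ x).ne'] at h1
  exact Real.log_injOn_pos (aa_pos P₁ P₂ x) (div_pos (sm_pos P₁ x) (sm_pos P₂ x)) h1

theorem kap_m_eq (H : Relations G P₁ P₂) :
    ∀ x ∈ G.Ω, P₂.kap x * P₂.m x = P₁.kap x * P₁.m x := by
  intro x hx
  have h1 := aa_eq H x hx
  unfold aa at h1
  have h2 := (ks_pos P₁ x).ne'
  have h3 := (sm_pos P₂ x).ne'
  rw [div_eq_div_iff h2 h3] at h1
  rw [← sm_mul P₁ x, ← sm_mul P₂ x]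
  linarith

theorem qq_eq (H : Relations G P₁ P₂) (l : Fin 3) :
    ∀ x ∈ G.Ω, qq P₁ P₂ l x = cof P₁ x * pderiv (ff P₁ P₂) l x := by
  intro x hx
  have h1 := (m_pos P₁ x).ne'
  have h2 := (m_pos P₂ x).ne'
  have h3 := (kap_pos P₁ x).ne'
  have h4 := (sm_pos P₁ x).ne'
  have h5 : P₂.kap x = P₁.kap x * P₁.m x / P₂.m x := by
    rw [eq_div_iff h2]
    exact kap_m_eq H x hx
  rw [pderiv_ff]
  unfold qq cof lg
  rw [h5]
  field_simp

theorem F_bdry (H : Relations G P₁ P₂) :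
    ∀ x ∈ frontier G.Ω, ∀ l, pderiv (ff P₁ P₂) l x = 0 := by
  intro x hx l
  have h1 := eq_on_closure (contDiff_qq P₁ P₂ l).continuous
    ((contDiff_cof P₁).continuous.mul (continuous_pderiv (contDiff_ff P₁ P₂) l)) (qq_eq H l) x hx.1
  rw [H.bdry_q x hx l] at h1
  rcases mul_eq_zero.1 h1.symm with h | h
  · exact absurd h (cof_ne P₁ x)
  · exact h

/-- `u_j` -/
def uu (P₁ P₂ : Moduli) (j : Fin 3) (x : R3) : ℝ :=
  (-pderiv (cof P₁) j x - 2 * (P₁.kap x * P₁.m x * P₁.sm x) * lg P₂ j x) / cof P₁ x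
    + P₁.kap x * P₁.m x * lg P₁ j x

/-- `v_l` -/
def vv (P₁ P₂ : Moduli) (l : Fin 3) (x : R3) : ℝ :=
  (-2 * (P₁.kap x * P₁.m x * P₁.sm x) * lg P₁ l x) / cof P₁ x
    + (P₁.kap x * P₁.m x - 1 / 2) * lg P₂ l x

theorem contDiff_uu (j : Fin 3) : ContDiff ℝ ∞ (uu P₁ P₂ j) := by
  have h1 := contDiff_pderiv (contDiff_cof P₁) j
  have h2 := contDiff_kap P₁
  have h3 := contDiff_m P₁
  have h4 := contDiff_sm P₁
  have h5 := contDiff_lg P₁ j
  have h6 := contDiff_lg P₂ j
  exact ((h1.neg.sub ((contDiff_const.mul ((h2.mul h3).mul h4)).mul h6)).div (contDiff_cof P₁)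
    (cof_ne P₁)).add ((h2.mul h3).mul h5)

theorem contDiff_vv (l : Fin 3) : ContDiff ℝ ∞ (vv P₁ P₂ l) := by
  have h2 := contDiff_kap P₁
  have h3 := contDiff_m P₁
  have h4 := contDiff_sm P₁
  have h5 := contDiff_lg P₁ l
  have h6 := contDiff_lg P₂ l
  exact (((contDiff_const.mul ((h2.mul h3).mul h4)).mul h5).div (contDiff_cof P₁)
    (cof_ne P₁)).add (((h2.mul h3).sub contDiff_const).mul h6)

/-- pointwise algebra for the second order relation -/
theorem alg_scal (k1 k2 m1 m2 s1 s2 a c dc φ : ℝ) (A B Fj Fl dF : ℝ) (Aj Al Bj Bl dj1 dl1 dj2 dl2 : ℝ)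
    (_hm1 : m1 ≠ 0) (hm2 : m2 ≠ 0) (hs1 : s1 ≠ 0) (hs2 : s2 ≠ 0) (hc : c ≠ 0)
    (hs1' : s1 * s1 = m1) (hs2' : s2 * s2 = m2) (hk : k2 * m2 = k1 * m1) (ha : a = s1 / s2)
    (hj1 : dj1 = Aj * m1) (hl1 : dl1 = Al * m1) (hj2 : dj2 = Bj * m2) (hl2 : dl2 = Bl * m2)
    (hFj : Fj = (Aj - Bj) / 2) (hFl : Fl = (Al - Bl) / 2)
    (hA : A = (-dc - 2 * (k1 * m1 * s1) * Bj) / c + k1 * m1 * Aj)
    (hB : B = (-2 * (k1 * m1 * s1) * Al) / c + (k1 * m1 - 1 / 2) * Bl)
    (h : (dc * Fl + c * dF) - k2 / s2 * a * dj2 * dl2 - (k2 - 1 / (2 * m2)) * (c * Fj) * dl2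
      - k1 * dj1 * (c * Fl) + k1 / s1 * dj1 * dl1 = φ) :
    dF = φ / c + A * Fl + B * Fj := by
  have e1 : k2 / s2 * a * dj2 * dl2 = k1 * m1 * s1 * (Bj * Bl) := by
    rw [ha, hj2, hl2, ← hk, ← hs2']
    field_simp
  have e2 : (k2 - 1 / (2 * m2)) * (c * Fj) * dl2 = (k1 * m1 - 1 / 2) * c * Bl * Fj := by
    rw [hl2, ← hk]
    field_simp
  have e3 : k1 / s1 * dj1 * dl1 = k1 * m1 * s1 * (Aj * Al) := by
    rw [hj1, hl1, ← hs1']
    field_simp
  rw [e1, e2, e3, hj1] at h
  rw [hA, hB, ← h]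
  rw [hFj, hFl]
  field_simp
  ring

theorem relation (H : Relations G P₁ P₂) {x : R3} (hx : x ∈ G.Ω) : ∃ φ : ℝ, ∀ j l,
    pderiv (pderiv (ff P₁ P₂) l) j x = (if j = l then φ else 0)
      + uu P₁ P₂ j x * pderiv (ff P₁ P₂) l x + vv P₁ P₂ l x * pderiv (ff P₁ P₂) j x := by
  obtain ⟨φ, hφ⟩ := H.scal x hx
  refine ⟨φ / cof P₁ x, fun j l => ?_⟩
  have h := hφ j l
  have hd : pderiv (qq P₁ P₂ l) j x = pderiv (cof P₁) j x * pderiv (ff P₁ P₂) l x
      + cof P₁ x * pderiv (pderiv (ff P₁ P₂) l) j x := by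
    rw [pderiv_congr_on (isOpen_dom G) (qq_eq H l) hx j,
      pderiv_mul (contDiff_cof P₁) (contDiff_pderiv (contDiff_ff P₁ P₂) l)]
  rw [hd, qq_eq H j x hx, qq_eq H l x hx] at h
  have := alg_scal (P₁.kap x) (P₂.kap x) (P₁.m x) (P₂.m x) (P₁.sm x) (P₂.sm x) (aa P₁ P₂ x)
    (cof P₁ x) (pderiv (cof P₁) j x) (if j = l then φ else 0) (uu P₁ P₂ j x) (vv P₁ P₂ l x)
    (pderiv (ff P₁ P₂) j x) (pderiv (ff P₁ P₂) l x) (pderiv (pderiv (ff P₁ P₂) l) j x)
    (lg P₁ j x) (lg P₁ l x) (lg P₂ j x) (lg P₂ l x) (pderiv P₁.m j x) (pderiv P₁.m l x)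
    (pderiv P₂.m j x) (pderiv P₂.m l x) (m_pos P₁ x).ne' (m_pos P₂ x).ne' (sm_pos P₁ x).ne'
    (sm_pos P₂ x).ne' (cof_ne P₁ x) (sm_mul P₁ x) (sm_mul P₂ x) (kap_m_eq H x hx)
    (aa_eq H x hx) (by unfold lg; field_simp [(m_pos P₁ x).ne'])
    (by unfold lg; field_simp [(m_pos P₁ x).ne'])
    (by unfold lg; field_simp [(m_pos P₂ x).ne'])
    (by unfold lg; field_simp [(m_pos P₂ x).ne'])
    (pderiv_ff P₁ P₂ j x) (pderiv_ff P₁ P₂ l x) rfl rfl h
  rw [this]
  split_ifs <;> simp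

/-- `F = ∇ f` vanishes in `Ω` -/
theorem F_zero (H : Relations G P₁ P₂) : ∀ x ∈ G.Ω, ∀ l, pderiv (ff P₁ P₂) l x = 0 := by
  have hF := fun l => contDiff_pderiv (contDiff_ff P₁ P₂) l
  have hu := fun j => contDiff_uu (P₁ := P₁) (P₂ := P₂) j
  have hv := fun j => contDiff_vv (P₁ := P₁) (P₂ := P₂) j
  refine core G (fun l => pderiv (ff P₁ P₂) l) (uu P₁ P₂) (vv P₁ P₂)
    (fun x => pderiv (pderiv (ff P₁ P₂) 0) 0 x - (uu P₁ P₂ 0 x + vv P₁ P₂ 0 x)
      * pderiv (ff P₁ P₂) 0 x) hF hu hv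
    ((contDiff_pderiv (hF 0) 0).sub (((hu 0).add (hv 0)).mul (hF 0))) ?_ (F_bdry H)
  intro x hx j l
  obtain ⟨φ, hφ⟩ := relation H hx
  have h0 : φ = pderiv (pderiv (ff P₁ P₂) 0) 0 x - (uu P₁ P₂ 0 x + vv P₁ P₂ 0 x)
      * pderiv (ff P₁ P₂) 0 x := by
    have := hφ 0 0
    rw [if_pos rfl] at this
    rw [this]
    ring
  have h1 := hφ j l
  rw [← h0]
  exact h1

theorem sm_eq (H : Relations G P₁ P₂) : ∀ x ∈ G.Ω, P₁.sm x = P₂.sm x := by
  intro x hx
  have h := eq_zero_of_line (isOpen_dom G) G.bdd (contDiff_ff P₁ P₂)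
    (fun y hy => F_zero H y hy 0)
    (by
      intro y hy
      have h1 : P₁.sm y = P₂.sm y := by
        unfold Moduli.sm Moduli.m
        rw [H.bdry_m y hy]
      unfold ff
      rw [h1, sub_self]) x hx
  unfold ff at h
  exact Real.log_injOn_pos (sm_pos P₁ x) (sm_pos P₂ x) (sub_eq_zero.1 h)

end final

end Crest.Agent.R080.FinalAux

namespace Crest.Agent.R080
open FinalAux

theorem t_Final : StmtFinal := by
  intro G P₁ P₂ H x hx
  have hm : P₁.m x = P₂.m x := by
    rw [← sm_mul P₁ x, ← sm_mul P₂ x, sm_eq H x hx]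
  have hmu : P₁.mu x = P₂.mu x := by
    unfold Moduli.m at hm
    exact inv_injective hm
  have hkap : P₂.kap x = P₁.kap x := by
    have := kap_m_eq H x hx
    rw [hm] at this
    exact mul_right_cancel₀ (m_pos P₂ x).ne' this
  refine ⟨?_, hmu⟩
  unfold Moduli.kap at hkap
  have h1 := lam_2mu_pos P₁ x
  have h2 := lam_2mu_pos P₂ x
  have h3 := P₁.mu_pos x
  rw [← hmu] at hkap h2
  rw [div_eq_div_iff (mul_pos two_pos h2).ne' (mul_pos two_pos h1).ne'] at hkap
  have h4 : P₁.mu x * P₁.mu x * (P₁.lam x - P₂.lam x) = 0 := by linarith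
  rcases mul_eq_zero.1 h4 with h | h
  · exact absurd h (mul_pos h3 h3).ne'
  · linarith

end Crest.Agent.R080
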