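import Crest.Agent.R080.Stmts2

/-!
Row 80 (S0107): calculus of `pd`, and the differential algebra of smooth complex functions
(`Sm`, a subalgebra of `R3 → ℂ`, with commuting derivations `Sm.d j`).
-/

set_option autoImplicit false

open MeasureTheory Filter
open scoped ContDiff Topology
open Crest.AnalysisR.VecCalc3 Crest.AnalysisR.PDE.Elasticity

noncomputable section
namespace Crest.Agent.R080.La

section pd

variable {f g : R3 → ℂ} {x : R3} {j : Fin 3}


theorem pd_add (hf : DifferentiableAt ℝ f x) (hg : DifferentiableAt ℝ g x) :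
    pd j (fun y => f y + g y) x = pd j f x + pd j g x := by
  unfold pd; rw [fderiv_fun_add hf hg]; rfl

theorem pd_sub (hf : DifferentiableAt ℝ f x) (hg : DifferentiableAt ℝ g x) :
    pd j (fun y => f y - g y) x = pd j f x - pd j g x := by
  unfold pd; rw [fderiv_fun_sub hf hg]; rfl


theorem pd_const (c : ℂ) : pd j (fun _ => c) x = 0 := by
  unfold pd; simp

theorem pd_mul (hf : DifferentiableAt ℝ f x) (hg : DifferentiableAt ℝ g x) :
    pd j (fun y => f y * g y) x = pd j f x * g x + f x * pd j g x := by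
  unfold pd; rw [fderiv_fun_mul hf hg]
  simp only [add_apply, smul_apply, smul_eq_mul]
  ring

theorem pd_const_mul (c : ℂ) (hf : DifferentiableAt ℝ f x) :
    pd j (fun y => c * f y) x = c * pd j f x := by
  rw [pd_mul (differentiableAt_const c) hf, pd_const]; ring

theorem pd_mul_const (c : ℂ) (hf : DifferentiableAt ℝ f x) :
    pd j (fun y => f y * c) x = pd j f x * c := by
  rw [pd_mul hf (differentiableAt_const c), pd_const]; ring


theorem pd_sum {ι : Type*} (s : Finset ι) (F : ι → R3 → ℂ)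
    (hF : ∀ i ∈ s, DifferentiableAt ℝ (F i) x) :
    pd j (fun y => ∑ i ∈ s, F i y) x = ∑ i ∈ s, pd j (F i) x := by
  unfold pd; rw [fderiv_fun_sum hF]; simp

theorem contDiff_pd {n : WithTop ℕ∞} (hf : ContDiff ℝ (n + 1) f) (j : Fin 3) :
    ContDiff ℝ n (pd j f) := by
  unfold pd
  exact (hf.fderiv_right le_rfl).clm_apply contDiff_const

theorem contDiff_pd_infty (hf : ContDiff ℝ ∞ f) (j : Fin 3) : ContDiff ℝ ∞ (pd j f) :=
  contDiff_pd (by simpa using hf) j

theorem continuous_pd (hf : ContDiff ℝ 1 f) (j : Fin 3) : Continuous (pd j f) := by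
  have : ContDiff ℝ 0 (pd j f) := contDiff_pd (by simpa using hf) j
  exact this.continuous

theorem pd_comm (hf : ContDiff ℝ 2 f) (i j : Fin 3) (x : R3) :
    pd i (pd j f) x = pd j (pd i f) x := by
  have h1 : DifferentiableAt ℝ (fderiv ℝ f) x :=
    ((hf.fderiv_right (m := 1) (by norm_num)).differentiable one_ne_zero) x
  have key : ∀ a b : Fin 3, pd a (pd b f) x = fderiv ℝ (fderiv ℝ f) x (ee a) (ee b) := by
    intro a b
    have e : pd b f = fun y => fderiv ℝ f y (ee b) := rfl
    unfold pd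
    rw [fderiv_clm_apply h1 (differentiableAt_const _)]
    simp
  rw [key, key]
  have hs : IsSymmSndFDerivAt ℝ f x :=
    (hf.contDiffAt).isSymmSndFDerivAt (by simp)
  exact hs (ee i) (ee j)

theorem contDiff_cf {h : R3 → ℝ} {n : WithTop ℕ∞} (hh : ContDiff ℝ n h) : ContDiff ℝ n (cf h) :=
  Complex.ofRealCLM.contDiff.comp hh

end pd

/-! ### the differential algebra of smooth functions -/

/-- smooth complex functions on `ℝ³` -/
def Sm : Subalgebra ℂ (R3 → ℂ) where
  carrier := {f | ContDiff ℝ ∞ f}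
  mul_mem' := fun {a b} (ha : ContDiff ℝ ∞ a) (hb : ContDiff ℝ ∞ b) => ha.mul hb
  add_mem' := fun {a b} (ha : ContDiff ℝ ∞ a) (hb : ContDiff ℝ ∞ b) => ha.add hb
  algebraMap_mem' := fun c => (contDiff_const : ContDiff ℝ ∞ fun _ : R3 => c)

namespace Sm

theorem smooth (f : Sm) : ContDiff ℝ ∞ (f : R3 → ℂ) := f.2

theorem diffAt (f : Sm) (x : R3) : DifferentiableAt ℝ (f : R3 → ℂ) x :=
  ((smooth f).differentiable (by simp)) x

/-- the `j`-th partial derivative as a linear map -/
def d (j : Fin 3) : Derivation ℂ Sm Sm :=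
  Derivation.mk' (
    { toFun := fun f => ⟨pd j f, contDiff_pd_infty f.2 j⟩
      map_add' := fun f g => Subtype.ext (funext fun x => pd_add (diffAt f x) (diffAt g x))
      map_smul' := fun c f => Subtype.ext (funext fun x => pd_const_mul c (diffAt f x)) } :
      Sm →ₗ[ℂ] Sm) (fun f g => Subtype.ext (funext fun x => by
        have := pd_mul (j := j) (diffAt f x) (diffAt g x)
        simp only [LinearMap.coe_mk, AddHom.coe_mk, smul_eq_mul]
        change pd j (fun y => (f : R3 → ℂ) y * (g : R3 → ℂ) y) x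
          = (f : R3 → ℂ) x * pd j g x + (g : R3 → ℂ) x * pd j f x
        rw [this]; ring))


theorem d_apply (j : Fin 3) (f : Sm) (x : R3) : ((d j f : Sm) : R3 → ℂ) x = pd j f x := rfl

theorem d_mul (j : Fin 3) (f g : Sm) : d j (f * g) = d j f * g + f * d j g := by
  rw [Derivation.leibniz]; simp only [smul_eq_mul]; ring

theorem d_comm (i j : Fin 3) (f : Sm) : d i (d j f) = d j (d i f) :=
  Subtype.ext (funext fun x => pd_comm ((smooth f).of_le (by norm_cast)) i j x)

theorem d_natCast (j : Fin 3) (n : ℕ) : d j (n : Sm) = 0 := Derivation.map_natCast _ _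

theorem d_two (j : Fin 3) : d j (2 : Sm) = 0 := by exact_mod_cast d_natCast j 2



theorem add_apply (f g : Sm) (x : R3) : ((f + g : Sm) : R3 → ℂ) x = f.1 x + g.1 x := rfl
theorem mul_apply (f g : Sm) (x : R3) : ((f * g : Sm) : R3 → ℂ) x = f.1 x * g.1 x := rfl
theorem sub_apply (f g : Sm) (x : R3) : ((f - g : Sm) : R3 → ℂ) x = f.1 x - g.1 x := rfl
theorem neg_apply (f : Sm) (x : R3) : ((-f : Sm) : R3 → ℂ) x = -f.1 x := rfl
theorem one_apply (x : R3) : ((1 : Sm) : R3 → ℂ) x = 1 := rfl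
theorem zero_apply (x : R3) : ((0 : Sm) : R3 → ℂ) x = 0 := rfl

end Sm

/-! ### the coefficients -/


theorem lam_add_two_mu_pos (P : Moduli) (x : R3) : 0 < P.lam x + 2 * P.mu x := by
  have h1 := P.mu_pos x; have h2 := P.bulk_pos x; linarith


theorem smooth_m (P : Moduli) : ContDiff ℝ ∞ P.m :=
  P.smooth_mu.inv fun x => (P.mu_pos x).ne'


theorem m_mul_mu (P : Moduli) (x : R3) : P.m x * P.mu x = 1 :=
  inv_mul_cancel₀ (P.mu_pos x).ne'

theorem cc_pos (P : Moduli) (x : R3) : 0 < P.cc x :=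
  div_pos (P.mu_pos x) (lam_add_two_mu_pos P x)

theorem inv_cc (P : Moduli) (x : R3) : (P.cc x)⁻¹ = P.lam x * P.m x + 2 := by
  unfold Moduli.cc Moduli.m
  have h1 := (P.mu_pos x).ne'
  rw [inv_div]; field_simp

theorem smooth_expo (θ : Fin 3 → ℂ) (τ : ℂ) : ContDiff ℝ ∞ (expo θ τ) := by
  unfold expo
  refine Complex.contDiff_exp.comp (contDiff_const.mul (ContDiff.sum fun j _ => ?_))
  refine contDiff_const.mul ?_
  refine Complex.ofRealCLM.contDiff.comp ?_
  exact (EuclideanSpace.proj (𝕜 := ℝ) j).contDiff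

theorem pd_expo (θ : Fin 3 → ℂ) (τ : ℂ) (j : Fin 3) (x : R3) :
    pd j (expo θ τ) x = τ * θ j * expo θ τ x := by
  have h1 : ∀ k : Fin 3, HasFDerivAt (fun y : R3 => ((y k : ℝ) : ℂ))
      (Complex.ofRealCLM.comp (EuclideanSpace.proj (𝕜 := ℝ) k)) x := fun k =>
    Complex.ofRealCLM.hasFDerivAt.comp x (EuclideanSpace.proj (𝕜 := ℝ) k).hasFDerivAt
  have h2 : HasFDerivAt (fun y : R3 => τ * ∑ k, θ k * ((y k : ℝ) : ℂ))
      (τ • ∑ k, θ k • (Complex.ofRealCLM.comp (EuclideanSpace.proj (𝕜 := ℝ) k))) x := by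
    refine HasFDerivAt.const_mul ?_ τ
    exact HasFDerivAt.fun_sum fun k _ => (h1 k).const_mul (θ k)
  have h3 := h2.cexp
  unfold pd expo
  rw [h3.fderiv]
  simp only [smul_apply, sum_apply,
    ContinuousLinearMap.comp_apply, Complex.ofRealCLM_apply, smul_eq_mul]
  have e : ∀ k : Fin 3, ((EuclideanSpace.proj (𝕜 := ℝ) k) (ee j) : ℝ) = if k = j then 1 else 0 := by
    intro k; simp [ee]
  have e2 : ∑ k, θ k * (((EuclideanSpace.proj (𝕜 := ℝ) k) (ee j) : ℝ) : ℂ) = θ j := by
    rw [Finset.sum_eq_single j]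
    · rw [e]; simp
    · intro b _ hb; rw [e, if_neg hb]; simp
    · intro h; exact absurd (Finset.mem_univ j) h
  rw [e2]; ring

end Crest.Agent.R080.La
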