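import Crest.Agent.R080.CarlLow
import Crest.Agent.R080.Stmts2
import Crest.Agent.R080.Mollify
import Mathlib
import Crest.Agent.R080.PdCalc
import Crest.Agent.R080.DomBasic

-- ▼ part R080/Carleman
section

/-!
Row 80 (S0107), T8: the Carleman estimate (helper417).
-/

set_option autoImplicit false

open MeasureTheory Filter
open scoped ContDiff Topology ComplexConjugate
open Crest.AnalysisR.VecCalc3

noncomputable section
namespace Crest.Agent.R080
open Carl Carl.Sm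

theorem t_Carleman : StmtCarleman := by
  intro ι _ _ θ hθ A B hA hB R0
  obtain ⟨R, hR1, hR0⟩ : ∃ R : ℝ, 1 ≤ R ∧ R0 ≤ R := ⟨max R0 1, le_max_right _ _, le_max_left _ _⟩
  set a : Fin 3 → ℝ := fun j => (θ j).re with ha
  set b : Fin 3 → ℝ := fun j => (θ j).im with hb
  have hθab : ∀ j, θ j = (a j : ℂ) + Complex.I * (b j : ℂ) := fun j => by
    rw [mul_comm]; exact (Complex.re_add_im (θ j)).symm
  set N : ℝ := ∑ j, a j * a j with hN
  have hnull := hθ.2
  have hre : ∑ j, b j * b j = N := by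
    have h := congrArg Complex.re hnull
    simp only [Fin.sum_univ_three, Complex.add_re, sq, Complex.mul_re, Complex.zero_re] at h
    rw [hN]
    simp only [Fin.sum_univ_three, ha, hb]
    linarith
  have him : ∑ j, b j * a j = 0 := by
    have h := congrArg Complex.im hnull
    simp only [Fin.sum_univ_three, Complex.add_im, sq, Complex.mul_im, Complex.zero_im] at h
    simp only [Fin.sum_univ_three, ha, hb]
    linarith
  have hN0 : 0 < N := by
    have h0 : 0 ≤ N := Finset.sum_nonneg fun j _ => mul_self_nonneg _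
    rcases h0.lt_or_eq with h | h
    · exact h
    · exfalso
      apply hθ.1
      have h1 : ∀ j, a j = 0 := by
        intro j
        have := (Finset.sum_eq_zero_iff_of_nonneg (fun j _ => mul_self_nonneg (a j))).mp h.symm j
          (Finset.mem_univ j)
        exact mul_self_eq_zero.mp this
      have h2 : ∀ j, b j = 0 := by
        intro j
        have h3 : ∑ j, b j * b j = 0 := by rw [hre, ← h]
        have := (Finset.sum_eq_zero_iff_of_nonneg (fun j _ => mul_self_nonneg (b j))).mp h3 j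
          (Finset.mem_univ j)
        exact mul_self_eq_zero.mp this
      funext j
      rw [hθab, h1, h2]; simp
  let As : Fin 3 → ι → ι → Sm := fun j i l => ⟨A j i l, hA j i l⟩
  let Bs : ι → ι → Sm := fun i l => ⟨B i l, hB i l⟩
  obtain ⟨M, hM0, hM⟩ := exists_bound R As Bs
  set n : ℝ := (Fintype.card ι : ℝ) with hn
  have hn0 : 0 ≤ n := Nat.cast_nonneg _
  set T : ℝ := ∑ j, ‖θ j‖ with hT
  set C1 : ℝ := (M * (3 * T + 4)) ^ 2 * (4 * n) with hC1
  have hC10 : 0 ≤ C1 := by positivity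
  set C0 : ℝ := 1 / N ^ 2 + 2 + 7 / N with hC0
  have hC00 : 0 < C0 := by positivity
  set K : ℝ := 1 + 4 * n * C0 * C1 with hK
  have hK1 : 1 ≤ K := by
    have : 0 ≤ 4 * n * C0 * C1 := by positivity
    linarith
  have hK0 : 0 < K := by linarith
  set Sa : ℝ := ∑ j, |a j| with hSa
  have hSa0 : 0 ≤ Sa := Finset.sum_nonneg fun _ _ => abs_nonneg _
  have hR0' : 0 ≤ R := by linarith
  set W : ℝ := Real.exp (K / 2 * (Sa * R) ^ 2) with hW
  have hW0 : 0 < W := Real.exp_pos _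
  refine ⟨14 * C0 * W ^ 2, 1 + 2 * K * Sa * R + K / N ^ 2 + K * Sa * Sa * R, by positivity,
    by positivity, ?_⟩
  intro t ht v hv hsupp
  have ht1 : 1 ≤ t := by
    have h1 : 0 ≤ 2 * K * Sa * R := by positivity
    have h2 : 0 ≤ K / N ^ 2 := by positivity
    have h3 : 0 ≤ K * Sa * Sa * R := by positivity
    linarith
  have ht2 : 2 * K * Sa * R ≤ t := by
    have h2 : 0 ≤ K / N ^ 2 := by positivity
    have h3 : 0 ≤ K * Sa * Sa * R := by positivity
    linarith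
  have ht3 : K / N ^ 2 ≤ t := by
    have h1 : 0 ≤ 2 * K * Sa * R := by positivity
    have h3 : 0 ≤ K * Sa * Sa * R := by positivity
    linarith
  have ht4 : K * Sa * Sa * R ≤ t := by
    have h1 : 0 ≤ 2 * K * Sa * R := by positivity
    have h2 : 0 ≤ K / N ^ 2 := by positivity
    linarith
  have ht0 : 0 < t := by linarith
  have hKt : K ≤ N ^ 2 * t ^ 2 := by
    have h1 : K ≤ t * N ^ 2 := (div_le_iff₀ (by positivity)).mp ht3
    nlinarith [sq_nonneg N]
  have hy : ∀ x : R3, ‖x‖ ≤ R → |K * ∑ j, a j * x j| ≤ t / 2 := by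
    intro x hx
    rw [abs_mul, abs_of_pos hK0]
    have := abs_dot_le a x hx
    have h2 : K * |∑ j, a j * x j| ≤ K * (Sa * R) := by gcongr
    linarith
  have haj : ∀ j, |a j| ≤ Sa := fun j =>
    Finset.single_le_sum (f := fun j => |a j|) (fun _ _ => abs_nonneg _) (Finset.mem_univ j)
  have hy2 : ∀ x : R3, ‖x‖ ≤ R → ∀ j, |K * a j * ∑ k, a k * x k| ≤ t := by
    intro x hx j
    rw [abs_mul, abs_mul, abs_of_pos hK0]
    have h1 := abs_dot_le a x hx
    have h2 : K * |a j| * |∑ j, a j * x j| ≤ K * Sa * (Sa * R) := by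
      gcongr
      exact haj j
    linarith
  let vs : ι → Sm := fun i => ⟨v i, hv i⟩
  have hvs : ∀ i, Cp R (vs i) := fun i => cp_of_zero fun x hx => hsupp i x (hR0.trans hx.le)
  let z : ι → Sm := fun i => EE a K * vs i
  have hz : ∀ i, Cp R (z i) := fun i => (hvs i).mul_left _
  have hEE : EE a (-K) * EE a K = 1 := by
    rw [mul_comm]; exact EE_mul_neg K
  have hvz : ∀ i, vs i = EE a (-K) * z i := by
    intro i
    show vs i = EE a (-K) * (EE a K * vs i)
    rw [← mul_assoc, hEE, one_mul]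
  have hvz' : vs = fun l => EE a (-K) * z l := funext hvz
  have hE1 : ∀ x, ‖EE a (-K) x‖ ≤ 1 := by
    intro x
    rw [EE_apply, Complex.norm_real, Real.norm_eq_abs, abs_of_pos (Real.exp_pos _),
      Real.exp_le_one_iff]
    have : 0 ≤ K / 2 * (∑ j, a j * x j) ^ 2 := by positivity
    linarith
  have hE2 : ∀ x : R3, ‖x‖ ≤ R → ‖EE a K x‖ ≤ W := by
    intro x hx
    rw [EE_apply, Complex.norm_real, Real.norm_eq_abs, abs_of_pos (Real.exp_pos _), hW,
      Real.exp_le_exp]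
    have h1 := abs_dot_le a x hx
    have h2 : (∑ j, a j * x j) ^ 2 ≤ (Sa * R) ^ 2 := by
      rw [← sq_abs (∑ j, a j * x j)]
      gcongr
    gcongr
  -- the main algebraic identity
  have hmain : ∀ i, SS a b N K t (z i) + AA a N K t (z i)
      = EE a K * FF θ As Bs t vs i - LL θ a K As Bs t z i := by
    intro i
    have h1 := FF_conj (K := K) (t := t) (N := N) rfl him θ hθab As Bs z i
    rw [← hvz'] at h1
    rw [h1, ← mul_assoc, mul_comm (EE a K), hEE, one_mul]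
    ring
  have hFFc : ∀ i, Cp R (FF θ As Bs t vs i) := fun i => Cp_FF hvs i
  have hPc : ∀ i, Cp R (SS a b N K t (z i) + AA a N K t (z i)) := fun i =>
    (hz i).SS.add (hz i).AA
  -- lower order absorption
  have hlow : ∀ i, n2 (SS a b N K t (z i) + AA a N K t (z i))
      ≤ 2 * W ^ 2 * n2 (FF θ As Bs t vs i) + 2 * C1 * QQ t z := by
    intro i
    rw [← integral_qq hz]
    unfold n2
    rw [← integral_const_mul, ← integral_const_mul,
      ← integral_add (((hFFc i).integrable_sq).const_mul _) ((integrable_qq hz).const_mul _)]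
    refine integral_mono (hPc i).integrable_sq ((((hFFc i).integrable_sq).const_mul _).add
      ((integrable_qq hz).const_mul _)) fun x => ?_
    show ‖(SS a b N K t (z i) + AA a N K t (z i)) x‖ ^ 2
      ≤ 2 * W ^ 2 * ‖FF θ As Bs t vs i x‖ ^ 2 + 2 * C1 * qz t z x
    have hq0 : 0 ≤ qz t z x := Finset.sum_nonneg fun l _ => by positivity
    by_cases hx : ‖x‖ ≤ R
    · have h1 := LL_bound (K := K) (a := a) θ As Bs M hM0 x (hM x hx).1 (hM x hx).2 ht1
        (hy2 x hx) z i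
      rw [hmain, Sm.sub_apply, Sm.mul_apply]
      have h2 : ‖EE a K x * FF θ As Bs t vs i x - LL θ a K As Bs t z i x‖
          ≤ W * ‖FF θ As Bs t vs i x‖ + ‖LL θ a K As Bs t z i x‖ := by
        refine (norm_sub_le _ _).trans (add_le_add ?_ le_rfl)
        rw [norm_mul]
        gcongr
        exact hE2 x hx
      have h3 : ‖EE a K x * FF θ As Bs t vs i x - LL θ a K As Bs t z i x‖ ^ 2
          ≤ (W * ‖FF θ As Bs t vs i x‖ + ‖LL θ a K As Bs t z i x‖) ^ 2 := by gcongr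
      have h4 : (W * ‖FF θ As Bs t vs i x‖ + ‖LL θ a K As Bs t z i x‖) ^ 2
          ≤ 2 * (W * ‖FF θ As Bs t vs i x‖) ^ 2 + 2 * ‖LL θ a K As Bs t z i x‖ ^ 2 := by
        nlinarith [sq_nonneg (W * ‖FF θ As Bs t vs i x‖ - ‖LL θ a K As Bs t z i x‖)]
      have h5 : 2 * ‖LL θ a K As Bs t z i x‖ ^ 2 ≤ 2 * C1 * qz t z x := by linarith
      calc _ ≤ _ := h3
        _ ≤ _ := h4
        _ ≤ 2 * W ^ 2 * ‖FF θ As Bs t vs i x‖ ^ 2 + 2 * C1 * qz t z x := by
          have : 2 * (W * ‖FF θ As Bs t vs i x‖) ^ 2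
            = 2 * W ^ 2 * ‖FF θ As Bs t vs i x‖ ^ 2 := by ring
          linarith
    · rw [(hPc i).apply_eq_zero (not_le.mp hx), norm_zero]
      have : (0 : ℝ) ^ 2 = 0 := by norm_num
      rw [this]
      positivity
  -- summation
  set F : ℝ := ∑ i, n2 (FF θ As Bs t vs i) with hF
  have hQ0 : 0 ≤ QQ t z := Finset.sum_nonneg fun l _ => add_nonneg
    (mul_nonneg (sq_nonneg _) (n2_nonneg _)) (Finset.sum_nonneg fun j _ => n2_nonneg _)
  have hKQ : K * QQ t z ≤ C0 * (2 * W ^ 2 * F + n * (2 * C1 * QQ t z)) := by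
    have h1 : K * QQ t z = ∑ i, K * (t ^ 2 * n2 (z i) + ∑ j, n2 (dd j (z i))) := by
      unfold QQ; rw [Finset.mul_sum]
    rw [h1]
    calc ∑ i, K * (t ^ 2 * n2 (z i) + ∑ j, n2 (dd j (z i)))
        ≤ ∑ i, C0 * (2 * W ^ 2 * n2 (FF θ As Bs t vs i) + 2 * C1 * QQ t z) := by
          refine Finset.sum_le_sum fun i _ => ?_
          refine (scalar_est (K := K) (t := t) (N := N) rfl hre him hN0 hK0 ht0 hy hKt (hz i)).trans ?_
          gcongr
          exact hlow i
      _ = C0 * (2 * W ^ 2 * F + n * (2 * C1 * QQ t z)) := by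
          rw [← Finset.mul_sum, Finset.sum_add_distrib, ← Finset.mul_sum, Finset.sum_const,
            Finset.card_univ, nsmul_eq_mul]
  have hQ : QQ t z ≤ 2 * C0 * W ^ 2 * F := by
    have h1 : (K - 2 * n * C0 * C1) * QQ t z ≤ 2 * C0 * W ^ 2 * F := by
      nlinarith
    have h2 : 1 ≤ K - 2 * n * C0 * C1 := by
      have : 0 ≤ n * C0 * C1 := by positivity
      rw [hK]; linarith
    nlinarith
  -- going back to v
  have hback : QQ t vs ≤ 7 * QQ t z := by
    rw [← integral_qq hvs, ← integral_qq hz, ← integral_const_mul]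
    refine integral_mono (integrable_qq hvs) ((integrable_qq hz).const_mul _) fun x => ?_
    show qz t vs x ≤ 7 * qz t z x
    unfold qz
    rw [Finset.mul_sum]
    refine Finset.sum_le_sum fun i _ => ?_
    by_cases hx : ‖x‖ ≤ R
    · have h1 : ‖vs i x‖ ≤ ‖z i x‖ := by
        rw [hvz i, Sm.mul_apply, norm_mul]
        have := hE1 x
        nlinarith [norm_nonneg (z i x)]
      have h2 : ∀ j, ‖dd j (vs i) x‖ ≤ ‖dd j (z i) x‖ + t * ‖z i x‖ := by
        intro j
        have e1 : dd j (vs i) = EE a (-K) * (dd j (z i) - c (K : ℂ) * c (a j : ℂ) * yy a * z i) := by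
          rw [hvz i, Derivation.leibniz, dd_EE, Complex.ofReal_neg, map_neg]
          simp only [smul_eq_mul]
          ring
        rw [e1, Sm.mul_apply, norm_mul]
        have e2 : ‖(dd j (z i) - c (K : ℂ) * c (a j : ℂ) * yy a * z i) x‖
            ≤ ‖dd j (z i) x‖ + t * ‖z i x‖ := by
          rw [Sm.sub_apply]
          refine (norm_sub_le _ _).trans (add_le_add le_rfl ?_)
          rw [Sm.mul_apply, norm_mul, Sm.mul_apply, Sm.mul_apply, Sm.algebraMap_apply, Sm.algebraMap_apply,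
            yy_apply, ← Complex.ofReal_mul, ← Complex.ofReal_mul, Complex.norm_real,
            Real.norm_eq_abs]
          gcongr
          exact hy2 x hx j
        have := hE1 x
        calc ‖EE a (-K) x‖ * ‖(dd j (z i) - c (K : ℂ) * c (a j : ℂ) * yy a * z i) x‖
            ≤ 1 * (‖dd j (z i) x‖ + t * ‖z i x‖) := by gcongr
          _ = _ := one_mul _
      have h3 : ∀ j, ‖dd j (vs i) x‖ ^ 2 ≤ 2 * ‖dd j (z i) x‖ ^ 2 + 2 * (t ^ 2 * ‖z i x‖ ^ 2) := by
        intro j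
        have : ‖dd j (vs i) x‖ ^ 2 ≤ (‖dd j (z i) x‖ + t * ‖z i x‖) ^ 2 := by
          gcongr
          exact h2 j
        nlinarith [sq_nonneg (‖dd j (z i) x‖ - t * ‖z i x‖)]
      have h4 : ‖vs i x‖ ^ 2 ≤ ‖z i x‖ ^ 2 := by gcongr
      have h5 : t ^ 2 * ‖vs i x‖ ^ 2 ≤ t ^ 2 * ‖z i x‖ ^ 2 := by gcongr
      have h6 := h3 0
      have h7 := h3 1
      have h8 := h3 2
      simp only [Fin.sum_univ_three]
      have h9 : 0 ≤ ‖dd 0 (z i) x‖ ^ 2 := by positivity
      have h10 : 0 ≤ ‖dd 1 (z i) x‖ ^ 2 := by positivity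
      have h11 : 0 ≤ ‖dd 2 (z i) x‖ ^ 2 := by positivity
      linarith
    · have hx' := not_le.mp hx
      have h1 : ∀ j, dd j (vs i) x = 0 := fun j => ((hvs i).dd j).apply_eq_zero hx'
      rw [(hvs i).apply_eq_zero hx', norm_zero]
      simp only [h1, norm_zero]
      have : t ^ 2 * (0 : ℝ) ^ 2 + ∑ j : Fin 3, (0 : ℝ) ^ 2 = 0 := by simp
      rw [this]
      positivity
  -- identify the two sides
  have hL : t ^ 2 * (∫ x, ∑ i, ‖v i x‖ ^ 2) + (∫ x, ∑ i, ∑ j, ‖pd j (v i) x‖ ^ 2) = QQ t vs := by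
    have e1 : ∫ x, ∑ i, ‖v i x‖ ^ 2 = ∑ i, n2 (vs i) :=
      integral_finsetSum _ fun i _ => (hvs i).integrable_sq
    have e2 : ∫ x, ∑ i, ∑ j, ‖pd j (v i) x‖ ^ 2 = ∑ i, ∑ j, n2 (dd j (vs i)) := by
      show ∫ x, ∑ i, ∑ j, ‖dd j (vs i) x‖ ^ 2 = _
      rw [integral_finsetSum _ fun i _ => integrable_finsetSum _ fun j _ =>
        ((hvs i).dd j).integrable_sq]
      refine Finset.sum_congr rfl fun i _ => ?_
      exact integral_finsetSum _ fun j _ => ((hvs i).dd j).integrable_sq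
    rw [e1, e2]
    unfold QQ
    rw [Finset.sum_add_distrib, Finset.mul_sum]
  have hRr : ∫ x, ∑ i, ‖P0 A B v i x + t * M0 θ A v i x‖ ^ 2 = F := by
    have e0 : ∀ i x, P0 A B v i x + t * M0 θ A v i x = FF θ As Bs t vs i x := by
      intro i x
      have e1 : Carl.Lp (vs i) x = Lap (v i) x := by
        unfold Carl.Lp Lap
        rw [Sm.sum_apply]
        rfl
      have e2 : (2 * c (t : ℂ) * ∑ j, c (θ j) * dd j (vs i)) x = 2 * (t : ℂ) * DD θ (v i) x := by
        have h2 : (2 : Sm) = c 2 := (map_ofNat (algebraMap ℂ Sm) 2).symm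
        rw [Sm.mul_apply, Sm.mul_apply, Sm.sum_apply, h2, Sm.algebraMap_apply, Sm.algebraMap_apply]
        rfl
      have e3 : (∑ j, ∑ l, As j i l * (dd j (vs l) + c (t : ℂ) * c (θ j) * vs l)) x
          = ∑ j, ∑ l, A j i l x * (pd j (v l) x + (t : ℂ) * θ j * v l x) := by
        rw [Sm.sum_apply]
        refine Finset.sum_congr rfl fun j _ => ?_
        rw [Sm.sum_apply]
        rfl
      have e4 : (∑ l, Bs i l * vs l) x = ∑ l, B i l x * v l x := by
        rw [Sm.sum_apply]; rfl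
      unfold FF
      rw [Sm.add_apply, Sm.add_apply, Sm.add_apply, e1, e2, e3, e4]
      unfold P0 M0
      have e5 : ∑ j, ∑ l, A j i l x * (pd j (v l) x + (t : ℂ) * θ j * v l x)
          = ∑ j, ∑ l, A j i l x * pd j (v l) x + (t : ℂ) * ∑ j, ∑ l, A j i l x * θ j * v l x := by
        rw [Finset.mul_sum, ← Finset.sum_add_distrib]
        refine Finset.sum_congr rfl fun j _ => ?_
        rw [Finset.mul_sum, ← Finset.sum_add_distrib]
        refine Finset.sum_congr rfl fun l _ => ?_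
        ring
      rw [e5]
      ring
    simp only [e0]
    exact integral_finsetSum _ fun i _ => (hFFc i).integrable_sq
  rw [hL, hRr]
  calc QQ t vs ≤ 7 * QQ t z := hback
    _ ≤ 7 * (2 * C0 * W ^ 2 * F) := by gcongr
    _ = 14 * C0 * W ^ 2 * F := by ring

end Crest.Agent.R080
end
end

-- ▼ part R080/L2A
section

/-!
Row 80, T9: kernel identities for the transposed operator.
-/

set_option autoImplicit false

open MeasureTheory Filter
open scoped ContDiff Topology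
open Crest.AnalysisR.VecCalc3 Crest.AnalysisR.PDE.Elasticity

noncomputable section
namespace Crest.Agent.R080

/-! ### calculus of `pd` -/

theorem pd_contDiff {f : R3 → ℂ} (hf : ContDiff ℝ ∞ f) (j : Fin 3) : ContDiff ℝ ∞ (pd j f) := by
  unfold pd
  exact (hf.fderiv_right (m := ∞) (by simp)).clm_apply contDiff_const

theorem pd_compact {f : R3 → ℂ} (hf : HasCompactSupport f) (j : Fin 3) :
    HasCompactSupport (pd j f) := by
  have := hf.fderiv ℝ
  exact this.comp_left (g := fun L : R3 →L[ℝ] ℂ => L (ee j)) (by simp)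

theorem pd_add {f g : R3 → ℂ} (hf : ContDiff ℝ ∞ f) (hg : ContDiff ℝ ∞ g) (j : Fin 3) (x : R3) :
    pd j (fun y => f y + g y) x = pd j f x + pd j g x := by
  unfold pd
  rw [fderiv_fun_add (hf.differentiable (by simp) x) (hg.differentiable (by simp) x)]
  rfl

theorem pd_const_mul {f : R3 → ℂ} (hf : ContDiff ℝ ∞ f) (c : ℂ) (j : Fin 3) (x : R3) :
    pd j (fun y => c * f y) x = c * pd j f x := by
  unfold pd
  rw [fderiv_const_mul (hf.differentiable (by simp) x)]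
  rfl

theorem pd_comp_sub {ρ : R3 → ℂ} (hρ : ContDiff ℝ ∞ ρ) (j : Fin 3) (x y : R3) :
    pd j (fun y => ρ (x - y)) y = -pd j ρ (x - y) := by
  unfold pd
  have h1 : HasFDerivAt (fun y : R3 => x - y) (-ContinuousLinearMap.id ℝ R3) y := by
    simpa using (hasFDerivAt_id y).const_sub x
  have h2 := ((hρ.differentiable (by simp) (x - y)).hasFDerivAt).comp y h1
  have h3 : fderiv ℝ (fun y => ρ (x - y)) y
      = (fderiv ℝ ρ (x - y)).comp (-ContinuousLinearMap.id ℝ R3) := h2.fderiv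
  rw [h3]
  simp

theorem pd_zero (j : Fin 3) (x : R3) : pd j (fun _ => (0 : ℂ)) x = 0 := by
  unfold pd; simp

theorem Lap_contDiff {f : R3 → ℂ} (hf : ContDiff ℝ ∞ f) : ContDiff ℝ ∞ (Lap f) := by
  unfold Lap
  exact ContDiff.sum fun j _ => pd_contDiff (pd_contDiff hf j) j

theorem DD_contDiff {f : R3 → ℂ} (hf : ContDiff ℝ ∞ f) (θ : Fin 3 → ℂ) :
    ContDiff ℝ ∞ (DD θ f) := by
  unfold DD
  exact ContDiff.sum fun j _ => contDiff_const.mul (pd_contDiff hf j)

theorem Lap_comp_sub {ρ : R3 → ℂ} (hρ : ContDiff ℝ ∞ ρ) (x y : R3) :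
    Lap (fun y => ρ (x - y)) y = Lap ρ (x - y) := by
  unfold Lap
  refine Finset.sum_congr rfl fun j _ => ?_
  have h : pd j (fun y => ρ (x - y)) = fun y => (-1 : ℂ) * (fun y => pd j ρ (x - y)) y := by
    funext y; rw [pd_comp_sub hρ]; ring
  rw [h, pd_const_mul, pd_comp_sub (pd_contDiff hρ j)]
  · ring
  · exact (pd_contDiff hρ j).comp (contDiff_const.sub contDiff_id)

theorem Lap_compact {f : R3 → ℂ} (hf : HasCompactSupport f) : HasCompactSupport (Lap f) := by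
  unfold Lap
  simp only [Fin.sum_univ_three]
  exact ((pd_compact (pd_compact hf 0) 0).add (pd_compact (pd_compact hf 1) 1)).add
    (pd_compact (pd_compact hf 2) 2)

/-- transposed coefficients -/
def At {ι : Type} (A : Fin 3 → ι → ι → R3 → ℂ) (j : Fin 3) (l i : ι) (x : R3) : ℂ := -A j i l x

def Bt {ι : Type} (A : Fin 3 → ι → ι → R3 → ℂ) (B : ι → ι → R3 → ℂ) (l i : ι) (x : R3) : ℂ :=
  B i l x - ∑ j, pd j (A j i l) x

set_option linter.unusedSectionVars false

variable {ι : Type} [Fintype ι] [DecidableEq ι]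

/-- the test field `y ↦ ρ (x - y) e_l` -/
def tf (ρ : R3 → ℂ) (l : ι) (x : R3) (i : ι) (y : R3) : ℂ := if i = l then ρ (x - y) else 0

/-- kernel of the operator applied to the test field -/
def Tk (θ : Fin 3 → ℂ) (A : Fin 3 → ι → ι → R3 → ℂ) (B : ι → ι → R3 → ℂ) (τ : ℝ) (ρ : R3 → ℂ)
    (l i : ι) (x y : R3) : ℂ :=
  (if i = l then Lap ρ (x - y) + (-2 * τ) * DD θ ρ (x - y) else 0)
    + ∑ j, (-A j i l y) * pd j ρ (x - y) + (B i l y + τ * ∑ j, A j i l y * θ j) * ρ (x - y)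

/-- kernel of the transposed operator applied to a mollified field -/
def Sk (θ : Fin 3 → ℂ) (A : Fin 3 → ι → ι → R3 → ℂ) (B : ι → ι → R3 → ℂ) (τ : ℝ) (ρ : R3 → ℂ)
    (l i : ι) (x y : R3) : ℂ :=
  (if i = l then Lap ρ (x - y) + (-2 * τ) * DD θ ρ (x - y) else 0)
    + ∑ j, (-A j i l x) * pd j ρ (x - y)
    + (B i l x - (∑ j, pd j (A j i l) x) + τ * ∑ j, A j i l x * θ j) * ρ (x - y)

theorem tf_contDiff {ρ : R3 → ℂ} (hρ : ContDiff ℝ ∞ ρ) (l : ι) (x : R3) (i : ι) :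
    ContDiff ℝ ∞ (tf ρ l x i) := by
  unfold tf
  by_cases h : i = l
  · simp only [h, if_true]; exact hρ.comp (contDiff_const.sub contDiff_id)
  · simp only [h, if_false]; exact contDiff_const

theorem pd_tf {ρ : R3 → ℂ} (hρ : ContDiff ℝ ∞ ρ) (l : ι) (x : R3) (i : ι) (j : Fin 3) (y : R3) :
    pd j (tf ρ l x i) y = if i = l then -pd j ρ (x - y) else 0 := by
  by_cases h : i = l
  · rw [if_pos h]
    have : tf ρ l x i = fun y => ρ (x - y) := by funext y; simp [tf, h]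
    rw [this, pd_comp_sub hρ]
  · rw [if_neg h]
    have : tf ρ l x i = fun y => 0 := by funext y; simp [tf, h]
    rw [this, pd_zero]

theorem Lap_tf {ρ : R3 → ℂ} (hρ : ContDiff ℝ ∞ ρ) (l : ι) (x : R3) (i : ι) (y : R3) :
    Lap (tf ρ l x i) y = if i = l then Lap ρ (x - y) else 0 := by
  by_cases h : i = l
  · rw [if_pos h]
    have : tf ρ l x i = fun y => ρ (x - y) := by funext y; simp [tf, h]
    rw [this, Lap_comp_sub hρ]
  · rw [if_neg h]
    have : tf ρ l x i = fun y => 0 := by funext y; simp [tf, h]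
    rw [this]
    unfold Lap
    refine Finset.sum_eq_zero fun j _ => ?_
    have h2 : pd j (fun _ : R3 => (0 : ℂ)) = fun _ => 0 := by funext y; exact pd_zero j y
    rw [h2, pd_zero]

theorem op_tf {ρ : R3 → ℂ} (hρ : ContDiff ℝ ∞ ρ) (θ : Fin 3 → ℂ) (A : Fin 3 → ι → ι → R3 → ℂ)
    (B : ι → ι → R3 → ℂ) (τ : ℝ) (l i : ι) (x y : R3) :
    P0 A B (tf ρ l x) i y + τ * M0 θ A (tf ρ l x) i y = Tk θ A B τ ρ l i x y := by
  have hd : DD θ (tf ρ l x i) y = if i = l then -DD θ ρ (x - y) else 0 := by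
    unfold DD
    simp only [pd_tf hρ]
    by_cases h : i = l
    · simp only [h, if_true, mul_neg, Finset.sum_neg_distrib]
    · simp [h]
  have h1 : ∀ j, ∑ l', A j i l' y * pd j (tf ρ l x l') y = -A j i l y * pd j ρ (x - y) := by
    intro j
    simp only [pd_tf hρ, mul_ite, mul_zero, Finset.sum_ite_eq', Finset.mem_univ, if_true]
    ring
  have h2 : ∑ l', B i l' y * tf ρ l x l' y = B i l y * ρ (x - y) := by
    simp [tf, mul_ite]
  have h3 : ∀ j, ∑ l', A j i l' y * θ j * tf ρ l x l' y = A j i l y * θ j * ρ (x - y) := by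
    intro j; simp [tf, mul_ite]
  unfold P0 M0 Tk
  rw [hd, Lap_tf hρ, h2]
  simp only [h1, h3]
  rw [← Finset.sum_mul]
  by_cases h : i = l
  · simp only [h, if_true]; ring
  · simp only [h, if_false]; ring

/-! ### linearity of `cv` in the kernel -/

theorem integrable_kernel {k g : R3 → ℂ} (hk : Continuous k) (hc : HasCompactSupport k)
    (hg : LocallyIntegrable g volume) : Integrable fun y => k y * g y :=
  hg.integrable_smul_left_of_hasCompactSupport hk hc

theorem integrable_cv {ρ g : R3 → ℂ} (hρ : Continuous ρ) (hc : HasCompactSupport ρ)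
    (hg : LocallyIntegrable g volume) (x : R3) : Integrable fun y => ρ (x - y) * g y := by
  refine integrable_kernel (hρ.comp (continuous_const.sub continuous_id)) ?_ hg
  exact hc.comp_homeomorph (Homeomorph.subLeft x)

theorem pd_cv {ρ g : R3 → ℂ} (hρ : ContDiff ℝ ∞ ρ) (hc : HasCompactSupport ρ)
    (hg : LocallyIntegrable g volume) (j : Fin 3) (x : R3) :
    pd j (cv ρ g) x = cv (pd j ρ) g x := fderiv_cv hρ hc hg x _

theorem Lap_cv {ρ g : R3 → ℂ} (hρ : ContDiff ℝ ∞ ρ) (hc : HasCompactSupport ρ)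
    (hg : LocallyIntegrable g volume) (x : R3) :
    Lap (cv ρ g) x = cv (Lap ρ) g x := by
  unfold Lap
  have h1 : ∀ j, pd j (cv ρ g) = cv (pd j ρ) g := fun j => by
    funext y; exact pd_cv hρ hc hg j y
  simp only [h1]
  have h2 : ∀ j, pd j (cv (pd j ρ) g) x = cv (pd j (pd j ρ)) g x := fun j =>
    pd_cv (pd_contDiff hρ j) (pd_compact hc j) hg j x
  simp only [h2]
  unfold cv
  rw [← integral_finsetSum]
  · refine integral_congr_ae (Eventually.of_forall fun y => ?_)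
    simp only [Finset.sum_mul]
  · intro j _
    exact integrable_cv (pd_contDiff (pd_contDiff hρ j) j).continuous
      (pd_compact (pd_compact hc j) j) hg x

/-- `F` is integrable with integral `c` -/
structure HI (F : R3 → ℂ) (c : ℂ) : Prop where
  int : Integrable F
  eq : ∫ y, F y = c

namespace HI
variable {F G : R3 → ℂ} {a b : ℂ}

theorem add (h1 : HI F a) (h2 : HI G b) : HI (fun y => F y + G y) (a + b) :=
  ⟨h1.int.add h2.int, by rw [integral_add h1.int h2.int, h1.eq, h2.eq]⟩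

theorem mul (h1 : HI F a) (c : ℂ) : HI (fun y => c * F y) (c * a) :=
  ⟨h1.int.const_mul c, by rw [integral_const_mul, h1.eq]⟩

theorem sum {κ : Type*} {s : Finset κ} {F : κ → R3 → ℂ} {a : κ → ℂ}
    (h : ∀ k ∈ s, HI (F k) (a k)) : HI (fun y => ∑ k ∈ s, F k y) (∑ k ∈ s, a k) :=
  ⟨integrable_finsetSum _ fun k hk => (h k hk).int, by
    rw [integral_finsetSum _ fun k hk => (h k hk).int]
    exact Finset.sum_congr rfl fun k hk => (h k hk).eq⟩

theorem congr (h : HI F a) (h1 : ∀ y, G y = F y) (h2 : b = a) : HI G b := by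
  have : G = F := funext h1
  rw [this, h2]; exact h

end HI

theorem hi_cv {ρ g : R3 → ℂ} (hρ : Continuous ρ) (hc : HasCompactSupport ρ)
    (hg : LocallyIntegrable g volume) (x : R3) : HI (fun y => ρ (x - y) * g y) (cv ρ g x) :=
  ⟨integrable_cv hρ hc hg x, rfl⟩

theorem hi_Sk {ρ : R3 → ℂ} (hρ : ContDiff ℝ ∞ ρ) (hc : HasCompactSupport ρ) (θ : Fin 3 → ℂ)
    (A : Fin 3 → ι → ι → R3 → ℂ) (B : ι → ι → R3 → ℂ) (τ : ℝ) (V : ι → R3 → ℂ)
    (hV : ∀ i, LocallyIntegrable (V i) volume) (l : ι) (x : R3) (i : ι) :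
    HI (fun y => Sk θ A B τ ρ l i x y * V i y)
      ((if i = l then cv (Lap ρ) (V i) x + (-2 * τ) * ∑ j, θ j * cv (pd j ρ) (V i) x else 0)
        + ∑ j, (-A j i l x) * cv (pd j ρ) (V i) x
        + (B i l x - (∑ j, pd j (A j i l) x) + τ * ∑ j, A j i l x * θ j) * cv ρ (V i) x) := by
  have I0 := hi_cv hρ.continuous hc (hV i) x
  have I1 := fun j => hi_cv (pd_contDiff hρ j).continuous (pd_compact hc j) (hV i) x
  have I2 := hi_cv (Lap_contDiff hρ).continuous (Lap_compact hc) (hV i) x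
  refine ((((I2.mul (if i = l then 1 else 0)).add
    ((HI.sum (s := Finset.univ) fun j _ => (I1 j).mul (θ j)).mul
      (if i = l then (-2 * (τ : ℂ)) else 0))).add
    (HI.sum (s := Finset.univ) fun j _ => (I1 j).mul (-A j i l x))).add
    (I0.mul (B i l x - (∑ j, pd j (A j i l) x) + τ * ∑ j, A j i l x * θ j))).congr
    (fun y => ?_) ?_
  · unfold Sk DD
    by_cases h : i = l
    · simp only [h, if_true, Fin.sum_univ_three]; ring
    · simp only [h, if_false, Fin.sum_univ_three]; ring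
  · by_cases h : i = l
    · simp only [h, if_true]; ring
    · simp only [h, if_false]; ring

/-- the transposed operator applied to a mollified field -/
theorem op_cv {ρ : R3 → ℂ} (hρ : ContDiff ℝ ∞ ρ) (hc : HasCompactSupport ρ) (θ : Fin 3 → ℂ)
    (A : Fin 3 → ι → ι → R3 → ℂ) (B : ι → ι → R3 → ℂ) (τ : ℝ) (V : ι → R3 → ℂ)
    (hV : ∀ i, LocallyIntegrable (V i) volume) (l : ι) (x : R3) :
    P0 (At A) (Bt A B) (fun i => cv ρ (V i)) l x + τ * M0 (-θ) (At A) (fun i => cv ρ (V i)) l x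
      = ∑ i, ∫ y, Sk θ A B τ ρ l i x y * V i y := by
  simp only [(hi_Sk hρ hc θ A B τ V hV l x _).eq]
  unfold P0 M0
  rw [Lap_cv hρ hc (hV l)]
  simp only [pd_cv hρ hc (hV _), DD, At, Bt, Pi.neg_apply]
  simp only [Finset.sum_add_distrib, Finset.sum_ite_eq', Finset.mem_univ, if_true,
    Fin.sum_univ_three, Finset.mul_sum, add_mul, sub_mul, mul_add, Finset.sum_sub_distrib]
  have e : ∀ f g : ι → ℂ, (∀ i, f i = g i) → ∑ i, f i = ∑ i, g i := fun f g h =>
    Finset.sum_congr rfl fun i _ => h i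
  simp only [neg_mul, mul_neg, neg_neg, Finset.sum_neg_distrib, mul_assoc]
  ring

end Crest.Agent.R080
end
end

-- ▼ part R080/L2B
section

/-!
Row 80, T9: the dual estimate for compactly supported `L²` weak solutions.
-/

set_option autoImplicit false

open MeasureTheory Filter
open scoped ContDiff Topology ENNReal
open Crest.AnalysisR.VecCalc3 Crest.AnalysisR.PDE.Elasticity

noncomputable section
namespace Crest.Agent.R080

theorem unif_bound {κ : Type*} [Finite κ] {F : Type*} [NormedAddCommGroup F] (f : κ → R3 → F)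
    (hf : ∀ k, Continuous (f k)) (K : Set R3) (hK : IsCompact K) :
    ∃ M : ℝ, 0 ≤ M ∧ ∀ k, ∀ x ∈ K, ‖f k x‖ ≤ M := by
  have : Fintype κ := Fintype.ofFinite κ
  have h : Continuous fun x => fun k => f k x := continuous_pi hf
  obtain ⟨M, hM⟩ := hK.exists_bound_of_continuousOn h.continuousOn
  refine ⟨max M 0, le_max_right _ _, fun k x hx => ?_⟩
  exact (norm_le_pi_norm (fun k => f k x) k).trans ((hM x hx).trans (le_max_left _ _))

set_option linter.unusedSectionVars false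
variable {ι : Type} [Fintype ι] [DecidableEq ι]

/-- uniform bounds for the coefficients on a ball -/
structure CoefBd (θ : Fin 3 → ℂ) (A : Fin 3 → ι → ι → R3 → ℂ) (B : ι → ι → R3 → ℂ) (R Λ Θ : ℝ) :
    Prop where
  nn : 0 ≤ Λ
  nnθ : 0 ≤ Θ
  lip : ∀ j i l, ∀ x y : R3, ‖x‖ ≤ R → ‖y‖ ≤ R → ‖A j i l y - A j i l x‖ ≤ Λ * ‖x - y‖
  der : ∀ j i l, ∀ x : R3, ‖x‖ ≤ R → ‖pd j (A j i l) x‖ ≤ Λ
  bdB : ∀ i l, ∀ x : R3, ‖x‖ ≤ R → ‖B i l x‖ ≤ Λ
  bdθ : ∀ j, ‖θ j‖ ≤ Θ

theorem exists_coefBd (θ : Fin 3 → ℂ) {A : Fin 3 → ι → ι → R3 → ℂ} {B : ι → ι → R3 → ℂ}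
    (hA : ∀ j i l, ContDiff ℝ ∞ (A j i l)) (hB : ∀ i l, ContDiff ℝ ∞ (B i l)) (R : ℝ) :
    ∃ Λ Θ : ℝ, CoefBd θ A B R Λ Θ := by
  have hK : IsCompact (Metric.closedBall (0 : R3) R) := isCompact_closedBall _ _
  obtain ⟨M, hM0, hM⟩ := unif_bound (κ := Fin 3 × ι × ι)
    (fun k => fderiv ℝ (A k.1 k.2.1 k.2.2))
    (fun k => (hA k.1 k.2.1 k.2.2).continuous_fderiv (by simp)) _ hK
  obtain ⟨N, hN0, hN⟩ := unif_bound (κ := ι × ι) (fun k => B k.1 k.2)
    (fun k => (hB k.1 k.2).continuous) _ hK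
  refine ⟨max M N, ∑ j, ‖θ j‖, le_max_of_le_left hM0, Finset.sum_nonneg fun _ _ => norm_nonneg _,
    ?_, ?_, ?_, ?_⟩
  · intro j i l x y hx hy
    have := (convex_closedBall (0 : R3) R).norm_image_sub_le_of_norm_fderiv_le (𝕜 := ℝ)
      (f := A j i l) (C := M) (fun z _ => (hA j i l).differentiable (by simp) z)
      (fun z hz => hM (j, i, l) z hz) (x := x) (y := y) (by simpa using hx) (by simpa using hy)
    rw [norm_sub_rev y x] at this
    exact this.trans (by gcongr; exact le_max_left _ _)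
  · intro j i l x hx
    have h1 := hM (j, i, l) x (by simpa using hx)
    have h2 : ‖pd j (A j i l) x‖ ≤ ‖fderiv ℝ (A j i l) x‖ * ‖ee j‖ :=
      (fderiv ℝ (A j i l) x).le_opNorm _
    have h3 : ‖ee j‖ = 1 := by simp [ee]
    rw [h3, mul_one] at h2
    exact h2.trans (h1.trans (le_max_left _ _))
  · intro i l x hx
    exact (hN (i, l) x (by simpa using hx)).trans (le_max_right _ _)
  · intro j
    exact Finset.single_le_sum (f := fun j => ‖θ j‖) (fun _ _ => norm_nonneg _) (Finset.mem_univ j)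

/-- majorant of the commutator kernel -/
def kap' (Λ Θ ε : ℝ) (z : R3) : ℝ :=
  3 * Λ * (‖z‖ * ‖fderiv ℝ (eta ε : R3 → ℝ) z‖) + (5 * Λ + 3 * Λ * Θ) * eta ε z

theorem kap'_nonneg {Λ Θ ε : ℝ} (hΛ : 0 ≤ Λ) (hΘ : 0 ≤ Θ) (hε : 0 < ε) (z : R3) :
    0 ≤ kap' Λ Θ ε z := by
  have := eta_nonneg hε z
  unfold kap'; positivity

theorem kap'_integral {Λ Θ ε : ℝ} (hε : 0 < ε) :
    ∫ z, kap' Λ Θ ε z = 3 * Λ * c1 R3 + (5 * Λ + 3 * Λ * Θ) := by
  unfold kap'
  rw [integral_add ((integrable_norm_fderiv_eta hε).const_mul _)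
    ((eta_integrable hε).const_mul _), integral_const_mul, integral_const_mul,
    integral_norm_fderiv_eta hε, eta_integral hε, mul_one]

theorem kap'_integrable {Λ Θ ε : ℝ} (hε : 0 < ε) : Integrable (kap' Λ Θ ε) :=
  ((integrable_norm_fderiv_eta hε).const_mul _).add ((eta_integrable hε).const_mul _)

theorem kap'_continuous {Λ Θ ε : ℝ} : Continuous (kap' Λ Θ ε) := by
  unfold kap'
  have h1 : Continuous (eta ε : R3 → ℝ) := (eta_contDiff ε).continuous
  have h2 : Continuous (fderiv ℝ (eta ε : R3 → ℝ)) :=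
    (eta_contDiff ε).continuous_fderiv (by simp)
  fun_prop

theorem Sk_sub_Tk (θ : Fin 3 → ℂ) (A : Fin 3 → ι → ι → R3 → ℂ) (B : ι → ι → R3 → ℂ) (τ : ℝ)
    (ρ : R3 → ℂ) (l i : ι) (x y : R3) :
    Sk θ A B τ ρ l i x y - Tk θ A B τ ρ l i x y
      = ∑ j, (A j i l y - A j i l x) * pd j ρ (x - y)
        + ((B i l x - B i l y) - (∑ j, pd j (A j i l) x)
          + τ * ∑ j, (A j i l x - A j i l y) * θ j) * ρ (x - y) := by
  unfold Sk Tk
  simp only [Fin.sum_univ_three]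
  ring

theorem fderiv_eta_eq_zero {ε : ℝ} (hε : 0 < ε) {z : R3} (hz : ε < ‖z‖) :
    fderiv ℝ (eta ε : R3 → ℝ) z = 0 := by
  have : (eta ε : R3 → ℝ) =ᶠ[𝓝 z] fun _ => 0 := by
    have hopen : IsOpen {w : R3 | ε < ‖w‖} := isOpen_lt continuous_const continuous_norm
    filter_upwards [hopen.mem_nhds hz] with w hw
    exact eta_eq_zero hε (le_of_lt hw)
  rw [this.fderiv_eq]; simp

theorem norm_pd_etaC_le (ε : ℝ) (j : Fin 3) (z : R3) :
    ‖pd j (etaC ε) z‖ ≤ ‖fderiv ℝ (eta ε : R3 → ℝ) z‖ := by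
  unfold pd
  rw [fderiv_etaC, Complex.norm_real]
  have h2 := (fderiv ℝ (eta ε : R3 → ℝ) z).le_opNorm (ee j)
  have h3 : ‖ee j‖ = 1 := by simp [ee]
  rwa [h3, mul_one] at h2

theorem kernel_bound {θ : Fin 3 → ℂ} {A : Fin 3 → ι → ι → R3 → ℂ} {B : ι → ι → R3 → ℂ}
    {R Λ Θ : ℝ} (hb : CoefBd θ A B (R + 1) Λ Θ) {τ ε : ℝ} (hε : 0 < ε) (hε1 : ε ≤ 1) (hτ : 0 ≤ τ)
    (hτε : τ * ε ≤ 1) (l i : ι) (x y : R3) (hy : ‖y‖ ≤ R) :
    ‖Sk θ A B τ (etaC ε) l i x y - Tk θ A B τ (etaC ε) l i x y‖ ≤ kap' Λ Θ ε (x - y) := by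
  rcases lt_or_ge ε ‖x - y‖ with h | h
  · rw [Sk_sub_Tk]
    have h1 : etaC ε (x - y) = 0 := by simp [etaC, eta_eq_zero hε h.le]
    have h2 : ∀ j, pd j (etaC ε) (x - y) = 0 := fun j => by
      have := norm_pd_etaC_le ε j (x - y)
      rw [fderiv_eta_eq_zero hε h, norm_zero] at this
      exact norm_le_zero_iff.1 this
    simp only [h1, h2, mul_zero, Finset.sum_const_zero, add_zero, norm_zero]
    exact kap'_nonneg hb.nn hb.nnθ hε _
  · have hx : ‖x‖ ≤ R + 1 := by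
      calc ‖x‖ = ‖y + (x - y)‖ := by congr 1; abel
        _ ≤ ‖y‖ + ‖x - y‖ := norm_add_le _ _
        _ ≤ R + 1 := by linarith
    have hy' : ‖y‖ ≤ R + 1 := by linarith
    rw [Sk_sub_Tk]
    have hη0 := eta_nonneg (E := R3) hε (x - y)
    have hη : ‖etaC ε (x - y)‖ = eta ε (x - y) := by
      rw [etaC, Complex.norm_real, Real.norm_of_nonneg hη0]
    have n1 : ‖∑ j, (A j i l y - A j i l x) * pd j (etaC ε) (x - y)‖
        ≤ 3 * Λ * (‖x - y‖ * ‖fderiv ℝ (eta ε : R3 → ℝ) (x - y)‖) := by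
      calc ‖∑ j, (A j i l y - A j i l x) * pd j (etaC ε) (x - y)‖
          ≤ ∑ j : Fin 3, ‖(A j i l y - A j i l x) * pd j (etaC ε) (x - y)‖ := norm_sum_le _ _
        _ ≤ ∑ j : Fin 3, (Λ * ‖x - y‖) * ‖fderiv ℝ (eta ε : R3 → ℝ) (x - y)‖ := by
            refine Finset.sum_le_sum fun j _ => ?_
            rw [norm_mul]
            have := hb.lip j i l x y hx hy'
            have := norm_pd_etaC_le ε j (x - y)
            have := mul_nonneg hb.nn (norm_nonneg (x - y))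
            gcongr
        _ = 3 * Λ * (‖x - y‖ * ‖fderiv ℝ (eta ε : R3 → ℝ) (x - y)‖) := by
            simp only [Finset.sum_const, Finset.card_univ, Fintype.card_fin, nsmul_eq_mul]
            push_cast; ring
    have n2 : ‖∑ j, pd j (A j i l) x‖ ≤ 3 * Λ := by
      calc ‖∑ j, pd j (A j i l) x‖ ≤ ∑ j : Fin 3, ‖pd j (A j i l) x‖ := norm_sum_le _ _
        _ ≤ ∑ j : Fin 3, Λ := Finset.sum_le_sum fun j _ => hb.der j i l x hx
        _ = 3 * Λ := by simp
    have n3 : ‖(τ : ℂ) * ∑ j, (A j i l x - A j i l y) * θ j‖ ≤ 3 * Λ * Θ := by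
      have : ‖∑ j, (A j i l x - A j i l y) * θ j‖ ≤ 3 * (Λ * ε * Θ) := by
        calc ‖∑ j, (A j i l x - A j i l y) * θ j‖
            ≤ ∑ j : Fin 3, ‖(A j i l x - A j i l y) * θ j‖ := norm_sum_le _ _
          _ ≤ ∑ j : Fin 3, (Λ * ε) * Θ := by
              refine Finset.sum_le_sum fun j _ => ?_
              rw [norm_mul]
              have h5 := hb.lip j i l x y hx hy'
              rw [norm_sub_rev] at h5
              have h6 := hb.bdθ j
              have h7 := hb.nn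
              have h8 := hb.nnθ
              have h9 : Λ * ‖x - y‖ ≤ Λ * ε := by gcongr
              have h10 := h5.trans h9
              gcongr
          _ = 3 * (Λ * ε * Θ) := by simp
      rw [norm_mul, Complex.norm_real, Real.norm_of_nonneg hτ]
      calc τ * ‖∑ j, (A j i l x - A j i l y) * θ j‖ ≤ τ * (3 * (Λ * ε * Θ)) := by gcongr
        _ = (τ * ε) * (3 * Λ * Θ) := by ring
        _ ≤ 1 * (3 * Λ * Θ) := by
            have := mul_nonneg hb.nn hb.nnθ
            gcongr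
            nlinarith
        _ = 3 * Λ * Θ := one_mul _
    have n4 : ‖B i l x - B i l y‖ ≤ 2 * Λ := by
      calc ‖B i l x - B i l y‖ ≤ ‖B i l x‖ + ‖B i l y‖ := norm_sub_le _ _
        _ ≤ Λ + Λ := add_le_add (hb.bdB i l x hx) (hb.bdB i l y hy')
        _ = 2 * Λ := by ring
    have n5 : ‖(B i l x - B i l y) - (∑ j, pd j (A j i l) x)
          + τ * ∑ j, (A j i l x - A j i l y) * θ j‖ ≤ 5 * Λ + 3 * Λ * Θ := by
      calc _ ≤ ‖(B i l x - B i l y) - (∑ j, pd j (A j i l) x)‖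
          + ‖(τ : ℂ) * ∑ j, (A j i l x - A j i l y) * θ j‖ := norm_add_le _ _
        _ ≤ (‖B i l x - B i l y‖ + ‖∑ j, pd j (A j i l) x‖) + 3 * Λ * Θ :=
            add_le_add (norm_sub_le _ _) n3
        _ ≤ 5 * Λ + 3 * Λ * Θ := by linarith
    refine (norm_add_le _ _).trans ?_
    unfold kap'
    refine add_le_add n1 ?_
    rw [norm_mul, hη]
    gcongr

end Crest.Agent.R080
end
end

-- ▼ part R080/L2C
section

/-!
Row 80, T9: the dual estimate for compactly supported `L²` weak solutions.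
-/

set_option autoImplicit false

open MeasureTheory Filter
open scoped ContDiff Topology ENNReal
open Crest.AnalysisR.VecCalc3 Crest.AnalysisR.PDE.Elasticity

noncomputable section
namespace Crest.Agent.R080

set_option linter.unusedSectionVars false
variable {ι : Type} [Fintype ι] [DecidableEq ι]

/-- real and extended integrals of squares -/
theorem ofReal_integral_sq {μ : Measure R3} {F : ι → R3 → ℂ} (hF : ∀ i, MemLp (F i) 2 μ) :
    ENNReal.ofReal (∫ x, ∑ i, ‖F i x‖ ^ 2 ∂μ) = ∑ i, ∫⁻ x, ‖F i x‖ₑ ^ 2 ∂μ := by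
  have hi : ∀ i, Integrable (fun x => ‖F i x‖ ^ 2) μ := fun i =>
    (memLp_two_iff_integrable_sq_norm (hF i).1).1 (hF i)
  rw [integral_finsetSum _ fun i _ => hi i, ENNReal.ofReal_sum_of_nonneg
    fun i _ => integral_nonneg fun x => by positivity]
  refine Finset.sum_congr rfl fun i _ => ?_
  rw [ofReal_integral_eq_lintegral_ofReal (hi i) (Eventually.of_forall fun x => by positivity)]
  refine lintegral_congr fun x => ?_
  rw [ENNReal.ofReal_pow (norm_nonneg _), ofReal_norm]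

theorem Tk_cont {ρ : R3 → ℂ} (hρ : ContDiff ℝ ∞ ρ) (θ : Fin 3 → ℂ)
    {A : Fin 3 → ι → ι → R3 → ℂ} {B : ι → ι → R3 → ℂ} (hA : ∀ j i l, ContDiff ℝ ∞ (A j i l))
    (hB : ∀ i l, ContDiff ℝ ∞ (B i l)) (τ : ℝ) (l i : ι) (x : R3) :
    Continuous (Tk θ A B τ ρ l i x) := by
  have h1 : Continuous (Lap ρ) := (Lap_contDiff hρ).continuous
  have h2 : Continuous (DD θ ρ) := (DD_contDiff hρ θ).continuous
  have h3 : ∀ j, Continuous (pd j ρ) := fun j => (pd_contDiff hρ j).continuous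
  have h4 := hρ.continuous
  have h5 : ∀ j i l, Continuous (A j i l) := fun j i l => (hA j i l).continuous
  have h6 : ∀ i l, Continuous (B i l) := fun i l => (hB i l).continuous
  unfold Tk
  by_cases h : i = l
  · simp only [h, if_true]; fun_prop
  · simp only [h, if_false]; fun_prop

theorem DD_compact {f : R3 → ℂ} (hf : HasCompactSupport f) (θ : Fin 3 → ℂ) :
    HasCompactSupport (DD θ f) := by
  unfold DD
  simp only [Fin.sum_univ_three]
  exact (((pd_compact hf 0).mul_left).add ((pd_compact hf 1).mul_left)).add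
    ((pd_compact hf 2).mul_left)

theorem Tk_compact {ρ : R3 → ℂ} (hc : HasCompactSupport ρ) (θ : Fin 3 → ℂ)
    (A : Fin 3 → ι → ι → R3 → ℂ) (B : ι → ι → R3 → ℂ) (τ : ℝ) (l i : ι) (x : R3) :
    HasCompactSupport (Tk θ A B τ ρ l i x) := by
  have key : ∀ {k : R3 → ℂ}, HasCompactSupport k → HasCompactSupport fun y => k (x - y) :=
    fun h => h.comp_homeomorph (Homeomorph.subLeft x)
  have h1 := key (Lap_compact hc)
  have h2 := key (DD_compact hc θ)
  have h3 := fun j => key (pd_compact hc j)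
  have h4 := key hc
  unfold Tk
  simp only [Fin.sum_univ_three]
  refine HasCompactSupport.add (HasCompactSupport.add ?_ ?_) h4.mul_left
  · by_cases h : i = l
    · simp only [h, if_true]
      exact h1.add h2.mul_left
    · simp only [h, if_false]
      exact HasCompactSupport.zero
  · exact ((h3 0).mul_left.add (h3 1).mul_left).add (h3 2).mul_left

/-- the transposed equation for the mollified weak solution, up to the commutator -/
theorem moll_eq {ρ : R3 → ℂ} (hρ : ContDiff ℝ ∞ ρ) (hc : HasCompactSupport ρ) (θ : Fin 3 → ℂ)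
    {A : Fin 3 → ι → ι → R3 → ℂ} {B : ι → ι → R3 → ℂ} (hA : ∀ j i l, ContDiff ℝ ∞ (A j i l))
    (hB : ∀ i l, ContDiff ℝ ∞ (B i l)) (τ : ℝ) (V W : ι → R3 → ℂ)
    (hV : ∀ i, LocallyIntegrable (V i) volume)
    (hVW : ∀ r : ι → R3 → ℂ, (∀ i, ContDiff ℝ ∞ (r i)) →
      ∫ x, ∑ i, V i x * (P0 A B r i x + τ * M0 θ A r i x) = ∫ x, ∑ i, W i x * r i x)
    (l : ι) (x : R3) :
    P0 (At A) (Bt A B) (fun i => cv ρ (V i)) l x + τ * M0 (-θ) (At A) (fun i => cv ρ (V i)) l x
      = cv ρ (W l) x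
        + ∑ i, ∫ y, (Sk θ A B τ ρ l i x y - Tk θ A B τ ρ l i x y) * V i y := by
  have hT : ∀ i, Integrable fun y => Tk θ A B τ ρ l i x y * V i y := fun i =>
    integrable_kernel (Tk_cont hρ θ hA hB τ l i x) (Tk_compact hc θ A B τ l i x) (hV i)
  have h1 : cv ρ (W l) x = ∑ i, ∫ y, Tk θ A B τ ρ l i x y * V i y := by
    have h := hVW (tf ρ l x) (tf_contDiff hρ l x)
    simp only [op_tf hρ] at h
    rw [← integral_finsetSum _ fun i _ => hT i]
    have e1 : ∫ y, ∑ i, W i y * tf ρ l x i y = cv ρ (W l) x := by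
      unfold cv tf
      refine integral_congr_ae (Eventually.of_forall fun y => ?_)
      simp only [mul_ite, mul_zero, Finset.sum_ite_eq', Finset.mem_univ, if_true, mul_comm]
    rw [← e1, ← h]
    refine integral_congr_ae (Eventually.of_forall fun y => ?_)
    exact Finset.sum_congr rfl fun i _ => mul_comm _ _
  rw [op_cv hρ hc θ A B τ V hV, h1, ← Finset.sum_add_distrib]
  refine Finset.sum_congr rfl fun i _ => ?_
  have hS := hi_Sk hρ hc θ A B τ V hV l x i
  have e : ∫ y, (Sk θ A B τ ρ l i x y - Tk θ A B τ ρ l i x y) * V i y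
      = (∫ y, Sk θ A B τ ρ l i x y * V i y) - ∫ y, Tk θ A B τ ρ l i x y * V i y := by
    rw [← integral_sub hS.int (hT i)]
    simp only [sub_mul]
  rw [e]; ring

theorem cv_zero {ε R : ℝ} (hε : 0 < ε) {g : R3 → ℂ} (hg : ∀ x : R3, R ≤ ‖x‖ → g x = 0)
    {x : R3} (hx : R + ε ≤ ‖x‖) : cv (etaC ε) g x = 0 := by
  unfold cv
  rw [integral_eq_zero_of_ae]
  refine Eventually.of_forall fun y => ?_
  rcases lt_or_ge ‖y‖ R with h | h
  · have : ε ≤ ‖x - y‖ := by
      have := norm_sub_norm_le x y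
      linarith
    simp [etaC, eta_eq_zero hε this]
  · simp [hg y h]

theorem ennreal_add_sq_le (a b : ℝ≥0∞) : (a + b) ^ 2 ≤ 2 * (a ^ 2 + b ^ 2) := by
  have := ENNReal.rpow_add_le_mul_rpow_add_rpow a b (p := 2) (by norm_num)
  norm_num at this
  exact this

theorem dual_est_step {θ : Fin 3 → ℂ} {A : Fin 3 → ι → ι → R3 → ℂ} {B : ι → ι → R3 → ℂ}
    (hA : ∀ j i l, ContDiff ℝ ∞ (A j i l)) (hB : ∀ i l, ContDiff ℝ ∞ (B i l))
    {R Λ Θ : ℝ} (hb : CoefBd θ A B (R + 1) Λ Θ) {τ ε : ℝ} (hε : 0 < ε) (hε1 : ε ≤ 1) (hτ : 0 ≤ τ)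
    (hτε : τ * ε ≤ 1) {V W : ι → R3 → ℂ} (hV : ∀ i, MemLp (V i) 2 volume)
    (hW : ∀ i, MemLp (W i) 2 volume) (hV0 : ∀ i (x : R3), R ≤ ‖x‖ → V i x = 0)
    (hVW : ∀ r : ι → R3 → ℂ, (∀ i, ContDiff ℝ ∞ (r i)) →
      ∫ x, ∑ i, V i x * (P0 A B r i x + τ * M0 θ A r i x) = ∫ x, ∑ i, W i x * r i x) (l : ι) :
    ∫⁻ x, ‖P0 (At A) (Bt A B) (fun i => cv (etaC ε) (V i)) l x
        + τ * M0 (-θ) (At A) (fun i => cv (etaC ε) (V i)) l x‖ₑ ^ 2
      ≤ 2 * (∫⁻ x, ‖W l x‖ₑ ^ 2) + 2 * (Fintype.card ι * ∑ i,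
        ENNReal.ofReal (3 * Λ * c1 R3 + (5 * Λ + 3 * Λ * Θ)) ^ 2 * ∫⁻ x, ‖V i x‖ₑ ^ 2) := by
  have hVl : ∀ i, LocallyIntegrable (V i) volume := fun i =>
    (hV i).locallyIntegrable (by norm_num)
  have hρ := etaC_contDiff (E := R3) ε
  have hc := etaC_compact (E := R3) hε
  let k : R3 → ℝ≥0∞ := fun z => ENNReal.ofReal (kap' Λ Θ ε z)
  have hk : Measurable k := (kap'_continuous.measurable).ennreal_ofReal
  have hkint : ∫⁻ z, k z = ENNReal.ofReal (3 * Λ * c1 R3 + (5 * Λ + 3 * Λ * Θ)) := by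
    rw [← ofReal_integral_eq_lintegral_ofReal (kap'_integrable hε)
      (Eventually.of_forall (kap'_nonneg hb.nn hb.nnθ hε)), kap'_integral hε]
  have hpt : ∀ x, ‖P0 (At A) (Bt A B) (fun i => cv (etaC ε) (V i)) l x
        + τ * M0 (-θ) (At A) (fun i => cv (etaC ε) (V i)) l x‖ₑ ^ 2
      ≤ 2 * ‖cv (etaC ε) (W l) x‖ₑ ^ 2
        + 2 * (Fintype.card ι * ∑ i, (∫⁻ y, k (x - y) * ‖V i y‖ₑ) ^ 2) := by
    intro x
    rw [moll_eq hρ hc θ hA hB τ V W hVl hVW l x]
    have h1 : ‖∑ i, ∫ y, (Sk θ A B τ (etaC ε) l i x y - Tk θ A B τ (etaC ε) l i x y) * V i y‖ₑ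
        ≤ ∑ i, ∫⁻ y, k (x - y) * ‖V i y‖ₑ := by
      refine (enorm_sum_le _ _).trans (Finset.sum_le_sum fun i _ => ?_)
      refine (enorm_integral_le_lintegral_enorm _).trans (lintegral_mono fun y => ?_)
      rw [enorm_mul]
      rcases lt_or_ge ‖y‖ R with h | h
      · gcongr
        rw [← ofReal_norm]
        exact ENNReal.ofReal_le_ofReal (kernel_bound hb hε hε1 hτ hτε l i x y h.le)
      · simp [hV0 i y h]
    have h2 : (∑ i, ∫⁻ y, k (x - y) * ‖V i y‖ₑ) ^ 2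
        ≤ Fintype.card ι * ∑ i, (∫⁻ y, k (x - y) * ‖V i y‖ₑ) ^ 2 := by
      have := ENNReal.rpow_sum_le_const_mul_sum_rpow (s := (Finset.univ : Finset ι))
        (f := fun i => ∫⁻ y, k (x - y) * ‖V i y‖ₑ) (p := 2) (by norm_num)
      norm_num at this
      simpa using this
    calc _ ≤ (‖cv (etaC ε) (W l) x‖ₑ + ∑ i, ∫⁻ y, k (x - y) * ‖V i y‖ₑ) ^ 2 := by
          gcongr
          exact (enorm_add_le _ _).trans (by gcongr)
      _ ≤ 2 * (‖cv (etaC ε) (W l) x‖ₑ ^ 2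
          + (∑ i, ∫⁻ y, k (x - y) * ‖V i y‖ₑ) ^ 2) := ennreal_add_sq_le _ _
      _ ≤ _ := by
          rw [mul_add]
          gcongr
  refine (lintegral_mono hpt).trans ?_
  have hcm : Measurable fun x => ‖cv (etaC ε) (W l) x‖ₑ ^ 2 := by
    have : Continuous (cv (etaC ε) (W l)) :=
      (cv_contDiff hρ hc ((hW l).locallyIntegrable (by norm_num))).continuous
    exact (this.enorm.measurable).pow_const 2
  have hqm : ∀ i, AEMeasurable (fun x => (∫⁻ y, k (x - y) * ‖V i y‖ₑ) ^ 2) volume := fun i => by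
    have : AEMeasurable (fun p : R3 × R3 => k (p.1 - p.2) * ‖V i p.2‖ₑ)
        ((volume : Measure R3).prod volume) :=
      (hk.comp measurable_sub).aemeasurable.mul
        (((hV i).1.enorm).comp_quasiMeasurePreserving Measure.quasiMeasurePreserving_snd)
    exact this.lintegral_prod_right'.pow_const 2
  rw [lintegral_add_left (hcm.const_mul 2), lintegral_const_mul _ hcm,
    lintegral_const_mul' _ _ (by norm_num), lintegral_const_mul' _ _ (by simp),
    lintegral_finsetSum' _ fun i _ => hqm i]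
  refine add_le_add (mul_le_mul_right (lintegral_cv_sq_le hε (hW l).1) _)
    (mul_le_mul_right (mul_le_mul_right (Finset.sum_le_sum fun i _ => ?_) _) _)
  have := young_lintegral (E := R3) volume hk (hV i).1.enorm
  rwa [hkint] at this

/-- the dual a priori estimate for weak `L²` solutions of the transposed equation -/
theorem dual_est (hC : StmtCarleman) {θ : Fin 3 → ℂ} (hθ : IsNull θ)
    {A : Fin 3 → ι → ι → R3 → ℂ} {B : ι → ι → R3 → ℂ}
    (hA : ∀ j i l, ContDiff ℝ ∞ (A j i l)) (hB : ∀ i l, ContDiff ℝ ∞ (B i l)) (R : ℝ) :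
    ∃ C τ₀ : ℝ, 0 < C ∧ 0 < τ₀ ∧ ∀ τ : ℝ, τ₀ ≤ τ → ∀ V W : ι → R3 → ℂ,
      (∀ i, MemLp (V i) 2 volume) → (∀ i, MemLp (W i) 2 volume) →
      (∀ i (x : R3), R ≤ ‖x‖ → V i x = 0) →
      (∀ r : ι → R3 → ℂ, (∀ i, ContDiff ℝ ∞ (r i)) →
        ∫ x, ∑ i, V i x * (P0 A B r i x + τ * M0 θ A r i x) = ∫ x, ∑ i, W i x * r i x) →
      τ ^ 2 * ∫ x, ∑ i, ‖V i x‖ ^ 2 ≤ C * ∫ x, ∑ i, ‖W i x‖ ^ 2 := by
  obtain ⟨Λ, Θ, hb⟩ := exists_coefBd θ hA hB (R + 1)
  have hθ' : IsNull (-θ) := ⟨neg_ne_zero.2 hθ.1, by simpa using hθ.2⟩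
  have hA' : ∀ j i l, ContDiff ℝ ∞ (At A j i l) := fun j i l => (hA j l i).neg
  have hB' : ∀ i l, ContDiff ℝ ∞ (Bt A B i l) := fun i l =>
    (hB l i).sub (ContDiff.sum fun j _ => pd_contDiff (hA j l i) j)
  obtain ⟨C₁, τ₁, hC₁, hτ₁, hcar⟩ := hC ι (-θ) hθ' (At A) (Bt A B) hA' hB' (R + 1)
  set n : ℝ := (Fintype.card ι : ℝ) with hn
  set c₂ : ℝ := 3 * Λ * c1 R3 + (5 * Λ + 3 * Λ * Θ) with hc₂
  have hn0 : 0 ≤ n := Nat.cast_nonneg _
  have hc₂0 : 0 ≤ c₂ := by
    have := hb.nn; have := hb.nnθ; have := c1_nonneg (E := R3)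
    positivity
  refine ⟨4 * n * C₁ + 1, max τ₁ (2 * n * c₂ * Real.sqrt (n * C₁) + 1), by positivity,
    lt_max_of_lt_left hτ₁, ?_⟩
  intro τ hτ V W hV hW hV0 hVW
  have hτ1 : τ₁ ≤ τ := (le_max_left _ _).trans hτ
  have hτpos : 0 < τ := hτ₁.trans_le hτ1
  have hτ2 : 2 * n * c₂ * Real.sqrt (n * C₁) ≤ τ := by
    have := (le_max_right _ _).trans hτ; linarith
  have hτ3 : 4 * n ^ 3 * C₁ * c₂ ^ 2 ≤ τ ^ 2 := by
    have h1 : (2 * n * c₂ * Real.sqrt (n * C₁)) ^ 2 = 4 * n ^ 3 * C₁ * c₂ ^ 2 := by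
      rw [mul_pow, Real.sq_sqrt (by positivity)]; ring
    rw [← h1]
    gcongr
  -- extended quantities
  set v : ℝ≥0∞ := ∑ i, ∫⁻ x, ‖V i x‖ₑ ^ 2 with hv
  set w : ℝ≥0∞ := ∑ i, ∫⁻ x, ‖W i x‖ₑ ^ 2 with hw
  have hVv := ofReal_integral_sq hV
  have hWw := ofReal_integral_sq hW
  rw [← hv] at hVv
  rw [← hw] at hWw
  have hvr : 0 ≤ ∫ x, ∑ i, ‖V i x‖ ^ 2 := integral_nonneg fun x => by positivity
  have hwr : 0 ≤ ∫ x, ∑ i, ‖W i x‖ ^ 2 := integral_nonneg fun x => by positivity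
  -- the bound for every small `ε`
  have hstep : ∀ ε : ℝ, 0 < ε → ε ≤ 1 → τ * ε ≤ 1 → ∀ l,
      ENNReal.ofReal (τ ^ 2) * ∫⁻ x, ‖cv (etaC ε) (V l) x‖ₑ ^ 2
        ≤ ENNReal.ofReal C₁ * (2 * w + 2 * (n.toNNReal * (n.toNNReal *
            (ENNReal.ofReal c₂ ^ 2 * v)))) := by
    intro ε hε hε1 hτε l
    have hVl : ∀ i, LocallyIntegrable (V i) volume := fun i =>
      (hV i).locallyIntegrable (by norm_num)
    have hu : ∀ i, ContDiff ℝ ∞ (cv (etaC ε) (V i)) := fun i =>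
      cv_contDiff (etaC_contDiff ε) (etaC_compact hε) (hVl i)
    have hu0 : ∀ i (x : R3), R + 1 ≤ ‖x‖ → cv (etaC ε) (V i) x = 0 := fun i x hx =>
      cv_zero hε (hV0 i) (by linarith)
    have hcar' := hcar τ hτ1 (fun i => cv (etaC ε) (V i)) hu hu0
    have hsupp : ∀ {f : R3 → ℂ}, (∀ x : R3, R + 1 ≤ ‖x‖ → f x = 0) → HasCompactSupport f :=
      fun {f} hf => HasCompactSupport.intro (isCompact_closedBall (0 : R3) (R + 1)) fun x hx => by
        refine hf x ?_
        simp only [Metric.mem_closedBall, dist_zero_right, not_le] at hx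
        exact hx.le
    have hus : ∀ i, HasCompactSupport (cv (etaC ε) (V i)) := fun i => hsupp (hu0 i)
    have hu2 : ∀ i, MemLp (cv (etaC ε) (V i)) 2 volume := fun i =>
      (hu i).continuous.memLp_of_hasCompactSupport (hus i)
    set L : ι → R3 → ℂ := fun i x => P0 (At A) (Bt A B) (fun i => cv (etaC ε) (V i)) i x
      + τ * M0 (-θ) (At A) (fun i => cv (etaC ε) (V i)) i x with hL
    have hLc : ∀ i, Continuous (L i) := fun i => by
      have h1 : ∀ i, Continuous (cv (etaC ε) (V i)) := fun i => (hu i).continuous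
      have h2 : ∀ j i, Continuous (pd j (cv (etaC ε) (V i))) := fun j i =>
        (pd_contDiff (hu i) j).continuous
      have h3 : ∀ i, Continuous (Lap (cv (etaC ε) (V i))) := fun i =>
        (Lap_contDiff (hu i)).continuous
      have h4 : ∀ j i l, Continuous (At A j i l) := fun j i l => (hA' j i l).continuous
      have h5 : ∀ i l, Continuous (Bt A B i l) := fun i l => (hB' i l).continuous
      have h6 : ∀ i, Continuous (DD (-θ) (cv (etaC ε) (V i))) := fun i =>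
        (DD_contDiff (hu i) (-θ)).continuous
      simp only [hL]
      unfold P0 M0
      fun_prop
    have hLs : ∀ i, HasCompactSupport (L i) := fun i => by
      have k1 : ∀ i (x : R3), x ∉ Metric.closedBall (0 : R3) (R + 1) →
          cv (etaC ε) (V i) =ᶠ[𝓝 x] fun _ => 0 := fun i x hx => by
        have : IsOpen (Metric.closedBall (0 : R3) (R + 1))ᶜ := Metric.isClosed_closedBall.isOpen_compl
        filter_upwards [this.mem_nhds hx] with y hy
        refine hu0 i y ?_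
        simp only [Set.mem_compl_iff, Metric.mem_closedBall, dist_zero_right, not_le] at hy
        exact hy.le
      have k2 : ∀ i j (x : R3), x ∉ Metric.closedBall (0 : R3) (R + 1) →
          pd j (cv (etaC ε) (V i)) =ᶠ[𝓝 x] fun _ => 0 := fun i j x hx => by
        have := (k1 i x hx).fderiv (𝕜 := ℝ)
        filter_upwards [this] with y hy
        unfold pd
        rw [hy]; simp
      refine HasCompactSupport.intro (isCompact_closedBall (0 : R3) (R + 1)) fun x hx => ?_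
      have e1 : ∀ i, cv (etaC ε) (V i) x = 0 := fun i => (k1 i x hx).self_of_nhds
      have e2 : ∀ i j, pd j (cv (etaC ε) (V i)) x = 0 := fun i j => (k2 i j x hx).self_of_nhds
      have e3 : ∀ i j, pd j (pd j (cv (etaC ε) (V i))) x = 0 := fun i j => by
        unfold pd
        have := (k2 i j x hx).fderiv_eq (𝕜 := ℝ)
        unfold pd at this
        rw [this]; simp
      simp [hL, P0, M0, Lap, DD, e1, e2, e3]
    have hL2 : ∀ i, MemLp (L i) 2 volume := fun i =>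
      (hLc i).memLp_of_hasCompactSupport (hLs i)
    have h1 : τ ^ 2 * (∫ x, ∑ i, ‖cv (etaC ε) (V i) x‖ ^ 2) ≤ C₁ * ∫ x, ∑ i, ‖L i x‖ ^ 2 := by
      refine le_trans ?_ hcar'
      have : 0 ≤ ∫ x, ∑ i, ∑ j, ‖pd j (cv (etaC ε) (V i)) x‖ ^ 2 :=
        integral_nonneg fun x => by positivity
      linarith
    have h2 := ENNReal.ofReal_le_ofReal h1
    rw [ENNReal.ofReal_mul (by positivity), ENNReal.ofReal_mul hC₁.le, ofReal_integral_sq hu2,
      ofReal_integral_sq hL2] at h2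
    have h3 : ∀ l, ∫⁻ x, ‖L l x‖ₑ ^ 2 ≤ 2 * (∫⁻ x, ‖W l x‖ₑ ^ 2)
        + 2 * (n.toNNReal * (ENNReal.ofReal c₂ ^ 2 * v)) := fun l => by
      have := dual_est_step hA hB hb hε hε1 hτpos.le hτε hV hW hV0 hVW l
      rw [← Finset.mul_sum] at this
      convert this using 4
      simp [hn]
    calc ENNReal.ofReal (τ ^ 2) * ∫⁻ x, ‖cv (etaC ε) (V l) x‖ₑ ^ 2
        ≤ ENNReal.ofReal (τ ^ 2) * ∑ i, ∫⁻ x, ‖cv (etaC ε) (V i) x‖ₑ ^ 2 := by
          gcongr
          exact Finset.single_le_sum (f := fun i => ∫⁻ x, ‖cv (etaC ε) (V i) x‖ₑ ^ 2)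
            (fun _ _ => by simp) (Finset.mem_univ l)
      _ ≤ ENNReal.ofReal C₁ * ∑ i, ∫⁻ x, ‖L i x‖ₑ ^ 2 := h2
      _ ≤ ENNReal.ofReal C₁ * ∑ i, (2 * (∫⁻ x, ‖W i x‖ₑ ^ 2)
        + 2 * (n.toNNReal * (ENNReal.ofReal c₂ ^ 2 * v))) := by
          gcongr with i
          exact h3 i
      _ = _ := by
          rw [Finset.sum_add_distrib, ← Finset.mul_sum, Finset.sum_const, Finset.card_univ,
            nsmul_eq_mul, hw]
          have : ((Fintype.card ι : ℕ) : ℝ≥0∞) = (n.toNNReal : ℝ≥0∞) := by simp [hn]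
          rw [this]
          ring
  -- pass to the limit
  have hlim : ENNReal.ofReal (τ ^ 2) * v ≤ n.toNNReal * (ENNReal.ofReal C₁ * (2 * w
      + 2 * (n.toNNReal * (n.toNNReal * (ENNReal.ofReal c₂ ^ 2 * v))))) := by
    set K := ENNReal.ofReal C₁ * (2 * w
      + 2 * (n.toNNReal * (n.toNNReal * (ENNReal.ofReal c₂ ^ 2 * v)))) with hK
    have hT0 : ENNReal.ofReal (τ ^ 2) ≠ 0 := by simpa using hτpos.ne'
    have hTt : ENNReal.ofReal (τ ^ 2) ≠ ⊤ := ENNReal.ofReal_ne_top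
    have h1 : ∀ l, ∫⁻ x, ‖V l x‖ₑ ^ 2 ≤ K / ENNReal.ofReal (τ ^ 2) := fun l => by
      refine lintegral_sq_le_of_cv ((hV l).locallyIntegrable (by norm_num))
        (e := fun m : ℕ => (1 / (max 1 τ)) * (1 / ((m : ℝ) + 1))) (fun m => by positivity) ?_
        fun m => ?_
      · have := (tendsto_one_div_add_atTop_nhds_zero_nat (𝕜 := ℝ)).const_mul (1 / max 1 τ)
        simpa using this
      · have hm1 : 1 / ((m : ℝ) + 1) ≤ 1 := by
          rw [div_le_one (by positivity)]; linarith [Nat.cast_nonneg (α := ℝ) m]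
        have hmax : (0 : ℝ) < max 1 τ := lt_max_of_lt_left one_pos
        have hm2 : 1 / max 1 τ ≤ 1 := by rw [div_le_one hmax]; exact le_max_left _ _
        have hpos : 0 < (1 / (max 1 τ)) * (1 / ((m : ℝ) + 1)) := by positivity
        have h := hstep ((1 / (max 1 τ)) * (1 / ((m : ℝ) + 1))) hpos
          (by
            calc (1 / (max 1 τ)) * (1 / ((m : ℝ) + 1)) ≤ 1 * 1 := by gcongr
              _ = 1 := one_mul 1)
          (by
            calc τ * ((1 / (max 1 τ)) * (1 / ((m : ℝ) + 1)))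
                ≤ max 1 τ * ((1 / (max 1 τ)) * 1) := by gcongr; exact le_max_right _ _
              _ = 1 := by field_simp) l
        rw [ENNReal.le_div_iff_mul_le (Or.inl hT0) (Or.inl hTt), mul_comm]
        exact h
    calc ENNReal.ofReal (τ ^ 2) * v
        ≤ ENNReal.ofReal (τ ^ 2) * ∑ _i : ι, K / ENNReal.ofReal (τ ^ 2) := by
          refine mul_le_mul_right ?_ _
          rw [hv]
          exact Finset.sum_le_sum fun i _ => h1 i
      _ = n.toNNReal * K := by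
          rw [Finset.sum_const, Finset.card_univ, nsmul_eq_mul]
          have : ((Fintype.card ι : ℕ) : ℝ≥0∞) = (n.toNNReal : ℝ≥0∞) := by simp [hn]
          rw [this, mul_left_comm, ENNReal.mul_div_cancel hT0 hTt]
  -- back to real numbers
  generalize (∫ x, ∑ i, ‖V i x‖ ^ 2) = x at hVv hvr ⊢
  generalize (∫ x, ∑ i, ‖W i x‖ ^ 2) = y at hWw hwr ⊢
  have hreal : τ ^ 2 * x ≤ n * (C₁ * (2 * y + 2 * (n * (n * (c₂ ^ 2 * x))))) := by
    rw [← hVv, ← hWw] at hlim
    have hnn : (n.toNNReal : ℝ≥0∞) = ENNReal.ofReal n := rfl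
    rw [hnn, ← ENNReal.ofReal_pow hc₂0, ← ENNReal.ofReal_mul (by positivity),
      ← ENNReal.ofReal_mul (by positivity), ← ENNReal.ofReal_mul hn0, ← ENNReal.ofReal_mul hn0,
      show (2 : ℝ≥0∞) = ENNReal.ofReal 2 by norm_num, ← ENNReal.ofReal_mul (by norm_num),
      ← ENNReal.ofReal_mul (by norm_num), ← ENNReal.ofReal_add (by positivity) (by positivity),
      ← ENNReal.ofReal_mul hC₁.le, ← ENNReal.ofReal_mul hn0,
      ENNReal.ofReal_le_ofReal_iff (by positivity)] at hlim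
    exact hlim
  have h5 : (4 * n ^ 3 * C₁ * c₂ ^ 2) * x ≤ τ ^ 2 * x := by gcongr
  nlinarith

end Crest.Agent.R080
end
end

-- ▼ part R080/DualSolve
section

/-!
Row 80: abstract duality lemma in a Hilbert space.
-/

set_option autoImplicit false

open Filter
open scoped Topology

namespace Crest.Agent.R080

theorem dual_solve {S H : Type*} [AddCommGroup S] [Module ℂ S] [NormedAddCommGroup H]
    [InnerProductSpace ℂ H] [CompleteSpace H] (T J : S →ₗ[ℂ] H) (M : ℝ) (hM : 0 < M)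
    (h : ∀ v w : H, (∀ r, inner ℂ v (T r) = inner ℂ w (J r)) → ‖v‖ ≤ M * ‖w‖)
    (f : H) (hf : f ≠ 0) (ε : ℝ) (hε : 0 < ε) :
    ∃ r, ‖T r - f‖ ≤ ε ∧ ‖J r‖ ≤ 2 * M * ‖f‖ := by
  have hf0 : 0 < ‖f‖ := norm_pos_iff.2 hf
  obtain ⟨δ, hδ, hδε⟩ : ∃ δ : ℝ, 0 < δ ∧ M ^ 2 * δ ^ 2 * ‖f‖ ≤ ε / 2 := by
    refine ⟨Real.sqrt (ε / (2 * (M ^ 2 * ‖f‖))), Real.sqrt_pos.2 (by positivity), ?_⟩
    rw [Real.sq_sqrt (by positivity)]
    refine le_of_eq ?_
    field_simp
  -- the operator `(T, δ J)`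
  let e := WithLp.linearEquiv 2 ℂ (H × H)
  let L : S →ₗ[ℂ] WithLp 2 (H × H) := e.symm.toLinearMap.comp (T.prod ((δ : ℂ) • J))
  have hL1 : ∀ r, (L r).fst = T r := fun r => rfl
  have hL2 : ∀ r, (L r).snd = (δ : ℂ) • J r := fun r => rfl
  let K : Submodule ℂ (WithLp 2 (H × H)) := (LinearMap.range L).topologicalClosure
  have : CompleteSpace K := (Submodule.isClosed_topologicalClosure _).completeSpace_coe
  let F : WithLp 2 (H × H) := WithLp.toLp 2 (f, 0)
  let p : WithLp 2 (H × H) := K.starProjection F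
  have hpK : p ∈ K := Submodule.starProjection_apply_mem K F
  have hq : ∀ z ∈ K, inner ℂ (F - p) z = 0 := fun z hz => by
    have := Submodule.starProjection_inner_eq_zero (K := K) F z hz
    exact this
  have hpn : ‖p‖ ≤ ‖F‖ := by
    have := (K.starProjection).le_opNorm F
    refine this.trans ?_
    have h1 : ‖K.starProjection‖ ≤ 1 := Submodule.starProjection_norm_le K
    nlinarith [norm_nonneg F]
  have hF : ‖F‖ = ‖f‖ := by
    have := WithLp.prod_norm_sq_eq_of_L2 F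
    have h2 : ‖F‖ ^ 2 = ‖f‖ ^ 2 := by rw [this]; simp [F]
    exact (sq_eq_sq₀ (norm_nonneg F) (norm_nonneg f)).1 h2
  set a : H := p.fst with ha
  set b : H := p.snd with hb
  have hpsq : ‖p‖ ^ 2 = ‖a‖ ^ 2 + ‖b‖ ^ 2 := WithLp.prod_norm_sq_eq_of_L2 p
  have hinner : ∀ z : WithLp 2 (H × H),
      inner ℂ (F - p) z = inner ℂ (f - a) z.fst - inner ℂ b z.snd := fun z => by
    rw [WithLp.prod_inner_apply]
    have e1 : (WithLp.ofLp (F - p)).1 = f - a := rfl
    have e2 : (WithLp.ofLp (F - p)).2 = 0 - b := rfl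
    rw [e1, e2, zero_sub, inner_neg_left]
    rfl
  -- dual inequality
  have h1 : ‖f - a‖ ≤ M * (δ * ‖b‖) := by
    have := h (f - a) ((δ : ℂ) • b) fun r => by
      have hr : L r ∈ K := Submodule.le_topologicalClosure _ ⟨r, rfl⟩
      have := hq _ hr
      rw [hinner, hL1, hL2, sub_eq_zero, inner_smul_right] at this
      rw [this, inner_smul_left, Complex.conj_ofReal]
    rwa [norm_smul, Complex.norm_real, Real.norm_of_nonneg hδ.le] at this
  -- orthogonality with `p`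
  have h2 : ‖b‖ ^ 2 ≤ ‖f - a‖ * ‖a‖ := by
    have := hq _ hpK
    rw [hinner, sub_eq_zero] at this
    have h3 : inner ℂ (f - a) a = ((‖b‖ : ℂ)) ^ 2 := by
      rw [this]; exact inner_self_eq_norm_sq_to_K b
    have h4 : ‖(inner ℂ (f - a) a : ℂ)‖ = ‖b‖ ^ 2 := by rw [h3]; simp
    rw [← h4]; exact norm_inner_le_norm _ _
  have han : ‖a‖ ≤ ‖f‖ := by
    have : ‖a‖ ^ 2 ≤ ‖f‖ ^ 2 := by
      have h5 : ‖p‖ ^ 2 ≤ ‖f‖ ^ 2 := by rw [← hF]; gcongr
      nlinarith [sq_nonneg ‖b‖]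
    exact (sq_le_sq₀ (norm_nonneg _) (norm_nonneg _)).1 this
  have hbn : ‖b‖ ≤ M * δ * ‖f‖ := by
    rcases eq_or_lt_of_le (norm_nonneg b) with h0 | h0
    · rw [← h0]; positivity
    · have : ‖b‖ * ‖b‖ ≤ (M * δ * ‖f‖) * ‖b‖ := by
        calc ‖b‖ * ‖b‖ = ‖b‖ ^ 2 := by ring
          _ ≤ ‖f - a‖ * ‖a‖ := h2
          _ ≤ (M * (δ * ‖b‖)) * ‖f‖ := by gcongr
          _ = (M * δ * ‖f‖) * ‖b‖ := by ring
      exact le_of_mul_le_mul_right this h0
  have hfa : ‖f - a‖ ≤ ε / 2 := by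
    calc ‖f - a‖ ≤ M * (δ * ‖b‖) := h1
      _ ≤ M * (δ * (M * δ * ‖f‖)) := by gcongr
      _ = M ^ 2 * δ ^ 2 * ‖f‖ := by ring
      _ ≤ ε / 2 := hδε
  -- approximate `p` by the range
  have hρ : 0 < min (ε / 2) (M * δ * ‖f‖) := lt_min (by positivity) (by positivity)
  obtain ⟨z, ⟨r, rfl⟩, hz⟩ := Metric.mem_closure_iff.1
    (show p ∈ closure (LinearMap.range L : Set (WithLp 2 (H × H))) from hpK) _ hρ
  rw [dist_eq_norm] at hz
  have hz1 : ‖a - T r‖ ≤ ‖p - L r‖ := by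
    have := WithLp.prod_norm_sq_eq_of_L2 (p - L r)
    have e1 : (p - L r).fst = a - T r := rfl
    rw [e1] at this
    refine (sq_le_sq₀ (norm_nonneg _) (norm_nonneg _)).1 ?_
    rw [this]; nlinarith [sq_nonneg ‖(p - L r).snd‖]
  have hz2 : ‖b - (δ : ℂ) • J r‖ ≤ ‖p - L r‖ := by
    have := WithLp.prod_norm_sq_eq_of_L2 (p - L r)
    have e1 : (p - L r).snd = b - (δ : ℂ) • J r := rfl
    rw [e1] at this
    refine (sq_le_sq₀ (norm_nonneg _) (norm_nonneg _)).1 ?_
    rw [this]; nlinarith [sq_nonneg ‖(p - L r).fst‖]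
  refine ⟨r, ?_, ?_⟩
  · calc ‖T r - f‖ = ‖(T r - a) + (a - f)‖ := by congr 1; abel
      _ ≤ ‖T r - a‖ + ‖a - f‖ := norm_add_le _ _
      _ ≤ ε / 2 + ε / 2 := by
          rw [norm_sub_rev (T r), norm_sub_rev a f]
          exact add_le_add (hz1.trans (hz.le.trans (min_le_left _ _))) hfa
      _ = ε := by ring
  · have : ‖(δ : ℂ) • J r‖ ≤ 2 * (M * δ * ‖f‖) := by
      calc ‖(δ : ℂ) • J r‖ = ‖b - (b - (δ : ℂ) • J r)‖ := by congr 1; abel
        _ ≤ ‖b‖ + ‖b - (δ : ℂ) • J r‖ := norm_sub_le _ _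
        _ ≤ M * δ * ‖f‖ + M * δ * ‖f‖ :=
            add_le_add hbn (hz2.trans (hz.le.trans (min_le_right _ _)))
        _ = 2 * (M * δ * ‖f‖) := by ring
    rw [norm_smul, Complex.norm_real, Real.norm_of_nonneg hδ.le] at this
    have h6 : δ * ‖J r‖ ≤ δ * (2 * M * ‖f‖) := by linarith
    exact le_of_mul_le_mul_left h6 hδ

end Crest.Agent.R080
end

-- ▼ part R080/L2Solve
section

/-!
Row 80, T9: `StmtL2Solve` from `StmtCarleman`.
-/

set_option autoImplicit false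

open MeasureTheory Filter
open scoped ContDiff Topology ENNReal
open Crest.AnalysisR.VecCalc3 Crest.AnalysisR.PDE.Elasticity

noncomputable section
namespace Crest.Agent.R080

set_option linter.unusedSectionVars false
variable {ι : Type} [Fintype ι] [DecidableEq ι]

/-- the Hilbert space -/
abbrev HB (ι : Type) [Fintype ι] (R : ℝ) : Type :=
  Lp (EuclideanSpace ℂ ι) 2 ((volume : Measure R3).restrict (Metric.ball (0 : R3) R))

theorem HB_norm_sq {R : ℝ} (v : HB ι R) :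
    ‖v‖ ^ 2 = ∫ x in Metric.ball (0 : R3) R, ∑ i, ‖v x i‖ ^ 2 := by
  have h1 : (inner ℂ v v : ℂ) = ((‖v‖ : ℂ)) ^ 2 := inner_self_eq_norm_sq_to_K v
  rw [L2.inner_def] at h1
  have h2 : ∀ x, (inner ℂ (v x) (v x) : ℂ) = ((∑ i, ‖v x i‖ ^ 2 : ℝ) : ℂ) := fun x => by
    rw [inner_self_eq_norm_sq_to_K, ← EuclideanSpace.norm_sq_eq]
    simp
  simp only [h2] at h1
  rw [integral_complex_ofReal] at h1
  have h3 : (∫ x in Metric.ball (0 : R3) R, ∑ i, ‖v x i‖ ^ 2) = ‖v‖ ^ 2 := by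
    have := congrArg Complex.re h1
    rw [Complex.ofReal_re, ← Complex.ofReal_pow, Complex.ofReal_re] at this
    exact this
  exact h3.symm

/-- smooth vector functions -/
def Sm (ι : Type) : Submodule ℂ (ι → R3 → ℂ) where
  carrier := {r | ∀ i, ContDiff ℝ ∞ (r i)}
  zero_mem' := fun _ => contDiff_const
  add_mem' := fun ha hb i => (ha i).add (hb i)
  smul_mem' := fun _ _ ha i => contDiff_const.mul (ha i)

/-- a continuous vector function as a function with values in Euclidean space -/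
def asE (F : ι → R3 → ℂ) (x : R3) : EuclideanSpace ℂ ι := WithLp.toLp 2 fun i => F i x

theorem asE_memLp {F : ι → R3 → ℂ} (hF : ∀ i, Continuous (F i)) (R : ℝ) :
    MemLp (asE F) 2 ((volume : Measure R3).restrict (Metric.ball (0 : R3) R)) := by
  have hc : Continuous (asE F) := (PiLp.continuous_toLp 2 _).comp (continuous_pi hF)
  obtain ⟨M, hM⟩ := (isCompact_closedBall (0 : R3) R).exists_bound_of_continuousOn hc.continuousOn
  have : IsFiniteMeasure ((volume : Measure R3).restrict (Metric.ball (0 : R3) R)) :=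
    ⟨by simpa using measure_ball_lt_top (μ := (volume : Measure R3)) (x := (0 : R3)) (r := R)⟩
  refine MemLp.of_bound hc.aestronglyMeasurable M ?_
  filter_upwards [ae_restrict_mem measurableSet_ball] with x hx
  exact hM x (Metric.ball_subset_closedBall hx)

/-- operators with continuous values as maps into the Hilbert space -/
def toH (R : ℝ) (D : Sm ι →ₗ[ℂ] (ι → R3 → ℂ)) (hD : ∀ r i, Continuous (D r i)) :
    Sm ι →ₗ[ℂ] HB ι R where
  toFun r := (asE_memLp (hD r) R).toLp _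
  map_add' r s := by
    rw [← MemLp.toLp_add]
    refine MemLp.toLp_congr _ _ (Eventually.of_forall fun x => ?_)
    ext i
    simp [asE]
  map_smul' c r := by
    rw [RingHom.id_apply, ← MemLp.toLp_const_smul]
    refine MemLp.toLp_congr _ _ (Eventually.of_forall fun x => ?_)
    ext i
    simp [asE]

theorem toH_ae (R : ℝ) (D : Sm ι →ₗ[ℂ] (ι → R3 → ℂ)) (hD : ∀ r i, Continuous (D r i)) (r : Sm ι) :
    ∀ᵐ x ∂((volume : Measure R3).restrict (Metric.ball (0 : R3) R)),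
      ∀ i, (toH R D hD r : HB ι R) x i = D r i x := by
  filter_upwards [(asE_memLp (hD r) R).coeFn_toLp] with x hx i
  change (((asE_memLp (hD r) R).toLp _ : HB ι R) x) i = _
  rw [hx]
  rfl

theorem Lap_add' {f g : R3 → ℂ} (hf : ContDiff ℝ ∞ f) (hg : ContDiff ℝ ∞ g) (x : R3) :
    Lap (fun y => f y + g y) x = Lap f x + Lap g x := by
  unfold Lap
  rw [← Finset.sum_add_distrib]
  refine Finset.sum_congr rfl fun j _ => ?_
  have : pd j (fun y => f y + g y) = fun y => pd j f y + pd j g y := by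
    funext y; exact pd_add hf hg j y
  rw [this, pd_add (pd_contDiff hf j) (pd_contDiff hg j)]

theorem Lap_const_mul' {f : R3 → ℂ} (hf : ContDiff ℝ ∞ f) (c : ℂ) (x : R3) :
    Lap (fun y => c * f y) x = c * Lap f x := by
  unfold Lap
  rw [Finset.mul_sum]
  refine Finset.sum_congr rfl fun j _ => ?_
  have : pd j (fun y => c * f y) = fun y => c * pd j f y := by
    funext y; exact pd_const_mul hf c j y
  rw [this, pd_const_mul (pd_contDiff hf j)]

/-- the conjugated operator as a linear map -/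
def opL (θ : Fin 3 → ℂ) (A : Fin 3 → ι → ι → R3 → ℂ) (B : ι → ι → R3 → ℂ) (τ : ℝ) :
    Sm ι →ₗ[ℂ] (ι → R3 → ℂ) where
  toFun r i x := P0 A B r.1 i x + τ * M0 θ A r.1 i x
  map_add' r s := by
    funext i x
    have h1 : ∀ i, (r + s).1 i = fun y => r.1 i y + s.1 i y := fun i => rfl
    have h2 : ∀ i j y, pd j ((r + s).1 i) y = pd j (r.1 i) y + pd j (s.1 i) y := fun i j y => by
      rw [h1, pd_add (r.2 i) (s.2 i)]
    have h3 : Lap ((r + s).1 i) x = Lap (r.1 i) x + Lap (s.1 i) x := by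
      rw [h1, Lap_add' (r.2 i) (s.2 i)]
    simp only [P0, M0, DD, h2, h3, Pi.add_apply]
    have h4 : ∀ i, (r + s).1 i x = r.1 i x + s.1 i x := fun i => rfl
    simp only [h4, mul_add, Finset.sum_add_distrib]
    ring
  map_smul' c r := by
    funext i x
    have h1 : ∀ i, (c • r).1 i = fun y => c * r.1 i y := fun i => rfl
    have h2 : ∀ i j y, pd j ((c • r).1 i) y = c * pd j (r.1 i) y := fun i j y => by
      rw [h1, pd_const_mul (r.2 i)]
    have h3 : Lap ((c • r).1 i) x = c * Lap (r.1 i) x := by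
      rw [h1, Lap_const_mul' (r.2 i)]
    simp only [P0, M0, DD, h2, h3, RingHom.id_apply, Pi.smul_apply, smul_eq_mul]
    have h4 : ∀ i, (c • r).1 i x = c * r.1 i x := fun i => rfl
    simp only [h4, mul_add, Finset.mul_sum]
    congr 1
    · congr 1
      · congr 1
        refine Finset.sum_congr rfl fun j _ => Finset.sum_congr rfl fun l _ => by ring
      · refine Finset.sum_congr rfl fun l _ => by ring
    · congr 1
      · refine Finset.sum_congr rfl fun l _ => by ring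
      · refine Finset.sum_congr rfl fun j _ => Finset.sum_congr rfl fun l _ => by ring

theorem opL_cont (θ : Fin 3 → ℂ) {A : Fin 3 → ι → ι → R3 → ℂ} {B : ι → ι → R3 → ℂ}
    (hA : ∀ j i l, ContDiff ℝ ∞ (A j i l)) (hB : ∀ i l, ContDiff ℝ ∞ (B i l)) (τ : ℝ) (r : Sm ι)
    (i : ι) : Continuous (opL θ A B τ r i) := by
  have h1 : ∀ i, Continuous (r.1 i) := fun i => (r.2 i).continuous
  have h2 : ∀ j i, Continuous (pd j (r.1 i)) := fun j i => (pd_contDiff (r.2 i) j).continuous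
  have h3 : ∀ i, Continuous (Lap (r.1 i)) := fun i => (Lap_contDiff (r.2 i)).continuous
  have h4 : ∀ j i l, Continuous (A j i l) := fun j i l => (hA j i l).continuous
  have h5 : ∀ i l, Continuous (B i l) := fun i l => (hB i l).continuous
  have h6 : ∀ i, Continuous (DD θ (r.1 i)) := fun i => (DD_contDiff (r.2 i) θ).continuous
  change Continuous fun x => P0 A B r.1 i x + τ * M0 θ A r.1 i x
  unfold P0 M0
  fun_prop

/-- conjugated extension by zero of the components of an element of the Hilbert space -/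
def ext0 {R : ℝ} (v : HB ι R) (i : ι) : R3 → ℂ :=
  (Metric.ball (0 : R3) R).indicator fun x => starRingEnd ℂ (v x i)

theorem ext0_memLp {R : ℝ} (v : HB ι R) (i : ι) : MemLp (ext0 v i) 2 volume := by
  unfold ext0
  rw [memLp_indicator_iff_restrict measurableSet_ball]
  have h1 : MemLp (fun x => v x i) 2
      ((volume : Measure R3).restrict (Metric.ball (0 : R3) R)) := by
    have := (Lp.memLp v)
    exact (ContinuousLinearMap.comp_memLp' (EuclideanSpace.proj i : EuclideanSpace ℂ ι →L[ℂ] ℂ)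
      this)
  exact h1.star

theorem ext0_zero {R : ℝ} (v : HB ι R) (i : ι) (x : R3) (hx : R ≤ ‖x‖) : ext0 v i x = 0 := by
  unfold ext0
  refine Set.indicator_of_notMem ?_ _
  simpa using hx

theorem ext0_norm {R : ℝ} (v : HB ι R) : ∫ x, ∑ i, ‖ext0 v i x‖ ^ 2 = ‖v‖ ^ 2 := by
  rw [HB_norm_sq, ← integral_indicator measurableSet_ball]
  refine integral_congr_ae (Eventually.of_forall fun x => ?_)
  by_cases hx : x ∈ Metric.ball (0 : R3) R
  · simp [ext0, hx]
  · simp [ext0, hx]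

theorem ext0_inner {R : ℝ} (v : HB ι R) (D : Sm ι →ₗ[ℂ] (ι → R3 → ℂ))
    (hD : ∀ r i, Continuous (D r i)) (r : Sm ι) :
    (inner ℂ v (toH R D hD r) : ℂ) = ∫ x, ∑ i, ext0 v i x * D r i x := by
  rw [L2.inner_def]
  have h1 : ∫ x in Metric.ball (0 : R3) R, (inner ℂ (v x) ((toH R D hD r : HB ι R) x) : ℂ)
      = ∫ x in Metric.ball (0 : R3) R, ∑ i, starRingEnd ℂ (v x i) * D r i x := by
    refine integral_congr_ae ?_
    filter_upwards [toH_ae R D hD r] with x hx
    rw [PiLp.inner_apply]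
    refine Finset.sum_congr rfl fun i _ => ?_
    rw [hx i]
    simp [RCLike.inner_apply, mul_comm]
  rw [h1, ← integral_indicator measurableSet_ball]
  refine integral_congr_ae (Eventually.of_forall fun x => ?_)
  by_cases hx : x ∈ Metric.ball (0 : R3) R
  · simp [ext0, hx]
  · simp [ext0, hx]

theorem t_L2Solve (hC : StmtCarleman) : StmtL2Solve := by
  intro ι _ _ θ hθ A B hA hB R
  obtain ⟨C, τ₀, hCpos, hτ₀, hest⟩ := dual_est hC hθ hA hB R
  refine ⟨2 * Real.sqrt C, τ₀, by positivity, hτ₀, ?_⟩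
  intro τ hτ f hf hfc ε hε
  have hτpos : 0 < τ := hτ₀.trans_le hτ
  -- the operators
  let D : Sm ι →ₗ[ℂ] (ι → R3 → ℂ) := opL θ A B τ
  let D1 : Sm ι →ₗ[ℂ] (ι → R3 → ℂ) := (Sm ι).subtype
  have hD : ∀ r i, Continuous (D r i) := fun r i => opL_cont θ hA hB τ r i
  have hD1 : ∀ r i, Continuous (D1 r i) := fun r i => (r.2 i).continuous
  let T := toH R D hD
  let J := toH R D1 hD1
  let fS : Sm ι := ⟨f, hf⟩
  let fH : HB ι R := J fS
  have hM : 0 < Real.sqrt C / τ := by positivity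
  have hdual : ∀ v w : HB ι R, (∀ r, inner ℂ v (T r) = inner ℂ w (J r)) →
      ‖v‖ ≤ Real.sqrt C / τ * ‖w‖ := by
    intro v w h
    have h1 := hest τ hτ (ext0 v) (ext0 w) (ext0_memLp v) (ext0_memLp w) (ext0_zero v)
      (fun r hr => by
        have := h ⟨r, hr⟩
        rw [ext0_inner, ext0_inner] at this
        exact this)
    rw [ext0_norm, ext0_norm] at h1
    have h2 : (τ * ‖v‖) ^ 2 ≤ (Real.sqrt C * ‖w‖) ^ 2 := by
      rw [mul_pow, mul_pow, Real.sq_sqrt hCpos.le]; exact h1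
    have h3 := (sq_le_sq₀ (by positivity) (by positivity)).1 h2
    rw [div_mul_eq_mul_div, le_div_iff₀ hτpos]
    linarith
  -- norms on the Hilbert space
  have hnorm : ∀ (E : Sm ι →ₗ[ℂ] (ι → R3 → ℂ)) (hE : ∀ r i, Continuous (E r i)) (r : Sm ι),
      ‖toH R E hE r‖ ^ 2 = ∫ x in Metric.ball (0 : R3) R, ∑ i, ‖E r i x‖ ^ 2 := by
    intro E hE r
    rw [HB_norm_sq]
    refine integral_congr_ae ?_
    filter_upwards [toH_ae R E hE r] with x hx
    simp only [hx]
  have hTf : ∀ r : Sm ι, ‖T r - fH‖ ^ 2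
      = ∫ x in Metric.ball (0 : R3) R,
        ∑ i, ‖P0 A B r.1 i x + τ * M0 θ A r.1 i x - f i x‖ ^ 2 := by
    intro r
    rw [HB_norm_sq]
    refine integral_congr_ae ?_
    filter_upwards [toH_ae R D hD r, toH_ae R D1 hD1 fS, Lp.coeFn_sub (T r) fH] with x h1 h2 h3
    simp only [h3]
    refine Finset.sum_congr rfl fun i _ => ?_
    have e1 : ((⇑(T r) - ⇑fH) x) i = (T r : HB ι R) x i - (fH : HB ι R) x i := rfl
    rw [e1, h1 i, h2 i]
    rfl
  have hfn : ‖fH‖ ^ 2 ≤ ∫ x, ∑ i, ‖f i x‖ ^ 2 := by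
    rw [hnorm D1 hD1 fS]
    refine setIntegral_le_integral ?_ (Eventually.of_forall fun x => by positivity)
    refine integrable_finsetSum _ fun i _ => ?_
    have : MemLp (f i) 2 volume := (hf i).continuous.memLp_of_hasCompactSupport (hfc i)
    exact (memLp_two_iff_integrable_sq_norm this.1).1 this
  by_cases h0 : fH = 0
  · refine ⟨fun _ _ => 0, fun _ => contDiff_const, ?_, ?_⟩
    · have h1 := hTf 0
      rw [map_zero, h0, sub_zero, norm_zero] at h1
      have h2 : (0 : Sm ι).1 = fun _ _ => 0 := rfl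
      rw [h2] at h1
      rw [← h1]
      simpa using hε.le
    · simp only [norm_zero, ne_eq, OfNat.ofNat_ne_zero, not_false_eq_true, zero_pow,
        Finset.sum_const_zero, integral_zero]
      have : 0 ≤ ∫ x, ∑ i, ‖f i x‖ ^ 2 := integral_nonneg fun x => by positivity
      positivity
  obtain ⟨r, hr1, hr2⟩ := dual_solve T J _ hM hdual fH h0 (Real.sqrt ε) (Real.sqrt_pos.2 hε)
  refine ⟨r.1, r.2, ?_, ?_⟩
  · rw [← hTf r]
    calc ‖T r - fH‖ ^ 2 ≤ Real.sqrt ε ^ 2 := by gcongr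
      _ = ε := Real.sq_sqrt hε.le
  · have h1 := hnorm D1 hD1 r
    have h2 : ∀ i x, D1 r i x = r.1 i x := fun i x => rfl
    simp only [h2] at h1
    rw [← h1]
    calc ‖J r‖ ^ 2 ≤ (2 * (Real.sqrt C / τ) * ‖fH‖) ^ 2 := by gcongr
      _ = (2 * Real.sqrt C / τ) ^ 2 * ‖fH‖ ^ 2 := by ring
      _ ≤ (2 * Real.sqrt C / τ) ^ 2 * ∫ x, ∑ i, ‖f i x‖ ^ 2 := by gcongr

end Crest.Agent.R080
end
end

-- ▼ part R080/LameAlg
section

/-!
Row 80 (S0107), T11a: the pointwise algebra of the Lamé operator on `u = w + m ∇g - g ∇m`.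
-/

set_option autoImplicit false

open MeasureTheory Filter
open scoped ContDiff Topology
open Crest.AnalysisR.VecCalc3 Crest.AnalysisR.PDE.Elasticity

noncomputable section
namespace Crest.Agent.R080.La

open Sm

/-- `L u` for `u = w + m ∇g - g ∇m`, `m μ = 1` -/
theorem lame_alg (la mu m : Sm) (hm : m * mu = 1) (W : Fin 3 → Sm) (g : Sm) (i : Fin 3)
    (u : Fin 3 → Sm) (hu : ∀ j, u j = W j + m * d j g - g * d j m) :
    d i (la * (d 0 (u 0) + d 1 (u 1) + d 2 (u 2)))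
      + d 0 (mu * (d i (u 0) + d 0 (u i))) + d 1 (mu * (d i (u 1) + d 1 (u i)))
      + d 2 (mu * (d i (u 2) + d 2 (u i)))
    = (mu * (d 0 (d 0 (W i)) + d 1 (d 1 (W i)) + d 2 (d 2 (W i)))
        + (d 0 mu * d 0 (W i) + d 1 mu * d 1 (W i) + d 2 mu * d 2 (W i))
        - d i mu * (d 0 (W 0) + d 1 (W 1) + d 2 (W 2))
        - (d i (d 0 mu) * W 0 + d i (d 1 mu) * W 1 + d i (d 2 mu) * W 2)
        - 2 * mu * (d i (d 0 m) * d 0 g + d i (d 1 m) * d 1 g + d i (d 2 m) * d 2 g)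
        - 2 * g * (d i (d 0 m) * d 0 mu + d i (d 1 m) * d 1 mu + d i (d 2 m) * d 2 mu)
        - 2 * mu * g * d i (d 0 (d 0 m) + d 1 (d 1 m) + d 2 (d 2 m)))
      + d i ((la * m + 2) * (d 0 (d 0 g) + d 1 (d 1 g) + d 2 (d 2 g))
        + (la + mu) * (d 0 (W 0) + d 1 (W 1) + d 2 (W 2))
        + (d 0 mu * W 0 + d 1 mu * W 1 + d 2 mu * W 2)
        - la * (d 0 (d 0 m) + d 1 (d 1 m) + d 2 (d 2 m)) * g) := by
  have hd : ∀ j, d j m * mu + m * d j mu = 0 := fun j => by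
    rw [← d_mul, hm]; exact Derivation.map_one_eq_zero _
  have c10 : ∀ f : Sm, d 1 (d 0 f) = d 0 (d 1 f) := fun f => d_comm 1 0 f
  have c20 : ∀ f : Sm, d 2 (d 0 f) = d 0 (d 2 f) := fun f => d_comm 2 0 f
  have c21 : ∀ f : Sm, d 2 (d 1 f) = d 1 (d 2 f) := fun f => d_comm 2 1 f
  fin_cases i
  · simp only [Fin.zero_eta, hu, map_add, map_sub, d_mul, d_two, c10, c20]
    linear_combination 2 * d 0 (d 0 g) * hd 0 + 2 * d 0 (d 1 g) * hd 1 + 2 * d 0 (d 2 g) * hd 2
      + 2 * (d 0 (d 0 (d 0 g)) + d 0 (d 1 (d 1 g)) + d 0 (d 2 (d 2 g))) * hm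
  · simp only [Fin.mk_one, hu, map_add, map_sub, d_mul, d_two, c10, c21]
    linear_combination 2 * d 0 (d 1 g) * hd 0 + 2 * d 1 (d 1 g) * hd 1 + 2 * d 1 (d 2 g) * hd 2
      + 2 * (d 0 (d 0 (d 1 g)) + d 1 (d 1 (d 1 g)) + d 1 (d 2 (d 2 g))) * hm
  · simp only [Fin.reduceFinMk, hu, map_add, map_sub, d_mul, d_two, c20, c21]
    linear_combination 2 * d 0 (d 2 g) * hd 0 + 2 * d 1 (d 2 g) * hd 1 + 2 * d 2 (d 2 g) * hd 2
      + 2 * (d 0 (d 0 (d 2 g)) + d 1 (d 1 (d 2 g)) + d 2 (d 2 (d 2 g))) * hm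

/-! ### conjugation by `e^{τθ·x}` -/

theorem pd_expo_mul (θ : Fin 3 → ℂ) (τ : ℂ) (f : R3 → ℂ) (j : Fin 3) (x : R3)
    (hf : DifferentiableAt ℝ f x) :
    pd j (fun y => expo θ τ y * f y) x = expo θ τ x * (pd j f x + τ * θ j * f x) := by
  rw [pd_mul (((smooth_expo θ τ).differentiable (by simp)) x) hf, pd_expo]; ring

theorem pd_pd_expo_mul (θ : Fin 3 → ℂ) (τ : ℂ) (f : R3 → ℂ) (hf : ContDiff ℝ ∞ f) (i j : Fin 3)
    (x : R3) :
    pd i (pd j (fun y => expo θ τ y * f y)) x = expo θ τ x *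
      (pd i (pd j f) x + τ * θ j * pd i f x + τ * θ i * pd j f x + τ ^ 2 * θ i * θ j * f x) := by
  have hfd : ∀ y, DifferentiableAt ℝ f y := fun y => (hf.differentiable (by simp)) y
  have hpd : ∀ y, DifferentiableAt ℝ (pd j f) y := fun y =>
    ((contDiff_pd_infty hf j).differentiable (by simp)) y
  have e : pd j (fun y => expo θ τ y * f y)
      = fun y => expo θ τ y * (pd j f y + τ * θ j * f y) :=
    funext fun y => pd_expo_mul θ τ f j y (hfd y)
  have h3 : DifferentiableAt ℝ (fun y => τ * θ j * f y) x := (hfd x).const_mul _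
  have h4 : DifferentiableAt ℝ (fun y => pd j f y + τ * θ j * f y) x := (hpd x).add h3
  rw [e, pd_expo_mul θ τ _ i x h4, pd_add (hpd x) h3, pd_const_mul _ (hfd x)]
  ring

theorem Lap_expo_mul (θ : Fin 3 → ℂ) (hθ : ∑ j, θ j ^ 2 = 0) (τ : ℂ) (f : R3 → ℂ)
    (hf : ContDiff ℝ ∞ f) (x : R3) :
    Lap (fun y => expo θ τ y * f y) x = expo θ τ x * (Lap f x + 2 * τ * DD θ f x) := by
  unfold Lap DD
  simp only [pd_pd_expo_mul θ τ f hf, Fin.sum_univ_three] at hθ ⊢
  linear_combination expo θ τ x * τ ^ 2 * f x * hθ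

theorem P0_expo {ι : Type} [Fintype ι] (θ : Fin 3 → ℂ) (hθ : ∑ j, θ j ^ 2 = 0) (τ : ℂ)
    (A : Fin 3 → ι → ι → R3 → ℂ) (B : ι → ι → R3 → ℂ) (r : ι → R3 → ℂ)
    (hr : ∀ i, ContDiff ℝ ∞ (r i)) (i : ι) (x : R3) :
    P0 A B (fun i y => expo θ τ y * r i y) i x
      = expo θ τ x * (P0 A B r i x + τ * M0 θ A r i x) := by
  unfold P0 M0
  rw [Lap_expo_mul θ hθ τ _ (hr i)]
  have h1 : ∀ j l, A j i l x * pd j (fun y => expo θ τ y * r l y) x
      = expo θ τ x * (A j i l x * pd j (r l) x) + expo θ τ x * τ * (A j i l x * θ j * r l x) := by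
    intro j l
    rw [pd_expo_mul θ τ _ j x (((hr l).differentiable (by simp)) x)]; ring
  have h2 : ∀ l, B i l x * (expo θ τ x * r l x) = expo θ τ x * (B i l x * r l x) := by
    intro l; ring
  simp only [h1, h2, Finset.sum_add_distrib, ← Finset.mul_sum]
  ring

end Crest.Agent.R080.La
end
end

-- ▼ part R080/Bilin
section

/-!
Row 80 (S0107), T11b: strain and divergence of the complex displacement fields `uU`, exact
expansion of the difference of the bilinear energies in `τ`.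
-/

set_option autoImplicit false

open MeasureTheory Filter
open scoped ContDiff Topology
open Crest.AnalysisR.VecCalc3 Crest.AnalysisR.PDE.Elasticity

noncomputable section
namespace Crest.Agent.R080

namespace La

theorem diffAt_of {f : R3 → ℂ} (hf : ContDiff ℝ ∞ f) (x : R3) : DifferentiableAt ℝ f x :=
  (hf.differentiable (by simp)) x

theorem contDiff_dispU (P : Moduli) (θ : Fin 3 → ℂ) (τ : ℂ) (U : Option (Fin 3) → R3 → ℂ)
    (hU : ∀ i, ContDiff ℝ ∞ (U i)) (i : Fin 3) : ContDiff ℝ ∞ (dispU P θ τ U i) := by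
  unfold dispU
  exact ((hU _).add ((contDiff_cf (smooth_m P)).mul
    ((contDiff_pd_infty (hU none) i).add ((contDiff_const).mul (hU none))))).sub
    ((hU none).mul (contDiff_pd_infty (contDiff_cf (smooth_m P)) i))

theorem contDiff_uU (P : Moduli) (θ : Fin 3 → ℂ) (τ : ℂ) (U : Option (Fin 3) → R3 → ℂ)
    (hU : ∀ i, ContDiff ℝ ∞ (U i)) (i : Fin 3) : ContDiff ℝ ∞ (uU P θ τ U i) :=
  (smooth_expo θ τ).mul (contDiff_dispU P θ τ U hU i)

/-- derivatives of `dispU` -/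
theorem pd_dispU (P : Moduli) (θ : Fin 3 → ℂ) (τ : ℂ) (U : Option (Fin 3) → R3 → ℂ)
    (hU : ∀ i, ContDiff ℝ ∞ (U i)) (i j : Fin 3) (x : R3) :
    pd j (dispU P θ τ U i) x = pd j (U (some i)) x
      + (pd j (cf P.m) x * (pd i (U none) x + τ * θ i * U none x)
        + (P.m x : ℂ) * (pd j (pd i (U none)) x + τ * θ i * pd j (U none) x))
      - (pd j (U none) x * pd i (cf P.m) x + U none x * pd j (pd i (cf P.m)) x) := by
  have h0 := hU none
  have h1 := contDiff_pd_infty h0 i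
  have hm : ContDiff ℝ ∞ (cf P.m) := contDiff_cf (smooth_m P)
  have hm1 := contDiff_pd_infty hm i
  have h2 : ContDiff ℝ ∞ (fun y => τ * θ i * U none y) := contDiff_const.mul h0
  have h3 : ContDiff ℝ ∞ (fun y => pd i (U none) y + τ * θ i * U none y) := h1.add h2
  have h4 : ContDiff ℝ ∞ (fun y => cf P.m y * (pd i (U none) y + τ * θ i * U none y)) := hm.mul h3
  have h5 : ContDiff ℝ ∞ (fun y => U (some i) y
      + cf P.m y * (pd i (U none) y + τ * θ i * U none y)) := (hU _).add h4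
  have h6 : ContDiff ℝ ∞ (fun y => U none y * pd i (cf P.m) y) := h0.mul hm1
  have e : dispU P θ τ U i = fun y => (U (some i) y
      + cf P.m y * (pd i (U none) y + τ * θ i * U none y)) - U none y * pd i (cf P.m) y := rfl
  rw [e, pd_sub (diffAt_of h5 x) (diffAt_of h6 x), pd_add (diffAt_of (hU _) x) (diffAt_of h4 x),
    pd_mul (diffAt_of hm x) (diffAt_of h3 x), pd_add (diffAt_of h1 x) (diffAt_of h2 x),
    pd_const_mul _ (diffAt_of h0 x), pd_mul (diffAt_of h0 x) (diffAt_of hm1 x)]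

theorem pd_uU (P : Moduli) (θ : Fin 3 → ℂ) (τ : ℂ) (U : Option (Fin 3) → R3 → ℂ)
    (hU : ∀ i, ContDiff ℝ ∞ (U i)) (i j : Fin 3) (x : R3) :
    pd j (uU P θ τ U i) x = expo θ τ x * (pd j (dispU P θ τ U i) x
      + τ * θ j * dispU P θ τ U i x) :=
  pd_expo_mul θ τ _ j x (diffAt_of (contDiff_dispU P θ τ U hU i) x)

theorem strain_uU (P : Moduli) (θ : Fin 3 → ℂ) (τ : ℂ) (U : Option (Fin 3) → R3 → ℂ)
    (hU : ∀ i, ContDiff ℝ ∞ (U i)) (i j : Fin 3) (x : R3) :
    strain (uU P θ τ U) i j x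
      = expo θ τ x * (τ ^ 2 * E0 P θ U i j x + τ * E1 P θ U i j x + E2 P U i j x) := by
  unfold strain
  rw [pd_uU P θ τ U hU, pd_uU P θ τ U hU, pd_dispU P θ τ U hU, pd_dispU P θ τ U hU,
    pd_comm ((hU none).of_le (by norm_cast)) j i,
    pd_comm ((contDiff_cf (smooth_m P)).of_le (by norm_cast)) j i]
  unfold dispU E0 E1 E2
  ring

theorem divg_uU (P : Moduli) (θ : Fin 3 → ℂ) (hθ : ∑ j, θ j ^ 2 = 0) (τ : ℂ)
    (U : Option (Fin 3) → R3 → ℂ) (hU : ∀ i, ContDiff ℝ ∞ (U i)) (x : R3) :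
    divg (uU P θ τ U) x = expo θ τ x * (τ * S1 P θ U x + S2 P U x) := by
  unfold divg
  simp only [pd_uU P θ τ U hU, pd_dispU P θ τ U hU, Fin.sum_univ_three] at hθ ⊢
  unfold dispU S1 S2 DD Lap
  simp only [Fin.sum_univ_three]
  linear_combination expo θ τ x * τ ^ 2 * (P.m x : ℂ) * U none x * hθ

theorem expo_mul_expo_neg (θ : Fin 3 → ℂ) (τ : ℂ) (x : R3) :
    expo θ τ x * expo θ (-τ) x = 1 := by
  unfold expo
  rw [← Complex.exp_add, neg_mul, add_neg_cancel, Complex.exp_zero]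

/-- the τ-expansion of the pairing of the strains -/
theorem strain_pair (P₁ P₂ : Moduli) (θ : Fin 3 → ℂ) (hθ : ∑ j, θ j ^ 2 = 0) (τ : ℂ)
    (U V : Option (Fin 3) → R3 → ℂ) (x : R3) :
    ∑ i, ∑ j, (τ ^ 2 * E0 P₁ θ U i j x + τ * E1 P₁ θ U i j x + E2 P₁ U i j x)
        * ((-τ) ^ 2 * E0 P₂ θ V i j x + -τ * E1 P₂ θ V i j x + E2 P₂ V i j x)
      = τ ^ 2 * ∑ i, ∑ j, (E0 P₁ θ U i j x * E2 P₂ V i j x + E2 P₁ U i j x * E0 P₂ θ V i j x
          - E1 P₁ θ U i j x * E1 P₂ θ V i j x)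
        + τ * ∑ i, ∑ j, (E1 P₁ θ U i j x * E2 P₂ V i j x - E2 P₁ U i j x * E1 P₂ θ V i j x)
        + ∑ i, ∑ j, E2 P₁ U i j x * E2 P₂ V i j x := by
  have h00 : ∑ i, ∑ j, E0 P₁ θ U i j x * E0 P₂ θ V i j x = 0 := by
    unfold E0
    simp only [Fin.sum_univ_three] at hθ ⊢
    linear_combination (P₁.m x : ℂ) * U none x * (P₂.m x : ℂ) * V none x
      * (θ 0 ^ 2 + θ 1 ^ 2 + θ 2 ^ 2) * hθ
  have h01 : ∀ (c : ℂ) (a : Fin 3 → ℂ), ∑ i, ∑ j, (c * θ i * θ j) * ((θ i * a j + θ j * a i) / 2)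
      = 0 := by
    intro c a
    simp only [Fin.sum_univ_three] at hθ ⊢
    linear_combination c * (θ 0 * a 0 + θ 1 * a 1 + θ 2 * a 2) * hθ
  have hA : ∑ i, ∑ j, E0 P₁ θ U i j x * E1 P₂ θ V i j x = 0 :=
    h01 ((P₁.m x : ℂ) * U none x) fun j => V (some j) x + 2 * (P₂.m x : ℂ) * pd j (V none) x
  have hB : ∑ i, ∑ j, E1 P₁ θ U i j x * E0 P₂ θ V i j x = 0 := by
    rw [← h01 ((P₂.m x : ℂ) * V none x) fun j => U (some j) x + 2 * (P₁.m x : ℂ) * pd j (U none) x]
    refine Finset.sum_congr rfl fun i _ => Finset.sum_congr rfl fun j _ => ?_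
    unfold E0 E1; ring
  have key : ∀ i j, (τ ^ 2 * E0 P₁ θ U i j x + τ * E1 P₁ θ U i j x + E2 P₁ U i j x)
        * ((-τ) ^ 2 * E0 P₂ θ V i j x + -τ * E1 P₂ θ V i j x + E2 P₂ V i j x)
      = τ ^ 4 * (E0 P₁ θ U i j x * E0 P₂ θ V i j x) - τ ^ 3 * (E0 P₁ θ U i j x * E1 P₂ θ V i j x)
        + τ ^ 3 * (E1 P₁ θ U i j x * E0 P₂ θ V i j x)
        + τ ^ 2 * (E0 P₁ θ U i j x * E2 P₂ V i j x + E2 P₁ U i j x * E0 P₂ θ V i j x
          - E1 P₁ θ U i j x * E1 P₂ θ V i j x)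
        + τ * (E1 P₁ θ U i j x * E2 P₂ V i j x - E2 P₁ U i j x * E1 P₂ θ V i j x)
        + E2 P₁ U i j x * E2 P₂ V i j x := by
    intro i j; ring
  simp only [key, Finset.sum_add_distrib, Finset.sum_sub_distrib, ← Finset.mul_sum] at *
  rw [h00, hA, hB]
  ring

theorem continuous_strain {u : Fin 3 → R3 → ℂ} (hu : ∀ i, ContDiff ℝ 1 (u i)) (i j : Fin 3) :
    Continuous (strain u i j) := by
  unfold strain
  exact ((continuous_pd (hu j) i).add (continuous_pd (hu i) j)).div_const 2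

theorem continuous_divg {u : Fin 3 → R3 → ℂ} (hu : ∀ i, ContDiff ℝ 1 (u i)) :
    Continuous (divg u) := by
  unfold divg
  exact continuous_finsetSum _ fun i _ => continuous_pd (hu i) i

theorem continuous_BE_integrand (P : Moduli) {u v : Fin 3 → R3 → ℂ}
    (hu : ∀ i, ContDiff ℝ 1 (u i)) (hv : ∀ i, ContDiff ℝ 1 (v i)) :
    Continuous fun x => ((P.lam x : ℂ) * divg u x * divg v x
      + 2 * (P.mu x : ℂ) * ∑ i, ∑ j, strain u i j x * strain v i j x) := by
  have h1 : Continuous fun x => (P.lam x : ℂ) :=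
    Complex.continuous_ofReal.comp P.smooth_lam.continuous
  have h2 : Continuous fun x => (P.mu x : ℂ) :=
    Complex.continuous_ofReal.comp P.smooth_mu.continuous
  refine ((h1.mul (continuous_divg hu)).mul (continuous_divg hv)).add
    ((continuous_const.mul h2).mul ?_)
  exact continuous_finsetSum _ fun i _ => continuous_finsetSum _ fun j _ =>
    (continuous_strain hu i j).mul (continuous_strain hv i j)

end La

/-- T11b -/
theorem t_Bilin : StmtBilin := by
  intro G P₁ P₂ θ hθ τ U V hU hV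
  have hu : ∀ i, ContDiff ℝ 1 (uU P₁ θ τ U i) := fun i =>
    (La.contDiff_uU P₁ θ τ U hU i).of_le (by norm_cast)
  have hv : ∀ i, ContDiff ℝ 1 (uU P₂ θ (-τ) V i) := fun i =>
    (La.contDiff_uU P₂ θ (-τ) V hV i).of_le (by norm_cast)
  unfold BE
  rw [← integral_sub (DB.integrableOn' G (La.continuous_BE_integrand P₁ hu hv))
    (DB.integrableOn' G (La.continuous_BE_integrand P₂ hu hv))]
  congr 1
  funext x
  have he := La.expo_mul_expo_neg θ τ x
  rw [La.divg_uU P₁ θ hθ.2 τ U hU, La.divg_uU P₂ θ hθ.2 (-τ) V hV]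
  simp only [La.strain_uU P₁ θ τ U hU, La.strain_uU P₂ θ (-τ) V hV]
  have hs : ∑ i, ∑ j, expo θ τ x * (τ ^ 2 * E0 P₁ θ U i j x + τ * E1 P₁ θ U i j x
        + E2 P₁ U i j x) * (expo θ (-τ) x * ((-τ) ^ 2 * E0 P₂ θ V i j x + -τ * E1 P₂ θ V i j x
        + E2 P₂ V i j x))
      = ∑ i, ∑ j, (τ ^ 2 * E0 P₁ θ U i j x + τ * E1 P₁ θ U i j x + E2 P₁ U i j x)
        * ((-τ) ^ 2 * E0 P₂ θ V i j x + -τ * E1 P₂ θ V i j x + E2 P₂ V i j x) := by
    refine Finset.sum_congr rfl fun i _ => Finset.sum_congr rfl fun j _ => ?_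
    linear_combination ((τ ^ 2 * E0 P₁ θ U i j x + τ * E1 P₁ θ U i j x + E2 P₁ U i j x)
        * ((-τ) ^ 2 * E0 P₂ θ V i j x + -τ * E1 P₂ θ V i j x + E2 P₂ V i j x)) * he
  rw [hs, La.strain_pair P₁ P₂ θ hθ.2 τ U V x]
  unfold q2 q1 q0 dlam dmu
  linear_combination (((P₁.lam x : ℂ) - (P₂.lam x : ℂ)) * (τ * S1 P₁ θ U x + S2 P₁ U x)
    * (-τ * S1 P₂ θ V x + S2 P₂ V x)) * he

end Crest.Agent.R080
end
end

-- ▼ part R080/Lame

/-!
Row 80 (S0107), T11a: the weak form of the Lamé operator on the potential representation.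
-/

set_option autoImplicit false

open MeasureTheory Filter
open scoped ContDiff Topology
open Crest.AnalysisR.VecCalc3 Crest.AnalysisR.PDE.Elasticity

noncomputable section
namespace Crest.Agent.R080

namespace La

/-- stress tensor -/
def sig (P : Moduli) (u : Fin 3 → R3 → ℂ) (i j : Fin 3) (x : R3) : ℂ :=
  (if i = j then (P.lam x : ℂ) * divg u x else 0) + 2 * (P.mu x : ℂ) * strain u i j x


/-- the representation field `w + m ∇g - g ∇m` is `dispU` with `τ = 0` -/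
theorem uU_eq (P : Moduli) (θ : Fin 3 → ℂ) (τ : ℂ) (U : Option (Fin 3) → R3 → ℂ)
    (hU : ∀ i, ContDiff ℝ ∞ (U i)) (i : Fin 3) (x : R3) :
    uU P θ τ U i x = expo θ τ x * U (some i) x
      + (P.m x : ℂ) * pd i (fun y => expo θ τ y * U none y) x
      - expo θ τ x * U none x * pd i (cf P.m) x := by
  rw [pd_expo_mul θ τ _ i x (diffAt_of (hU none) x)]
  unfold uU dispU
  ring

/-- pointwise form of the Lamé operator -/
theorem div_sig (P : Moduli) (W : Fin 3 → R3 → ℂ) (g : R3 → ℂ) (hW : ∀ i, ContDiff ℝ ∞ (W i))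
    (hg : ContDiff ℝ ∞ g) (u : Fin 3 → R3 → ℂ)
    (hu : ∀ i, u i = fun x => W i x + (P.m x : ℂ) * pd i g x - g x * pd i (cf P.m) x)
    (U : Option (Fin 3) → R3 → ℂ) (hUs : ∀ i, U (some i) = W i) (hUn : U none = g)
    (i : Fin 3) (x : R3) :
    ContDiff ℝ ∞ (fun y => ((P.cc y : ℂ))⁻¹ * P0 (A4 P) (B4 P) U none y) ∧
    ContDiff ℝ ∞ (P0 (A4 P) (B4 P) U (some i)) ∧
    ∑ j, pd j (sig P u i j) x = (P.mu x : ℂ) * P0 (A4 P) (B4 P) U (some i) x
      + pd i (fun y => ((P.cc y : ℂ))⁻¹ * P0 (A4 P) (B4 P) U none y) x := by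
  -- elements of `Sm`
  have hlaS : ContDiff ℝ ∞ (cf P.lam) := contDiff_cf P.smooth_lam
  have hmuS : ContDiff ℝ ∞ (cf P.mu) := contDiff_cf P.smooth_mu
  have hmS : ContDiff ℝ ∞ (cf P.m) := contDiff_cf (smooth_m P)
  let la : Sm := ⟨cf P.lam, hlaS⟩
  let mu : Sm := ⟨cf P.mu, hmuS⟩
  let m : Sm := ⟨cf P.m, hmS⟩
  let Ws : Fin 3 → Sm := fun i => ⟨W i, hW i⟩
  let gs : Sm := ⟨g, hg⟩
  let us : Fin 3 → Sm := fun j => Ws j + m * Sm.d j gs - gs * Sm.d j m
  have hus : ∀ j, ((us j : Sm) : R3 → ℂ) = u j := fun j => by rw [hu j]; rfl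
  have hm : m * mu = 1 := Subtype.ext (funext fun y => by
    change (P.m y : ℂ) * (P.mu y : ℂ) = 1
    rw [← Complex.ofReal_mul, m_mul_mu]; simp)
  have key := lame_alg la mu m hm Ws gs i us fun j => rfl
  have hmx : (P.m x : ℂ) * (P.mu x : ℂ) = 1 := by
    rw [← Complex.ofReal_mul, m_mul_mu]; simp
  -- the stress
  let Sg : Fin 3 → Sm := fun j =>
    (if i = j then la * (Sm.d 0 (us 0) + Sm.d 1 (us 1) + Sm.d 2 (us 2)) else 0)
      + mu * (Sm.d i (us j) + Sm.d j (us i))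
  have hpu : ∀ a b y, ((Sm.d a (us b) : Sm) : R3 → ℂ) y = pd a (u b) y := fun a b y => by
    rw [Sm.d_apply, hus]
  have hSg : ∀ j, ((Sg j : Sm) : R3 → ℂ) = sig P u i j := by
    intro j
    funext y
    by_cases hij : i = j
    · simp only [Sg, if_pos hij, Sm.add_apply, Sm.mul_apply]
      change (P.lam y : ℂ) * (((Sm.d 0 (us 0) : Sm) : R3 → ℂ) y + ((Sm.d 1 (us 1) : Sm) : R3 → ℂ) y
        + ((Sm.d 2 (us 2) : Sm) : R3 → ℂ) y) + (P.mu y : ℂ) * (((Sm.d i (us j) : Sm) : R3 → ℂ) y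
        + ((Sm.d j (us i) : Sm) : R3 → ℂ) y) = _
      simp only [hpu, sig, if_pos hij, divg, strain, Fin.sum_univ_three]
      ring
    · simp only [Sg, if_neg hij, zero_add, Sm.mul_apply, Sm.add_apply]
      change (P.mu y : ℂ) * (((Sm.d i (us j) : Sm) : R3 → ℂ) y
        + ((Sm.d j (us i) : Sm) : R3 → ℂ) y) = _
      simp only [hpu, sig, if_neg hij, strain]
      ring
  have hL : ∑ j, pd j (sig P u i j) x = ((∑ j, Sm.d j (Sg j) : Sm) : R3 → ℂ) x := by
    simp only [Fin.sum_univ_three, Sm.add_apply]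
    simp only [← hSg]
    rfl
  have hL2 : ∑ j, Sm.d j (Sg j) = Sm.d i (la * (Sm.d 0 (us 0) + Sm.d 1 (us 1) + Sm.d 2 (us 2)))
      + Sm.d 0 (mu * (Sm.d i (us 0) + Sm.d 0 (us i)))
      + Sm.d 1 (mu * (Sm.d i (us 1) + Sm.d 1 (us i)))
      + Sm.d 2 (mu * (Sm.d i (us 2) + Sm.d 2 (us i))) := by
    simp only [Fin.sum_univ_three, Sg]
    fin_cases i <;> simp <;> abel
  let Gs : Sm := (la * m + 2) * (Sm.d 0 (Sm.d 0 gs) + Sm.d 1 (Sm.d 1 gs) + Sm.d 2 (Sm.d 2 gs))
        + (la + mu) * (Sm.d 0 (Ws 0) + Sm.d 1 (Ws 1) + Sm.d 2 (Ws 2))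
        + (Sm.d 0 mu * Ws 0 + Sm.d 1 mu * Ws 1 + Sm.d 2 mu * Ws 2)
        - la * (Sm.d 0 (Sm.d 0 m) + Sm.d 1 (Sm.d 1 m) + Sm.d 2 (Sm.d 2 m)) * gs
  have hG : ((Gs : Sm) : R3 → ℂ) = fun y => ((P.cc y : ℂ))⁻¹ * P0 (A4 P) (B4 P) U none y := by
    funext y
    have hc : ((P.cc y : ℂ))⁻¹ = (P.lam y : ℂ) * (P.m y : ℂ) + 2 := by
      rw [← Complex.ofReal_inv, inv_cc]; push_cast; ring
    have hc2 : ((P.cc y : ℂ))⁻¹ * (P.cc y : ℂ) = 1 :=
      inv_mul_cancel₀ (by exact_mod_cast (cc_pos P y).ne')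
    change ((P.lam y : ℂ) * (P.m y : ℂ) + 2) * (pd 0 (pd 0 g) y + pd 1 (pd 1 g) y
        + pd 2 (pd 2 g) y) + ((P.lam y : ℂ) + (P.mu y : ℂ)) * (pd 0 (W 0) y + pd 1 (W 1) y
        + pd 2 (W 2) y) + (pd 0 (cf P.mu) y * W 0 y + pd 1 (cf P.mu) y * W 1 y
        + pd 2 (cf P.mu) y * W 2 y) - (P.lam y : ℂ) * (pd 0 (pd 0 (cf P.m)) y
        + pd 1 (pd 1 (cf P.m)) y + pd 2 (pd 2 (cf P.m)) y) * g y = _
    unfold P0 Lap
    simp only [Fintype.sum_option, Fin.sum_univ_three, hUs, hUn, A4, B4]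
    simp only [Fin.reduceEq, if_true, if_false, Lap, Fin.sum_univ_three]
    linear_combination (-(pd 0 (pd 0 g) y + pd 1 (pd 1 g) y + pd 2 (pd 2 g) y)) * hc
      - (((P.lam y : ℂ) + (P.mu y : ℂ)) * (pd 0 (W 0) y + pd 1 (W 1) y
        + pd 2 (W 2) y) + (pd 0 (cf P.mu) y * W 0 y + pd 1 (cf P.mu) y * W 1 y
        + pd 2 (cf P.mu) y * W 2 y) - (P.lam y : ℂ) * (pd 0 (pd 0 (cf P.m)) y
        + pd 1 (pd 1 (cf P.m)) y + pd 2 (pd 2 (cf P.m)) y) * g y) * hc2
  have hLapS : ∀ {f : R3 → ℂ}, ContDiff ℝ ∞ f → ContDiff ℝ ∞ (Lap f) := fun hf =>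
    ContDiff.sum fun j _ => contDiff_pd_infty (contDiff_pd_infty hf j) j
  refine ⟨hG ▸ Gs.2, ?_, ?_⟩
  · unfold P0
    have hUS : ∀ o, ContDiff ℝ ∞ (U o) := by
      intro o; cases o with
      | none => rw [hUn]; exact hg
      | some a => rw [hUs]; exact hW a
    have hA : ∀ j l, ContDiff ℝ ∞ (A4 P j (some i) l) := by
      intro j l
      cases l with
      | none =>
        exact contDiff_const.mul (contDiff_pd_infty (contDiff_pd_infty hmS _) _)
      | some l =>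
        have h1 : ContDiff ℝ ∞ (fun x => if i = l then pd j (cf P.mu) x else 0) := by
          split_ifs
          · exact contDiff_pd_infty hmuS _
          · exact contDiff_const
        have h2 : ContDiff ℝ ∞ (fun x => if j = l then pd i (cf P.mu) x else 0) := by
          split_ifs
          · exact contDiff_pd_infty hmuS _
          · exact contDiff_const
        exact hmS.mul (h1.sub h2)
    have hB : ∀ l, ContDiff ℝ ∞ (B4 P (some i) l) := by
      intro l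
      cases l with
      | none =>
        refine ContDiff.sub (ContDiff.mul (contDiff_const.mul hmS) ?_) ?_
        · exact ContDiff.sum fun j _ => (contDiff_pd_infty (contDiff_pd_infty hmS _) _).mul
            (contDiff_pd_infty hmuS _)
        · exact contDiff_const.mul (contDiff_pd_infty (hLapS hmS) _)
      | some l =>
        exact hmS.neg.mul (contDiff_pd_infty (contDiff_pd_infty hmuS _) _)
    refine ((hLapS (hUS _)).add ?_).add ?_
    · exact ContDiff.sum fun j _ => ContDiff.sum fun l _ =>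
        (hA j l).mul (contDiff_pd_infty (hUS l) j)
    · exact ContDiff.sum fun l _ => (hB l).mul (hUS l)
  rw [hL, hL2, key, ← hG]
  change _ + pd i (Gs : R3 → ℂ) x = _
  congr 1
  change (P.mu x : ℂ) * (pd 0 (pd 0 (W i)) x + pd 1 (pd 1 (W i)) x + pd 2 (pd 2 (W i)) x)
        + (pd 0 (cf P.mu) x * pd 0 (W i) x + pd 1 (cf P.mu) x * pd 1 (W i) x
          + pd 2 (cf P.mu) x * pd 2 (W i) x)
        - pd i (cf P.mu) x * (pd 0 (W 0) x + pd 1 (W 1) x + pd 2 (W 2) x)
        - (pd i (pd 0 (cf P.mu)) x * W 0 x + pd i (pd 1 (cf P.mu)) x * W 1 x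
          + pd i (pd 2 (cf P.mu)) x * W 2 x)
        - 2 * (P.mu x : ℂ) * (pd i (pd 0 (cf P.m)) x * pd 0 g x + pd i (pd 1 (cf P.m)) x * pd 1 g x
          + pd i (pd 2 (cf P.m)) x * pd 2 g x)
        - 2 * g x * (pd i (pd 0 (cf P.m)) x * pd 0 (cf P.mu) x
          + pd i (pd 1 (cf P.m)) x * pd 1 (cf P.mu) x
          + pd i (pd 2 (cf P.m)) x * pd 2 (cf P.mu) x)
        - 2 * (P.mu x : ℂ) * g x * pd i ((Sm.d 0 (Sm.d 0 m) + Sm.d 1 (Sm.d 1 m)
          + Sm.d 2 (Sm.d 2 m) : Sm) : R3 → ℂ) x = _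
  have hLm : ((Sm.d 0 (Sm.d 0 m) + Sm.d 1 (Sm.d 1 m) + Sm.d 2 (Sm.d 2 m) : Sm) : R3 → ℂ)
      = Lap (cf P.m) := by
    funext y
    unfold Lap
    rw [Fin.sum_univ_three]; rfl
  rw [hLm]
  have hLW : Lap (W i) x = pd 0 (pd 0 (W i)) x + pd 1 (pd 1 (W i)) x + pd 2 (pd 2 (W i)) x := by
    unfold Lap; rw [Fin.sum_univ_three]
  unfold P0
  simp only [Fintype.sum_option, Fin.sum_univ_three, hUs, hUn, A4, B4, hLW]
  clear hL hL2 key hSg hLm
  clear Sg
  fin_cases i
  · simp only [Fin.zero_eta, Fin.reduceEq, if_true, if_false]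
    linear_combination (-((pd 0 (cf P.mu) x * pd 0 (W 0) x + pd 1 (cf P.mu) x * pd 1 (W 0) x
          + pd 2 (cf P.mu) x * pd 2 (W 0) x)
        - pd 0 (cf P.mu) x * (pd 0 (W 0) x + pd 1 (W 1) x + pd 2 (W 2) x)
        - (pd 0 (pd 0 (cf P.mu)) x * W 0 x + pd 0 (pd 1 (cf P.mu)) x * W 1 x
          + pd 0 (pd 2 (cf P.mu)) x * W 2 x)
        - 2 * g x * (pd 0 (pd 0 (cf P.m)) x * pd 0 (cf P.mu) x
          + pd 0 (pd 1 (cf P.m)) x * pd 1 (cf P.mu) x
          + pd 0 (pd 2 (cf P.m)) x * pd 2 (cf P.mu) x))) * hmx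
  · simp only [Fin.mk_one, Fin.reduceEq, if_true, if_false]
    linear_combination (-((pd 0 (cf P.mu) x * pd 0 (W 1) x + pd 1 (cf P.mu) x * pd 1 (W 1) x
          + pd 2 (cf P.mu) x * pd 2 (W 1) x)
        - pd 1 (cf P.mu) x * (pd 0 (W 0) x + pd 1 (W 1) x + pd 2 (W 2) x)
        - (pd 1 (pd 0 (cf P.mu)) x * W 0 x + pd 1 (pd 1 (cf P.mu)) x * W 1 x
          + pd 1 (pd 2 (cf P.mu)) x * W 2 x)
        - 2 * g x * (pd 1 (pd 0 (cf P.m)) x * pd 0 (cf P.mu) x
          + pd 1 (pd 1 (cf P.m)) x * pd 1 (cf P.mu) x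
          + pd 1 (pd 2 (cf P.m)) x * pd 2 (cf P.mu) x))) * hmx
  · simp only [Fin.reduceFinMk, Fin.reduceEq, if_true, if_false]
    linear_combination (-((pd 0 (cf P.mu) x * pd 0 (W 2) x + pd 1 (cf P.mu) x * pd 1 (W 2) x
          + pd 2 (cf P.mu) x * pd 2 (W 2) x)
        - pd 2 (cf P.mu) x * (pd 0 (W 0) x + pd 1 (W 1) x + pd 2 (W 2) x)
        - (pd 2 (pd 0 (cf P.mu)) x * W 0 x + pd 2 (pd 1 (cf P.mu)) x * W 1 x
          + pd 2 (pd 2 (cf P.mu)) x * W 2 x)
        - 2 * g x * (pd 2 (pd 0 (cf P.m)) x * pd 0 (cf P.mu) x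
          + pd 2 (pd 1 (cf P.m)) x * pd 1 (cf P.mu) x
          + pd 2 (pd 2 (cf P.m)) x * pd 2 (cf P.mu) x))) * hmx

theorem contDiff_strain {n : WithTop ℕ∞} {u : Fin 3 → R3 → ℂ}
    (hu : ∀ i, ContDiff ℝ (n + 1) (u i)) (i j : Fin 3) : ContDiff ℝ n (strain u i j) :=
  ((contDiff_pd (hu j) i).add (contDiff_pd (hu i) j)).div_const 2

theorem contDiff_divg {n : WithTop ℕ∞} {u : Fin 3 → R3 → ℂ}
    (hu : ∀ i, ContDiff ℝ (n + 1) (u i)) : ContDiff ℝ n (divg u) :=
  ContDiff.sum fun i _ => contDiff_pd (hu i) i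

theorem contDiff_sig (P : Moduli) {u : Fin 3 → R3 → ℂ}
    (hu : ∀ i, ContDiff ℝ ∞ (u i)) (i j : Fin 3) : ContDiff ℝ ∞ (sig P u i j) := by
  have h1 : ContDiff ℝ ∞ (fun x => if i = j then (P.lam x : ℂ) * divg u x else 0) := by
    split_ifs
    · exact (contDiff_cf P.smooth_lam).mul (contDiff_divg (by simpa using hu))
    · exact contDiff_const
  exact h1.add ((contDiff_const.mul (contDiff_cf P.smooth_mu)).mul
    (contDiff_strain (by simpa using hu) i j))

/-- the energy density as `σ : ∇w` -/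
theorem energy_eq (P : Moduli) (u w : Fin 3 → R3 → ℂ) (x : R3) :
    (P.lam x : ℂ) * divg u x * divg w x
      + 2 * (P.mu x : ℂ) * ∑ i, ∑ j, strain u i j x * strain w i j x
    = ∑ j, ∑ i, sig P u i j x * pd j (w i) x := by
  simp only [sig, strain, divg, Fin.sum_univ_three, Fin.reduceEq, if_true, if_false]
  ring

end La

/-- T11a -/
theorem t_Lame (hZ : StmtZ) : StmtLame := by
  intro G P θ hθ τ U hU w hw hw0
  set u := uU P θ τ U with hudef
  let U' : Option (Fin 3) → R3 → ℂ := fun i y => expo θ τ y * U i y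
  have hU' : ∀ i, ContDiff ℝ ∞ (U' i) := fun i => (La.smooth_expo θ τ).mul (hU i)
  have husm : ∀ i, ContDiff ℝ ∞ (u i) := fun i => La.contDiff_uU P θ τ U hU i
  have hP : ∀ i x, P0 (A4 P) (B4 P) U' i x
      = expo θ τ x * (P0 (A4 P) (B4 P) U i x + τ * M0 θ (A4 P) U i x) := fun i x =>
    La.P0_expo θ hθ.2 τ (A4 P) (B4 P) U hU i x
  let H : R3 → ℂ := fun y => ((P.cc y : ℂ))⁻¹ * P0 (A4 P) (B4 P) U' none y
  have hdiv := fun i x => La.div_sig P (fun i => U' (some i)) (U' none) (fun i => hU' _) (hU' _) u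
    (fun i => funext fun x => La.uU_eq P θ τ U hU i x) U' (fun _ => rfl) rfl i x
  have hH : ContDiff ℝ ∞ H := (hdiv 0 0).1
  have hPs : ∀ i, ContDiff ℝ ∞ (P0 (A4 P) (B4 P) U' (some i)) := fun i => (hdiv i 0).2.1
  have hsig : ∀ i j, ContDiff ℝ ∞ (La.sig P u i j) := fun i j => La.contDiff_sig P husm i j
  have hwd : ∀ i x, DifferentiableAt ℝ (w i) x := fun i x => (hw i).differentiable one_ne_zero x
  let F : Fin 3 → R3 → ℂ := fun j x => (∑ i, La.sig P u i j x * w i x) - H x * w j x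
  have hF1 : ∀ j, ContDiff ℝ 1 (F j) := by
    intro j
    refine ContDiff.sub (ContDiff.sum fun i _ => ?_) ?_
    · exact ((hsig i j).of_le (by norm_cast)).mul (hw i)
    · exact (hH.of_le (by norm_cast)).mul (hw j)
  have hF0 : ∀ j, ∀ x ∈ frontier G.Ω, F j x = 0 := by
    intro j x hx
    simp only [F, hw0 x hx, mul_zero, Finset.sum_const_zero, sub_zero]
  have hFint : ∀ j, ∫ x in G.Ω, pd j (F j) x = 0 := fun j => hZ G (F j) (hF1 j) (hF0 j) j
  have hpdF : ∀ j x, pd j (F j) x = (∑ i, (pd j (La.sig P u i j) x * w i x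
      + La.sig P u i j x * pd j (w i) x)) - (pd j H x * w j x + H x * pd j (w j) x) := by
    intro j x
    have h1 : ∀ i, DifferentiableAt ℝ (fun y => La.sig P u i j y * w i y) x := fun i =>
      (La.diffAt_of (hsig i j) x).mul (hwd i x)
    have h2 : DifferentiableAt ℝ (fun y => H y * w j y) x :=
      (La.diffAt_of hH x).mul (hwd j x)
    have h3 : DifferentiableAt ℝ (fun y => ∑ i, La.sig P u i j y * w i y) x :=
      DifferentiableAt.fun_sum fun i _ => h1 i
    change pd j (fun y => (∑ i, La.sig P u i j y * w i y) - H y * w j y) x = _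
    rw [La.pd_sub h3 h2, La.pd_sum _ _ fun i _ => h1 i, La.pd_mul (La.diffAt_of hH x) (hwd j x)]
    congr 1
    exact Finset.sum_congr rfl fun i _ => La.pd_mul (La.diffAt_of (hsig i j) x) (hwd i x)
  have hpt : ∀ x, (P.lam x : ℂ) * divg u x * divg w x
      + 2 * (P.mu x : ℂ) * ∑ i, ∑ j, strain u i j x * strain w i j x
      = (∑ j, pd j (F j) x) + (-(expo θ τ x * (P.mu x : ℂ) *
          ∑ i, (P0 (A4 P) (B4 P) U (some i) x + τ * M0 θ (A4 P) U (some i) x) * w i x)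
        + expo θ τ x * ((P.cc x : ℂ))⁻¹ *
          (P0 (A4 P) (B4 P) U none x + τ * M0 θ (A4 P) U none x) * divg w x) := by
    intro x
    rw [La.energy_eq]
    have h0 := fun i => (hdiv i x).2.2
    have hHx : H x = ((P.cc x : ℂ))⁻¹ * (expo θ τ x *
        (P0 (A4 P) (B4 P) U none x + τ * M0 θ (A4 P) U none x)) := by
      simp only [H, hP]
    have h1 : ∀ i, P0 (A4 P) (B4 P) U' (some i) x * w i x = expo θ τ x *
        ((P0 (A4 P) (B4 P) U (some i) x + τ * M0 θ (A4 P) U (some i) x) * w i x) := by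
      intro i; rw [hP]; ring
    have h2 : ∑ i, (∑ j, pd j (La.sig P u i j) x) * w i x
        = ∑ i, ((P.mu x : ℂ) * P0 (A4 P) (B4 P) U' (some i) x + pd i H x) * w i x :=
      Finset.sum_congr rfl fun i _ => by rw [h0 i]
    simp only [hpdF]
    have h3 : divg w x = ∑ j, pd j (w j) x := rfl
    have h4 : expo θ τ x * (P.mu x : ℂ) *
          ∑ i, (P0 (A4 P) (B4 P) U (some i) x + τ * M0 θ (A4 P) U (some i) x) * w i x
        = (P.mu x : ℂ) * ∑ i, P0 (A4 P) (B4 P) U' (some i) x * w i x := by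
      simp only [h1, ← Finset.mul_sum]; ring
    have h5 : expo θ τ x * ((P.cc x : ℂ))⁻¹ *
          (P0 (A4 P) (B4 P) U none x + τ * M0 θ (A4 P) U none x) * divg w x
        = H x * ∑ j, pd j (w j) x := by
      rw [hHx, h3]; ring
    rw [h4, h5]
    simp only [Fin.sum_univ_three] at h2 ⊢
    linear_combination -h2
  have hR1 : ∀ x, expo θ τ x * (P.mu x : ℂ) *
          ∑ i, (P0 (A4 P) (B4 P) U (some i) x + τ * M0 θ (A4 P) U (some i) x) * w i x
        = (P.mu x : ℂ) * ∑ i, P0 (A4 P) (B4 P) U' (some i) x * w i x := by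
    intro x
    simp only [hP, Finset.mul_sum]
    exact Finset.sum_congr rfl fun i _ => by ring
  have hR2 : ∀ x, expo θ τ x * ((P.cc x : ℂ))⁻¹ *
          (P0 (A4 P) (B4 P) U none x + τ * M0 θ (A4 P) U none x) * divg w x
        = H x * divg w x := by
    intro x; simp only [H, hP]; ring
  have hI1 : IntegrableOn (fun x => expo θ τ x * (P.mu x : ℂ) *
          ∑ i, (P0 (A4 P) (B4 P) U (some i) x + τ * M0 θ (A4 P) U (some i) x) * w i x) G.Ω := by
    simp only [hR1]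
    refine DB.integrableOn' G ?_
    exact (La.contDiff_cf P.smooth_mu).continuous.mul
      (continuous_finsetSum _ fun i _ => (hPs i).continuous.mul (hw i).continuous)
  have hI2 : IntegrableOn (fun x => expo θ τ x * ((P.cc x : ℂ))⁻¹ *
          (P0 (A4 P) (B4 P) U none x + τ * M0 θ (A4 P) U none x) * divg w x) G.Ω := by
    simp only [hR2]
    exact DB.integrableOn' G (hH.continuous.mul (La.continuous_divg hw))
  have hIF : ∀ j, IntegrableOn (fun x => pd j (F j) x) G.Ω := fun j =>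
    DB.integrableOn' G (La.continuous_pd (hF1 j) j)
  let a : R3 → ℂ := fun x => expo θ τ x * (P.mu x : ℂ) *
          ∑ i, (P0 (A4 P) (B4 P) U (some i) x + τ * M0 θ (A4 P) U (some i) x) * w i x
  let b : R3 → ℂ := fun x => expo θ τ x * ((P.cc x : ℂ))⁻¹ *
          (P0 (A4 P) (B4 P) U none x + τ * M0 θ (A4 P) U none x) * divg w x
  have hS : IntegrableOn (fun x => ∑ j, pd j (F j) x) G.Ω :=
    integrable_finsetSum _ fun j _ => hIF j
  have hN : IntegrableOn (fun x => -(a x)) G.Ω := Integrable.neg hI1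
  have hab : IntegrableOn (fun x => -(a x) + b x) G.Ω := Integrable.add hN hI2
  unfold BE
  simp only [hpt]
  change ∫ x in G.Ω, ((∑ j, pd j (F j) x) + (-(a x) + b x))
    = -(∫ x in G.Ω, a x) + ∫ x in G.Ω, b x
  rw [integral_add hS hab, integral_finsetSum _ fun j _ => hIF j, integral_add hN hI2,
    integral_neg]
  simp only [hFint, Finset.sum_const_zero, zero_add]
  rfl

end Crest.Agent.R080
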