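import Crest.Agent.R080.Stmts2

/-!
Row 80 (S0107): calculus of the operator `Dp ι` (pointwise products, matrices, inverses), and the
frame `(ι, p, ν, t)` of a null vector `θ` of `ℂ³`: `θ·∇ = Dp ι`, `x = ι (p x) + t x • ν`.
-/

set_option autoImplicit false
set_option linter.unusedSectionVars false

open MeasureTheory Filter
open scoped ContDiff Topology
open Crest.AnalysisR.VecCalc3 Crest.AnalysisR.PDE.Elasticity

noncomputable section
namespace Crest.Agent.R080.NullFrame

section DpCalc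
variable {V : Type} [NormedAddCommGroup V] [NormedSpace ℝ V] (ι : ℂ →L[ℝ] V)

theorem Dp_congr {f g : V → ℂ} {x : V} (h : f =ᶠ[𝓝 x] g) : Dp ι f x = Dp ι g x := by
  unfold Dp; rw [h.fderiv_eq]

theorem Dp_const (c : ℂ) (x : V) : Dp ι (fun _ => c) x = 0 := by
  unfold Dp; simp




theorem Dp_mul {f g : V → ℂ} {x : V} (hf : DifferentiableAt ℝ f x)
    (hg : DifferentiableAt ℝ g x) :
    Dp ι (fun y => f y * g y) x = Dp ι f x * g x + f x * Dp ι g x := by
  unfold Dp
  rw [fderiv_fun_mul hf hg]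
  simp only [add_apply, smul_apply, smul_eq_mul]
  ring

theorem Dp_sum {α : Type*} (s : Finset α) (f : α → V → ℂ) {x : V}
    (hf : ∀ i ∈ s, DifferentiableAt ℝ (f i) x) :
    Dp ι (fun y => ∑ i ∈ s, f i y) x = ∑ i ∈ s, Dp ι (f i) x := by
  unfold Dp
  rw [fderiv_fun_sum hf]
  simp only [sum_apply, Finset.sum_add_distrib, Finset.mul_sum]

/-- `Dp` of a function composed with a continuous linear map -/
theorem Dp_comp {W : Type} [NormedAddCommGroup W] [NormedSpace ℝ W] (L : V →L[ℝ] W) (f : W → ℂ)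
    (x : V) (hf : DifferentiableAt ℝ f (L x)) :
    Dp ι (fun y => f (L y)) x = Dp (L.comp ι) f (L x) := by
  unfold Dp
  have h : fderiv ℝ (fun y => f (L y)) x = (fderiv ℝ f (L x)).comp L := by
    have := fderiv_comp x hf L.differentiableAt
    rw [L.fderiv] at this
    exact this
  rw [h]
  rfl

/-- `Dp` only depends on the plane through `x` -/
theorem Dp_comp_zero {W : Type} [NormedAddCommGroup W] [NormedSpace ℝ W] (L : V →L[ℝ] W)
    (f : W → ℂ) (x : V) (hf : DifferentiableAt ℝ f (L x)) (hL : ∀ z, L (ι z) = 0) :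
    Dp ι (fun y => f (L y)) x = 0 := by
  rw [Dp_comp ι L f x hf]
  unfold Dp
  simp [hL]

variable {n : Type} [Fintype n] [DecidableEq n]

/-- matrix of values -/
def MV (F : n → n → V → ℂ) (x : V) : Matrix n n ℂ := Matrix.of fun i j => F i j x

/-- matrix of `Dp` derivatives -/
def MD (F : n → n → V → ℂ) (x : V) : Matrix n n ℂ := Matrix.of fun i j => Dp ι (F i j) x

/-- pointwise matrix product -/
def MM (F G : n → n → V → ℂ) : n → n → V → ℂ := fun i j x => ∑ l, F i l x * G l j x

theorem MV_MM (F G : n → n → V → ℂ) (x : V) : MV (MM F G) x = MV F x * MV G x := by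
  ext i j; simp [MV, MM, Matrix.mul_apply]

theorem MD_MM (F G : n → n → V → ℂ) {x : V} (hF : ∀ i j, DifferentiableAt ℝ (F i j) x)
    (hG : ∀ i j, DifferentiableAt ℝ (G i j) x) :
    MD ι (MM F G) x = MD ι F x * MV G x + MV F x * MD ι G x := by
  ext i j
  simp only [MD, MV, Matrix.of_apply, Matrix.add_apply, Matrix.mul_apply]
  change Dp ι (fun y => ∑ l, F i l y * G l j y) x = _
  rw [Dp_sum ι _ _ fun l _ => (hF i l).fun_mul (hG l j), ← Finset.sum_add_distrib]
  exact Finset.sum_congr rfl fun l _ => Dp_mul ι (hF i l) (hG l j)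

theorem MD_congr {F G : n → n → V → ℂ} {x : V} (h : ∀ᶠ y in 𝓝 x, MV F y = MV G y) :
    MD ι F x = MD ι G x := by
  ext i j
  simp only [MD, Matrix.of_apply]
  refine Dp_congr ι ?_
  filter_upwards [h] with y hy
  exact congrFun (congrFun hy i) j

theorem MD_one (x : V) :
    MD ι (fun (i j : n) (_ : V) => (if i = j then (1 : ℂ) else 0)) x = 0 := by
  ext i j
  simp only [MD, Matrix.of_apply, Matrix.zero_apply]
  exact Dp_const ι _ x

/-- derivative of the inverse matrix -/
theorem MD_inv {F G : n → n → V → ℂ} {x : V} (hF : ∀ i j, DifferentiableAt ℝ (F i j) x)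
    (hG : ∀ i j, DifferentiableAt ℝ (G i j) x) (h : ∀ᶠ y in 𝓝 x, MV F y * MV G y = 1) :
    MD ι G x = -(MV G x * MD ι F x * MV G x) := by
  have h1 : MD ι (MM F G) x = 0 := by
    rw [← MD_one (n := n) ι x]
    refine MD_congr ι ?_
    filter_upwards [h] with y hy
    rw [MV_MM, hy]
    ext i j
    simp [MV, Matrix.one_apply]
  rw [MD_MM ι F G hF hG] at h1
  have h2 : MV G x * MV F x = 1 := mul_eq_one_comm.mp h.self_of_nhds
  have h3 : MV G x * (MD ι F x * MV G x + MV F x * MD ι G x) = 0 := by rw [h1, mul_zero]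
  rw [mul_add, ← mul_assoc, ← mul_assoc, h2, one_mul] at h3
  exact eq_neg_of_add_eq_zero_right h3

end DpCalc

/-! ### smoothness of determinants and inverses -/

section Smooth
variable {V : Type} [NormedAddCommGroup V] [NormedSpace ℝ V]
variable {n : Type} [Fintype n] [DecidableEq n]

theorem contDiff_det {k : WithTop ℕ∞} (M : V → Matrix n n ℂ)
    (hM : ∀ i j, ContDiff ℝ k fun x => M x i j) : ContDiff ℝ k fun x => (M x).det := by
  simp only [Matrix.det_apply]
  refine ContDiff.sum fun σ _ => ?_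
  have h : ContDiff ℝ k fun x => ∏ i, M x (σ i) i := contDiff_prod fun i _ => hM _ _
  have h2 : (fun x => Equiv.Perm.sign σ • ∏ i, M x (σ i) i) =
      fun x => ((Equiv.Perm.sign σ : ℤ) : ℂ) * ∏ i, M x (σ i) i := by
    funext x
    rw [Units.smul_def, zsmul_eq_mul]
  rw [h2]
  exact contDiff_const.mul h

theorem contDiff_adjugate {k : WithTop ℕ∞} (M : V → Matrix n n ℂ)
    (hM : ∀ i j, ContDiff ℝ k fun x => M x i j) (i j : n) :
    ContDiff ℝ k fun x => (M x).adjugate i j := by
  simp only [Matrix.adjugate_apply]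
  refine contDiff_det _ fun a b => ?_
  by_cases h : a = j
  · subst h
    simp only [Matrix.updateRow_self]
    exact contDiff_const
  · simp only [Matrix.updateRow_ne h]
    exact hM a b

/-- the entries of the inverse of a smooth invertible matrix function are smooth -/
theorem contDiff_inv_entry {k : WithTop ℕ∞} (F : n → n → V → ℂ) (hF : ∀ i j, ContDiff ℝ k (F i j))
    (hdet : ∀ x, (MV F x).det ≠ 0) (i j : n) :
    ContDiff ℝ k fun x => (MV F x)⁻¹ i j := by
  have h : (fun x => (MV F x)⁻¹ i j) = fun x => ((MV F x).det)⁻¹ * (MV F x).adjugate i j := by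
    funext x
    rw [Matrix.inv_def, Ring.inverse_eq_inv', Matrix.smul_apply, smul_eq_mul]
  rw [h]
  have hM : ∀ i j, ContDiff ℝ k fun x => MV F x i j := fun i j => hF i j
  exact ((contDiff_det _ hM).inv hdet).mul (contDiff_adjugate _ hM i j)

/-- the pointwise inverse matrix -/
def Minv (F : n → n → V → ℂ) : n → n → V → ℂ := fun i j x => (MV F x)⁻¹ i j


theorem contDiff_Minv {k : WithTop ℕ∞} (F : n → n → V → ℂ) (hF : ∀ i j, ContDiff ℝ k (F i j))
    (hdet : ∀ x, (MV F x).det ≠ 0) (i j : n) : ContDiff ℝ k (Minv F i j) :=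
  contDiff_inv_entry F hF hdet i j

theorem contDiff_MM {k : WithTop ℕ∞} (F G : n → n → V → ℂ) (hF : ∀ i j, ContDiff ℝ k (F i j))
    (hG : ∀ i j, ContDiff ℝ k (G i j)) (i j : n) : ContDiff ℝ k (MM F G i j) :=
  ContDiff.sum fun l _ => (hF i l).mul (hG l j)

/-- a matrix with entries close to those of `1` is invertible -/
theorem det_ne_zero_of_near_one (M : Matrix n n ℂ) (e : ℝ) (he : e * (Fintype.card n + 1) < 1)
    (he0 : 0 ≤ e) (h : ∀ i j, ‖M i j - if i = j then 1 else 0‖ ≤ e) : M.det ≠ 0 := by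
  refine det_ne_zero_of_sum_row_lt_diag fun k => ?_
  have h1 : ∀ j ∈ Finset.univ.erase k, ‖M k j‖ ≤ e := by
    intro j hj
    have hjk : k ≠ j := (Finset.ne_of_mem_erase hj).symm
    have := h k j
    rwa [if_neg hjk, sub_zero] at this
  have h2 : ∑ j ∈ Finset.univ.erase k, ‖M k j‖ ≤ Fintype.card n * e := by
    refine (Finset.sum_le_sum h1).trans ?_
    rw [Finset.sum_const, nsmul_eq_mul]
    refine mul_le_mul_of_nonneg_right ?_ he0
    exact_mod_cast Finset.card_le_univ _
  have h3 : 1 - e ≤ ‖M k k‖ := by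
    have h4 := h k k
    rw [if_pos rfl] at h4
    have h5 : ‖(1 : ℂ)‖ - ‖M k k‖ ≤ ‖(1 : ℂ) - M k k‖ := norm_sub_norm_le _ _
    rw [norm_one, norm_sub_rev] at h5
    linarith
  nlinarith

end Smooth

/-! ### the frame of a null vector -/

/-- real part of a vector of `ℂ³` -/
def reV (θ : Fin 3 → ℂ) : R3 := WithLp.toLp 2 fun j => (θ j).re
/-- imaginary part of a vector of `ℂ³` -/
def imV (θ : Fin 3 → ℂ) : R3 := WithLp.toLp 2 fun j => (θ j).im

theorem sum_smul_ee (a : R3) : a = ∑ j, a j • ee j := by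
  ext i
  simp [ee, Pi.single_apply]

/-- the plane of a null vector -/
def plane (θ : Fin 3 → ℂ) : ℂ →L[ℝ] R3 :=
  (Complex.reCLM).smulRight (reV θ) + (Complex.imCLM).smulRight (imV θ)

theorem plane_apply (θ : Fin 3 → ℂ) (z : ℂ) : plane θ z = z.re • reV θ + z.im • imV θ := rfl

theorem plane_one (θ : Fin 3 → ℂ) : plane θ 1 = reV θ := by simp [plane_apply]

theorem plane_I (θ : Fin 3 → ℂ) : plane θ Complex.I = imV θ := by simp [plane_apply]

theorem DD_eq_Dp (θ : Fin 3 → ℂ) (f : R3 → ℂ) (x : R3) : DD θ f x = Dp (plane θ) f x := by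
  unfold DD Dp pd
  rw [plane_one, plane_I]
  conv_rhs => rw [sum_smul_ee (reV θ), sum_smul_ee (imV θ)]
  rw [map_sum, map_sum, Finset.mul_sum, ← Finset.sum_add_distrib]
  refine Finset.sum_congr rfl fun j _ => ?_
  rw [map_smul, map_smul]
  simp only [reV, imV, Complex.real_smul]
  conv_lhs => rw [← Complex.re_add_im (θ j)]
  ring

theorem isNull_real {θ : Fin 3 → ℂ} (h : IsNull θ) :
    inner ℝ (reV θ) (reV θ) = inner ℝ (imV θ) (imV θ) ∧ inner ℝ (reV θ) (imV θ) = 0 := by
  have h2 := h.2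
  have hre := congrArg Complex.re h2
  have him := congrArg Complex.im h2
  simp only [Fin.sum_univ_three, Complex.add_re, Complex.add_im, Complex.zero_re, Complex.zero_im,
    pow_two, Complex.mul_re, Complex.mul_im] at hre him
  constructor
  · simp only [reV, imV, PiLp.inner_apply, Fin.sum_univ_three, RCLike.inner_apply, conj_trivial]
    linarith
  · simp only [reV, imV, PiLp.inner_apply, Fin.sum_univ_three, RCLike.inner_apply, conj_trivial]
    linarith

theorem isNull_pos {θ : Fin 3 → ℂ} (h : IsNull θ) : 0 < ‖reV θ‖ := by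
  rw [norm_pos_iff]
  intro h0
  have h1 := (isNull_real h).1
  rw [h0, inner_zero_left] at h1
  have h2 : imV θ = 0 := inner_self_eq_zero.mp h1.symm
  apply h.1
  funext j
  have e1 : (θ j).re = 0 := congrFun (congrArg (fun v : R3 => (v : Fin 3 → ℝ)) h0) j
  have e2 : (θ j).im = 0 := congrFun (congrArg (fun v : R3 => (v : Fin 3 → ℝ)) h2) j
  exact Complex.ext e1 e2

theorem norm_plane {θ : Fin 3 → ℂ} (h : IsNull θ) (z : ℂ) : ‖plane θ z‖ = ‖reV θ‖ * ‖z‖ := by
  have h1 := isNull_real h
  have e1 : ‖plane θ z‖ ^ 2 = (‖reV θ‖ * ‖z‖) ^ 2 := by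
    rw [← real_inner_self_eq_norm_sq, plane_apply, inner_add_left, inner_add_right,
      inner_add_right, real_inner_smul_left, real_inner_smul_left, real_inner_smul_left,
      real_inner_smul_left, real_inner_smul_right, real_inner_smul_right, real_inner_smul_right,
      real_inner_smul_right, real_inner_comm (reV θ) (imV θ), h1.2, ← h1.1, mul_pow,
      Complex.sq_norm, Complex.normSq_apply, real_inner_self_eq_norm_sq]
    ring
  exact (sq_eq_sq₀ (norm_nonneg _) (by positivity)).mp e1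

/-- the frame of a null vector -/
theorem exists_frame {θ : Fin 3 → ℂ} (h : IsNull θ) :
    ∃ (p : R3 →L[ℝ] ℂ) (ν : R3) (t : R3 →L[ℝ] ℝ),
      (∀ z, p (plane θ z) = z) ∧ (∀ z, t (plane θ z) = 0) ∧ p ν = 0 ∧ t ν = 1 ∧
      (∀ x, x = plane θ (p x) + t x • ν) ∧ (∀ x, |t x| ≤ ‖x‖) ∧
      (∀ x, ‖p x‖ ≤ ‖x‖ / ‖reV θ‖) := by
  have hr := isNull_pos h
  set r := ‖reV θ‖ with hrdef
  have hreal := isNull_real h
  have him : ‖imV θ‖ = r := by
    have := hreal.1
    rw [real_inner_self_eq_norm_sq, real_inner_self_eq_norm_sq] at this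
    exact ((sq_eq_sq₀ (norm_nonneg _) (norm_nonneg _)).mp this).symm
  let v : Fin 3 → R3 := ![r⁻¹ • reV θ, r⁻¹ • imV θ, 0]
  have hv : Orthonormal ℝ (({0, 1} : Set (Fin 3)).domRestrict v) := by
    rw [orthonormal_iff_ite]
    rintro ⟨i, hi⟩ ⟨j, hj⟩
    simp only [Subtype.mk.injEq]
    change inner ℝ (v i) (v j) = _
    have hrr : inner ℝ (reV θ) (reV θ) = r ^ 2 := by rw [real_inner_self_eq_norm_sq]
    have hii : inner ℝ (imV θ) (imV θ) = r ^ 2 := by rw [real_inner_self_eq_norm_sq, him]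
    have hri := hreal.2
    have hir : inner ℝ (imV θ) (reV θ) = 0 := by rw [real_inner_comm, hri]
    have v0 : v 0 = r⁻¹ • reV θ := rfl
    have v1 : v 1 = r⁻¹ • imV θ := rfl
    rcases hi with rfl | hi
    · rcases hj with rfl | hj
      · rw [v0, real_inner_smul_left, real_inner_smul_right, hrr, if_pos rfl]
        field_simp
      · rw [Set.mem_singleton_iff] at hj
        subst hj
        rw [v0, v1, real_inner_smul_left, real_inner_smul_right, hri]
        simp
    · rw [Set.mem_singleton_iff] at hi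
      subst hi
      rcases hj with rfl | hj
      · rw [v0, v1, real_inner_smul_left, real_inner_smul_right, hir]
        simp
      · rw [Set.mem_singleton_iff] at hj
        subst hj
        rw [v1, real_inner_smul_left, real_inner_smul_right, hii, if_pos rfl]
        field_simp
  obtain ⟨b, hb⟩ := hv.exists_orthonormalBasis_extension_of_card_eq
    (by simp : Module.finrank ℝ R3 = Fintype.card (Fin 3))
  have hb0 : b 0 = r⁻¹ • reV θ := hb 0 (by simp)
  have hb1 : b 1 = r⁻¹ • imV θ := hb 1 (by simp)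
  have hre : reV θ = r • b 0 := by rw [hb0, smul_smul, mul_inv_cancel₀ hr.ne', one_smul]
  have himm : imV θ = r • b 1 := by rw [hb1, smul_smul, mul_inv_cancel₀ hr.ne', one_smul]
  have hon := b.orthonormal
  have o00 : inner ℝ (b 0) (b 0) = (1 : ℝ) := by
    rw [real_inner_self_eq_norm_sq, hon.1 0, one_pow]
  have o11 : inner ℝ (b 1) (b 1) = (1 : ℝ) := by
    rw [real_inner_self_eq_norm_sq, hon.1 1, one_pow]
  have o22 : inner ℝ (b 2) (b 2) = (1 : ℝ) := by
    rw [real_inner_self_eq_norm_sq, hon.1 2, one_pow]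
  have o01 : inner ℝ (b 0) (b 1) = (0 : ℝ) := hon.2 (by decide)
  have o10 : inner ℝ (b 1) (b 0) = (0 : ℝ) := hon.2 (by decide)
  have o02 : inner ℝ (b 0) (b 2) = (0 : ℝ) := hon.2 (by decide)
  have o12 : inner ℝ (b 1) (b 2) = (0 : ℝ) := hon.2 (by decide)
  have o20 : inner ℝ (b 2) (b 0) = (0 : ℝ) := hon.2 (by decide)
  have o21 : inner ℝ (b 2) (b 1) = (0 : ℝ) := hon.2 (by decide)
  let p : R3 →L[ℝ] ℂ :=
    (r⁻¹ • innerSL ℝ (b 0)).smulRight (1 : ℂ) + (r⁻¹ • innerSL ℝ (b 1)).smulRight Complex.I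
  have hp : ∀ x, p x = ((r⁻¹ * inner ℝ (b 0) x : ℝ) : ℂ) +
      ((r⁻¹ * inner ℝ (b 1) x : ℝ) : ℂ) * Complex.I := by
    intro x
    simp [p]
  have hpre : ∀ x, (p x).re = r⁻¹ * inner ℝ (b 0) x := by
    intro x; rw [hp]; simp
  have hpim : ∀ x, (p x).im = r⁻¹ * inner ℝ (b 1) x := by
    intro x; rw [hp]; simp
  refine ⟨p, b 2, innerSL ℝ (b 2), ?_, ?_, ?_, ?_, ?_, ?_, ?_⟩
  · intro z
    apply Complex.ext
    · rw [hpre, plane_apply, hre, himm, inner_add_right, real_inner_smul_right,
        real_inner_smul_right, real_inner_smul_right, real_inner_smul_right, o00, o01]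
      field_simp
      simp
    · rw [hpim, plane_apply, hre, himm, inner_add_right, real_inner_smul_right,
        real_inner_smul_right, real_inner_smul_right, real_inner_smul_right, o10, o11]
      field_simp
      simp
  · intro z
    rw [innerSL_apply_apply, plane_apply, hre, himm, inner_add_right, real_inner_smul_right,
        real_inner_smul_right, real_inner_smul_right, real_inner_smul_right, o20, o21]
    simp
  · rw [hp, o02, o12]; simp
  · rw [innerSL_apply_apply, o22]
  · intro x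
    have h1 := b.sum_repr' x
    rw [Fin.sum_univ_three] at h1
    rw [plane_apply, hpre, hpim, hre, himm, innerSL_apply_apply, smul_smul, smul_smul]
    conv_lhs => rw [← h1]
    congr 2
    · congr 1
      field_simp
    · congr 1
      field_simp
  · intro x
    rw [innerSL_apply_apply]
    have := abs_real_inner_le_norm (b 2) x
    rwa [hon.1 2, one_mul] at this
  · intro x
    have h1 : ‖plane θ (p x)‖ ≤ ‖x‖ := by
      have h2 : ‖plane θ (p x)‖ ^ 2 ≤ ‖x‖ ^ 2 := by
        have h3 := b.sum_repr' x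
        rw [Fin.sum_univ_three] at h3
        have h4 : ‖x‖ ^ 2 = inner ℝ (b 0) x ^ 2 + inner ℝ (b 1) x ^ 2 + inner ℝ (b 2) x ^ 2 := by
          have := b.sum_sq_norm_inner_right x
          rw [Fin.sum_univ_three] at this
          rw [← this]
          simp [sq_abs]
        rw [norm_plane h, h4, mul_pow, Complex.sq_norm, Complex.normSq_apply, hpre, hpim]
        rw [← hrdef]
        have h5 : r ^ 2 * (r⁻¹ * inner ℝ (b 0) x * (r⁻¹ * inner ℝ (b 0) x) +
          r⁻¹ * inner ℝ (b 1) x * (r⁻¹ * inner ℝ (b 1) x)) =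
            inner ℝ (b 0) x ^ 2 + inner ℝ (b 1) x ^ 2 := by
          field_simp
        rw [h5]
        nlinarith [sq_nonneg (inner ℝ (b 2) x)]
      exact abs_le_of_sq_le_sq' h2 (norm_nonneg _) |>.2
    rw [norm_plane h, ← hrdef] at h1
    rw [le_div_iff₀ hr, mul_comm]
    exact h1

end Crest.Agent.R080.NullFrame
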