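import Crest.Agent.R080.W0b
import Crest.Agent.R080.PdCalc
import Crest.Agent.R080.ModBasic
import Crest.Agent.R080.Stmts2
import Crest.Agent.R080.DomBasic

-- ▼ part R080/W0c
section

/-!
Row 80 (S0107), module T12 (StmtW0), part c: transport equations and CGO families (helper777).
-/

set_option autoImplicit false

open MeasureTheory Filter
open scoped ContDiff Topology
open Crest.AnalysisR.VecCalc3 Crest.AnalysisR.PDE.Elasticity

noncomputable section
namespace Crest.Agent.R080.W0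
open PdBasic

/-- a smooth compactly supported cutoff -/
theorem exists_cutoff (R : ℝ) : ∃ χ : R3 → ℂ, ContDiff ℝ ∞ χ ∧ HasCompactSupport χ ∧
    ∀ x : R3, ‖x‖ < R → χ x = 1 := by
  let f : ContDiffBump (0 : R3) := ⟨max R 1, max R 1 + 1, by positivity, by linarith⟩
  refine ⟨fun x => ((f x : ℝ) : ℂ), Complex.ofRealCLM.contDiff.comp f.contDiff, ?_, ?_⟩
  · exact f.hasCompactSupport.comp_left (g := fun t : ℝ => (t : ℂ)) Complex.ofReal_zero
  · intro x hx
    have h1 : f x = 1 := f.one_of_mem_closedBall (by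
      rw [Metric.mem_closedBall, dist_zero_right]
      exact hx.le.trans (le_max_left _ _))
    show ((f x : ℝ) : ℂ) = 1
    rw [h1, Complex.ofReal_one]

theorem transport (hRI : StmtRI) (P : Moduli) {θ : Fin 3 → ℂ} (hθ : IsNull θ)
    (F : Option (Fin 3) → R3 → ℂ) (hF : ∀ i, ContDiff ℝ ∞ (F i)) (R : ℝ) :
    ∃ X : Option (Fin 3) → R3 → ℂ, (∀ i, ContDiff ℝ ∞ (X i)) ∧
      ∀ x : R3, ‖x‖ < R → ∀ i, M0 θ (A4 P) X i x = F i x := by
  obtain ⟨χ, hχ, hχc, hχ1⟩ := exists_cutoff R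
  have hA : ∀ i l, ContDiff ℝ ∞ (fun x => -(1 / 2 : ℂ) * ∑ j, A4 P j i l x * θ j) := fun i l =>
    contDiff_const.mul (ContDiff.sum fun j _ => (contDiff_A4 P j i l).mul contDiff_const)
  obtain ⟨M, hM⟩ := hRI (Option (Fin 3)) Unit (fun _ => θ) continuous_const (fun _ => hθ)
    (fun _ i l x => -(1 / 2 : ℂ) * ∑ j, A4 P j i l x * θ j) (fun _ i l => hA i l)
    (fun i l => (hA i l).continuous.comp continuous_snd) R ()
  have hM' := hM.self_of_nhds
  have hφ : ∀ i, ContDiff ℝ ∞ (fun x => (1 / 2 : ℂ) * (χ x * F i x)) := fun i =>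
    contDiff_const.mul (hχ.mul (hF i))
  have hb : ∀ i, ∃ b : ℝ, ∀ x, ‖(1 / 2 : ℂ) * (χ x * F i x)‖ ≤ b := fun i => by
    refine HasCompactSupport.exists_bound_of_continuous ?_ (hφ i).continuous
    exact (hχc.mul_right (f' := F i)).mul_left (f := fun _ => (1 / 2 : ℂ))
  choose b hb using hb
  obtain ⟨ψ, hψ, hψ1, -⟩ := hM' (fun i x => (1 / 2 : ℂ) * (χ x * F i x)) hφ (∑ i, |b i|)
    (fun i x => (hb i x).trans ((le_abs_self _).trans
      (Finset.single_le_sum (f := fun i => |b i|) (fun _ _ => abs_nonneg _) (Finset.mem_univ i))))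
  refine ⟨ψ, hψ, fun x hx i => ?_⟩
  unfold M0
  rw [hψ1 x hx i, hχ1 x hx]
  have h1 : ∑ j, ∑ l, A4 P j i l x * θ j * ψ l x
      = ∑ l, (∑ j, A4 P j i l x * θ j) * ψ l x := by
    rw [Finset.sum_comm]
    exact Finset.sum_congr rfl fun l _ => by rw [Finset.sum_mul]
  have h2 : ∑ l, -(1 / 2 : ℂ) * (∑ j, A4 P j i l x * θ j) * ψ l x
      = -(1 / 2 : ℂ) * ∑ l, (∑ j, A4 P j i l x * θ j) * ψ l x := by
    rw [Finset.mul_sum]
    exact Finset.sum_congr rfl fun l _ => by ring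
  rw [h1, h2]
  ring

section comb
variable {ι : Type} [Fintype ι] {A : Fin 3 → ι → ι → R3 → ℂ} {B : ι → ι → R3 → ℂ}
  {θ : Fin 3 → ℂ} {U V : ι → R3 → ℂ}

theorem P0_comb (hU : ∀ i, ContDiff ℝ ∞ (U i)) (hV : ∀ i, ContDiff ℝ ∞ (V i)) (c : ℂ) (i : ι)
    (x : R3) : P0 A B (comb U c V) i x = P0 A B U i x + c * P0 A B V i x := by
  unfold comb
  rw [P0_add (s := fun i y => c * V i y) hU (fun i => contDiff_const.mul (hV i)),
    P0_const_mul hV]

theorem M0_comb (hU : ∀ i, ContDiff ℝ ∞ (U i)) (hV : ∀ i, ContDiff ℝ ∞ (V i)) (c : ℂ) (i : ι)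
    (x : R3) : M0 θ A (comb U c V) i x = M0 θ A U i x + c * M0 θ A V i x := by
  unfold comb
  rw [M0_add (s := fun i y => c * V i y) hU (fun i => contDiff_const.mul (hV i)),
    M0_const_mul hV]

theorem H2sq_comb (G : Dom) (hU : ∀ i, ContDiff ℝ ∞ (U i)) (hV : ∀ i, ContDiff ℝ ∞ (V i))
    (c : ℂ) : H2sq G.Ω (comb U c V) ≤ 2 * H2sq G.Ω U + 2 * (‖c‖ ^ 2 * H2sq G.Ω V) := by
  unfold comb
  have h := H2sq_add G (V := fun i y => c * V i y) hU (fun i => contDiff_const.mul (hV i))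
  rw [H2sq_const_mul G.Ω hV] at h
  exact h

end comb

/-- CGO families: `U₀ + τ⁻¹ (U₁ + τ⁻¹ W)` with `W` bounded in `H²` -/
theorem cgo (hRI3 : StmtRI3D) (hRI : StmtRI) (G : Dom) (P : Moduli) {θ : Fin 3 → ℂ}
    (hθ : IsNull θ) (U0 U1 : Option (Fin 3) → R3 → ℂ) (hU0 : ∀ i, ContDiff ℝ ∞ (U0 i))
    (hU1 : ∀ i, ContDiff ℝ ∞ (U1 i)) (h0 : ∀ x ∈ G.Ω, ∀ i, M0 θ (A4 P) U0 i x = 0)
    (h1 : ∀ x ∈ G.Ω, ∀ i, M0 θ (A4 P) U1 i x = - P0 (A4 P) (B4 P) U0 i x) :
    ∃ M τ₀ : ℝ, 0 ≤ M ∧ 1 ≤ τ₀ ∧ ∀ τ : ℝ, τ₀ ≤ τ → ∀ ε : ℝ, 0 < ε →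
      ∃ W : Option (Fin 3) → R3 → ℂ,
      (∀ i, ContDiff ℝ ∞ (W i)) ∧ H2sq G.Ω W ≤ M ∧
      ∫ x in G.Ω, ∑ i, ‖P0 (A4 P) (B4 P) (comb U0 (τ : ℂ)⁻¹ (comb U1 (τ : ℂ)⁻¹ W)) i x
        + τ * M0 θ (A4 P) (comb U0 (τ : ℂ)⁻¹ (comb U1 (τ : ℂ)⁻¹ W)) i x‖ ^ 2 ≤ ε := by
  obtain ⟨R, hR0, hR⟩ := (Dom.exists_ball G)
  have hΩR : G.Ω ⊆ Metric.ball (0 : R3) R := subset_closure.trans hR
  have hA := contDiff_A4 P
  have hB := contDiff_B4 P
  obtain ⟨χ, hχ, hχc, hχ1⟩ := exists_cutoff R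
  obtain ⟨U2, hU2, h2⟩ := transport hRI P hθ (fun i x => - P0 (A4 P) (B4 P) U1 i x)
    (fun i => (contDiff_P0 hA hB hU1 i).neg) R
  obtain ⟨U3, hU3, h3⟩ := transport hRI P hθ (fun i x => - P0 (A4 P) (B4 P) U2 i x)
    (fun i => (contDiff_P0 hA hB hU2 i).neg) R
  obtain ⟨C, τ₁, hC, hτ₁, hsol⟩ := hRI3 (Option (Fin 3)) θ hθ (A4 P) (B4 P) hA hB R
  set F : Option (Fin 3) → R3 → ℂ := fun i x => χ x * P0 (A4 P) (B4 P) U3 i x with hF
  have hFs : ∀ i, ContDiff ℝ ∞ (F i) := fun i => hχ.mul (contDiff_P0 hA hB hU3 i)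
  have hFc : ∀ i, HasCompactSupport (F i) := fun i => hχc.mul_right
  set K : ℝ := ∫ x, ∑ i, ‖F i x‖ ^ 2 with hK
  have hK0 : 0 ≤ K := integral_nonneg fun x => Finset.sum_nonneg fun i _ => by positivity
  refine ⟨4 * H2sq G.Ω U2 + 4 * H2sq G.Ω U3 + 2 * (C ^ 2 * K), max τ₁ 1, ?_, le_max_right _ _, ?_⟩
  · have := H2sq_nonneg G.Ω U2
    have := H2sq_nonneg G.Ω U3
    positivity
  intro τ hτ ε hε
  have hτ1 : 1 ≤ τ := (le_max_right _ _).trans hτ
  have hτpos : 0 < τ := by linarith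
  have hτne : (τ : ℂ) ≠ 0 := by exact_mod_cast hτpos.ne'
  set t : ℂ := (τ : ℂ)⁻¹ with ht
  have htτ : t * τ = 1 := inv_mul_cancel₀ hτne
  have htn : ‖t‖ = τ⁻¹ := by
    rw [ht, norm_inv, Complex.norm_real, Real.norm_of_nonneg hτpos.le]
  have hfs : ∀ i, ContDiff ℝ ∞ (fun x => -(t ^ 3) * F i x) := fun i => contDiff_const.mul (hFs i)
  obtain ⟨r, hr, hr1, hr2⟩ := hsol τ ((le_max_left _ _).trans hτ)
    (fun i x => -(t ^ 3) * F i x) hfs
    (fun i => (hFc i).mul_left (f := fun _ => -(t ^ 3))) ε hε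
  have hfint : ∫ x, ∑ i, ‖-(t ^ 3) * F i x‖ ^ 2 = τ⁻¹ ^ 6 * K := by
    rw [hK, ← integral_const_mul]
    refine integral_congr_ae (Eventually.of_forall fun x => ?_)
    simp only [norm_mul, norm_neg, norm_pow, htn, mul_pow, Finset.mul_sum]
    exact Finset.sum_congr rfl fun i _ => by ring
  rw [hfint] at hr2
  refine ⟨comb (comb U2 t U3) ((τ : ℂ) ^ 2) r, contDiff_comb (contDiff_comb hU2 hU3 t) hr _, ?_, ?_⟩
  · -- the `H²` bound
    have e1 := H2sq_comb G (contDiff_comb hU2 hU3 t) hr ((τ : ℂ) ^ 2)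
    have e2 := H2sq_comb G hU2 hU3 t
    have e3 : H2sq G.Ω r ≤ H2sq (Metric.ball (0 : R3) R) r := by
      rw [H2sq_eq, H2sq_eq]
      refine setIntegral_mono_set ?_ (Eventually.of_forall fun x => N2_nonneg r x)
        hΩR.eventuallyLE
      exact ((continuous_N2 hr).continuousOn.integrableOn_compact
        (isCompact_closedBall (0 : R3) R)).mono_set Metric.ball_subset_closedBall
    have e4 : ‖((τ : ℂ) ^ 2)‖ ^ 2 = τ ^ 4 := by
      rw [norm_pow, Complex.norm_real, Real.norm_of_nonneg hτpos.le]; ring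
    have e5 : ‖t‖ ^ 2 ≤ 1 := by
      rw [htn]
      exact pow_le_one₀ (by positivity) (inv_le_one_of_one_le₀ hτ1)
    have e6 : τ ^ 4 * ((C * τ) ^ 2 * (τ⁻¹ ^ 6 * K)) = C ^ 2 * K := by
      field_simp
    have e7 : τ ^ 4 * H2sq G.Ω r ≤ C ^ 2 * K := by
      rw [← e6]
      exact mul_le_mul_of_nonneg_left (e3.trans hr2) (by positivity)
    have e8 : ‖t‖ ^ 2 * H2sq G.Ω U3 ≤ H2sq G.Ω U3 :=
      mul_le_of_le_one_left (H2sq_nonneg _ _) e5
    rw [e4] at e1
    linarith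
  · -- the residual
    have key : ∀ x ∈ G.Ω, ∀ i,
        P0 (A4 P) (B4 P) (comb U0 t (comb U1 t (comb (comb U2 t U3) ((τ : ℂ) ^ 2) r))) i x
          + τ * M0 θ (A4 P) (comb U0 t (comb U1 t (comb (comb U2 t U3) ((τ : ℂ) ^ 2) r))) i x
        = P0 (A4 P) (B4 P) r i x + τ * M0 θ (A4 P) r i x - -(t ^ 3) * F i x := by
      intro x hx i
      have hxR : ‖x‖ < R := by
        have := hΩR hx
        rwa [Metric.mem_ball, dist_zero_right] at this
      have s23 := contDiff_comb hU2 hU3 t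
      have sW := contDiff_comb s23 hr ((τ : ℂ) ^ 2)
      have s1 := contDiff_comb hU1 sW t
      rw [P0_comb hU0 s1, P0_comb hU1 sW, P0_comb s23 hr, P0_comb hU2 hU3,
        M0_comb hU0 s1, M0_comb hU1 sW, M0_comb s23 hr, M0_comb hU2 hU3,
        h0 x hx i, h1 x hx i, h2 x hxR i, h3 x hxR i]
      simp only [hF, hχ1 x hxR]
      have q1 : t * τ = 1 := htτ
      have q2 : t ^ 2 * τ ^ 2 = 1 := by rw [← mul_pow, q1, one_pow]
      have q3 : t ^ 2 * τ = t := by rw [pow_two, mul_assoc, q1, mul_one]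
      have q4 : t ^ 3 * τ = t ^ 2 := by
        rw [pow_succ, mul_assoc, q1, mul_one]
      linear_combination (- P0 (A4 P) (B4 P) U0 i x) * q1
        + (P0 (A4 P) (B4 P) r i x + τ * M0 θ (A4 P) r i x) * q2
        + (- P0 (A4 P) (B4 P) U1 i x) * q3
        + (- P0 (A4 P) (B4 P) U2 i x) * q4
    have e1 : ∫ x in G.Ω, ∑ i,
        ‖P0 (A4 P) (B4 P) (comb U0 t (comb U1 t (comb (comb U2 t U3) ((τ : ℂ) ^ 2) r))) i x
          + τ * M0 θ (A4 P) (comb U0 t (comb U1 t (comb (comb U2 t U3) ((τ : ℂ) ^ 2) r))) i x‖ ^ 2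
        = ∫ x in G.Ω, ∑ i, ‖P0 (A4 P) (B4 P) r i x + τ * M0 θ (A4 P) r i x
            - -(t ^ 3) * F i x‖ ^ 2 := by
      refine setIntegral_congr_fun (Dom.measurableSet G) fun x hx => ?_
      exact Finset.sum_congr rfl fun i _ => by rw [key x hx i]
    rw [e1]
    refine le_trans ?_ hr1
    refine setIntegral_mono_set ?_ (Eventually.of_forall fun x => Finset.sum_nonneg
      fun i _ => by positivity) hΩR.eventuallyLE
    have hcont : Continuous (fun x => ∑ i, ‖P0 (A4 P) (B4 P) r i x + τ * M0 θ (A4 P) r i x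
            - -(t ^ 3) * F i x‖ ^ 2) :=
      continuous_finsetSum _ fun i _ => ((((contDiff_P0 hA hB hr i).continuous.add
        (continuous_const.mul (contDiff_M0 hA hr i).continuous)).sub (hfs i).continuous).norm).pow 2
    exact (hcont.continuousOn.integrableOn_compact
      (isCompact_closedBall (0 : R3) R)).mono_set Metric.ball_subset_closedBall

end Crest.Agent.R080.W0
end
end

-- ▼ part R080/W0d
section

/-!
Row 80 (S0107), module T12 (StmtW0), part d: weak residuals and gradient bounds (helper777).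
-/

set_option autoImplicit false

open MeasureTheory Filter
open scoped ContDiff Topology
open Crest.AnalysisR.VecCalc3 Crest.AnalysisR.PDE.Elasticity

noncomputable section
namespace Crest.Agent.R080.W0
open PdBasic

theorem contDiff_expo (θ : Fin 3 → ℂ) (τ : ℂ) : ContDiff ℝ ∞ (expo θ τ) := by
  have h1 : ∀ j : Fin 3, ContDiff ℝ ∞ (fun x : R3 => ((x j : ℝ) : ℂ)) := fun j =>
    Complex.ofRealCLM.contDiff.comp (EuclideanSpace.proj (𝕜 := ℝ) j).contDiff
  have h2 : ContDiff ℝ ∞ (fun x : R3 => τ * ∑ j, θ j * (x j : ℂ)) :=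
    contDiff_const.mul (ContDiff.sum fun j _ => contDiff_const.mul (h1 j))
  have h3 : ContDiff ℝ ∞ Complex.exp := Complex.contDiff_exp
  exact h3.comp h2

theorem contDiff_dispU (P : Moduli) (θ : Fin 3 → ℂ) (τ : ℂ) {U : Option (Fin 3) → R3 → ℂ}
    (hU : ∀ i, ContDiff ℝ ∞ (U i)) (i : Fin 3) : ContDiff ℝ ∞ (dispU P θ τ U i) := by
  unfold dispU
  exact ((hU _).add ((Moduli.smooth_cf_m P).mul ((contDiff_pd (hU none) i).add
    (contDiff_const.mul (hU none))))).sub ((hU none).mul (contDiff_pd (Moduli.smooth_cf_m P) i))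

theorem contDiff_uU (P : Moduli) (θ : Fin 3 → ℂ) (τ : ℂ) {U : Option (Fin 3) → R3 → ℂ}
    (hU : ∀ i, ContDiff ℝ ∞ (U i)) (i : Fin 3) : ContDiff ℝ ∞ (uU P θ τ U i) := by
  unfold uU
  exact (contDiff_expo θ τ).mul (contDiff_dispU P θ τ hU i)

theorem pd_dispU (P : Moduli) (θ : Fin 3 → ℂ) (τ : ℂ) {U : Option (Fin 3) → R3 → ℂ}
    (hU : ∀ i, ContDiff ℝ ∞ (U i)) (i j : Fin 3) (x : R3) :
    pd j (dispU P θ τ U i) x = pd j (U (some i)) x
      + ((P.m x : ℂ) * (pd j (pd i (U none)) x + τ * θ i * pd j (U none) x)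
        + pd j (cf P.m) x * (pd i (U none) x + τ * θ i * U none x))
      - (U none x * pd j (pd i (cf P.m)) x + pd j (U none) x * pd i (cf P.m) x) := by
  have hm := (Moduli.smooth_cf_m P)
  unfold dispU
  have e1 : pd j (fun x => U (some i) x + (P.m x : ℂ) * (pd i (U none) x + τ * θ i * U none x)
      - U none x * pd i (cf P.m) x) x = pd j (fun x => U (some i) x + (P.m x : ℂ) *
        (pd i (U none) x + τ * θ i * U none x)) x - pd j (fun x => U none x * pd i (cf P.m) x) x :=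
    pd_sub (sm_diffAt ((hU _).add (hm.mul ((contDiff_pd (hU none) i).add
      (contDiff_const.mul (hU none)))))) (sm_diffAt ((hU none).mul (contDiff_pd hm i))) j
  have e2 : pd j (fun x => U (some i) x + (P.m x : ℂ) *
        (pd i (U none) x + τ * θ i * U none x)) x = pd j (U (some i)) x +
        pd j (fun x => (P.m x : ℂ) * (pd i (U none) x + τ * θ i * U none x)) x :=
    pd_add (sm_diffAt (hU _)) (sm_diffAt (hm.mul ((contDiff_pd (hU none) i).add
      (contDiff_const.mul (hU none))))) j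
  have e3 : pd j (fun x => (P.m x : ℂ) * (pd i (U none) x + τ * θ i * U none x)) x
      = (P.m x : ℂ) * pd j (fun x => pd i (U none) x + τ * θ i * U none x) x
        + pd j (cf P.m) x * (pd i (U none) x + τ * θ i * U none x) :=
    pd_mul (sm_diffAt hm) (sm_diffAt ((contDiff_pd (hU none) i).add
      (contDiff_const.mul (hU none)))) j
  have e4 : pd j (fun x => pd i (U none) x + τ * θ i * U none x) x
      = pd j (pd i (U none)) x + τ * θ i * pd j (U none) x :=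
    pd_comb (contDiff_pd (hU none) i) (hU none) (τ * θ i) j x
  have e5 : pd j (fun x => U none x * pd i (cf P.m) x) x
      = U none x * pd j (pd i (cf P.m)) x + pd j (U none) x * pd i (cf P.m) x :=
    pd_mul (sm_diffAt (hU none)) (sm_diffAt (contDiff_pd hm i)) j
  rw [e1, e2, e3, e4, e5]

theorem bd_pd_uU (G : Dom) (P : Moduli) (θ : Fin 3 → ℂ) (τ : ℂ) (i j : Fin 3) :
    ∃ C : ℝ, 0 ≤ C ∧ ∀ U : Option (Fin 3) → R3 → ℂ, (∀ i, ContDiff ℝ ∞ (U i)) →
      ∀ x ∈ G.Ω, ‖pd j (uU P θ τ U i) x‖ ≤ C * nrm U x := by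
  have hm := (Moduli.smooth_cf_m P)
  have hc1 : Continuous (fun x => pd i (cf P.m) x) := (contDiff_pd hm i).continuous
  have hc2 : Continuous (fun x => pd j (cf P.m) x) := (contDiff_pd hm j).continuous
  have hc3 : Continuous (fun x => pd j (pd i (cf P.m)) x) :=
    (contDiff_pd (contDiff_pd hm i) j).continuous
  have b0 : BdOp G (fun (U : Option (Fin 3) → R3 → ℂ) x => pd i (U none) x + τ * θ i * U none x) :=
    (BdOp.pd1 none i).add ((BdOp.val none).coeff_mul (f := fun _ => τ * θ i) continuous_const)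
  have b1 : BdOp G (fun (U : Option (Fin 3) → R3 → ℂ) x => dispU P θ τ U i x) := by
    unfold dispU
    exact ((BdOp.val (some i)).add (b0.coeff_mul (f := fun x => (P.m x : ℂ)) hm.continuous)).sub
      (((BdOp.val none).coeff_mul hc1).congr fun U x => mul_comm _ _)
  have b2 : BdOp G (fun (U : Option (Fin 3) → R3 → ℂ) x => pd j (U (some i)) x
      + ((P.m x : ℂ) * (pd j (pd i (U none)) x + τ * θ i * pd j (U none) x)
        + pd j (cf P.m) x * (pd i (U none) x + τ * θ i * U none x))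
      - (U none x * pd j (pd i (cf P.m)) x + pd j (U none) x * pd i (cf P.m) x)) := by
    refine ((BdOp.pd1 (some i) j).add (BdOp.add ?_ (b0.coeff_mul hc2))).sub (BdOp.add ?_ ?_)
    · exact ((BdOp.pd2 none j i).add ((BdOp.pd1 none j).coeff_mul (f := fun _ => τ * θ i)
        continuous_const)).coeff_mul (f := fun x => (P.m x : ℂ)) hm.continuous
    · exact ((BdOp.val none).coeff_mul hc3).congr fun U x => mul_comm _ _
    · exact ((BdOp.pd1 none j).coeff_mul hc1).congr fun U x => mul_comm _ _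
  have he := contDiff_expo θ τ
  obtain ⟨C, hC, h⟩ := (b2.coeff_mul he.continuous).add
    (b1.coeff_mul (contDiff_pd he j).continuous)
  refine ⟨C, hC, fun U hU x hx => ?_⟩
  have e : pd j (uU P θ τ U i) x = expo θ τ x * pd j (dispU P θ τ U i) x
      + pd j (expo θ τ) x * dispU P θ τ U i x :=
    pd_mul (sm_diffAt he) (sm_diffAt (contDiff_dispU P θ τ hU i)) j
  rw [e, pd_dispU P θ τ hU]
  exact h U x hx

theorem gradSq_uU (G : Dom) (P : Moduli) (θ : Fin 3 → ℂ) (τ : ℂ) :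
    ∃ C : ℝ, 0 ≤ C ∧ ∀ U : Option (Fin 3) → R3 → ℂ, (∀ i, ContDiff ℝ ∞ (U i)) →
      gradSq G.Ω (uU P θ τ U) ≤ C * H2sq G.Ω U := by
  choose C hC h using fun i j : Fin 3 => bd_pd_uU G P θ τ i j
  refine ⟨∑ i, ∑ j, C i j ^ 2, Finset.sum_nonneg fun i _ => Finset.sum_nonneg fun j _ => by
    positivity, fun U hU => ?_⟩
  unfold gradSq
  rw [H2sq_eq, ← integral_const_mul]
  refine setIntegral_mono_on ?_ ((Dom.integrableOn G (continuous_N2 hU)).const_mul _)
    (Dom.measurableSet G) fun x hx => ?_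
  · refine Dom.integrableOn G ?_
    exact continuous_finsetSum _ fun i _ => continuous_finsetSum _ fun j _ =>
      ((contDiff_pd (contDiff_uU P θ τ hU i) j).continuous.norm).pow 2
  · rw [Finset.sum_mul]
    refine Finset.sum_le_sum fun i _ => ?_
    rw [Finset.sum_mul]
    refine Finset.sum_le_sum fun j _ => ?_
    rw [← nrm_sq, ← mul_pow]
    exact pow_le_pow_left₀ (norm_nonneg _) (h i j U hU x hx) 2

theorem Dom.norm_integral_le_cs (G : Dom) {k : R3 → ℂ} {a b : R3 → ℝ} (ha : Continuous a)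
    (hb : Continuous b) {D : ℝ} (hD : 0 ≤ D) (h : ∀ x ∈ G.Ω, ‖k x‖ ≤ D * (a x * b x)) :
    ‖∫ x in G.Ω, k x‖ ≤ D * (√(∫ x in G.Ω, a x ^ 2) * √(∫ x in G.Ω, b x ^ 2)) := by
  have h1 : ‖∫ x in G.Ω, k x‖ ≤ ∫ x in G.Ω, D * (a x * b x) := by
    refine norm_integral_le_of_norm_le ((Dom.integrableOn G (ha.mul hb)).const_mul D) ?_
    exact (ae_restrict_iff' (Dom.measurableSet G)).mpr (Eventually.of_forall h)
  rw [integral_const_mul] at h1
  exact h1.trans (mul_le_mul_of_nonneg_left ((le_abs_self _).trans (Dom.cauchySchwarz G ha hb)) hD)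

theorem weakRes_of (hL : StmtLame) (hK : StmtKorn) (G : Dom) (P : Moduli) {θ : Fin 3 → ℂ}
    (hθ : IsNull θ) (τ : ℂ) :
    ∃ C : ℝ, 0 ≤ C ∧ ∀ U : Option (Fin 3) → R3 → ℂ, (∀ i, ContDiff ℝ ∞ (U i)) → ∀ ε : ℝ,
      ∫ x in G.Ω, ∑ i, ‖P0 (A4 P) (B4 P) U i x + τ * M0 θ (A4 P) U i x‖ ^ 2 ≤ ε →
      WeakRes G P (uU P θ τ U) (C * √ε) := by
  obtain ⟨CK, hCK, hKorn⟩ := hK G
  have he := (contDiff_expo θ τ).continuous
  have hmu := (Moduli.smooth_cf_mu P).continuous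
  have hcc : Continuous (fun x => ((P.cc x : ℂ))⁻¹) :=
    (Moduli.smooth_cf_cc P).continuous.inv₀ fun x => Complex.ofReal_ne_zero.mpr ((Moduli.cc_pos P) x).ne'
  obtain ⟨D1, hD1, hb1⟩ := Dom.exists_bound G (he.mul hmu)
  obtain ⟨D2, hD2, hb2⟩ := Dom.exists_bound G (he.mul hcc)
  refine ⟨D1 * √CK + D2 * √3, by positivity, fun U hU ε hε => ?_⟩
  intro w hw hw0
  set ρ : Option (Fin 3) → R3 → ℂ := fun i x =>
    P0 (A4 P) (B4 P) U i x + τ * M0 θ (A4 P) U i x with hρ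
  have hρc : ∀ i, Continuous (ρ i) := fun i =>
    (contDiff_P0 (contDiff_A4 P) (contDiff_B4 P) hU i).continuous.add
      (continuous_const.mul (contDiff_M0 (contDiff_A4 P) hU i).continuous)
  set a : R3 → ℝ := fun x => √(∑ i, ‖ρ i x‖ ^ 2) with ha
  have hac : Continuous a :=
    (continuous_finsetSum _ fun i _ => (hρc i).norm.pow 2).sqrt
  have ha2 : ∀ x, a x ^ 2 = ∑ i, ‖ρ i x‖ ^ 2 := fun x =>
    Real.sq_sqrt (Finset.sum_nonneg fun i _ => by positivity)
  have ha_int : √(∫ x in G.Ω, a x ^ 2) ≤ √ε := by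
    refine Real.sqrt_le_sqrt ?_
    simp_rw [ha2]
    exact hε
  have hanone : ∀ x, ‖ρ none x‖ ≤ a x := fun x => by
    refine Real.le_sqrt_of_sq_le ?_
    exact Finset.single_le_sum (f := fun i => ‖ρ i x‖ ^ 2) (fun i _ => by positivity)
      (Finset.mem_univ none)
  set b : R3 → ℝ := fun x => √(∑ i, ‖w i x‖ ^ 2) with hb
  have hbc : Continuous b :=
    (continuous_finsetSum _ fun i _ => (hw i).continuous.norm.pow 2).sqrt
  have hb2' : ∀ x, b x ^ 2 = ∑ i, ‖w i x‖ ^ 2 := fun x =>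
    Real.sq_sqrt (Finset.sum_nonneg fun i _ => by positivity)
  have hb_int : √(∫ x in G.Ω, b x ^ 2) ≤ √CK * √(gradSq G.Ω w) := by
    rw [← Real.sqrt_mul hCK.le]
    refine Real.sqrt_le_sqrt ?_
    simp_rw [hb2']
    exact (hKorn w hw hw0).1
  set c : R3 → ℝ := fun x => ‖divg w x‖ with hc
  have hcc' : Continuous c :=
    (continuous_finsetSum _ fun i _ => continuous_pd_of_C1 (hw i) i).norm
  have hc_int : √(∫ x in G.Ω, c x ^ 2) ≤ √3 * √(gradSq G.Ω w) := by
    rw [← Real.sqrt_mul (by norm_num)]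
    refine Real.sqrt_le_sqrt ?_
    unfold gradSq
    rw [← integral_const_mul]
    have hgi : IntegrableOn (fun x => ∑ i, ∑ j, ‖pd j (w i) x‖ ^ 2) G.Ω :=
      Dom.integrableOn G (continuous_finsetSum _ fun i _ => continuous_finsetSum _ fun j _ =>
        (continuous_pd_of_C1 (hw i) j).norm.pow 2)
    refine setIntegral_mono_on (Dom.integrableOn G (hcc'.pow 2)) (hgi.const_mul 3)
      (Dom.measurableSet G) fun x _ => ?_
    · have h1 : c x ≤ ∑ i, ‖pd i (w i) x‖ := norm_sum_le _ _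
      have h2 : c x ^ 2 ≤ (∑ i, ‖pd i (w i) x‖) ^ 2 := pow_le_pow_left₀ (norm_nonneg _) h1 2
      have h3 : (∑ i : Fin 3, ‖pd i (w i) x‖) ^ 2 ≤ 3 * ∑ i : Fin 3, ‖pd i (w i) x‖ ^ 2 := by
        have := sq_sum_le_card_mul_sum_sq (s := (Finset.univ : Finset (Fin 3)))
          (f := fun i => ‖pd i (w i) x‖)
        simpa using this
      have h4 : ∑ i : Fin 3, ‖pd i (w i) x‖ ^ 2 ≤ ∑ i, ∑ j, ‖pd j (w i) x‖ ^ 2 :=
        Finset.sum_le_sum fun i _ => Finset.single_le_sum (f := fun j => ‖pd j (w i) x‖ ^ 2)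
          (fun j _ => by positivity) (Finset.mem_univ i)
      linarith
  rw [hL G P θ hθ τ U hU w hw hw0]
  have k1 : ‖∫ x in G.Ω, expo θ τ x * (P.mu x : ℂ) * ∑ i, ρ (some i) x * w i x‖ ≤
      D1 * (√(∫ x in G.Ω, a x ^ 2) * √(∫ x in G.Ω, b x ^ 2)) := by
    refine Dom.norm_integral_le_cs G hac hbc hD1 fun x hx => ?_
    rw [norm_mul]
    refine mul_le_mul (hb1 x (subset_closure hx)) ?_ (norm_nonneg _) hD1
    calc ‖∑ i, ρ (some i) x * w i x‖ ≤ ∑ i, ‖ρ (some i) x‖ * ‖w i x‖ := by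
          refine (norm_sum_le _ _).trans (le_of_eq (Finset.sum_congr rfl fun i _ => norm_mul _ _))
      _ ≤ √(∑ i, ‖ρ (some i) x‖ ^ 2) * √(∑ i, ‖w i x‖ ^ 2) :=
          Real.sum_mul_le_sqrt_mul_sqrt _ _ _
      _ ≤ a x * b x := by
          refine mul_le_mul_of_nonneg_right (Real.sqrt_le_sqrt ?_) (Real.sqrt_nonneg _)
          rw [Fintype.sum_option]
          have : 0 ≤ ‖ρ none x‖ ^ 2 := by positivity
          linarith
  have k2 : ‖∫ x in G.Ω, expo θ τ x * ((P.cc x : ℂ))⁻¹ * ρ none x * divg w x‖ ≤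
      D2 * (√(∫ x in G.Ω, a x ^ 2) * √(∫ x in G.Ω, c x ^ 2)) := by
    refine Dom.norm_integral_le_cs G hac hcc' hD2 fun x hx => ?_
    rw [norm_mul, norm_mul, mul_assoc]
    refine mul_le_mul (hb2 x (subset_closure hx)) ?_ (by positivity) hD2
    exact mul_le_mul_of_nonneg_right (hanone x) (norm_nonneg _)
  have hg0 : 0 ≤ √(gradSq G.Ω w) := Real.sqrt_nonneg _
  have hε0 : 0 ≤ √ε := Real.sqrt_nonneg _
  have k3 : √(∫ x in G.Ω, a x ^ 2) * √(∫ x in G.Ω, b x ^ 2) ≤ √ε * (√CK * √(gradSq G.Ω w)) :=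
    mul_le_mul ha_int hb_int (Real.sqrt_nonneg _) hε0
  have k4 : √(∫ x in G.Ω, a x ^ 2) * √(∫ x in G.Ω, c x ^ 2) ≤ √ε * (√3 * √(gradSq G.Ω w)) :=
    mul_le_mul ha_int hc_int (Real.sqrt_nonneg _) hε0
  calc ‖-(∫ x in G.Ω, expo θ τ x * (P.mu x : ℂ) * ∑ i, ρ (some i) x * w i x)
        + ∫ x in G.Ω, expo θ τ x * ((P.cc x : ℂ))⁻¹ * ρ none x * divg w x‖
      ≤ ‖∫ x in G.Ω, expo θ τ x * (P.mu x : ℂ) * ∑ i, ρ (some i) x * w i x‖
        + ‖∫ x in G.Ω, expo θ τ x * ((P.cc x : ℂ))⁻¹ * ρ none x * divg w x‖ := by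
        refine (norm_add_le _ _).trans ?_
        rw [norm_neg]
    _ ≤ D1 * (√ε * (√CK * √(gradSq G.Ω w))) + D2 * (√ε * (√3 * √(gradSq G.Ω w))) :=
        add_le_add (k1.trans (mul_le_mul_of_nonneg_left k3 hD1))
          (k2.trans (mul_le_mul_of_nonneg_left k4 hD2))
    _ = (D1 * √CK + D2 * √3) * √ε * √(gradSq G.Ω w) := by ring

end Crest.Agent.R080.W0
end
end

-- ▼ part R080/W0
section

/-!
Row 80 (S0107), module T12: `StmtW0` (helper777).
-/

set_option autoImplicit false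

open MeasureTheory Filter
open scoped ContDiff Topology
open Crest.AnalysisR.VecCalc3 Crest.AnalysisR.PDE.Elasticity

noncomputable section
namespace Crest.Agent.R080
namespace W0
open PdBasic

/-- exact expansion of the quadratic expression -/
theorem expansion (P₁ P₂ : Moduli) {θ : Fin 3 → ℂ} (hθ : IsNull θ)
    {U X V V' W : Option (Fin 3) → R3 → ℂ} (hU : ∀ i, ContDiff ℝ ∞ (U i))
    (hX : ∀ i, ContDiff ℝ ∞ (X i)) (hV : ∀ i, ContDiff ℝ ∞ (V i))
    (hV' : ∀ i, ContDiff ℝ ∞ (V' i)) (hW : ∀ i, ContDiff ℝ ∞ (W i))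
    (hVn : ∀ x, V none x = 0) (hVθ : ∀ x, ∑ i, θ i * V (some i) x = 0)
    {t τ : ℂ} (ht : t * τ = 1) (x : R3) :
    τ ^ 2 * q2 P₁ P₂ θ (comb U t X) (comb V t (comb V' t W)) x
      + τ * q1 P₁ P₂ θ (comb U t X) (comb V t (comb V' t W)) x
      + q0 P₁ P₂ (comb U t X) (comb V t (comb V' t W)) x
    = τ * (q2 P₁ P₂ θ U V' x + q1 P₁ P₂ θ U V x)
      + (q2 P₁ P₂ θ X V' x + q2 P₁ P₂ θ (comb U t X) W x + q1 P₁ P₂ θ X V x
        + q1 P₁ P₂ θ (comb U t X) (comb V' t W) x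
        + q0 P₁ P₂ (comb U t X) (comb V t (comb V' t W)) x) := by
  have hZ := contDiff_comb hV' hW t
  rw [q2_comb_right P₁ P₂ θ hV hZ, q2_shear P₁ P₂ hθ (comb U t X) V hV hVn hVθ,
    q2_comb_right (W := comb U t X) P₁ P₂ θ hV' hW, q2_comb_left (W := V') P₁ P₂ θ hU hX,
    q1_comb_right (W := comb U t X) P₁ P₂ θ hV hZ, q1_comb_left (W := V) P₁ P₂ θ hU hX]
  have q1' : t * τ = 1 := ht
  have h2 : t ^ 2 * τ ^ 2 = 1 := by rw [← mul_pow, q1', one_pow]
  have h3 : t * τ ^ 2 = τ := by rw [pow_two, ← mul_assoc, q1', one_mul]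
  linear_combination (q2 P₁ P₂ θ U V' x) * h3 + (q2 P₁ P₂ θ X V' x) * h2
    + (q2 P₁ P₂ θ (comb U t X) W x) * h2
    + (q1 P₁ P₂ θ X V x) * q1'
    + (q1 P₁ P₂ θ (comb U t X) (comb V' t W) x) * q1'

theorem integral_sum5 {S : Set R3} {f0 f1 f2 f3 f4 f5 : R3 → ℂ} (i0 : IntegrableOn f0 S)
    (i1 : IntegrableOn f1 S) (i2 : IntegrableOn f2 S) (i3 : IntegrableOn f3 S)
    (i4 : IntegrableOn f4 S) (i5 : IntegrableOn f5 S) :
    ∫ x in S, (f0 x + (f1 x + f2 x + f3 x + f4 x + f5 x)) = (∫ x in S, f0 x)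
      + ((∫ x in S, f1 x) + (∫ x in S, f2 x) + (∫ x in S, f3 x) + (∫ x in S, f4 x)
        + ∫ x in S, f5 x) := by
  have e1 : ∫ x in S, (f0 x + (f1 x + f2 x + f3 x + f4 x + f5 x))
      = (∫ x in S, f0 x) + ∫ x in S, (f1 x + f2 x + f3 x + f4 x + f5 x) :=
    integral_add i0 ((((i1.add i2).add i3).add i4).add i5)
  have e2 : ∫ x in S, (f1 x + f2 x + f3 x + f4 x + f5 x)
      = (∫ x in S, (f1 x + f2 x + f3 x + f4 x)) + ∫ x in S, f5 x :=
    integral_add (((i1.add i2).add i3).add i4) i5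
  have e3 : ∫ x in S, (f1 x + f2 x + f3 x + f4 x)
      = (∫ x in S, (f1 x + f2 x + f3 x)) + ∫ x in S, f4 x :=
    integral_add ((i1.add i2).add i3) i4
  have e4 : ∫ x in S, (f1 x + f2 x + f3 x)
      = (∫ x in S, (f1 x + f2 x)) + ∫ x in S, f3 x := integral_add (i1.add i2) i3
  have e5 : ∫ x in S, (f1 x + f2 x) = (∫ x in S, f1 x) + ∫ x in S, f2 x := integral_add i1 i2
  rw [e1, e2, e3, e4, e5]

/-- integrated expansion -/
theorem expansion_integral (G : Dom) (P₁ P₂ : Moduli) {θ : Fin 3 → ℂ} (hθ : IsNull θ)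
    {U X V V' W : Option (Fin 3) → R3 → ℂ} (hU : ∀ i, ContDiff ℝ ∞ (U i))
    (hX : ∀ i, ContDiff ℝ ∞ (X i)) (hV : ∀ i, ContDiff ℝ ∞ (V i))
    (hV' : ∀ i, ContDiff ℝ ∞ (V' i)) (hW : ∀ i, ContDiff ℝ ∞ (W i))
    (hVn : ∀ x, V none x = 0) (hVθ : ∀ x, ∑ i, θ i * V (some i) x = 0)
    {t τ : ℂ} (ht : t * τ = 1) :
    ∫ x in G.Ω, (τ ^ 2 * q2 P₁ P₂ θ (comb U t X) (comb V t (comb V' t W)) x
      + τ * q1 P₁ P₂ θ (comb U t X) (comb V t (comb V' t W)) x
      + q0 P₁ P₂ (comb U t X) (comb V t (comb V' t W)) x)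
    = τ * (∫ x in G.Ω, (q2 P₁ P₂ θ U V' x + q1 P₁ P₂ θ U V x))
      + ((∫ x in G.Ω, q2 P₁ P₂ θ X V' x) + (∫ x in G.Ω, q2 P₁ P₂ θ (comb U t X) W x)
        + (∫ x in G.Ω, q1 P₁ P₂ θ X V x)
        + (∫ x in G.Ω, q1 P₁ P₂ θ (comb U t X) (comb V' t W) x)
        + ∫ x in G.Ω, q0 P₁ P₂ (comb U t X) (comb V t (comb V' t W)) x) := by
  have hUt := contDiff_comb hU hX t
  have hZ := contDiff_comb hV' hW t
  have hVt := contDiff_comb hV hZ t
  have i0 : IntegrableOn (fun x => τ * (q2 P₁ P₂ θ U V' x + q1 P₁ P₂ θ U V x)) G.Ω :=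
    Dom.integrableOn G (continuous_const.mul
      ((cont_q2 P₁ P₂ θ hU hV').add (cont_q1 P₁ P₂ θ hU hV)))
  have i1 : IntegrableOn (q2 P₁ P₂ θ X V') G.Ω := Dom.integrableOn G (cont_q2 P₁ P₂ θ hX hV')
  have i2 : IntegrableOn (q2 P₁ P₂ θ (comb U t X) W) G.Ω :=
    Dom.integrableOn G (cont_q2 P₁ P₂ θ hUt hW)
  have i3 : IntegrableOn (q1 P₁ P₂ θ X V) G.Ω := Dom.integrableOn G (cont_q1 P₁ P₂ θ hX hV)
  have i4 : IntegrableOn (q1 P₁ P₂ θ (comb U t X) (comb V' t W)) G.Ω :=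
    Dom.integrableOn G (cont_q1 P₁ P₂ θ hUt hZ)
  have i5 : IntegrableOn (q0 P₁ P₂ (comb U t X) (comb V t (comb V' t W))) G.Ω :=
    Dom.integrableOn G (cont_q0 P₁ P₂ hUt hVt)
  rw [← integral_const_mul, ← integral_sum5 i0 i1 i2 i3 i4 i5]
  refine setIntegral_congr_fun (Dom.measurableSet G) fun x _ => ?_
  exact expansion P₁ P₂ hθ hU hX hV hV' hW hVn hVθ ht x

end W0

open PdBasic W0 in
set_option maxHeartbeats 1000000 in
theorem t_W0 (hRI3 : StmtRI3D) (hRI : StmtRI) (hL : StmtLame) (hB : StmtBilin) (hP : StmtPolar)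
    (hK : StmtKorn) : StmtW0 := by
  intro G P₁ P₂ hsame θ hθ U V V' hU hV hV' hU0 hVn hVθ hV0 hV1
  have hU0' : ∀ x ∈ G.Ω, ∀ i, M0 θ (A4 P₁) U i x = 0 := fun x hx =>
    hU0.self_of_nhdsSet x (subset_closure hx)
  have hV0' : ∀ x ∈ G.Ω, ∀ i, M0 θ (A4 P₂) V i x = 0 := fun x hx =>
    hV0.self_of_nhdsSet x (subset_closure hx)
  have hV1' : ∀ x ∈ G.Ω, ∀ i, M0 θ (A4 P₂) V' i x = P0 (A4 P₂) (B4 P₂) V i x := fun x hx =>
    hV1.self_of_nhdsSet x (subset_closure hx)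
  obtain ⟨R, hR0, hR⟩ := (Dom.exists_ball G)
  obtain ⟨U1, hU1, hU1'⟩ := transport hRI P₁ hθ (fun i x => - P0 (A4 P₁) (B4 P₁) U i x)
    (fun i => (contDiff_P0 (contDiff_A4 P₁) (contDiff_B4 P₁) hU i).neg) R
  obtain ⟨MU, τU, hMU, hτU, hcgoU⟩ := cgo hRI3 hRI G P₁ hθ U U1 hU hU1 hU0' (fun x hx i =>
    hU1' x (by
      have := hR (subset_closure hx)
      rwa [Metric.mem_ball, dist_zero_right] at this) i)
  obtain ⟨MV, τV, hMV, hτV, hcgoV⟩ := cgo hRI3 hRI G P₂ (IsNull.neg hθ) V V' hV hV'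
    (fun x hx i => by rw [M0_neg_theta, hV0' x hx i, neg_zero])
    (fun x hx i => by rw [M0_neg_theta, hV1' x hx i])
  obtain ⟨CP, hCP, hpol⟩ := hP G P₁ P₂ hsame
  obtain ⟨C2, hC2, hb2⟩ := (bibd_q2 (G := G) P₁ P₂ θ).integral
  obtain ⟨C1, hC1, hb1⟩ := (bibd_q1 (G := G) P₁ P₂ θ).integral
  obtain ⟨C0, hC0, hb0⟩ := (bibd_q0 (G := G) P₁ P₂).integral
  -- uniform bounds of the `H²` norms
  set hu := H2sq G.Ω U with hu_def
  set hu1 := H2sq G.Ω U1 with hu1_def
  set hv := H2sq G.Ω V with hv_def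
  set hv' := H2sq G.Ω V' with hv'_def
  have hu0 : 0 ≤ hu := H2sq_nonneg _ _
  have hu10 : 0 ≤ hu1 := H2sq_nonneg _ _
  have hv0 : 0 ≤ hv := H2sq_nonneg _ _
  have hv'0 : 0 ≤ hv' := H2sq_nonneg _ _
  set BX : ℝ := 2 * hu1 + 2 * MU with hBX
  set BU : ℝ := 2 * hu + 2 * BX with hBU
  set BZ : ℝ := 2 * hv' + 2 * MV with hBZ
  set BV : ℝ := 2 * hv + 2 * BZ with hBV
  set M' : ℝ := C2 * (BX + hv') + C2 * (BU + MV) + C1 * (BX + hv) + C1 * (BU + BZ)
    + C0 * (BU + BV) with hM'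
  set T : ℂ := ∫ x in G.Ω, (q2 P₁ P₂ θ U V' x + q1 P₁ P₂ θ U V x) with hT
  have main : ∀ τ : ℝ, max τU τV ≤ τ → τ * ‖T‖ ≤ M' := by
    intro τ hτ
    have hτU' : τU ≤ τ := (le_max_left _ _).trans hτ
    have hτV' : τV ≤ τ := (le_max_right _ _).trans hτ
    have hτ1 : 1 ≤ τ := hτU.trans hτU'
    have hτpos : 0 < τ := by linarith
    have hτne : (τ : ℂ) ≠ 0 := by exact_mod_cast hτpos.ne'
    set t : ℂ := (τ : ℂ)⁻¹ with ht
    have htτ : t * (τ : ℂ) = 1 := inv_mul_cancel₀ hτne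
    have htn : ‖t‖ ^ 2 ≤ 1 := by
      rw [ht, norm_inv, Complex.norm_real, Real.norm_of_nonneg hτpos.le]
      exact pow_le_one₀ (by positivity) (inv_le_one_of_one_le₀ hτ1)
    obtain ⟨D1, hD1, hw1⟩ := weakRes_of hL hK G P₁ hθ (τ : ℂ)
    obtain ⟨D2, hD2, hw2⟩ := weakRes_of hL hK G P₂ hθ (-(τ : ℂ))
    obtain ⟨E1, hE1, hg1⟩ := gradSq_uU G P₁ θ (τ : ℂ)
    obtain ⟨E2, hE2, hg2⟩ := gradSq_uU G P₂ θ (-(τ : ℂ))
    set Cτ : ℝ := CP * (D1 ^ 2 + D2 ^ 2 + D1 * √(E2 * BV) + D2 * √(E1 * BU)) with hCτ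
    have hCτ0 : 0 ≤ Cτ := by positivity
    have step : ∀ s : ℝ, 0 < s → s ≤ 1 → τ * ‖T‖ ≤ M' + Cτ * s := by
      intro s hs hs1
      obtain ⟨W, hW, hW1, hW2⟩ := hcgoU τ hτU' (s ^ 2) (by positivity)
      obtain ⟨Y, hY, hY1, hY2⟩ := hcgoV τ hτV' (s ^ 2) (by positivity)
      have hsq : √(s ^ 2) = s := Real.sqrt_sq hs.le
      have hX := contDiff_comb hU1 hW t
      have hUt := contDiff_comb hU hX t
      have hZ := contDiff_comb hV' hY t
      have hVt := contDiff_comb hV hZ t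
      -- `H²` bounds
      have aX : H2sq G.Ω (comb U1 t W) ≤ BX := by
        have h1 := H2sq_comb G hU1 hW t
        have h2 : ‖t‖ ^ 2 * H2sq G.Ω W ≤ MU :=
          (mul_le_of_le_one_left (H2sq_nonneg _ _) htn).trans hW1
        linarith
      have aU : H2sq G.Ω (comb U t (comb U1 t W)) ≤ BU := by
        have h1 := H2sq_comb G hU hX t
        have h2 : ‖t‖ ^ 2 * H2sq G.Ω (comb U1 t W) ≤ BX :=
          (mul_le_of_le_one_left (H2sq_nonneg _ _) htn).trans aX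
        linarith
      have aZ : H2sq G.Ω (comb V' t Y) ≤ BZ := by
        have h1 := H2sq_comb G hV' hY t
        have h2 : ‖t‖ ^ 2 * H2sq G.Ω Y ≤ MV :=
          (mul_le_of_le_one_left (H2sq_nonneg _ _) htn).trans hY1
        linarith
      have aV : H2sq G.Ω (comb V t (comb V' t Y)) ≤ BV := by
        have h1 := H2sq_comb G hV hZ t
        have h2 : ‖t‖ ^ 2 * H2sq G.Ω (comb V' t Y) ≤ BZ :=
          (mul_le_of_le_one_left (H2sq_nonneg _ _) htn).trans aZ
        linarith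
      -- weak residuals
      have wr1 := hw1 (comb U t (comb U1 t W)) hUt (s ^ 2) hW2
      have wr2 := hw2 (comb V t (comb V' t Y)) hVt (s ^ 2) (by
        refine le_trans (le_of_eq ?_) hY2
        refine setIntegral_congr_fun (Dom.measurableSet G) fun x _ => ?_
        refine Finset.sum_congr rfl fun i _ => ?_
        rw [M0_neg_theta, mul_neg, neg_mul])
      rw [hsq] at wr1 wr2
      -- gradients
      have g1 : √(gradSq G.Ω (uU P₁ θ (τ : ℂ) (comb U t (comb U1 t W)))) ≤ √(E1 * BU) :=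
        Real.sqrt_le_sqrt ((hg1 _ hUt).trans (mul_le_mul_of_nonneg_left aU hE1))
      have g2 : √(gradSq G.Ω (uU P₂ θ (-(τ : ℂ)) (comb V t (comb V' t Y)))) ≤ √(E2 * BV) :=
        Real.sqrt_le_sqrt ((hg2 _ hVt).trans (mul_le_mul_of_nonneg_left aV hE2))
      have hpol' := hpol (uU P₁ θ (τ : ℂ) (comb U t (comb U1 t W)))
        (uU P₂ θ (-(τ : ℂ)) (comb V t (comb V' t Y)))
        (fun i => (contDiff_uU P₁ θ _ hUt i).of_le (by simp))
        (fun i => (contDiff_uU P₂ θ _ hVt i).of_le (by simp))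
        (D1 * s) (D2 * s) (by positivity) (by positivity) wr1 wr2
      rw [hB G P₁ P₂ θ hθ (τ : ℂ) _ _ hUt hVt] at hpol'
      have hpol2 : ‖∫ x in G.Ω, ((τ : ℂ) ^ 2 * q2 P₁ P₂ θ (comb U t (comb U1 t W))
            (comb V t (comb V' t Y)) x
          + (τ : ℂ) * q1 P₁ P₂ θ (comb U t (comb U1 t W)) (comb V t (comb V' t Y)) x
          + q0 P₁ P₂ (comb U t (comb U1 t W)) (comb V t (comb V' t Y)) x)‖ ≤ Cτ * s := by
        refine hpol'.trans ?_
        rw [hCτ, mul_assoc CP]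
        refine mul_le_mul_of_nonneg_left ?_ hCP.le
        have e1 : (D1 * s) ^ 2 ≤ D1 ^ 2 * s := by
          rw [mul_pow]
          exact mul_le_mul_of_nonneg_left (by nlinarith) (by positivity)
        have e2 : (D2 * s) ^ 2 ≤ D2 ^ 2 * s := by
          rw [mul_pow]
          exact mul_le_mul_of_nonneg_left (by nlinarith) (by positivity)
        have e3 := mul_le_mul_of_nonneg_left g2 (by positivity : 0 ≤ D1 * s)
        have e4 := mul_le_mul_of_nonneg_left g1 (by positivity : 0 ≤ D2 * s)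
        calc _ ≤ D1 ^ 2 * s + D2 ^ 2 * s + (D1 * s) * √(E2 * BV) + (D2 * s) * √(E1 * BU) := by
              linarith
          _ = (D1 ^ 2 + D2 ^ 2 + D1 * √(E2 * BV) + D2 * √(E1 * BU)) * s := by ring
      -- expansion
      have hexp := expansion_integral G P₁ P₂ hθ hU hX hV hV' hY hVn hVθ htτ
      have b1 := hb2 (comb U1 t W) V' hX hV'
      have b2 := hb2 (comb U t (comb U1 t W)) Y hUt hY
      have b3 := hb1 (comb U1 t W) V hX hV
      have b4 := hb1 (comb U t (comb U1 t W)) (comb V' t Y) hUt hZ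
      have b5 := hb0 (comb U t (comb U1 t W)) (comb V t (comb V' t Y)) hUt hVt
      have b1' : ‖∫ x in G.Ω, q2 P₁ P₂ θ (comb U1 t W) V' x‖ ≤ C2 * (BX + hv') :=
        b1.trans (mul_le_mul_of_nonneg_left (by linarith) hC2)
      have b2' : ‖∫ x in G.Ω, q2 P₁ P₂ θ (comb U t (comb U1 t W)) Y x‖ ≤ C2 * (BU + MV) :=
        b2.trans (mul_le_mul_of_nonneg_left (by linarith) hC2)
      have b3' : ‖∫ x in G.Ω, q1 P₁ P₂ θ (comb U1 t W) V x‖ ≤ C1 * (BX + hv) :=
        b3.trans (mul_le_mul_of_nonneg_left (by linarith) hC1)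
      have b4' : ‖∫ x in G.Ω, q1 P₁ P₂ θ (comb U t (comb U1 t W)) (comb V' t Y) x‖
          ≤ C1 * (BU + BZ) := b4.trans (mul_le_mul_of_nonneg_left (by linarith) hC1)
      have b5' : ‖∫ x in G.Ω, q0 P₁ P₂ (comb U t (comb U1 t W)) (comb V t (comb V' t Y)) x‖
          ≤ C0 * (BU + BV) := b5.trans (mul_le_mul_of_nonneg_left (by linarith) hC0)
      have n1 : τ * ‖T‖ = ‖(τ : ℂ) * T‖ := by
        rw [norm_mul, Complex.norm_real, Real.norm_of_nonneg hτpos.le]
      rw [hexp] at hpol2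
      set I1 := ∫ x in G.Ω, q2 P₁ P₂ θ (comb U1 t W) V' x
      set I2 := ∫ x in G.Ω, q2 P₁ P₂ θ (comb U t (comb U1 t W)) Y x
      set I3 := ∫ x in G.Ω, q1 P₁ P₂ θ (comb U1 t W) V x
      set I4 := ∫ x in G.Ω, q1 P₁ P₂ θ (comb U t (comb U1 t W)) (comb V' t Y) x
      set I5 := ∫ x in G.Ω, q0 P₁ P₂ (comb U t (comb U1 t W)) (comb V t (comb V' t Y)) x
      have n2 : ‖(τ : ℂ) * T‖ ≤ ‖(τ : ℂ) * T + (I1 + I2 + I3 + I4 + I5)‖
          + ‖I1 + I2 + I3 + I4 + I5‖ := by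
        have := norm_sub_le ((τ : ℂ) * T + (I1 + I2 + I3 + I4 + I5)) (I1 + I2 + I3 + I4 + I5)
        rwa [add_sub_cancel_right] at this
      have n3 : ‖I1 + I2 + I3 + I4 + I5‖ ≤ ‖I1‖ + ‖I2‖ + ‖I3‖ + ‖I4‖ + ‖I5‖ := by
        have m1 := norm_add_le (I1 + I2 + I3 + I4) I5
        have m2 := norm_add_le (I1 + I2 + I3) I4
        have m3 := norm_add_le (I1 + I2) I3
        have m4 := norm_add_le I1 I2
        linarith
      rw [n1]
      linarith
    -- let `s → 0`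
    refine le_of_forall_pos_le_add fun δ hδ => ?_
    set s : ℝ := min 1 (δ / (Cτ + 1)) with hs
    have hs0 : 0 < s := lt_min one_pos (by positivity)
    have h1 := step s hs0 (min_le_left _ _)
    have h2 : Cτ * s ≤ δ := by
      have h3 : s ≤ δ / (Cτ + 1) := min_le_right _ _
      rw [le_div_iff₀ (by positivity)] at h3
      nlinarith
    linarith
  -- conclusion
  by_contra hne
  have hTpos : 0 < ‖T‖ := norm_pos_iff.mpr hne
  have h1 := main (max (max τU τV) ((|M'| + 1) / ‖T‖)) (le_max_left _ _)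
  have h2 : (|M'| + 1) / ‖T‖ * ‖T‖ ≤ max (max τU τV) ((|M'| + 1) / ‖T‖) * ‖T‖ :=
    mul_le_mul_of_nonneg_right (le_max_right _ _) hTpos.le
  rw [div_mul_cancel₀ _ hTpos.ne'] at h2
  have h3 := le_abs_self M'
  linarith

end Crest.Agent.R080
end
end

-- ▼ part R080/W1Defs
section

/-!
Row 80 (S0107), T13: the frame `θ = th s`, `ν = nv s`, `η = et s` and the statement of the lift
of reduced solutions to the 4×4 system (`StmtLift`).
-/

set_option autoImplicit false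

open MeasureTheory Filter
open scoped ContDiff Topology ComplexConjugate
open Crest.AnalysisR.VecCalc3 Crest.AnalysisR.PDE.Elasticity

noncomputable section
namespace Crest.Agent.R080.W1

/-- `|s₀|² + |s₁|²` -/
def nn (s : Fin 2 → ℂ) : ℂ := s 0 * conj (s 0) + s 1 * conj (s 1)
def al (s : Fin 2 → ℂ) : ℂ := conj (s 1) / nn s
def be (s : Fin 2 → ℂ) : ℂ := -conj (s 0) / nn s
/-- the unit vector `ν`, `ν·ν = 1`, `θ·ν = 0` -/
def nv (s : Fin 2 → ℂ) : Fin 3 → ℂ := fun j => al s * nu s 0 j + be s * nu s 1 j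
/-- the null vector `η`, `θ·η = 1`, `ν·η = 0` -/
def et (s : Fin 2 → ℂ) : Fin 3 → ℂ := fun j => -(1 / 2) * th ![al s, be s] j

theorem nn_ne {s : Fin 2 → ℂ} (hs : s ≠ 0) : nn s ≠ 0 := by
  intro h
  apply hs
  have h1 : nn s = ((‖s 0‖ ^ 2 + ‖s 1‖ ^ 2 : ℝ) : ℂ) := by
    simp only [nn, Complex.mul_conj, Complex.normSq_eq_norm_sq]
    push_cast
    ring
  rw [h1] at h
  have h2 : ‖s 0‖ ^ 2 + ‖s 1‖ ^ 2 = 0 := by exact_mod_cast h
  have h3 : ‖s 0‖ = 0 := by nlinarith [sq_nonneg ‖s 0‖, sq_nonneg ‖s 1‖]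
  have h4 : ‖s 1‖ = 0 := by nlinarith [sq_nonneg ‖s 0‖, sq_nonneg ‖s 1‖]
  funext i
  fin_cases i
  · simpa using h3
  · simpa using h4

theorem al_be {s : Fin 2 → ℂ} (hs : s ≠ 0) : al s * s 1 - be s * s 0 = 1 := by
  have h := nn_ne hs
  have : al s * s 1 - be s * s 0 = nn s / nn s := by
    simp only [al, be]
    rw [nn]
    ring
  rw [this, div_self h]

theorem th_eq (s : Fin 2 → ℂ) (j : Fin 3) : th s j = s 0 * nu s 0 j + s 1 * nu s 1 j := by
  fin_cases j <;> simp [th, nu] <;> ring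

theorem th_th (s : Fin 2 → ℂ) : ∑ j, th s j * th s j = 0 := by
  simp only [th, Fin.sum_univ_three, Matrix.cons_val_zero, Matrix.cons_val_one,
    Matrix.cons_val]
  linear_combination (s 0 ^ 2 + s 1 ^ 2) ^ 2 * Complex.I_sq

theorem th_nv (s : Fin 2 → ℂ) : ∑ j, th s j * nv s j = 0 := by
  simp only [th, nv, nu, Fin.sum_univ_three, Matrix.cons_val_zero, Matrix.cons_val_one,
    Matrix.cons_val, if_true, one_ne_zero, if_false]
  linear_combination (s 0 ^ 2 + s 1 ^ 2) * (al s * s 0 + be s * s 1) * Complex.I_sq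

theorem nv_nv {s : Fin 2 → ℂ} (hs : s ≠ 0) : ∑ j, nv s j * nv s j = 1 := by
  have h := al_be hs
  simp only [nv, nu, Fin.sum_univ_three, Matrix.cons_val_zero, Matrix.cons_val_one,
    Matrix.cons_val, if_true, one_ne_zero, if_false]
  linear_combination (al s * s 0 + be s * s 1) ^ 2 * Complex.I_sq +
    (al s * s 1 - be s * s 0 + 1) * h

theorem th_et {s : Fin 2 → ℂ} (hs : s ≠ 0) : ∑ j, th s j * et s j = 1 := by
  have h := al_be hs
  simp only [th, et, Fin.sum_univ_three, Matrix.cons_val_zero, Matrix.cons_val_one,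
    Matrix.cons_val]
  linear_combination (-(1 / 2) * (s 0 ^ 2 + s 1 ^ 2) * (al s ^ 2 + be s ^ 2)) * Complex.I_sq +
    (al s * s 1 - be s * s 0 + 1) * h

theorem nv_et (s : Fin 2 → ℂ) : ∑ j, nv s j * et s j = 0 := by
  simp only [nv, nu, th, et, Fin.sum_univ_three, Matrix.cons_val_zero, Matrix.cons_val_one,
    Matrix.cons_val, if_true, one_ne_zero, if_false]
  linear_combination (-(1 / 2) * (al s * s 0 + be s * s 1) * (al s ^ 2 + be s ^ 2)) *
    Complex.I_sq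

theorem et_et (s : Fin 2 → ℂ) : ∑ j, et s j * et s j = 0 := by
  have := th_th ![al s, be s]
  have h : ∑ j, et s j * et s j = (1 / 4) * ∑ j, th ![al s, be s] j * th ![al s, be s] j := by
    rw [Finset.mul_sum]
    exact Finset.sum_congr rfl fun j _ => by simp only [et]; ring
  rw [h, this, mul_zero]

theorem frame_id {s : Fin 2 → ℂ} (hs : s ≠ 0) (i j : Fin 3) :
    th s i * et s j + nv s i * nv s j + et s i * th s j = if i = j then 1 else 0 := by
  have a1 := th_th s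
  have a2 := th_nv s
  have a3 := nv_nv hs
  have a4 := th_et hs
  have a5 := nv_et s
  have a6 := et_et s
  simp only [Fin.sum_univ_three] at a1 a2 a3 a4 a5 a6
  have h1 : (Matrix.of ![th s, nv s, et s]) * (Matrix.of ![et s, nv s, th s]).transpose = 1 := by
    ext a b
    rw [Matrix.mul_apply, Fin.sum_univ_three]
    simp only [Matrix.transpose_apply, Matrix.of_apply, Matrix.one_apply]
    fin_cases a <;> fin_cases b <;> simp <;>
      first
        | linear_combination a1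
        | linear_combination a2
        | linear_combination a3
        | linear_combination a4
        | linear_combination a5
        | linear_combination a6
  have h2 := mul_eq_one_comm.1 h1
  have h3 := congrFun (congrFun h2 j) i
  rw [Matrix.mul_apply, Fin.sum_univ_three] at h3
  simp only [Matrix.transpose_apply, Matrix.of_apply, Matrix.one_apply,
    Matrix.cons_val_zero, Matrix.cons_val_one, Matrix.cons_val] at h3
  rw [show (if i = j then (1 : ℂ) else 0) = if j = i then 1 else 0 by simp only [eq_comm]]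
  linear_combination h3

/-- the frame decomposition `w = (η·w) θ + (ν·w) ν + (θ·w) η` -/
theorem decomp {s : Fin 2 → ℂ} (hs : s ≠ 0) (w : Fin 3 → ℂ) (i : Fin 3) :
    w i = (∑ j, et s j * w j) * th s i + (∑ j, nv s j * w j) * nv s i
      + (∑ j, th s j * w j) * et s i := by
  have h : w i = ∑ j, (th s i * et s j + nv s i * nv s j + et s i * th s j) * w j := by
    simp only [frame_id hs]
    simp
  rw [h]
  simp only [Finset.sum_mul, ← Finset.sum_add_distrib]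
  exact Finset.sum_congr rfl fun j _ => by ring

/-- the lift of solutions of the reduced systems to the 4×4 systems (T13b) -/
def StmtLift : Prop :=
  ∀ (G : Dom) (P₁ P₂ : Moduli) (s : Fin 2 → ℂ), s ≠ 0 →
    ∀ X Y : Option (Fin 2) → R3 → ℂ, (∀ i, ContDiff ℝ ∞ (X i)) → (∀ i, ContDiff ℝ ∞ (Y i)) →
    (∀ᶠ x in 𝓝ˢ (closure G.Ω), DSys (th s) (Amat P₁ s) X x) →
    (∀ᶠ x in 𝓝ˢ (closure G.Ω), DAdj (th s) (Amat P₂ s) Y x) →
    ∃ U V V' : Option (Fin 3) → R3 → ℂ,
      (∀ i, ContDiff ℝ ∞ (U i)) ∧ (∀ i, ContDiff ℝ ∞ (V i)) ∧ (∀ i, ContDiff ℝ ∞ (V' i)) ∧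
      (∀ᶠ x in 𝓝ˢ (closure G.Ω), ∀ i, M0 (th s) (A4 P₁) U i x = 0) ∧
      (∀ x, V none x = 0) ∧
      (∀ᶠ x in 𝓝ˢ (closure G.Ω), ∀ i, M0 (th s) (A4 P₂) V i x = 0) ∧
      (∀ᶠ x in 𝓝ˢ (closure G.Ω), ∀ i, M0 (th s) (A4 P₂) V' i x = P0 (A4 P₂) (B4 P₂) V i x) ∧
      -- `U`: g, θ·w, ν·w
      (∀ x, U none x = X none x) ∧
      (∀ x, ∑ i, th s i * U (some i) x =
        (P₁.sm x : ℂ) * (s 0 * X (some 0) x + s 1 * X (some 1) x)
          + X none x * DD (th s) (cf P₁.m) x) ∧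
      (∀ x, ∑ i, nv s i * U (some i) x =
        (P₁.sm x : ℂ) * (al s * X (some 0) x + be s * X (some 1) x)
          + X none x * DD (nv s) (cf P₁.m) x) ∧
      -- `V = (p ν, 0)`, `p = √m₂ h`, `h = s₁ Y₀ - s₀ Y₁`
      (∀ i x, V (some i) x =
        (P₂.sm x : ℂ) * (s 1 * Y (some 0) x - s 0 * Y (some 1) x) * nv s i) ∧
      -- `V'`: ĝ and θ·w'
      (∀ x, V' none x = -(al s * Y (some 1) x - be s * Y (some 0) x) / (P₂.sm x : ℂ)) ∧
      (∀ x, ∑ i, th s i * V' (some i) x =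
        Y none x + V' none x * DD (th s) (cf P₂.m) x
          + DD (nv s) (fun y => (P₂.sm y : ℂ) * (s 1 * Y (some 0) y - s 0 * Y (some 1) y)) x)

end Crest.Agent.R080.W1
end
end

-- ▼ part R080/W1LiftA
section

/-!
Row 80 (S0107), T13b: lifts of solutions of the reduced 3×3 systems to amplitudes of the 4×4
system. (helper80)
-/

set_option autoImplicit false

open MeasureTheory Filter
open scoped ContDiff Topology ComplexConjugate
open Crest.AnalysisR.VecCalc3 Crest.AnalysisR.PDE.Elasticity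

noncomputable section
namespace Crest.Agent.R080.W1L

open Crest.Agent.R080.W1 (nv et al be)

/-! ### frame -/

open Crest.Agent.R080.W1 (th_th th_nv nv_nv th_et nv_et et_et decomp th_eq al_be)

lemma et_th {s : Fin 2 → ℂ} (hs : s ≠ 0) : ∑ k, et s k * th s k = 1 := by
  simpa only [mul_comm] using th_et hs
lemma et_nv (s : Fin 2 → ℂ) : ∑ k, et s k * nv s k = 0 := by
  simpa only [mul_comm] using nv_et s

lemma frame_zero {s : Fin 2 → ℂ} (hs : s ≠ 0) (v : Fin 3 → ℂ) (h1 : ∑ k, th s k * v k = 0)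
    (h2 : ∑ k, nv s k * v k = 0) (h3 : ∑ k, et s k * v k = 0) (i : Fin 3) : v i = 0 := by
  rw [decomp hs v i, h1, h2, h3]
  ring

/-- `e · w` for a constant vector `e` -/
def dotc (e : Fin 3 → ℂ) (U : Option (Fin 3) → R3 → ℂ) (x : R3) : ℂ := ∑ k, e k * U (some k) x


lemma diff_of {f : R3 → ℂ} (hf : ContDiff ℝ ∞ f) : Differentiable ℝ f :=
  hf.differentiable (by simp)


lemma pd_sum {n : ℕ} (F : Fin n → R3 → ℂ) (hF : ∀ k, ContDiff ℝ ∞ (F k)) (j : Fin 3) (x : R3) :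
    pd j (fun y => ∑ k, F k y) x = ∑ k, pd j (F k) x := by
  unfold pd
  rw [fderiv_fun_sum fun i _ => diff_of (hF i) x]
  simp

lemma DD_sum {n : ℕ} (F : Fin n → R3 → ℂ) (hF : ∀ k, ContDiff ℝ ∞ (F k)) (θ : Fin 3 → ℂ) (x : R3) :
    DD θ (fun y => ∑ k, F k y) x = ∑ k, DD θ (F k) x := by
  unfold DD
  simp_rw [pd_sum F hF, Finset.mul_sum]
  exact Finset.sum_comm

lemma DD_dotc (θ e : Fin 3 → ℂ) {U : Option (Fin 3) → R3 → ℂ} (hU : ∀ i, ContDiff ℝ ∞ (U i))
    (x : R3) : DD θ (dotc e U) x = ∑ k, e k * DD θ (U (some k)) x := by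
  unfold dotc
  rw [DD_sum (fun k y => e k * U (some k) y) (fun k => contDiff_const.mul (hU _))]
  exact Finset.sum_congr rfl fun k _ => Gg.DD_const_mul (diff_of (hU _)) _ _ _



lemma pd_DD {f : R3 → ℂ} (hf : ContDiff ℝ ∞ f) (θ : Fin 3 → ℂ) (i : Fin 3) (x : R3) :
    pd i (DD θ f) x = ∑ j, θ j * pd i (pd j f) x := by
  rw [← Gg.DD_pd_comm hf]
  unfold DD
  exact Finset.sum_congr rfl fun j _ => by rw [Gg.pd_pd_comm hf]

lemma DD_DD {f : R3 → ℂ} (hf : ContDiff ℝ ∞ f) (e θ : Fin 3 → ℂ) (x : R3) :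
    DD e (DD θ f) x = ∑ i, ∑ j, e i * θ j * pd i (pd j f) x := by
  have : DD e (DD θ f) x = ∑ i, e i * pd i (DD θ f) x := rfl
  rw [this]
  refine Finset.sum_congr rfl fun i _ => ?_
  rw [pd_DD hf, Finset.mul_sum]
  exact Finset.sum_congr rfl fun j _ => by ring

lemma DD_comm {f : R3 → ℂ} (hf : ContDiff ℝ ∞ f) (e θ : Fin 3 → ℂ) (x : R3) :
    DD e (DD θ f) x = DD θ (DD e f) x := by
  rw [DD_DD hf, DD_DD hf, Finset.sum_comm]
  refine Finset.sum_congr rfl fun i _ => Finset.sum_congr rfl fun j _ => ?_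
  rw [Gg.pd_pd_comm hf]
  ring

/-! ### derivatives of the moduli -/

section mod
variable (P : Moduli)

lemma csm_ne (x : R3) : (P.sm x : ℂ) ≠ 0 := Complex.ofReal_ne_zero.2 (Gg.sm_ne P x)
lemma cm_eq (x : R3) : (P.m x : ℂ) = (P.sm x : ℂ) ^ 2 := by
  rw [← Gg.sm_sq P x]; push_cast; rfl
lemma cmu_eq (x : R3) : (P.mu x : ℂ) = ((P.sm x : ℂ) ^ 2)⁻¹ := by
  rw [← cm_eq]
  have : P.mu x = (P.m x)⁻¹ := by unfold Moduli.m; rw [inv_inv]
  rw [this]; push_cast; rfl

lemma smooth_m : ContDiff ℝ ∞ (cf P.m) := Gg.contDiff_cm P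
lemma smooth_sm : ContDiff ℝ ∞ (cf P.sm) := Gg.contDiff_csm P
lemma smooth_mu : ContDiff ℝ ∞ (cf P.mu) := Gg.contDiff_cmu P

lemma DD_m (e : Fin 3 → ℂ) (x : R3) :
    DD e (cf P.m) x = 2 * (P.sm x : ℂ) * DD e (cf P.sm) x := by
  have h : cf P.m = fun y => cf P.sm y * cf P.sm y := by
    funext y
    show (P.m y : ℂ) = (P.sm y : ℂ) * (P.sm y : ℂ)
    rw [cm_eq]; ring
  rw [h, Gg.DD_mul (diff_of (smooth_sm P)) (diff_of (smooth_sm P))]
  ring

lemma DD_sm (e : Fin 3 → ℂ) (x : R3) :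
    DD e (cf P.sm) x = DD e (cf P.m) x / (2 * (P.sm x : ℂ)) := by
  have h := csm_ne P x
  rw [DD_m]
  field_simp

lemma DD_mu (e : Fin 3 → ℂ) (x : R3) :
    DD e (cf P.mu) x = -DD e (cf P.m) x / (P.sm x : ℂ) ^ 4 := by
  have h := csm_ne P x
  have h1 : (fun y => cf P.mu y * cf P.m y) = fun _ => (1 : ℂ) := by
    funext y
    show (P.mu y : ℂ) * (P.m y : ℂ) = 1
    exact_mod_cast Gg.mu_mul_m P y
  have h2 := Gg.DD_mul (diff_of (smooth_mu P)) (diff_of (smooth_m P)) e x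
  rw [h1, Gg.DD_const] at h2
  have h3 : (P.mu x : ℂ) * DD e (cf P.m) x + (P.m x : ℂ) * DD e (cf P.mu) x = 0 := h2.symm
  rw [cm_eq, cmu_eq] at h3
  field_simp at h3 ⊢
  linear_combination h3

lemma DD_DD_mu (e θ : Fin 3 → ℂ) (x : R3) :
    DD e (DD θ (cf P.mu)) x = -DD e (DD θ (cf P.m)) x / (P.sm x : ℂ) ^ 4
      + 2 * DD e (cf P.m) x * DD θ (cf P.m) x / (P.sm x : ℂ) ^ 6 := by
  have h := csm_ne P x
  have hs := smooth_sm P
  have hm := smooth_m P
  have hθ := Gg.contDiff_DD hm θ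
  have hmu := Gg.contDiff_DD (smooth_mu P) θ
  have h1 : (fun y => (cf P.m y * cf P.m y) * DD θ (cf P.mu) y) = fun y => -DD θ (cf P.m) y := by
    funext y
    have hy := csm_ne P y
    show ((P.m y : ℂ) * (P.m y : ℂ)) * DD θ (cf P.mu) y = -DD θ (cf P.m) y
    rw [DD_mu, cm_eq]
    field_simp
  have h2 := Gg.DD_mul (f := fun y => cf P.m y * cf P.m y) (g := DD θ (cf P.mu))
    (diff_of (hm.mul hm)) (diff_of hmu) e x
  rw [h1, Gg.DD_neg, Gg.DD_mul (diff_of hm) (diff_of hm)] at h2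
  have h3 : -DD e (DD θ (cf P.m)) x = ((P.m x : ℂ) * (P.m x : ℂ)) * DD e (DD θ (cf P.mu)) x
      + DD θ (cf P.mu) x * ((P.m x : ℂ) * DD e (cf P.m) x + (P.m x : ℂ) * DD e (cf P.m) x) := h2
  rw [DD_mu, cm_eq] at h3
  field_simp at h3 ⊢
  linear_combination -h3

lemma cc_lam_mu (x : R3) :
    (P.cc x : ℂ) * ((P.lam x : ℂ) + (P.mu x : ℂ)) = 2 * (P.kap x : ℂ) := by
  have : P.cc x * (P.lam x + P.mu x) = 2 * P.kap x := by
    unfold Moduli.cc Moduli.kap
    have := (Gg.lam_two_mu_pos P x).ne'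
    field_simp
  exact_mod_cast this

lemma cc_kap (x : R3) : (P.cc x : ℂ) + 2 * (P.kap x : ℂ) * (P.m x : ℂ) = 1 := by
  have : P.cc x + 2 * P.kap x * P.m x = 1 := by
    unfold Moduli.cc Moduli.kap Moduli.m
    have h1 := (Gg.lam_two_mu_pos P x).ne'
    have h2 := Gg.mu_ne P x
    have h3 : P.mu x / (P.lam x + 2 * P.mu x) +
        2 * ((P.lam x + P.mu x) * P.mu x / (2 * (P.lam x + 2 * P.mu x))) * (P.mu x)⁻¹
        = (P.lam x + 2 * P.mu x) / (P.lam x + 2 * P.mu x) := by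
      field_simp
      ring
    rw [h3, div_self h1]
  exact_mod_cast this

end mod

/-! ### contractions of the transport operator -/

lemma M0_some (P : Moduli) (θ : Fin 3 → ℂ) (U : Option (Fin 3) → R3 → ℂ) (k : Fin 3) (x : R3) :
    M0 θ (A4 P) U (some k) x = 2 * DD θ (U (some k)) x
      + (P.m x : ℂ) * DD θ (cf P.mu) x * U (some k) x
      - (P.m x : ℂ) * pd k (cf P.mu) x * dotc θ U x
      - 2 * (∑ j, θ j * pd k (pd j (cf P.m)) x) * U none x := by
  unfold M0 dotc DD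
  simp only [Fintype.sum_option, A4, Fin.sum_univ_three]
  fin_cases k <;> simp <;> ring

lemma M0_none (P : Moduli) (θ : Fin 3 → ℂ) (U : Option (Fin 3) → R3 → ℂ) (x : R3) :
    M0 θ (A4 P) U none x = 2 * DD θ (U none) x + 2 * (P.kap x : ℂ) * dotc θ U x := by
  rw [← cc_lam_mu]
  unfold M0 dotc DD
  simp only [Fintype.sum_option, A4, Fin.sum_univ_three]
  simp
  ring

lemma M0_contr (P : Moduli) (θ e : Fin 3 → ℂ) {U : Option (Fin 3) → R3 → ℂ}
    (hU : ∀ i, ContDiff ℝ ∞ (U i)) (x : R3) :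
    ∑ k, e k * M0 θ (A4 P) U (some k) x = 2 * DD θ (dotc e U) x
      - DD θ (cf P.m) x / (P.sm x : ℂ) ^ 2 * dotc e U x
      + DD e (cf P.m) x / (P.sm x : ℂ) ^ 2 * dotc θ U x
      - 2 * DD e (DD θ (cf P.m)) x * U none x := by
  have h := csm_ne P x
  have h1 : (P.m x : ℂ) * DD θ (cf P.mu) x = -DD θ (cf P.m) x / (P.sm x : ℂ) ^ 2 := by
    rw [DD_mu, cm_eq]; field_simp
  have h2 : (P.m x : ℂ) * DD e (cf P.mu) x = -DD e (cf P.m) x / (P.sm x : ℂ) ^ 2 := by
    rw [DD_mu, cm_eq]; field_simp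
  have e1 : ∑ k, e k * M0 θ (A4 P) U (some k) x = 2 * (∑ k, e k * DD θ (U (some k)) x)
      + (P.m x : ℂ) * DD θ (cf P.mu) x * (∑ k, e k * U (some k) x)
      - (P.m x : ℂ) * (∑ k, e k * pd k (cf P.mu) x) * dotc θ U x
      - 2 * (∑ k, ∑ j, e k * θ j * pd k (pd j (cf P.m)) x) * U none x := by
    simp_rw [M0_some]
    simp only [Fin.sum_univ_three]
    ring
  rw [e1, ← DD_dotc θ e hU, ← DD_DD (smooth_m P)]
  have h3 : ∑ k, e k * pd k (cf P.mu) x = DD e (cf P.mu) x := rfl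
  have h4 : ∑ k, e k * U (some k) x = dotc e U x := rfl
  rw [h3, h4, h1, h2]
  ring

/-- scalar transport equations are solvable on balls -/
lemma solveD (hRI : StmtRI) {θ : Fin 3 → ℂ} (hθ : IsNull θ) {a φ : R3 → ℂ} (ha : ContDiff ℝ ∞ a)
    (hφ : ContDiff ℝ ∞ φ) (R : ℝ) (hR : 0 < R) :
    ∃ ψ : R3 → ℂ, ContDiff ℝ ∞ ψ ∧ ∀ x : R3, ‖x‖ < R → DD θ ψ x = a x * ψ x + φ x := by
  obtain ⟨χ, hχ, hχc, hχ1, -, -⟩ := Gg.exists_cutoff R (R + 1) hR (by linarith)
  obtain ⟨M, hM⟩ := hRI Unit Unit (fun _ => θ) continuous_const (fun _ => hθ)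
    (fun _ _ _ => a) (fun _ _ _ => ha) (fun _ _ => ha.continuous.comp continuous_snd) R ()
  have hM' := hM.self_of_nhds
  obtain ⟨b, hb⟩ := (hχ.mul hφ).continuous.bounded_above_of_compact_support hχc.mul_right
  obtain ⟨ψ, hψ, h1, -⟩ := hM' (fun _ => fun y => χ y * φ y) (fun _ => hχ.mul hφ) b
    (fun _ x => hb x)
  refine ⟨ψ (), hψ (), fun x hx => ?_⟩
  have := h1 x hx ()
  simp only [Finset.univ_unique, Finset.sum_singleton] at this
  rw [hχ1 x hx.le, one_mul] at this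
  exact this

/-- the amplitude with prescribed `g` and contractions `a = θ·w`, `b = ν·w`, `c = η·w` -/
def ampl (s : Fin 2 → ℂ) (g a b c : R3 → ℂ) : Option (Fin 3) → R3 → ℂ
  | none => g
  | some k => fun x => a x * et s k + b x * nv s k + c x * th s k

lemma contDiff_ampl (s : Fin 2 → ℂ) {g a b c : R3 → ℂ} (hg : ContDiff ℝ ∞ g)
    (ha : ContDiff ℝ ∞ a) (hb : ContDiff ℝ ∞ b) (hc : ContDiff ℝ ∞ c) (i : Option (Fin 3)) :
    ContDiff ℝ ∞ (ampl s g a b c i) := by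
  cases i with
  | none => exact hg
  | some k =>
    exact ((ha.mul contDiff_const).add (hb.mul contDiff_const)).add (hc.mul contDiff_const)

lemma dotc_th_ampl {s : Fin 2 → ℂ} (hs : s ≠ 0) (g a b c : R3 → ℂ) :
    dotc (th s) (ampl s g a b c) = a := by
  funext x
  have e1 := th_th s
  have e2 := th_nv s
  have e4 : ∑ k, th s k * et s k = 1 := by simpa only [mul_comm] using et_th hs
  have : dotc (th s) (ampl s g a b c) x = a x * (∑ k, th s k * et s k)
      + b x * (∑ k, th s k * nv s k) + c x * ∑ k, th s k * th s k := by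
    simp only [dotc, ampl, Finset.mul_sum, ← Finset.sum_add_distrib]
    exact Finset.sum_congr rfl fun k _ => by ring
  rw [this, e1, e2, e4]
  ring

lemma dotc_nv_ampl {s : Fin 2 → ℂ} (hs : s ≠ 0) (g a b c : R3 → ℂ) :
    dotc (nv s) (ampl s g a b c) = b := by
  funext x
  have e1 : ∑ k, nv s k * th s k = 0 := by simpa only [mul_comm] using th_nv s
  have e2 := nv_nv hs
  have e4 : ∑ k, nv s k * et s k = 0 := by simpa only [mul_comm] using et_nv (s := s)
  have : dotc (nv s) (ampl s g a b c) x = a x * (∑ k, nv s k * et s k)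
      + b x * (∑ k, nv s k * nv s k) + c x * ∑ k, nv s k * th s k := by
    simp only [dotc, ampl, Finset.mul_sum, ← Finset.sum_add_distrib]
    exact Finset.sum_congr rfl fun k _ => by ring
  rw [this, e1, e2, e4]
  ring

lemma dotc_et_ampl {s : Fin 2 → ℂ} (hs : s ≠ 0) (g a b c : R3 → ℂ) :
    dotc (et s) (ampl s g a b c) = c := by
  funext x
  have e1 := et_th hs
  have e2 := et_nv (s := s)
  have e4 := et_et s
  have : dotc (et s) (ampl s g a b c) x = a x * (∑ k, et s k * et s k)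
      + b x * (∑ k, et s k * nv s k) + c x * ∑ k, et s k * th s k := by
    simp only [dotc, ampl, Finset.mul_sum, ← Finset.sum_add_distrib]
    exact Finset.sum_congr rfl fun k _ => by ring
  rw [this, e1, e2, e4]
  ring

lemma DD_th_split (s : Fin 2 → ℂ) (f : R3 → ℂ) (x : R3) :
    DD (th s) f x = s 0 * DD (nu s 0) f x + s 1 * DD (nu s 1) f x := by
  simp only [DD, Finset.mul_sum, ← Finset.sum_add_distrib]
  exact Finset.sum_congr rfl fun k _ => by rw [th_eq]; ring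

lemma DD_nv_split (s : Fin 2 → ℂ) (f : R3 → ℂ) (x : R3) :
    DD (nv s) f x = al s * DD (nu s 0) f x + be s * DD (nu s 1) f x := by
  simp only [DD, Finset.mul_sum, ← Finset.sum_add_distrib]
  exact Finset.sum_congr rfl fun k _ => by simp only [nv]; ring

/-- general principle: `M0 U = F` near a set if all contractions agree -/
lemma M0_of_contr {P : Moduli} {s : Fin 2 → ℂ} (hs : s ≠ 0) {U : Option (Fin 3) → R3 → ℂ}
    (F : Option (Fin 3) → ℂ) (x : R3)
    (h0 : M0 (th s) (A4 P) U none x = F none)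
    (h1 : ∑ k, th s k * M0 (th s) (A4 P) U (some k) x = ∑ k, th s k * F (some k))
    (h2 : ∑ k, nv s k * M0 (th s) (A4 P) U (some k) x = ∑ k, nv s k * F (some k))
    (h3 : ∑ k, et s k * M0 (th s) (A4 P) U (some k) x = ∑ k, et s k * F (some k)) :
    ∀ i, M0 (th s) (A4 P) U i x = F i := by
  intro i
  cases i with
  | none => exact h0
  | some k =>
    have := frame_zero hs (fun k => M0 (th s) (A4 P) U (some k) x - F (some k))
      (by simp only [mul_sub, Finset.sum_sub_distrib]; rw [h1]; ring)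
      (by simp only [mul_sub, Finset.sum_sub_distrib]; rw [h2]; ring)
      (by simp only [mul_sub, Finset.sum_sub_distrib]; rw [h3]; ring) k
    exact sub_eq_zero.1 this


/-- `θ·w` of the lift of `X` -/
def Ua (P : Moduli) (s : Fin 2 → ℂ) (X : Option (Fin 2) → R3 → ℂ) (x : R3) : ℂ :=
  (P.sm x : ℂ) * (s 0 * X (some 0) x + s 1 * X (some 1) x) + X none x * DD (th s) (cf P.m) x

/-- `ν·w` of the lift of `X` -/
def Ub (P : Moduli) (s : Fin 2 → ℂ) (X : Option (Fin 2) → R3 → ℂ) (x : R3) : ℂ :=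
  (P.sm x : ℂ) * (al s * X (some 0) x + be s * X (some 1) x) + X none x * DD (nv s) (cf P.m) x

lemma smooth_Ua (P : Moduli) (s : Fin 2 → ℂ) {X : Option (Fin 2) → R3 → ℂ}
    (hX : ∀ i, ContDiff ℝ ∞ (X i)) : ContDiff ℝ ∞ (Ua P s X) := by
  unfold Ua
  exact ((smooth_sm P).mul ((contDiff_const.mul (hX _)).add (contDiff_const.mul (hX _)))).add
    ((hX _).mul (Gg.contDiff_DD (smooth_m P) _))

lemma smooth_Ub (P : Moduli) (s : Fin 2 → ℂ) {X : Option (Fin 2) → R3 → ℂ}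
    (hX : ∀ i, ContDiff ℝ ∞ (X i)) : ContDiff ℝ ∞ (Ub P s X) := by
  unfold Ub
  exact ((smooth_sm P).mul ((contDiff_const.mul (hX _)).add (contDiff_const.mul (hX _)))).add
    ((hX _).mul (Gg.contDiff_DD (smooth_m P) _))

lemma DD_combo (P : Moduli) {θ e : Fin 3 → ℂ} (p q : ℂ) {X : Option (Fin 2) → R3 → ℂ}
    (hX : ∀ i, ContDiff ℝ ∞ (X i)) (x : R3) :
    DD θ (fun y => (P.sm y : ℂ) * (p * X (some 0) y + q * X (some 1) y)
        + X none y * DD e (cf P.m) y) x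
      = (P.sm x : ℂ) * (p * DD θ (X (some 0)) x + q * DD θ (X (some 1)) x)
        + DD θ (cf P.m) x / (2 * (P.sm x : ℂ)) * (p * X (some 0) x + q * X (some 1) x)
        + X none x * DD e (DD θ (cf P.m)) x + DD e (cf P.m) x * DD θ (X none) x := by
  have hm := smooth_m P
  have hs := smooth_sm P
  have h0 : ContDiff ℝ ∞ (fun y => p * X (some 0) y + q * X (some 1) y) :=
    (contDiff_const.mul (hX _)).add (contDiff_const.mul (hX _))
  rw [Gg.DD_add (f := fun y => (P.sm y : ℂ) * (p * X (some 0) y + q * X (some 1) y))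
    (g := fun y => X none y * DD e (cf P.m) y) (diff_of (hs.mul h0))
    (diff_of ((hX _).mul (Gg.contDiff_DD hm _))),
    Gg.DD_mul (f := fun y => (P.sm y : ℂ)) (g := fun y => p * X (some 0) y + q * X (some 1) y)
      (diff_of hs) (diff_of h0),
    Gg.DD_add (f := fun y => p * X (some 0) y) (g := fun y => q * X (some 1) y)
      (diff_of (contDiff_const.mul (hX _))) (diff_of (contDiff_const.mul (hX _))),
    Gg.DD_const_mul (diff_of (hX _)), Gg.DD_const_mul (diff_of (hX _)),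
    Gg.DD_mul (diff_of (hX _)) (diff_of (Gg.contDiff_DD hm _)), DD_comm hm e θ]
  have h1 : DD θ (fun y => (P.sm y : ℂ)) x = DD θ (cf P.m) x / (2 * (P.sm x : ℂ)) := DD_sm P θ x
  rw [h1]
  ring

/-- the lift of a solution of the reduced system to an amplitude of the 4×4 system -/
theorem lift_U (hRI : StmtRI) (G : Dom) (P : Moduli) {s : Fin 2 → ℂ} (hs : s ≠ 0)
    {X : Option (Fin 2) → R3 → ℂ} (hX : ∀ i, ContDiff ℝ ∞ (X i))
    (hsys : ∀ᶠ x in 𝓝ˢ (closure G.Ω), DSys (th s) (Amat P s) X x) :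
    ∃ U : Option (Fin 3) → R3 → ℂ, (∀ i, ContDiff ℝ ∞ (U i)) ∧ U none = X none ∧
      dotc (th s) U = Ua P s X ∧ dotc (nv s) U = Ub P s X ∧
      ∀ᶠ x in 𝓝ˢ (closure G.Ω), ∀ i, M0 (th s) (A4 P) U i x = 0 := by
  have hm := smooth_m P
  have hsm := smooth_sm P
  have ha := smooth_Ua P s hX
  have hb := smooth_Ub P s hX
  obtain ⟨R, hR, hball⟩ := Gg.dom_exists_ball G
  -- the `η` component
  have hsm2 : ∀ y, (2 * ((P.sm y : ℂ) ^ 2)) ≠ 0 := fun y =>
    mul_ne_zero two_ne_zero (pow_ne_zero _ (csm_ne P y))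
  have hden : ContDiff ℝ ∞ (fun y => (2 * ((P.sm y : ℂ) ^ 2))) := contDiff_const.mul (hsm.pow 2)
  obtain ⟨c, hc, hceq⟩ := solveD hRI (Gg.isNull_th hs)
    (a := fun y => DD (th s) (cf P.m) y / (2 * ((P.sm y : ℂ) ^ 2)))
    (φ := fun y => -(DD (et s) (cf P.m) y / (2 * ((P.sm y : ℂ) ^ 2))) * Ua P s X y
      + DD (et s) (DD (th s) (cf P.m)) y * X none y)
    (Gg.contDiff_cdiv (Gg.contDiff_DD hm _) hden hsm2)
    (((Gg.contDiff_cdiv (Gg.contDiff_DD hm _) hden hsm2).neg.mul ha).add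
      ((Gg.contDiff_DD (Gg.contDiff_DD hm _) _).mul (hX _))) R hR
  refine ⟨ampl s (X none) (Ua P s X) (Ub P s X) c, contDiff_ampl s (hX _) ha hb hc, rfl,
    dotc_th_ampl hs _ _ _ _, dotc_nv_ampl hs _ _ _ _, ?_⟩
  have hballE : ∀ᶠ x in 𝓝ˢ (closure G.Ω), ‖x‖ < R := by
    have : Metric.ball (0 : R3) R ∈ 𝓝ˢ (closure G.Ω) :=
      Metric.isOpen_ball.mem_nhdsSet.2 hball
    filter_upwards [this] with x hx
    simpa using hx
  filter_upwards [hsys, hballE] with x hx hxR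
  have hne := csm_ne P x
  have hg := hx none
  have h0 := hx (some 0)
  have h1 := hx (some 1)
  simp only [Fintype.sum_option, Fin.sum_univ_two, Amat, cm_eq] at hg h0 h1
  have hth := DD_th_split s (cf P.m) x
  have hnv := DD_nv_split s (cf P.m) x
  have hUs := contDiff_ampl s (hX none) ha hb hc
  have hab := al_be hs
  have hDa : DD (th s) (Ua P s X) x = _ := DD_combo P (θ := th s) (e := th s) (s 0) (s 1) hX x
  have hDb : DD (th s) (Ub P s X) x = _ := DD_combo P (θ := th s) (e := nv s) (al s) (be s) hX x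
  refine M0_of_contr hs (fun _ => 0) x ?_ ?_ ?_ ?_
  · rw [M0_none, dotc_th_ampl hs]
    show 2 * DD (th s) (X none) x + 2 * (P.kap x : ℂ) * Ua P s X x = 0
    rw [hg]
    simp only [Ua]
    ring
  · rw [M0_contr P _ _ hUs, dotc_th_ampl hs]
    show 2 * DD (th s) (Ua P s X) x - DD (th s) (cf P.m) x / (P.sm x : ℂ) ^ 2 * Ua P s X x
      + DD (th s) (cf P.m) x / (P.sm x : ℂ) ^ 2 * Ua P s X x
      - 2 * DD (th s) (DD (th s) (cf P.m)) x * X none x = ∑ k, th s k * 0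
    rw [hDa, hg, h0, h1, hth]
    simp only [mul_zero, Finset.sum_const_zero]
    field_simp
    ring
  · rw [M0_contr P _ _ hUs, dotc_th_ampl hs, dotc_nv_ampl hs]
    show 2 * DD (th s) (Ub P s X) x - DD (th s) (cf P.m) x / (P.sm x : ℂ) ^ 2 * Ub P s X x
      + DD (nv s) (cf P.m) x / (P.sm x : ℂ) ^ 2 * Ua P s X x
      - 2 * DD (nv s) (DD (th s) (cf P.m)) x * X none x = ∑ k, nv s k * 0
    rw [hDb, hg, h0, h1]
    simp only [Ua, Ub, mul_zero, Finset.sum_const_zero]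
    rw [hnv, hth]
    field_simp
    ring
  · rw [M0_contr P _ _ hUs, dotc_th_ampl hs, dotc_et_ampl hs]
    show 2 * DD (th s) c x - DD (th s) (cf P.m) x / (P.sm x : ℂ) ^ 2 * c x
      + DD (et s) (cf P.m) x / (P.sm x : ℂ) ^ 2 * Ua P s X x
      - 2 * DD (et s) (DD (th s) (cf P.m)) x * X none x = ∑ k, et s k * 0
    rw [hceq x hxR]
    simp only [mul_zero, Finset.sum_const_zero]
    field_simp
    ring

end Crest.Agent.R080.W1L
end
private theorem rz_5bd0b6f3b0 : type_of% @_root_.Crest.Agent.R080.W1L.ampl.eq_1 := @_root_.Crest.Agent.R080.W1L.ampl.eq_1 -- L263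
end

-- ▼ part R080/W1Lift
section

/-!
Row 80 (S0107), T13b: the lifts `Y ↦ V, V'` and `W1.t_Lift`. (helper80)
-/

set_option autoImplicit false

open MeasureTheory Filter
open scoped ContDiff Topology ComplexConjugate
open Crest.AnalysisR.VecCalc3 Crest.AnalysisR.PDE.Elasticity

noncomputable section
namespace Crest.Agent.R080.W1L

open Crest.Agent.R080.W1 (nv et al be)
open Crest.Agent.R080.W1 (th_th th_nv nv_nv th_et nv_et et_et decomp th_eq al_be)

/-! ### the second order operator on fields `(p e, 0)` with constant direction -/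

/-- the field `(p e, 0)` -/
def shear (p : R3 → ℂ) (e : Fin 3 → ℂ) : Option (Fin 3) → R3 → ℂ
  | none => fun _ => 0
  | some k => fun x => p x * e k

lemma contDiff_shear {p : R3 → ℂ} (hp : ContDiff ℝ ∞ p) (e : Fin 3 → ℂ) (i : Option (Fin 3)) :
    ContDiff ℝ ∞ (shear p e i) := by
  cases i with
  | none => exact contDiff_const
  | some k => exact hp.mul contDiff_const

lemma pd_mul_const {p : R3 → ℂ} (hp : ContDiff ℝ ∞ p) (c : ℂ) (j : Fin 3) :
    pd j (fun y => p y * c) = fun y => pd j p y * c := by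
  funext y
  have : (fun y => p y * c) = fun y => c * p y := by funext y; ring
  rw [this, Gg.pd_const_mul (diff_of hp)]
  ring

lemma Lap_mul_const {p : R3 → ℂ} (hp : ContDiff ℝ ∞ p) (c : ℂ) (x : R3) :
    Lap (fun y => p y * c) x = Lap p x * c := by
  unfold Lap
  simp_rw [pd_mul_const hp, pd_mul_const (Gg.contDiff_pd hp _)]
  rw [Finset.sum_mul]

lemma pd_zero (j : Fin 3) (x : R3) : pd j (fun _ => (0 : ℂ)) x = 0 := Gg.pd_const 0 j x

lemma P0_shear_some (P : Moduli) {p : R3 → ℂ} (hp : ContDiff ℝ ∞ p) (e : Fin 3 → ℂ) (k : Fin 3)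
    (x : R3) :
    P0 (A4 P) (B4 P) (shear p e) (some k) x = Lap p x * e k
      + (P.m x : ℂ) * (∑ j, pd j (cf P.mu) x * pd j p x) * e k
      - (P.m x : ℂ) * pd k (cf P.mu) x * DD e p x
      - (P.m x : ℂ) * p x * ∑ l, e l * pd k (pd l (cf P.mu)) x := by
  unfold P0
  have h1 : Lap (shear p e (some k)) x = Lap p x * e k := Lap_mul_const hp _ x
  have h2 : ∀ l j, pd j (shear p e (some l)) x = pd j p x * e l := fun l j =>
    congrFun (pd_mul_const hp (e l) j) x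
  have h3 : ∀ j, pd j (shear p e none) x = 0 := fun j => pd_zero j x
  rw [h1]
  simp only [Fintype.sum_option, h2, h3, mul_zero, zero_add]
  have h4 : shear p e none x = 0 := rfl
  have h5 : ∀ l, shear p e (some l) x = p x * e l := fun _ => rfl
  simp only [h4, h5, A4, B4, DD, Fin.sum_univ_three]
  fin_cases k <;> simp <;> ring

lemma P0_shear_none (P : Moduli) {p : R3 → ℂ} (hp : ContDiff ℝ ∞ p) (e : Fin 3 → ℂ) (x : R3) :
    P0 (A4 P) (B4 P) (shear p e) none x = 2 * (P.kap x : ℂ) * DD e p x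
      + (P.cc x : ℂ) * p x * DD e (cf P.mu) x := by
  rw [← cc_lam_mu]
  unfold P0
  have h1 : Lap (shear p e none) x = 0 := by
    show Lap (fun _ => (0 : ℂ)) x = 0
    unfold Lap
    have : ∀ j : Fin 3, pd j (fun _ : R3 => (0 : ℂ)) = fun _ => 0 := fun j =>
      funext fun y => pd_zero j y
    simp [this]
  have h2 : ∀ l j, pd j (shear p e (some l)) x = pd j p x * e l := fun l j =>
    congrFun (pd_mul_const hp (e l) j) x
  have h3 : ∀ j, pd j (shear p e none) x = 0 := fun j => pd_zero j x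
  rw [h1]
  simp only [Fintype.sum_option, h2, h3, mul_zero, zero_add]
  have h4 : shear p e none x = 0 := rfl
  have h5 : ∀ l, shear p e (some l) x = p x * e l := fun _ => rfl
  simp only [h4, h5, A4, B4, DD, Fin.sum_univ_three]
  simp
  ring

lemma P0_shear_contr (P : Moduli) {p : R3 → ℂ} (hp : ContDiff ℝ ∞ p) (e f : Fin 3 → ℂ) (x : R3) :
    ∑ k, f k * P0 (A4 P) (B4 P) (shear p e) (some k) x
      = (∑ k, f k * e k) * (Lap p x + (P.m x : ℂ) * ∑ j, pd j (cf P.mu) x * pd j p x)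
        - (P.m x : ℂ) * DD f (cf P.mu) x * DD e p x
        - (P.m x : ℂ) * p x * DD f (DD e (cf P.mu)) x := by
  simp_rw [P0_shear_some P hp, DD_DD (smooth_mu P)]
  simp only [DD, Fin.sum_univ_three]
  ring

/-! ### the lift -/

/-- `h = s₁ Y₀ - s₀ Y₁` -/
def hY (s : Fin 2 → ℂ) (Y : Option (Fin 2) → R3 → ℂ) (x : R3) : ℂ :=
  s 1 * Y (some 0) x - s 0 * Y (some 1) x

/-- `p = √m h` -/
def pY (P : Moduli) (s : Fin 2 → ℂ) (Y : Option (Fin 2) → R3 → ℂ) (x : R3) : ℂ :=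
  (P.sm x : ℂ) * (s 1 * Y (some 0) x - s 0 * Y (some 1) x)

/-- `Ĝ = - (α Y₁ - β Y₀)/√m` -/
def GY (P : Moduli) (s : Fin 2 → ℂ) (Y : Option (Fin 2) → R3 → ℂ) (x : R3) : ℂ :=
  -(al s * Y (some 1) x - be s * Y (some 0) x) / (P.sm x : ℂ)

/-- `θ·w'` -/
def AY (P : Moduli) (s : Fin 2 → ℂ) (Y : Option (Fin 2) → R3 → ℂ) (x : R3) : ℂ :=
  Y none x + GY P s Y x * DD (th s) (cf P.m) x + DD (nv s) (pY P s Y) x

section
variable (P : Moduli) (s : Fin 2 → ℂ) {Y : Option (Fin 2) → R3 → ℂ} (hY' : ∀ i, ContDiff ℝ ∞ (Y i))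
include hY'

lemma smooth_hY : ContDiff ℝ ∞ (hY s Y) := by
  unfold hY
  exact (contDiff_const.mul (hY' _)).sub (contDiff_const.mul (hY' _))

lemma smooth_pY : ContDiff ℝ ∞ (pY P s Y) := (smooth_sm P).mul (smooth_hY s hY')

lemma smooth_GY : ContDiff ℝ ∞ (GY P s Y) := by
  unfold GY
  exact Gg.contDiff_cdiv ((contDiff_const.mul (hY' _)).sub (contDiff_const.mul (hY' _))).neg
    (smooth_sm P) (csm_ne P)

lemma smooth_AY : ContDiff ℝ ∞ (AY P s Y) := by
  unfold AY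
  exact ((hY' _).add ((smooth_GY P s hY').mul (Gg.contDiff_DD (smooth_m P) _))).add
    (Gg.contDiff_DD (smooth_pY P s hY') _)

lemma DD_hY (θ : Fin 3 → ℂ) (x : R3) :
    DD θ (hY s Y) x = s 1 * DD θ (Y (some 0)) x - s 0 * DD θ (Y (some 1)) x := by
  have := Gg.DD_sub (f := fun y => s 1 * Y (some 0) y) (g := fun y => s 0 * Y (some 1) y)
    (diff_of (contDiff_const.mul (hY' _))) (diff_of (contDiff_const.mul (hY' _))) θ x
  rw [Gg.DD_const_mul (diff_of (hY' _)), Gg.DD_const_mul (diff_of (hY' _))] at this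
  exact this

lemma DD_GY (θ : Fin 3 → ℂ) (x : R3) :
    DD θ (GY P s Y) x = -(al s * DD θ (Y (some 1)) x - be s * DD θ (Y (some 0)) x) / (P.sm x : ℂ)
      + (al s * Y (some 1) x - be s * Y (some 0) x) * DD θ (cf P.m) x / (2 * (P.sm x : ℂ) ^ 3) := by
  have hne := csm_ne P x
  have h1 : (fun y => (P.sm y : ℂ) * GY P s Y y)
      = fun y => (be s * Y (some 0) y - al s * Y (some 1) y) := by
    funext y
    have := csm_ne P y
    simp only [GY]
    field_simp
    ring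
  have h2 := Gg.DD_mul (f := fun y => (P.sm y : ℂ)) (g := GY P s Y) (diff_of (smooth_sm P))
    (diff_of (smooth_GY P s hY')) θ x
  rw [h1, Gg.DD_sub (f := fun y => be s * Y (some 0) y) (g := fun y => al s * Y (some 1) y)
    (diff_of (contDiff_const.mul (hY' _))) (diff_of (contDiff_const.mul (hY' _))),
    Gg.DD_const_mul (diff_of (hY' _)), Gg.DD_const_mul (diff_of (hY' _))] at h2
  have h3 : DD θ (fun y => (P.sm y : ℂ)) x = DD θ (cf P.m) x / (2 * (P.sm x : ℂ)) := DD_sm P θ x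
  rw [h3] at h2
  simp only [GY] at h2 ⊢
  field_simp at h2 ⊢
  linear_combination -h2

lemma DD_pY (θ : Fin 3 → ℂ) (x : R3) :
    DD θ (pY P s Y) x = (P.sm x : ℂ) * DD θ (hY s Y) x
      + hY s Y x * DD θ (cf P.m) x / (2 * (P.sm x : ℂ)) := by
  have h2 := Gg.DD_mul (f := fun y => (P.sm y : ℂ)) (g := hY s Y) (diff_of (smooth_sm P))
    (diff_of (smooth_hY s hY')) θ x
  have h3 : DD θ (fun y => (P.sm y : ℂ)) x = DD θ (cf P.m) x / (2 * (P.sm x : ℂ)) := DD_sm P θ x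
  rw [h3] at h2
  have h4 : DD θ (pY P s Y) x = _ := h2
  rw [h4]
  ring

end

/-- second derivatives of `√m` -/
lemma DD_DD_sm (P : Moduli) (e θ : Fin 3 → ℂ) (x : R3) :
    DD e (DD θ (cf P.sm)) x = DD e (DD θ (cf P.m)) x / (2 * (P.sm x : ℂ))
      - DD e (cf P.m) x * DD θ (cf P.m) x / (4 * (P.sm x : ℂ) ^ 3) := by
  have hne := csm_ne P x
  have hs := smooth_sm P
  have hsθ := Gg.contDiff_DD hs θ
  have h1 : DD θ (cf P.m) = fun y => 2 * (cf P.sm y * DD θ (cf P.sm) y) := by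
    funext y
    rw [DD_m]
    ring
  have h2 : DD e (DD θ (cf P.m)) x = 2 * ((P.sm x : ℂ) * DD e (DD θ (cf P.sm)) x
      + DD θ (cf P.sm) x * DD e (cf P.sm) x) := by
    rw [h1, Gg.DD_const_mul (diff_of (hs.mul hsθ)), Gg.DD_mul (diff_of hs) (diff_of hsθ)]
  rw [DD_sm P θ x, DD_sm P e x] at h2
  rw [h2]
  field_simp
  ring

lemma DD_DD_pY (P : Moduli) (s : Fin 2 → ℂ) {Y : Option (Fin 2) → R3 → ℂ}
    (hY' : ∀ i, ContDiff ℝ ∞ (Y i)) (θ e : Fin 3 → ℂ) (x : R3) (h1 : DD θ (hY s Y) x = 0)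
    (h2 : DD θ (DD e (hY s Y)) x = 0) :
    DD θ (DD e (pY P s Y)) x = DD θ (cf P.m) x / (2 * (P.sm x : ℂ)) * DD e (hY s Y) x
      + hY s Y x * DD θ (DD e (cf P.sm)) x := by
  have hs := smooth_sm P
  have hh := smooth_hY s hY'
  have hse := Gg.contDiff_DD hs e
  have hhe := Gg.contDiff_DD hh e
  have h0 : DD e (pY P s Y) = fun y => cf P.sm y * DD e (hY s Y) y
      + hY s Y y * DD e (cf P.sm) y := by
    funext y
    exact Gg.DD_mul (f := fun y => (P.sm y : ℂ)) (g := hY s Y) (diff_of hs) (diff_of hh) e y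
  rw [h0, Gg.DD_add (diff_of (hs.mul hhe)) (diff_of (hh.mul hse)),
    Gg.DD_mul (diff_of hs) (diff_of hhe), Gg.DD_mul (diff_of hh) (diff_of hse), h1, h2, DD_sm]
  ring

lemma dotc_shear (f e : Fin 3 → ℂ) (p : R3 → ℂ) :
    dotc f (shear p e) = fun x => (∑ k, f k * e k) * p x := by
  funext x
  simp only [dotc, shear, Finset.sum_mul]
  exact Finset.sum_congr rfl fun k _ => by ring

end Crest.Agent.R080.W1L

namespace Crest.Agent.R080.W1

open Crest.Agent.R080.W1L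

/-- T13b: the lift of solutions of the reduced systems to the 4×4 systems -/
theorem t_Lift (hRI : StmtRI) : StmtLift := by
  intro G P₁ P s hs X Y hX hY' hsysX hsysY
  obtain ⟨U, hU, hU0, hUa, hUb, hUM⟩ := lift_U hRI G P₁ hs hX hsysX
  have hm := smooth_m P
  have hsm := smooth_sm P
  have hmu := smooth_mu P
  have hh := smooth_hY s hY'
  have hp := smooth_pY P s hY'
  have hG := smooth_GY P s hY'
  have hA := smooth_AY P s hY'
  obtain ⟨R, hR, hball⟩ := Gg.dom_exists_ball G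
  have hballE : ∀ᶠ x in 𝓝ˢ (closure G.Ω), ‖x‖ < R := by
    have : Metric.ball (0 : R3) R ∈ 𝓝ˢ (closure G.Ω) :=
      Metric.isOpen_ball.mem_nhdsSet.2 hball
    filter_upwards [this] with x hx
    simpa using hx
  -- `D h = 0` near the closure
  have hh0 : ∀ᶠ x in 𝓝ˢ (closure G.Ω), DD (th s) (hY s Y) x = 0 := by
    filter_upwards [hsysY] with x hx
    have h0 := hx (some 0)
    have h1 := hx (some 1)
    simp only [Fintype.sum_option, Fin.sum_univ_two, Amat] at h0 h1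
    rw [DD_hY s hY', h0, h1]
    ring
  have hh1 : ∀ᶠ x in 𝓝ˢ (closure G.Ω), DD (th s) (DD (nv s) (hY s Y)) x = 0 := by
    filter_upwards [hh0.eventually_nhdsSet] with x hx
    rw [DD_comm hh]
    have h1 : DD (th s) (hY s Y) =ᶠ[𝓝 x] fun _ => 0 := hx
    rw [Gg.DD_congr_of_eventuallyEq h1, Gg.DD_const]
  -- the free components of `V'`
  have hsm2 : ∀ y, (2 * ((P.sm y : ℂ) ^ 2)) ≠ 0 := fun y =>
    mul_ne_zero two_ne_zero (pow_ne_zero _ (csm_ne P y))
  have hden : ContDiff ℝ ∞ (fun y => (2 * ((P.sm y : ℂ) ^ 2))) := contDiff_const.mul (hsm.pow 2)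
  have hgmp : ContDiff ℝ ∞ (fun y => ∑ j, pd j (cf P.mu) y * pd j (pY P s Y) y) :=
    ContDiff.sum fun j _ => (Gg.contDiff_pd hmu j).mul (Gg.contDiff_pd hp j)
  have hsol : ∀ e : Fin 3 → ℂ, ∃ b : R3 → ℂ, ContDiff ℝ ∞ b ∧ ∀ x : R3, ‖x‖ < R →
      DD (th s) b x = DD (th s) (cf P.m) x / (2 * ((P.sm x : ℂ) ^ 2)) * b x
        + ((1 / 2) * ((∑ k, e k * nv s k) * (Lap (pY P s Y) x
              + (P.m x : ℂ) * ∑ j, pd j (cf P.mu) x * pd j (pY P s Y) x)
            - (P.m x : ℂ) * DD e (cf P.mu) x * DD (nv s) (pY P s Y) x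
            - (P.m x : ℂ) * pY P s Y x * DD e (DD (nv s) (cf P.mu)) x)
          - DD e (cf P.m) x / (2 * ((P.sm x : ℂ) ^ 2)) * AY P s Y x
          + DD e (DD (th s) (cf P.m)) x * GY P s Y x) := by
    intro e
    refine solveD hRI (Gg.isNull_th hs) (Gg.contDiff_cdiv (Gg.contDiff_DD hm _) hden hsm2)
      (φ := fun x => ((1 / 2) * ((∑ k, e k * nv s k) * (Lap (pY P s Y) x
              + (P.m x : ℂ) * ∑ j, pd j (cf P.mu) x * pd j (pY P s Y) x)
            - (P.m x : ℂ) * DD e (cf P.mu) x * DD (nv s) (pY P s Y) x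
            - (P.m x : ℂ) * pY P s Y x * DD e (DD (nv s) (cf P.mu)) x)
          - DD e (cf P.m) x / (2 * ((P.sm x : ℂ) ^ 2)) * AY P s Y x
          + DD e (DD (th s) (cf P.m)) x * GY P s Y x)) ?_ R hR
    refine ContDiff.add (ContDiff.sub (contDiff_const.mul (ContDiff.sub (ContDiff.sub
      (contDiff_const.mul ((Gg.contDiff_Lap hp).add (hm.mul hgmp))) ?_) ?_)) ?_) ?_
    · exact (hm.mul (Gg.contDiff_DD hmu _)).mul (Gg.contDiff_DD hp _)
    · exact (hm.mul hp).mul (Gg.contDiff_DD (Gg.contDiff_DD hmu _) _)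
    · exact (Gg.contDiff_cdiv (Gg.contDiff_DD hm _) hden hsm2).mul hA
    · exact (Gg.contDiff_DD (Gg.contDiff_DD hm _) _).mul hG
  obtain ⟨b, hb, hbeq⟩ := hsol (nv s)
  obtain ⟨c, hc, hceq⟩ := hsol (et s)
  have hV := contDiff_shear hp (nv s)
  have hV' := contDiff_ampl s hG hA hb hc
  refine ⟨U, shear (pY P s Y) (nv s), ampl s (GY P s Y) (AY P s Y) b c, hU, hV, hV',
    hUM, fun _ => rfl, ?_, ?_, fun x => by rw [hU0], fun x => congrFun hUa x,
    fun x => congrFun hUb x, fun _ _ => rfl, fun _ => rfl,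
    fun x => congrFun (dotc_th_ampl hs _ _ _ _) x⟩
  · -- `M0 V = 0`
    filter_upwards [hh0] with x hx0
    have hne := csm_ne P x
    have hDp := DD_pY P s hY' (th s) x
    rw [hx0] at hDp
    have hpx : pY P s Y x = (P.sm x : ℂ) * hY s Y x := rfl
    refine M0_of_contr hs (fun _ => 0) x ?_ ?_ ?_ ?_
    · rw [M0_none, dotc_shear, th_nv]
      have : DD (th s) (shear (pY P s Y) (nv s) none) x = 0 := Gg.DD_const 0 _ _
      rw [this]
      ring
    · rw [M0_contr P _ _ hV, dotc_shear, th_nv]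
      have h2 : shear (pY P s Y) (nv s) none x = 0 := rfl
      have h3 : DD (th s) (fun x => (0 : ℂ) * pY P s Y x) x = 0 := by
        rw [Gg.DD_const_mul (diff_of hp)]
        ring
      rw [h2, h3]
      simp
    · rw [M0_contr P _ _ hV, dotc_shear, dotc_shear, th_nv, nv_nv hs]
      have h2 : shear (pY P s Y) (nv s) none x = 0 := rfl
      have h3 : DD (th s) (fun x => (1 : ℂ) * pY P s Y x) x = DD (th s) (pY P s Y) x := by
        rw [Gg.DD_const_mul (diff_of hp)]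
        ring
      rw [h2, h3, hDp]
      beta_reduce
      rw [hpx]
      simp only [mul_zero, Finset.sum_const_zero]
      field_simp
      ring
    · rw [M0_contr P _ _ hV, dotc_shear, dotc_shear, th_nv, et_nv]
      have h2 : shear (pY P s Y) (nv s) none x = 0 := rfl
      have h3 : DD (th s) (fun x => (0 : ℂ) * pY P s Y x) x = 0 := by
        rw [Gg.DD_const_mul (diff_of hp)]
        ring
      rw [h2, h3]
      simp
  · -- `M0 V' = P0 V`
    filter_upwards [hh0, hh1, hsysY, hballE] with x hx0 hx1 hx hxR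
    have hne := csm_ne P x
    have hg := hx none
    have h0 := hx (some 0)
    have h1 := hx (some 1)
    simp only [Fintype.sum_option, Fin.sum_univ_two, Amat, cm_eq] at hg h0 h1
    have hth := DD_th_split s (cf P.m) x
    have hnv := DD_nv_split s (cf P.m) x
    have hab := al_be hs
    have hDG := DD_GY P s hY' (th s) x
    have hDp := DD_pY P s hY' (nv s) x
    have hpx : pY P s Y x = (P.sm x : ℂ) * hY s Y x := rfl
    have hDA : DD (th s) (AY P s Y) x = DD (th s) (Y none) x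
        + (GY P s Y x * DD (th s) (DD (th s) (cf P.m)) x
          + DD (th s) (cf P.m) x * DD (th s) (GY P s Y) x)
        + DD (th s) (DD (nv s) (pY P s Y)) x := by
      have e1 := Gg.contDiff_DD hm (th s)
      have e2 := Gg.contDiff_DD hp (nv s)
      have h2 := Gg.DD_add (f := fun y => Y none y + GY P s Y y * DD (th s) (cf P.m) y)
        (g := DD (nv s) (pY P s Y)) (diff_of ((hY' _).add (hG.mul e1))) (diff_of e2) (th s) x
      rw [Gg.DD_add (diff_of (hY' _)) (diff_of (hG.mul e1)),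
        Gg.DD_mul (diff_of hG) (diff_of e1)] at h2
      exact h2
    have hcc : (P.cc x : ℂ) = 1 - 2 * (P.kap x : ℂ) * (P.sm x : ℂ) ^ 2 := by
      have := cc_kap P x
      rw [cm_eq] at this
      linear_combination this
    have hhx : hY s Y x = s 1 * Y (some 0) x - s 0 * Y (some 1) x := rfl
    -- the contraction `Z = ν_Y · ∇m`
    have hZ : DD (nu s 0) (cf P.m) x * Y (some 0) x + DD (nu s 1) (cf P.m) x * Y (some 1) x
        = (al s * Y (some 1) x - be s * Y (some 0) x) * DD (th s) (cf P.m) x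
          + hY s Y x * DD (nv s) (cf P.m) x := by
      rw [hth, hnv, hhx]
      linear_combination (-(DD (nu s 0) (cf P.m) x * Y (some 0) x
        + DD (nu s 1) (cf P.m) x * Y (some 1) x)) * hab
    have hDg : al s * DD (th s) (Y (some 1)) x - be s * DD (th s) (Y (some 0)) x
        = (P.kap x : ℂ) * (P.sm x : ℂ) * Y none x
          - ((P.kap x : ℂ) - 1 / (2 * (P.sm x : ℂ) ^ 2)) *
            ((al s * Y (some 1) x - be s * Y (some 0) x) * DD (th s) (cf P.m) x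
              + hY s Y x * DD (nv s) (cf P.m) x) := by
      rw [← hZ, h0, h1]
      linear_combination ((P.kap x : ℂ) * (P.sm x : ℂ) * Y none x
          - ((P.kap x : ℂ) - 1 / (2 * (P.sm x : ℂ) ^ 2)) *
            (DD (nu s 0) (cf P.m) x * Y (some 0) x
              + DD (nu s 1) (cf P.m) x * Y (some 1) x)) * hab
    have hDYg : DD (th s) (Y none) x = (P.kap x : ℂ) * DD (th s) (cf P.m) x * Y none x
        - (P.kap x : ℂ) / (P.sm x : ℂ) * DD (th s) (cf P.m) x *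
            ((al s * Y (some 1) x - be s * Y (some 0) x) * DD (th s) (cf P.m) x
              + hY s Y x * DD (nv s) (cf P.m) x) := by
      rw [← hZ, hg]
      ring
    rw [hDg] at hDG
    refine M0_of_contr hs (fun i => P0 (A4 P) (B4 P) (shear (pY P s Y) (nv s)) i x) x ?_ ?_ ?_ ?_
    · rw [M0_none, P0_shear_none P hp, dotc_th_ampl hs, DD_mu]
      show 2 * DD (th s) (GY P s Y) x + 2 * (P.kap x : ℂ) * AY P s Y x = _
      rw [hDG, hcc]
      simp only [AY]
      rw [hDp, hpx]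
      simp only [GY]
      field_simp
      ring
    · rw [M0_contr P _ _ hV', P0_shear_contr P hp, dotc_th_ampl hs, th_nv, DD_mu,
        DD_DD_mu, hDA, DD_DD_pY P s hY' _ _ x hx0 hx1, DD_DD_sm, hDG, hDYg, hDp, hpx, cm_eq]
      show 2 * (_ + (GY P s Y x * _ + _) + _) - _ * AY P s Y x + _ * AY P s Y x - _ * GY P s Y x = _
      simp only [AY, GY]
      field_simp
      ring
    · rw [M0_contr P _ _ hV', P0_shear_contr P hp, dotc_th_ampl hs, dotc_nv_ampl hs]
      show 2 * DD (th s) b x - DD (th s) (cf P.m) x / (P.sm x : ℂ) ^ 2 * b x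
        + DD (nv s) (cf P.m) x / (P.sm x : ℂ) ^ 2 * AY P s Y x
        - 2 * DD (nv s) (DD (th s) (cf P.m)) x * GY P s Y x = _
      rw [hbeq x hxR]
      field_simp
      ring
    · rw [M0_contr P _ _ hV', P0_shear_contr P hp, dotc_th_ampl hs, dotc_et_ampl hs]
      show 2 * DD (th s) c x - DD (th s) (cf P.m) x / (P.sm x : ℂ) ^ 2 * c x
        + DD (et s) (cf P.m) x / (P.sm x : ℂ) ^ 2 * AY P s Y x
        - 2 * DD (et s) (DD (th s) (cf P.m)) x * GY P s Y x = _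
      rw [hceq x hxR]
      field_simp
      ring

end Crest.Agent.R080.W1
end
private theorem rz_3502bdcb7b : type_of% @_root_.Crest.Agent.R080.W1L.shear.eq_1 := @_root_.Crest.Agent.R080.W1L.shear.eq_1 -- L22
end

-- ▼ part R080/CalcA
section

/-!
Row 80 (S0107): calculus of `pd` and `DD`, smoothness of the moduli functions, algebra of the
spinor parametrization.
-/

set_option autoImplicit false

open MeasureTheory Filter
open scoped ContDiff Topology
open Crest.AnalysisR.VecCalc3 Crest.AnalysisR.PDE.Elasticity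

noncomputable section
namespace Crest.Agent.R080
namespace CalcA

/-! ### smoothness -/


theorem contDiff_pd {f : R3 → ℂ} (hf : ContDiff ℝ ∞ f) (j : Fin 3) : ContDiff ℝ ∞ (pd j f) :=
  (hf.fderiv_right (m := ∞) (by simp)).clm_apply contDiff_const

theorem contDiff_DD {f : R3 → ℂ} (hf : ContDiff ℝ ∞ f) (θ : Fin 3 → ℂ) :
    ContDiff ℝ ∞ (DD θ f) := by
  unfold DD
  exact ContDiff.sum fun j _ => contDiff_const.mul (contDiff_pd hf j)


theorem diffAt {f : R3 → ℂ} (hf : ContDiff ℝ ∞ f) (x : R3) :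
    DifferentiableAt ℝ f x := (hf.differentiable (by simp)) x

theorem contDiff_cf {f : R3 → ℝ} {n : WithTop ℕ∞} (hf : ContDiff ℝ n f) : ContDiff ℝ n (cf f) :=
  Complex.ofRealCLM.contDiff.comp hf

/-! ### derivative rules (pointwise) -/


theorem pd_sub_at {f g : R3 → ℂ} {x : R3} (hf : DifferentiableAt ℝ f x)
    (hg : DifferentiableAt ℝ g x) (j : Fin 3) :
    pd j (fun y => f y - g y) x = pd j f x - pd j g x := by
  simp only [pd]
  rw [show (fun y => f y - g y) = f - g from rfl, fderiv_sub hf hg]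
  rfl


theorem pd_const (c : ℂ) (x : R3) (j : Fin 3) : pd j (fun _ => c) x = 0 := by
  simp [pd]

theorem pd_mul_at {f g : R3 → ℂ} {x : R3} (hf : DifferentiableAt ℝ f x)
    (hg : DifferentiableAt ℝ g x) (j : Fin 3) :
    pd j (fun y => f y * g y) x = pd j f x * g x + f x * pd j g x := by
  simp only [pd]
  rw [show (fun y => f y * g y) = f * g from rfl, fderiv_mul hf hg]
  simp only [_root_.add_apply, _root_.smul_apply, smul_eq_mul]
  ring


theorem pd_sum_at {ι : Type*} (s : Finset ι) {f : ι → R3 → ℂ} {x : R3}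
    (hf : ∀ i ∈ s, DifferentiableAt ℝ (f i) x) (j : Fin 3) :
    pd j (fun y => ∑ i ∈ s, f i y) x = ∑ i ∈ s, pd j (f i) x := by
  simp only [pd]
  rw [show (fun y => ∑ i ∈ s, f i y) = (fun y => ∑ i ∈ s, f i y) from rfl]
  rw [fderiv_fun_sum hf]
  simp

theorem pd_congr {f g : R3 → ℂ} {x : R3} (h : f =ᶠ[𝓝 x] g) (j : Fin 3) :
    pd j f x = pd j g x := by
  simp only [pd, h.fderiv_eq]


theorem pd_comm {f : R3 → ℂ} (hf : ContDiff ℝ 2 f) (i j : Fin 3) (x : R3) :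
    pd i (pd j f) x = pd j (pd i f) x := by
  have hd : Differentiable ℝ (fderiv ℝ f) :=
    (hf.fderiv_right (m := 1) (by norm_num)).differentiable (by simp)
  have h1 : ∀ a b : Fin 3, pd a (pd b f) x = (fderiv ℝ (fderiv ℝ f) x) (ee a) (ee b) := by
    intro a b
    simp only [pd]
    have : (fun y => (fderiv ℝ f y) (ee b)) = fun y => (fderiv ℝ f y) (ee b) := rfl
    rw [show (pd b f) = fun y => (fderiv ℝ f y) (ee b) from rfl] at *
    rw [fderiv_clm_apply (hd x) (differentiableAt_const _)]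
    simp
  rw [h1, h1]
  have hs : IsSymmSndFDerivAt ℝ f x := by
    apply ContDiffAt.isSymmSndFDerivAt (n := 2) hf.contDiffAt
    simp
  exact hs.eq _ _


theorem DD_sub_at {f g : R3 → ℂ} {x : R3} (θ : Fin 3 → ℂ) (hf : DifferentiableAt ℝ f x)
    (hg : DifferentiableAt ℝ g x) :
    DD θ (fun y => f y - g y) x = DD θ f x - DD θ g x := by
  simp only [DD, pd_sub_at hf hg, mul_sub, Finset.sum_sub_distrib]


theorem DD_const (θ : Fin 3 → ℂ) (c : ℂ) (x : R3) : DD θ (fun _ => c) x = 0 := by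
  simp [DD, pd_const]

theorem DD_mul_at {f g : R3 → ℂ} {x : R3} (θ : Fin 3 → ℂ) (hf : DifferentiableAt ℝ f x)
    (hg : DifferentiableAt ℝ g x) :
    DD θ (fun y => f y * g y) x = DD θ f x * g x + f x * DD θ g x := by
  simp only [DD, pd_mul_at hf hg, Finset.sum_mul, Finset.mul_sum, ← Finset.sum_add_distrib]
  exact Finset.sum_congr rfl fun j _ => by ring

theorem DD_const_mul_at {f : R3 → ℂ} {x : R3} (θ : Fin 3 → ℂ) (c : ℂ)
    (hf : DifferentiableAt ℝ f x) :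
    DD θ (fun y => c * f y) x = c * DD θ f x := by
  rw [DD_mul_at θ (differentiableAt_const c) hf, DD_const]
  ring

theorem DD_sum_at {ι : Type*} (s : Finset ι) {f : ι → R3 → ℂ} {x : R3} (θ : Fin 3 → ℂ)
    (hf : ∀ i ∈ s, DifferentiableAt ℝ (f i) x) :
    DD θ (fun y => ∑ i ∈ s, f i y) x = ∑ i ∈ s, DD θ (f i) x := by
  simp only [DD, pd_sum_at s hf, Finset.mul_sum]
  exact Finset.sum_comm

theorem DD_congr {f g : R3 → ℂ} {x : R3} (h : f =ᶠ[𝓝 x] g) (θ : Fin 3 → ℂ) :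
    DD θ f x = DD θ g x := by
  simp only [DD, pd_congr h]


theorem DD_comm {f : R3 → ℂ} (hf : ContDiff ℝ ∞ f) (θ η : Fin 3 → ℂ) (x : R3) :
    DD θ (DD η f) x = DD η (DD θ f) x := by
  have hd : ∀ j, DifferentiableAt ℝ (pd j f) x := fun j =>
    diffAt (contDiff_pd hf j) x
  have key : ∀ θ η : Fin 3 → ℂ, DD θ (DD η f) x = ∑ i, ∑ j, θ i * η j * pd i (pd j f) x := by
    intro θ η
    have h1 : DD η f = fun y => ∑ j, η j * pd j f y := rfl
    rw [h1, DD_sum_at (f := fun j y => η j * pd j f y) _ _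
      fun j _ => (differentiableAt_const _).mul (hd j)]
    simp only [DD_const_mul_at _ _ (hd _)]
    simp only [DD, Finset.mul_sum]
    rw [Finset.sum_comm]
    exact Finset.sum_congr rfl fun i _ => Finset.sum_congr rfl fun j _ => by ring
  rw [key, key, Finset.sum_comm]
  refine Finset.sum_congr rfl fun i _ => Finset.sum_congr rfl fun j _ => ?_
  rw [pd_comm (hf.of_le ENat.LEInfty.out) j i]
  ring

theorem DD_DD {f : R3 → ℂ} (hf : ContDiff ℝ ∞ f) (θ η : Fin 3 → ℂ) (x : R3) :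
    DD θ (DD η f) x = ∑ i, ∑ j, θ i * η j * pd i (pd j f) x := by
  have hd : ∀ j, DifferentiableAt ℝ (pd j f) x := fun j =>
    diffAt (contDiff_pd hf j) x
  have h1 : DD η f = fun y => ∑ j, η j * pd j f y := rfl
  rw [h1, DD_sum_at (f := fun j y => η j * pd j f y) _ _
    fun j _ => (differentiableAt_const _).mul (hd j)]
  simp only [DD_const_mul_at _ _ (hd _)]
  simp only [DD, Finset.mul_sum]
  rw [Finset.sum_comm]
  exact Finset.sum_congr rfl fun i _ => Finset.sum_congr rfl fun j _ => by ring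



/-! ### moduli -/

section Mod
variable (P : Moduli)

theorem m_pos (x : R3) : 0 < P.m x := inv_pos.2 (P.mu_pos x)
theorem sm_pos (x : R3) : 0 < P.sm x := Real.sqrt_pos.2 (m_pos P x)
theorem sm_mul_sm (x : R3) : P.sm x * P.sm x = P.m x := Real.mul_self_sqrt (m_pos P x).le
theorem m_mul_mu (x : R3) : P.m x * P.mu x = 1 := inv_mul_cancel₀ (P.mu_pos x).ne'
theorem lam_add_two_mu_pos (x : R3) : 0 < P.lam x + 2 * P.mu x := by
  have h1 := P.mu_pos x; have h2 := P.bulk_pos x; linarith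
theorem cc_pos (x : R3) : 0 < P.cc x := div_pos (P.mu_pos x) (lam_add_two_mu_pos P x)
theorem kap_eq (x : R3) : P.kap x = P.cc x * (P.lam x + P.mu x) / 2 := by
  have := (lam_add_two_mu_pos P x).ne'
  unfold Moduli.kap Moduli.cc; field_simp
theorem cc_inv (x : R3) : (P.cc x)⁻¹ = P.lam x * P.m x + 2 := by
  have h1 := (lam_add_two_mu_pos P x).ne'
  have h2 := (P.mu_pos x).ne'
  unfold Moduli.cc Moduli.m; field_simp

theorem contDiff_m : ContDiff ℝ ∞ P.m := P.smooth_mu.inv fun x => (P.mu_pos x).ne'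
theorem contDiff_sm : ContDiff ℝ ∞ P.sm := (contDiff_m P).sqrt fun x => (m_pos P x).ne'
theorem contDiff_kap : ContDiff ℝ ∞ P.kap :=
  ((P.smooth_lam.add P.smooth_mu).mul P.smooth_mu).div
    (contDiff_const.mul (P.smooth_lam.add (contDiff_const.mul P.smooth_mu)))
    fun x => (mul_pos two_pos (lam_add_two_mu_pos P x)).ne'

end Mod

/-! ### spinors -/

theorem th_null (s : Fin 2 → ℂ) : ∑ j, th s j ^ 2 = 0 := by
  simp only [th, Fin.sum_univ_three, Matrix.cons_val_zero, Matrix.cons_val_one,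
    Matrix.cons_val]
  ring_nf
  simp only [Complex.I_sq]
  ring

theorem isNull_th {s : Fin 2 → ℂ} (hs : s ≠ 0) : IsNull (th s) := by
  refine ⟨fun h => hs ?_, th_null s⟩
  have h0 : s 0 ^ 2 - s 1 ^ 2 = 0 := by simpa [th] using congrFun h 0
  have h1 : s 0 ^ 2 + s 1 ^ 2 = 0 := by simpa [th] using congrFun h 1
  have e0 : s 0 ^ 2 = 0 := by linear_combination (h0 + h1) / 2
  have e1 : s 1 ^ 2 = 0 := by linear_combination (h1 - h0) / 2
  funext i
  fin_cases i
  · exact pow_eq_zero_iff (two_ne_zero) |>.1 e0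
  · exact pow_eq_zero_iff (two_ne_zero) |>.1 e1



end CalcA
end Crest.Agent.R080
end
end

-- ▼ part R080/W1Alg
section

/-!
Row 80 (S0107), T13a: the pointwise identity
`q2 U V' + q1 U V = D T + N (c p)`.
-/

set_option autoImplicit false

open MeasureTheory Filter
open scoped ContDiff Topology
open Crest.AnalysisR.VecCalc3 Crest.AnalysisR.PDE.Elasticity

noncomputable section
namespace Crest.Agent.R080.W1Alg

open CalcA

/-! ### the scalar identity -/

theorem alg (m1 m2 Dm1 Nm1 Dm2 Nm2 DDm1 DNm1 DDm2 DNm2 k1 k2 Dk1 Dk2 Nk1 g Ng a Na b gp ap p Np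
    Dg Da Db Dp DNp Dgp Dap DDg NDg DDgp : ℂ) (hm1 : m1 ≠ 0) (hm2 : m2 ≠ 0)
    (hDg : Dg = -k1 * a) (hDa : Da = g * DDm1)
    (hDb : Db = Dm1 / (2 * m1) * b - Nm1 / (2 * m1) * a + g * DNm1)
    (hDp : Dp = Dm2 / (2 * m2) * p)
    (hDNp : DNp = (DNm2 / (2 * m2) - Dm2 * Nm2 / (2 * m2 ^ 2)) * p + Dm2 / (2 * m2) * Np)
    (hDgp : Dgp = -k2 * (ap - Np - p * Nm2 / m2) - p * Nm2 / (2 * m2 ^ 2))
    (hDap : Dap = gp * DDm2 + m2 / 2 * (Np * Dm2 / m2 ^ 2
      + p * (DNm2 / m2 ^ 2 - 2 * Dm2 * Nm2 / m2 ^ 3)))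
    (hDDg : DDg = -Dk1 * a - k1 * Da) (hNDg : NDg = -Nk1 * a - k1 * Na)
    (hDDgp : DDgp = -Dk2 * (ap - Np - p * Nm2 / m2)
      - k2 * (Dap - DNp - Dp * Nm2 / m2 - p * DNm2 / m2 + p * Nm2 * Dm2 / m2 ^ 2)
      - Dp * Nm2 / (2 * m2 ^ 2) - p * DNm2 / (2 * m2 ^ 2) + p * Nm2 * Dm2 / m2 ^ 3) :
    -(2 * k1 - 2 * k2 + 4 * k1 * k2 * (m1 - m2)) * a * (ap - p * Nm2 / m2 - Np)
      - (1 / m1 - 1 / m2) * (1 - 2 * k1 * m1) * a * Np
      + 2 * (1 / m1 - 1 / m2) * (m1 * g * (Dap + m2 * DDgp - gp * DDm2)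
        + m2 * gp * (Da + m1 * DDg - g * DDm1))
      + 2 * (1 / m1 - 1 / m2) * (1 / 2 * Dp * (b + 2 * m1 * Ng)
        - p * (1 / 2 * (Db + Na) + m1 * NDg - g * DNm1))
    = (2 * Dg * (ap - gp * Dm2 - Np) + 2 * g * (Dap - Dgp * Dm2 - gp * DDm2 - DNp)
        - 2 * Dgp * (a - g * Dm1) - 2 * gp * (Da - Dg * Dm1 - g * DDm1)
        - 2 * (Dm1 - Dm2) * (g * Dgp + gp * Dg)
        - 2 * (m1 - m2) * (2 * Dg * Dgp + g * DDgp + gp * DDg)
        + (-Dm1 / m1 ^ 2 - Dm2 / m2 ^ 2) * p * b + (1 / m1 + 1 / m2) * (Dp * b + p * Db)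
        - 2 * (Dg * p * Nm1 / m2 + g * Dp * Nm1 / m2 + g * p * DNm1 / m2
          - g * p * Nm1 * Dm2 / m2 ^ 2))
      + (((Nm1 - Nm2) * (a / (m1 * m2) - 2 * k1 * a / m2 - Dm2 * g / m2 ^ 2)
        + (m1 - m2) * (Na / (m1 * m2) - a * Nm1 / (m1 ^ 2 * m2) - a * Nm2 / (m1 * m2 ^ 2)
          - 2 * Nk1 * a / m2 - 2 * k1 * Na / m2 + 2 * k1 * a * Nm2 / m2 ^ 2 - DNm2 * g / m2 ^ 2
          - Dm2 * Ng / m2 ^ 2 + 2 * Dm2 * Nm2 * g / m2 ^ 3)) * p
        + (m1 - m2) * (a / (m1 * m2) - 2 * k1 * a / m2 - Dm2 * g / m2 ^ 2) * Np) := by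
  subst hDDgp hNDg hDDg hDap hDgp hDNp hDp hDb hDa hDg
  field_simp
  ring

/-! ### contractions -/

/-- contraction of the vector part -/
def ct (v : Fin 3 → ℂ) (U : Option (Fin 3) → R3 → ℂ) (x : R3) : ℂ := ∑ i, v i * U (some i) x

theorem contDiff_ct {U : Option (Fin 3) → R3 → ℂ} (hU : ∀ i, ContDiff ℝ ∞ (U i))
    (v : Fin 3 → ℂ) : ContDiff ℝ ∞ (ct v U) := by
  unfold ct
  exact ContDiff.sum fun j _ => contDiff_const.mul (hU _)

theorem DD_ct {U : Option (Fin 3) → R3 → ℂ} (hU : ∀ i, ContDiff ℝ ∞ (U i))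
    (v w : Fin 3 → ℂ) (x : R3) : DD w (ct v U) x = ∑ i, v i * DD w (U (some i)) x := by
  unfold ct
  rw [DD_sum_at (f := fun i y => v i * U (some i) y) _ _
    fun j _ => (differentiableAt_const _).mul (diffAt (hU _) x)]
  exact Finset.sum_congr rfl fun i _ => DD_const_mul_at _ _ (diffAt (hU _) x)

theorem contr_E2 (P : Moduli) {U : Option (Fin 3) → R3 → ℂ} (hU : ∀ i, ContDiff ℝ ∞ (U i))
    (a b : Fin 3 → ℂ) (x : R3) :
    ∑ i, ∑ j, a i * b j * E2 P U i j x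
      = (DD a (ct b U) x + DD b (ct a U) x) / 2 + (P.m x : ℂ) * DD a (DD b (U none)) x
        - U none x * DD a (DD b (cf P.m)) x := by
  rw [DD_ct hU, DD_ct hU, DD_DD (hU none), DD_DD (contDiff_cf (contDiff_m P))]
  simp only [E2, DD, Fin.sum_univ_three]
  ring

theorem q2_eq (P₁ P₂ : Moduli) {θ : Fin 3 → ℂ} (hθ : ∑ j, θ j * θ j = 0)
    {U V : Option (Fin 3) → R3 → ℂ} (hU : ∀ i, ContDiff ℝ ∞ (U i)) (hV : ∀ i, ContDiff ℝ ∞ (V i))
    (x : R3) :
    q2 P₁ P₂ θ U V x = -(dlam P₁ P₂ x + dmu P₁ P₂ x)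
        * (ct θ U x + 2 * (P₁.m x : ℂ) * DD θ (U none) x)
        * (ct θ V x + 2 * (P₂.m x : ℂ) * DD θ (V none) x)
      + 2 * dmu P₁ P₂ x * ((P₁.m x : ℂ) * U none x * (DD θ (ct θ V) x
          + (P₂.m x : ℂ) * DD θ (DD θ (V none)) x - V none x * DD θ (DD θ (cf P₂.m)) x)
        + (P₂.m x : ℂ) * V none x * (DD θ (ct θ U) x
          + (P₁.m x : ℂ) * DD θ (DD θ (U none)) x - U none x * DD θ (DD θ (cf P₁.m)) x)) := by
  have h1 := contr_E2 P₂ hV θ θ x
  have h2 := contr_E2 P₁ hU θ θ x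
  simp only [q2, S1, E0, E1]
  simp only [ct, DD, Fin.sum_univ_three] at h1 h2 hθ ⊢
  linear_combination 2 * dmu P₁ P₂ x * (P₁.m x : ℂ) * U none x * h1
    + 2 * dmu P₁ P₂ x * (P₂.m x : ℂ) * V none x * h2
    - dmu P₁ P₂ x * (
      (U (some 0) x + 2 * (P₁.m x : ℂ) * pd 0 (U none) x)
        * (V (some 0) x + 2 * (P₂.m x : ℂ) * pd 0 (V none) x)
      + (U (some 1) x + 2 * (P₁.m x : ℂ) * pd 1 (U none) x)
        * (V (some 1) x + 2 * (P₂.m x : ℂ) * pd 1 (V none) x)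
      + (U (some 2) x + 2 * (P₁.m x : ℂ) * pd 2 (U none) x)
        * (V (some 2) x + 2 * (P₂.m x : ℂ) * pd 2 (V none) x)) * hθ

/-- the displacement `p ν` -/
theorem q1_eq (P₁ P₂ : Moduli) {θ ν : Fin 3 → ℂ}
    (hθν : ∑ j, θ j * ν j = 0)
    {U V : Option (Fin 3) → R3 → ℂ} (hU : ∀ i, ContDiff ℝ ∞ (U i)) (hV0 : ∀ x, V none x = 0)
    {p : R3 → ℂ} (hp : ContDiff ℝ ∞ p) (hVp : ∀ i x, V (some i) x = p x * ν i) (x : R3) :
    q1 P₁ P₂ θ U V x = dlam P₁ P₂ x * (ct θ U x + 2 * (P₁.m x : ℂ) * DD θ (U none) x) * DD ν p x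
      + 2 * dmu P₁ P₂ x * (1 / 2 * DD θ p x * (ct ν U x + 2 * (P₁.m x : ℂ) * DD ν (U none) x)
        - p x * (1 / 2 * (DD θ (ct ν U) x + DD ν (ct θ U) x)
          + (P₁.m x : ℂ) * DD ν (DD θ (U none)) x
          - U none x * DD θ (DD ν (cf P₁.m)) x)) := by
  have e0 : V none = fun _ => 0 := funext hV0
  have e1 : ∀ i, V (some i) = fun y => p y * ν i := fun i => funext (hVp i)
  have p0 : ∀ j y, pd j (V none) y = 0 := fun j y => by rw [e0, CalcA.pd_const]
  have p00 : ∀ i j y, pd i (pd j (V none)) y = 0 := fun i j y => by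
    rw [show pd j (V none) = fun _ => 0 from funext (p0 j), CalcA.pd_const]
  have p1 : ∀ i j y, pd j (V (some i)) y = pd j p y * ν i := fun i j y => by
    rw [e1, CalcA.pd_mul_at (diffAt hp y) (differentiableAt_const _), CalcA.pd_const]; ring
  have h1 := contr_E2 P₁ hU θ ν x
  have h2 := contr_E2 P₁ hU ν θ x
  rw [DD_comm (hU none) θ ν] at h1
  rw [DD_comm (contDiff_cf (contDiff_m P₁)) ν θ] at h2
  simp only [q1, S1, S2, E1, Lap, hV0, p0, p00, p1, hVp]
  rw [show (∑ i, ∑ j, ((θ i * (U (some j) x + 2 * (P₁.m x : ℂ) * pd j (U none) x)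
        + θ j * (U (some i) x + 2 * (P₁.m x : ℂ) * pd i (U none) x)) / 2 * E2 P₂ V i j x
      - E2 P₁ U i j x * ((θ i * (p x * ν j + 2 * (P₂.m x : ℂ) * 0)
        + θ j * (p x * ν i + 2 * (P₂.m x : ℂ) * 0)) / 2)))
      = (∑ i, ∑ j, ((θ i * (U (some j) x + 2 * (P₁.m x : ℂ) * pd j (U none) x)
        + θ j * (U (some i) x + 2 * (P₁.m x : ℂ) * pd i (U none) x)) / 2
          * ((pd i p x * ν j + pd j p x * ν i) / 2)))
      - p x / 2 * ((∑ i, ∑ j, θ i * ν j * E2 P₁ U i j x)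
        + ∑ i, ∑ j, ν i * θ j * E2 P₁ U i j x) from ?_]
  · rw [h1, h2]
    simp only [ct, DD, Fin.sum_univ_three, p0] at hθν ⊢
    linear_combination (dmu P₁ P₂ x * (
        (U (some 0) x + 2 * (P₁.m x : ℂ) * pd 0 (U none) x) * pd 0 p x
        + (U (some 1) x + 2 * (P₁.m x : ℂ) * pd 1 (U none) x) * pd 1 p x
        + (U (some 2) x + 2 * (P₁.m x : ℂ) * pd 2 (U none) x) * pd 2 p x)
      - dlam P₁ P₂ x * p x * (pd 0 (U (some 0)) x + pd 1 (U (some 1)) x + pd 2 (U (some 2)) x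
        + (P₁.m x : ℂ) * (pd 0 (pd 0 (U none)) x + pd 1 (pd 1 (U none)) x
          + pd 2 (pd 2 (U none)) x)
        - U none x * (pd 0 (pd 0 (cf P₁.m)) x + pd 1 (pd 1 (cf P₁.m)) x
          + pd 2 (pd 2 (cf P₁.m)) x))) * hθν
  · simp only [Fin.sum_univ_three, E2, hV0, p00, p1]
    ring

/-! ### contractions of the transport operators -/

theorem contr_M0 (P : Moduli) (θ v : Fin 3 → ℂ) {U : Option (Fin 3) → R3 → ℂ}
    (hU : ∀ i, ContDiff ℝ ∞ (U i)) (x : R3) :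
    ∑ i, v i * M0 θ (A4 P) U (some i) x
      = 2 * DD θ (ct v U) x + (P.m x : ℂ) * (DD θ (cf P.mu) x * ct v U x
          - DD v (cf P.mu) x * ct θ U x) - 2 * U none x * DD v (DD θ (cf P.m)) x := by
  rw [DD_ct hU, DD_DD (contDiff_cf (contDiff_m P))]
  simp only [M0, A4, ct, DD, Fin.sum_univ_three, Fintype.sum_option]
  simp
  ring

theorem M0_none (P : Moduli) (θ : Fin 3 → ℂ) (U : Option (Fin 3) → R3 → ℂ) (x : R3) :
    M0 θ (A4 P) U none x
      = 2 * DD θ (U none) x + (P.cc x : ℂ) * ((P.lam x : ℂ) + (P.mu x : ℂ)) * ct θ U x := by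
  simp only [M0, A4, ct, DD, Fin.sum_univ_three, Fintype.sum_option]
  simp
  ring

theorem contr_P0 (P : Moduli) {θ ν : Fin 3 → ℂ} (hθν : ∑ j, θ j * ν j = 0)
    {V : Option (Fin 3) → R3 → ℂ} (hV0 : ∀ x, V none x = 0)
    {p : R3 → ℂ} (hp : ContDiff ℝ ∞ p) (hVp : ∀ i x, V (some i) x = p x * ν i) (x : R3) :
    ∑ i, θ i * P0 (A4 P) (B4 P) V (some i) x
      = -(P.m x : ℂ) * (DD θ (cf P.mu) x * DD ν p x + p x * DD θ (DD ν (cf P.mu)) x) := by
  have e0 : V none = fun _ => 0 := funext hV0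
  have e1 : ∀ i, V (some i) = fun y => p y * ν i := fun i => funext (hVp i)
  have p0 : ∀ j y, pd j (V none) y = 0 := fun j y => by rw [e0, CalcA.pd_const]
  have p1 : ∀ i j y, pd j (V (some i)) y = pd j p y * ν i := fun i j y => by
    rw [e1, CalcA.pd_mul_at (diffAt hp y) (differentiableAt_const _), CalcA.pd_const]; ring
  have p11 : ∀ i j k y, pd k (pd j (V (some i))) y = pd k (pd j p) y * ν i := fun i j k y => by
    rw [show pd j (V (some i)) = fun y => pd j p y * ν i from funext (p1 i j),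
      CalcA.pd_mul_at (diffAt (CalcA.contDiff_pd hp j) y) (differentiableAt_const _),
      CalcA.pd_const]; ring
  rw [DD_DD (contDiff_cf P.smooth_mu)]
  simp only [P0, A4, B4, Lap, DD, Fintype.sum_option, p0, p1, p11, hV0, hVp]
  simp only [Fin.sum_univ_three] at hθν ⊢
  simp
  linear_combination (pd 0 (pd 0 p) x + pd 1 (pd 1 p) x + pd 2 (pd 2 p) x
    + (P.m x : ℂ) * (pd 0 (cf P.mu) x * pd 0 p x + pd 1 (cf P.mu) x * pd 1 p x
      + pd 2 (cf P.mu) x * pd 2 p x)) * hθν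

theorem P0_none (P : Moduli) {ν : Fin 3 → ℂ}
    {V : Option (Fin 3) → R3 → ℂ} (hV0 : ∀ x, V none x = 0)
    {p : R3 → ℂ} (hp : ContDiff ℝ ∞ p) (hVp : ∀ i x, V (some i) x = p x * ν i) (x : R3) :
    P0 (A4 P) (B4 P) V none x
      = (P.cc x : ℂ) * ((P.lam x : ℂ) + (P.mu x : ℂ)) * DD ν p x
        + (P.cc x : ℂ) * p x * DD ν (cf P.mu) x := by
  have e0 : V none = fun _ => 0 := funext hV0
  have e1 : ∀ i, V (some i) = fun y => p y * ν i := fun i => funext (hVp i)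
  have p0 : ∀ j y, pd j (V none) y = 0 := fun j y => by rw [e0, CalcA.pd_const]
  have p00 : ∀ i j y, pd i (pd j (V none)) y = 0 := fun i j y => by
    rw [show pd j (V none) = fun _ => 0 from funext (p0 j), CalcA.pd_const]
  have p1 : ∀ i j y, pd j (V (some i)) y = pd j p y * ν i := fun i j y => by
    rw [e1, CalcA.pd_mul_at (diffAt hp y) (differentiableAt_const _), CalcA.pd_const]; ring
  simp only [P0, A4, B4, Lap, DD, Fintype.sum_option, p0, p00, p1, hV0, hVp]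
  simp only [Fin.sum_univ_three]
  simp
  ring

/-! ### the directional derivations on smooth functions -/

open La (Sm)

/-- directional derivation -/
def dv (v : Fin 3 → ℂ) : Derivation ℂ Sm Sm := ∑ j, v j • La.Sm.d j

/-- evaluation -/
def ev (x : R3) : Sm →+* ℂ where
  toFun f := f.1 x
  map_one' := rfl
  map_mul' _ _ := rfl
  map_zero' := rfl
  map_add' _ _ := rfl

theorem ev_apply (x : R3) (f : Sm) : ev x f = f.1 x := rfl

theorem ev_dv (v : Fin 3 → ℂ) (f : Sm) (x : R3) : ev x (dv v f) = DD v f.1 x := by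
  simp only [dv, DD, Fin.sum_univ_three, Derivation.add_apply, Derivation.smul_apply, map_add]
  rfl

theorem coe_dv (v : Fin 3 → ℂ) (f : Sm) : (dv v f).1 = DD v f.1 :=
  funext fun x => ev_dv v f x

theorem dv_comm (v w : Fin 3 → ℂ) (f : Sm) : dv v (dv w f) = dv w (dv v f) := by
  refine Subtype.ext ?_
  rw [coe_dv, coe_dv, coe_dv, coe_dv]
  exact funext fun x => DD_comm f.2 v w x

theorem dv_mul (v : Fin 3 → ℂ) (f g : Sm) : dv v (f * g) = dv v f * g + f * dv v g := by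
  rw [Derivation.leibniz]; simp only [smul_eq_mul]; ring

theorem dv_two (v : Fin 3 → ℂ) : dv v (2 : Sm) = 0 := by
  have := Derivation.map_natCast (dv v) 2
  exact_mod_cast this

theorem ev_congr {A B : Sm} {x : R3} (h : ∀ᶠ y in 𝓝 x, ev y A = ev y B) (v : Fin 3 → ℂ) :
    ev x (dv v A) = ev x (dv v B) := by
  rw [ev_dv, ev_dv]
  exact DD_congr h v

theorem alg_Sm (θ ν : Fin 3 → ℂ) (m1 m2 u1 u2 k1 k2 g a b gp ap p : Sm)
    (h1 : m1 * u1 = 1) (h2 : m2 * u2 = 1) (x : R3)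
    (E1 : ∀ᶠ y in 𝓝 x, ev y (dv θ g) = ev y (-(k1 * a)))
    (E2 : ev x (dv θ a) = ev x (g * dv θ (dv θ m1)))
    (E3 : ev x (2 * dv θ b) = ev x (dv θ m1 * u1 * b - dv ν m1 * u1 * a
      + 2 * g * dv θ (dv ν m1)))
    (E4 : ∀ᶠ y in 𝓝 x, ev y (2 * dv θ p) = ev y (dv θ m2 * u2 * p))
    (E5 : ∀ᶠ y in 𝓝 x, ev y (2 * dv θ gp) = ev y (-(2 * k2) * (ap - dv ν p - p * dv ν m2 * u2)
      - p * dv ν m2 * u2 * u2))
    (E6 : ev x (2 * dv θ ap) = ev x (2 * gp * dv θ (dv θ m2) + dv ν p * dv θ m2 * u2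
      + p * (dv θ (dv ν m2) * u2 - 2 * dv θ m2 * dv ν m2 * u2 * u2))) :
    ev x (-(2 * k1 - 2 * k2 + 4 * k1 * k2 * (m1 - m2)) * a * (ap - p * dv ν m2 * u2 - dv ν p)
      - (u1 - u2) * (1 - 2 * k1 * m1) * a * dv ν p
      + 2 * (u1 - u2) * (m1 * g * (dv θ ap + m2 * dv θ (dv θ gp) - gp * dv θ (dv θ m2))
        + m2 * gp * (dv θ a + m1 * dv θ (dv θ g) - g * dv θ (dv θ m1)))
      + (u1 - u2) * (dv θ p * (b + 2 * m1 * dv ν g)
        - p * (dv θ b + dv ν a + 2 * m1 * dv ν (dv θ g) - 2 * g * dv θ (dv ν m1))))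
    = ev x (dv θ (2 * g * (ap - gp * dv θ m2 - dv ν p) - 2 * gp * (a - g * dv θ m1)
          - 2 * (m1 - m2) * (g * dv θ gp + gp * dv θ g) + (u1 + u2) * p * b
          - 2 * g * p * dv ν m1 * u2)
        + dv ν ((m1 - m2) * (a * u1 * u2 - 2 * k1 * a * u2 - dv θ m2 * g * u2 * u2) * p)) := by
  have r1 : ev x m1 * ev x u1 = 1 := by rw [← map_mul, h1, map_one]
  have r2 : ev x m2 * ev x u2 = 1 := by rw [← map_mul, h2, map_one]
  have n1 : ev x m1 ≠ 0 := left_ne_zero_of_mul_eq_one r1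
  have n2 : ev x m2 ≠ 0 := left_ne_zero_of_mul_eq_one r2
  have i1 : ev x u1 = 1 / ev x m1 := by field_simp; linear_combination r1
  have i2 : ev x u2 = 1 / ev x m2 := by field_simp; linear_combination r2
  have du1 : ∀ v, ev x (dv v u1) = -ev x (dv v m1) / ev x m1 ^ 2 := by
    intro v
    have := congrArg (fun f => ev x (dv v f)) h1
    simp only [dv_mul, Derivation.map_one_eq_zero, map_add, map_mul, map_zero, i1] at this
    field_simp at this ⊢
    linear_combination this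
  have du2 : ∀ v, ev x (dv v u2) = -ev x (dv v m2) / ev x m2 ^ 2 := by
    intro v
    have := congrArg (fun f => ev x (dv v f)) h2
    simp only [dv_mul, Derivation.map_one_eq_zero, map_add, map_mul, map_zero, i2] at this
    field_simp at this ⊢
    linear_combination this
  have e1 := E1.self_of_nhds
  have e4 := E4.self_of_nhds
  have e5 := E5.self_of_nhds
  have e1D := ev_congr E1 θ
  have e1N := ev_congr E1 ν
  have e4N := ev_congr E4 ν
  have e5D := ev_congr E5 θ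
  simp only [dv_mul, dv_two, map_add, map_sub, map_neg, map_mul, map_zero, map_one, map_ofNat, i1, i2,
    du1, du2, dv_comm ν θ p, dv_comm ν θ m2] at E2 E3 E6 e1 e4 e5 e1D e1N e4N e5D ⊢
  have key := alg (ev x m1) (ev x m2) (ev x (dv θ m1)) (ev x (dv ν m1)) (ev x (dv θ m2))
    (ev x (dv ν m2)) (ev x (dv θ (dv θ m1))) (ev x (dv θ (dv ν m1))) (ev x (dv θ (dv θ m2)))
    (ev x (dv θ (dv ν m2))) (ev x k1) (ev x k2) (ev x (dv θ k1)) (ev x (dv θ k2)) (ev x (dv ν k1))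
    (ev x g) (ev x (dv ν g)) (ev x a) (ev x (dv ν a)) (ev x b) (ev x gp) (ev x ap) (ev x p)
    (ev x (dv ν p)) (ev x (dv θ g)) (ev x (dv θ a)) (ev x (dv θ b)) (ev x (dv θ p))
    (ev x (dv θ (dv ν p))) (ev x (dv θ gp)) (ev x (dv θ ap)) (ev x (dv θ (dv θ g)))
    (ev x (dv ν (dv θ g))) (ev x (dv θ (dv θ gp))) n1 n2
    (by linear_combination e1) (by linear_combination E2)
    (by linear_combination E3 / 2) (by linear_combination e4 / 2)
    (by linear_combination e4N / 2) (by linear_combination e5 / 2) (by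
      linear_combination (norm := (field_simp; ring)) E6 / 2)
    (by linear_combination e1D) (by linear_combination e1N)
    (by linear_combination (norm := (field_simp; ring)) e5D / 2)
  linear_combination (norm := (field_simp; ring)) key

/-! ### the pointwise identity -/

/-- the `D`-primitive -/
def TT (θ ν : Fin 3 → ℂ) (m1 m2 u1 u2 g a b gp ap p : Sm) : Sm :=
  2 * g * (ap - gp * dv θ m2 - dv ν p) - 2 * gp * (a - g * dv θ m1)
    - 2 * (m1 - m2) * (g * dv θ gp + gp * dv θ g) + (u1 + u2) * p * b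
    - 2 * g * p * dv ν m1 * u2

/-- the `N`-primitive -/
def CC (θ : Fin 3 → ℂ) (m1 m2 u1 u2 k1 g a p : Sm) : Sm :=
  (m1 - m2) * (a * u1 * u2 - 2 * k1 * a * u2 - dv θ m2 * g * u2 * u2) * p

/-- `m` -/
def mS (P : Moduli) : Sm := ⟨cf P.m, contDiff_cf (contDiff_m P)⟩
/-- `μ` -/
def uS (P : Moduli) : Sm := ⟨cf P.mu, contDiff_cf P.smooth_mu⟩
/-- `κ` -/
def kS (P : Moduli) : Sm := ⟨cf P.kap, contDiff_cf (contDiff_kap P)⟩

theorem mS_uS (P : Moduli) : mS P * uS P = 1 := by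
  refine Subtype.ext (funext fun x => ?_)
  show (P.m x : ℂ) * (P.mu x : ℂ) = 1
  exact_mod_cast CalcA.m_mul_mu P x

theorem kap_c (P : Moduli) (x : R3) :
    2 * (P.kap x : ℂ) = (P.cc x : ℂ) * ((P.lam x : ℂ) + (P.mu x : ℂ)) := by
  have := CalcA.kap_eq P x
  rw [this]; push_cast; ring

theorem cc_c (P : Moduli) (x : R3) : (P.cc x : ℂ) = 1 - 2 * (P.kap x : ℂ) * (P.m x : ℂ) := by
  have h : P.cc x = 1 - 2 * P.kap x * P.m x := by
    have h3 := CalcA.cc_inv P x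
    have h4 := (CalcA.cc_pos P x).ne'
    have h5 := CalcA.kap_eq P x
    have h6 := CalcA.m_mul_mu P x
    have h7 : P.cc x * (P.lam x * P.m x + 2) = 1 := by rw [← h3, mul_inv_cancel₀ h4]
    rw [h5]
    linear_combination h7 + P.cc x * h6
  exact_mod_cast h

theorem cc_lam_c (P : Moduli) (x : R3) :
    (P.cc x : ℂ) * ((P.lam x : ℂ) + 2 * (P.mu x : ℂ)) = (P.mu x : ℂ) := by
  have h : P.cc x * (P.lam x + 2 * P.mu x) = P.mu x := by
    unfold Moduli.cc
    exact div_mul_cancel₀ _ (CalcA.lam_add_two_mu_pos P x).ne'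
  exact_mod_cast h

theorem alg2 (l1 l2 u1 u2 m1 m2 k1 k2 a ap Dg Dgp p Np Nm2 : ℂ)
    (hm1 : m1 * u1 = 1) (hm2 : m2 * u2 = 1)
    (hc1 : (1 - 2 * k1 * m1) * (l1 + 2 * u1) = u1) (hc2 : (1 - 2 * k2 * m2) * (l2 + 2 * u2) = u2)
    (hDg : Dg = -(k1 * a))
    (hDgp : 2 * Dgp = -(2 * k2) * (ap - Np - p * Nm2 * u2) - p * Nm2 * u2 * u2) :
    -((l1 - l2) + (u1 - u2)) * (a + 2 * m1 * Dg) * (ap + 2 * m2 * Dgp)
      + (l1 - l2) * (a + 2 * m1 * Dg) * Np
    = -(2 * k1 - 2 * k2 + 4 * k1 * k2 * (m1 - m2)) * a * (ap - p * Nm2 * u2 - Np)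
      - (u1 - u2) * (1 - 2 * k1 * m1) * a * Np := by
  have H : ((l1 - l2) + (u1 - u2)) * (1 - 2 * k1 * m1) * (1 - 2 * k2 * m2)
      = 2 * k1 - 2 * k2 + 4 * k1 * k2 * (m1 - m2) := by
    linear_combination (1 - 2 * k2 * m2) * hc1 - (1 - 2 * k1 * m1) * hc2
      + (2 * k1 - 4 * k1 * k2 * m2) * hm1 + (-2 * k2 + 4 * k1 * k2 * m1) * hm2
  have h1 : a + 2 * m1 * Dg = (1 - 2 * k1 * m1) * a := by rw [hDg]; ring
  have h2 : ap + 2 * m2 * Dgp = (1 - 2 * k2 * m2) * (ap - p * Nm2 * u2 - Np) + Np := by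
    linear_combination m2 * hDgp - p * Nm2 * u2 * hm2
  rw [h1, h2, ← H]
  ring

end Crest.Agent.R080.W1Alg
end
end

-- ▼ part R080/W1Id
section

/-!
Row 80 (S0107), T13a: the transport equations as relations in the differential algebra and the
pointwise identity `q2 U V' + q1 U V = D T + N (c p)`.
-/

set_option autoImplicit false

open MeasureTheory Filter
open scoped ContDiff Topology
open Crest.AnalysisR.VecCalc3 Crest.AnalysisR.PDE.Elasticity

noncomputable section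
namespace Crest.Agent.R080.W1Alg

open CalcA
open La (Sm)
open W1 (nv)

section ident

variable (P₁ P₂ : Moduli) {s : Fin 2 → ℂ} (hs : s ≠ 0)
  {U V V' : Option (Fin 3) → R3 → ℂ} (hU : ∀ i, ContDiff ℝ ∞ (U i))
  (hV : ∀ i, ContDiff ℝ ∞ (V i)) (hV' : ∀ i, ContDiff ℝ ∞ (V' i))
  {p : R3 → ℂ} (hp : ContDiff ℝ ∞ p) (hV0 : ∀ x, V none x = 0)
  (hVp : ∀ i x, V (some i) x = p x * nv s i)

/-- bundled function -/
abbrev mk {f : R3 → ℂ} (hf : ContDiff ℝ ∞ f) : Sm := ⟨f, hf⟩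

theorem DD_mu (P : Moduli) (v : Fin 3 → ℂ) (x : R3) :
    (P.m x : ℂ) * DD v (cf P.mu) x = -(DD v (cf P.m) x * (P.mu x : ℂ)) := by
  have h := congrArg (fun f => ev x (dv v f)) (mS_uS P)
  simp only [dv_mul, Derivation.map_one_eq_zero, map_add, map_mul, map_zero] at h
  rw [ev_dv, ev_dv] at h
  have h' : DD v (cf P.m) x * (P.mu x : ℂ) + (P.m x : ℂ) * DD v (cf P.mu) x = 0 := h
  linear_combination h'

theorem DD_mu' (P : Moduli) (v : Fin 3 → ℂ) (x : R3) :
    DD v (cf P.mu) x = -(DD v (cf P.m) x * (P.mu x : ℂ) * (P.mu x : ℂ)) := by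
  have h := DD_mu P v x
  have h1 : (P.m x : ℂ) * (P.mu x : ℂ) = 1 := by exact_mod_cast CalcA.m_mul_mu P x
  linear_combination (P.mu x : ℂ) * h - DD v (cf P.mu) x * h1

theorem DD_DD_mu (P : Moduli) (v w : Fin 3 → ℂ) (x : R3) :
    (P.m x : ℂ) * DD v (DD w (cf P.mu)) x = -(DD v (DD w (cf P.m)) x * (P.mu x : ℂ)
      - 2 * DD v (cf P.m) x * DD w (cf P.m) x * (P.mu x : ℂ) * (P.mu x : ℂ)) := by
  have h := congrArg (fun f => ev x (dv v (dv w f))) (mS_uS P)
  simp only [dv_mul, Derivation.map_one_eq_zero, map_add, map_mul, map_zero, ev_dv, coe_dv] at h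
  have h' : DD v (DD w (cf P.m)) x * (P.mu x : ℂ) + DD w (cf P.m) x * DD v (cf P.mu) x
      + (DD v (cf P.m) x * DD w (cf P.mu) x + (P.m x : ℂ) * DD v (DD w (cf P.mu)) x) = 0 := h
  have h1 := DD_mu' P v x
  have h2 := DD_mu' P w x
  rw [h1, h2] at h'
  linear_combination h'

include hU in
theorem ident_E1 {x : R3} (H : M0 (th s) (A4 P₁) U none x = 0) :
    ev x (dv (th s) (mk (hU none))) = ev x (-(kS P₁ * mk (contDiff_ct hU (th s)))) := by
  rw [M0_none] at H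
  rw [ev_dv]
  show DD (th s) (U none) x = -((P₁.kap x : ℂ) * ct (th s) U x)
  linear_combination H / 2 + ct (th s) U x / 2 * kap_c P₁ x

include hU in
theorem ident_E2 {x : R3} (H : ∀ i, M0 (th s) (A4 P₁) U i x = 0) :
    ev x (dv (th s) (mk (contDiff_ct hU (th s))))
      = ev x (mk (hU none) * dv (th s) (dv (th s) (mS P₁))) := by
  have h := contr_M0 P₁ (th s) (th s) hU x
  simp only [H, mul_zero, Finset.sum_const_zero] at h
  rw [map_mul, ev_dv, ev_dv, coe_dv]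
  show DD (th s) (ct (th s) U) x = U none x * DD (th s) (DD (th s) (cf P₁.m)) x
  linear_combination -h / 2

include hU in
theorem ident_E3 {x : R3} (H : ∀ i, M0 (th s) (A4 P₁) U i x = 0) :
    ev x (2 * dv (th s) (mk (contDiff_ct hU (nv s))))
      = ev x (dv (th s) (mS P₁) * uS P₁ * mk (contDiff_ct hU (nv s))
        - dv (nv s) (mS P₁) * uS P₁ * mk (contDiff_ct hU (th s))
        + 2 * mk (hU none) * dv (th s) (dv (nv s) (mS P₁))) := by
  have h := contr_M0 P₁ (th s) (nv s) hU x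
  simp only [H, mul_zero, Finset.sum_const_zero] at h
  have h1 := DD_mu P₁ (th s) x
  have h2 := DD_mu P₁ (nv s) x
  rw [DD_comm (contDiff_cf (contDiff_m P₁))] at h
  simp only [map_mul, map_sub, map_add, map_ofNat, ev_dv, coe_dv]
  show 2 * DD (th s) (ct (nv s) U) x = DD (th s) (cf P₁.m) x * (P₁.mu x : ℂ) * ct (nv s) U x
    - DD (nv s) (cf P₁.m) x * (P₁.mu x : ℂ) * ct (th s) U x
    + 2 * U none x * DD (th s) (DD (nv s) (cf P₁.m)) x
  linear_combination -h - ct (nv s) U x * h1 + ct (th s) U x * h2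

include hs hV hV0 hp hVp in
theorem ident_E4 {x : R3} (H : ∀ i, M0 (th s) (A4 P₂) V i x = 0) :
    ev x (2 * dv (th s) (mk hp)) = ev x (dv (th s) (mS P₂) * uS P₂ * mk hp) := by
  have h := contr_M0 P₂ (th s) (nv s) hV x
  simp only [H, mul_zero, Finset.sum_const_zero] at h
  have c1 : ct (nv s) V = p := by
    funext y
    simp only [ct, hVp]
    have := W1.nv_nv hs
    calc ∑ i, nv s i * (p y * nv s i) = p y * ∑ i, nv s i * nv s i := by
          rw [Finset.mul_sum]; exact Finset.sum_congr rfl fun i _ => by ring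
      _ = p y := by rw [this, mul_one]
  have c2 : ct (th s) V x = 0 := by
    simp only [ct, hVp]
    have := W1.th_nv s
    calc ∑ i, th s i * (p x * nv s i) = p x * ∑ i, th s i * nv s i := by
          rw [Finset.mul_sum]; exact Finset.sum_congr rfl fun i _ => by ring
      _ = 0 := by rw [this, mul_zero]
  rw [c1, c2, hV0] at h
  have h1 := DD_mu P₂ (th s) x
  simp only [map_mul, map_ofNat, ev_dv]
  show 2 * DD (th s) p x = DD (th s) (cf P₂.m) x * (P₂.mu x : ℂ) * p x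
  linear_combination -h - p x * h1

include hV0 hp hVp hV' in
theorem ident_E5 {x : R3} (H : ∀ i, M0 (th s) (A4 P₂) V' i x = P0 (A4 P₂) (B4 P₂) V i x) :
    ev x (2 * dv (th s) (mk (hV' none)))
      = ev x (-(2 * kS P₂) * (mk (contDiff_ct hV' (th s)) - dv (nv s) (mk hp)
          - mk hp * dv (nv s) (mS P₂) * uS P₂)
        - mk hp * dv (nv s) (mS P₂) * uS P₂ * uS P₂) := by
  have h := H none
  rw [M0_none, P0_none P₂ hV0 hp hVp] at h
  have h1 := DD_mu' P₂ (nv s) x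
  have h2 := kap_c P₂ x
  have h3 := cc_c P₂ x
  have h4 : (P₂.m x : ℂ) * (P₂.mu x : ℂ) = 1 := by exact_mod_cast CalcA.m_mul_mu P₂ x
  simp only [map_mul, map_sub, map_neg, map_ofNat, ev_dv]
  show 2 * DD (th s) (V' none) x = -(2 * (P₂.kap x : ℂ)) * (ct (th s) V' x - DD (nv s) p x
      - p x * DD (nv s) (cf P₂.m) x * (P₂.mu x : ℂ))
    - p x * DD (nv s) (cf P₂.m) x * (P₂.mu x : ℂ) * (P₂.mu x : ℂ)
  rw [h1, ← h2, h3] at h
  linear_combination h + 2 * (P₂.kap x : ℂ) * p x * DD (nv s) (cf P₂.m) x * (P₂.mu x : ℂ) * h4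

include hV0 hp hVp hV' in
theorem ident_E6 {x : R3} (H : ∀ i, M0 (th s) (A4 P₂) V' i x = P0 (A4 P₂) (B4 P₂) V i x) :
    ev x (2 * dv (th s) (mk (contDiff_ct hV' (th s))))
      = ev x (2 * mk (hV' none) * dv (th s) (dv (th s) (mS P₂))
        + dv (nv s) (mk hp) * dv (th s) (mS P₂) * uS P₂
        + mk hp * (dv (th s) (dv (nv s) (mS P₂)) * uS P₂
          - 2 * dv (th s) (mS P₂) * dv (nv s) (mS P₂) * uS P₂ * uS P₂)) := by
  have h := contr_M0 P₂ (th s) (th s) hV' x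
  simp only [H] at h
  rw [contr_P0 P₂ (W1.th_nv s) hV0 hp hVp] at h
  have h1 := DD_mu P₂ (th s) x
  have h2 := DD_DD_mu P₂ (th s) (nv s) x
  simp only [map_mul, map_sub, map_add, map_ofNat, ev_dv, coe_dv]
  show 2 * DD (th s) (ct (th s) V') x = 2 * V' none x * DD (th s) (DD (th s) (cf P₂.m)) x
    + DD (nv s) p x * DD (th s) (cf P₂.m) x * (P₂.mu x : ℂ)
    + p x * (DD (th s) (DD (nv s) (cf P₂.m)) x * (P₂.mu x : ℂ)
      - 2 * DD (th s) (cf P₂.m) x * DD (nv s) (cf P₂.m) x * (P₂.mu x : ℂ) * (P₂.mu x : ℂ))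
  linear_combination -h - DD (nv s) p x * h1 - p x * h2

include hs hU hV hV' hp hV0 hVp in
theorem ident {x : R3} (HU : ∀ᶠ y in 𝓝 x, ∀ i, M0 (th s) (A4 P₁) U i y = 0)
    (HV : ∀ᶠ y in 𝓝 x, ∀ i, M0 (th s) (A4 P₂) V i y = 0)
    (HV' : ∀ᶠ y in 𝓝 x, ∀ i, M0 (th s) (A4 P₂) V' i y = P0 (A4 P₂) (B4 P₂) V i y) :
    q2 P₁ P₂ (th s) U V' x + q1 P₁ P₂ (th s) U V x
      = ev x (dv (th s) (TT (th s) (nv s) (mS P₁) (mS P₂) (uS P₁) (uS P₂) (mk (hU none))
            (mk (contDiff_ct hU (th s))) (mk (contDiff_ct hU (nv s))) (mk (hV' none))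
            (mk (contDiff_ct hV' (th s))) (mk hp))
          + dv (nv s) (CC (th s) (mS P₁) (mS P₂) (uS P₁) (uS P₂) (kS P₁) (mk (hU none))
            (mk (contDiff_ct hU (th s))) (mk hp))) := by
  have E1 : ∀ᶠ y in 𝓝 x, ev y (dv (th s) (mk (hU none)))
      = ev y (-(kS P₁ * mk (contDiff_ct hU (th s)))) := by
    filter_upwards [HU] with y hy using ident_E1 P₁ hU (hy none)
  have E4 : ∀ᶠ y in 𝓝 x, ev y (2 * dv (th s) (mk hp))
      = ev y (dv (th s) (mS P₂) * uS P₂ * mk hp) := by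
    filter_upwards [HV] with y hy using ident_E4 P₂ hs hV hp hV0 hVp hy
  have E5 : ∀ᶠ y in 𝓝 x, ev y (2 * dv (th s) (mk (hV' none)))
      = ev y (-(2 * kS P₂) * (mk (contDiff_ct hV' (th s)) - dv (nv s) (mk hp)
          - mk hp * dv (nv s) (mS P₂) * uS P₂)
        - mk hp * dv (nv s) (mS P₂) * uS P₂ * uS P₂) := by
    filter_upwards [HV'] with y hy using ident_E5 P₂ hV' hp hV0 hVp hy
  have hu := HU.self_of_nhds
  have hv := HV.self_of_nhds
  have hv' := HV'.self_of_nhds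
  have E2 := ident_E2 P₁ hU hu
  have E3 := ident_E3 P₁ hU hu
  have E6 := ident_E6 P₂ hV' hp hV0 hVp hv'
  have key := alg_Sm (th s) (nv s) (mS P₁) (mS P₂) (uS P₁) (uS P₂) (kS P₁) (kS P₂)
    (mk (hU none)) (mk (contDiff_ct hU (th s))) (mk (contDiff_ct hU (nv s))) (mk (hV' none))
    (mk (contDiff_ct hV' (th s))) (mk hp) (mS_uS P₁) (mS_uS P₂) x E1 E2 E3 E4 E5 E6
  rw [TT, CC, ← key]
  have e1 := E1.self_of_nhds
  have e5 := E5.self_of_nhds
  rw [q2_eq P₁ P₂ (W1.th_th s) hU hV' x, q1_eq P₁ P₂ (W1.th_nv s) hU hV0 hp hVp x]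
  simp only [map_mul, map_sub, map_add, map_neg, map_ofNat, map_one, ev_dv, coe_dv] at e1 e5 ⊢
  have r1 : ev x (mS P₁) = (P₁.m x : ℂ) := rfl
  have r2 : ev x (mS P₂) = (P₂.m x : ℂ) := rfl
  have r3 : ev x (uS P₁) = (P₁.mu x : ℂ) := rfl
  have r4 : ev x (uS P₂) = (P₂.mu x : ℂ) := rfl
  have r5 : ev x (kS P₁) = (P₁.kap x : ℂ) := rfl
  have r6 : ev x (kS P₂) = (P₂.kap x : ℂ) := rfl
  have r7 : (mS P₁).1 = cf P₁.m := rfl
  have r8 : (mS P₂).1 = cf P₂.m := rfl
  simp only [r1, r2, r3, r4, r5, r6, r7, r8, ev_apply] at e1 e5 ⊢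
  have hm1 : (P₁.m x : ℂ) * (P₁.mu x : ℂ) = 1 := by exact_mod_cast CalcA.m_mul_mu P₁ x
  have hm2 : (P₂.m x : ℂ) * (P₂.mu x : ℂ) = 1 := by exact_mod_cast CalcA.m_mul_mu P₂ x
  have hc1 := cc_lam_c P₁ x
  have hc2 := cc_lam_c P₂ x
  rw [cc_c] at hc1 hc2
  have k2 := alg2 (P₁.lam x) (P₂.lam x) (P₁.mu x) (P₂.mu x) (P₁.m x) (P₂.m x) (P₁.kap x)
    (P₂.kap x) (ct (th s) U x) (ct (th s) V' x) (DD (th s) (U none) x) (DD (th s) (V' none) x)
    (p x) (DD (nv s) p x) (DD (nv s) (cf P₂.m) x) hm1 hm2 hc1 hc2 e1 e5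
  simp only [dlam, dmu]
  linear_combination k2

end ident

end Crest.Agent.R080.W1Alg
end
end

-- ▼ part R080/W1
section

/-!
Row 80 (S0107), T13a: the orthogonality identity `StmtW1` for the reduced system.
-/

set_option autoImplicit false

open MeasureTheory Filter
open scoped ContDiff Topology
open Crest.AnalysisR.VecCalc3 Crest.AnalysisR.PDE.Elasticity

noncomputable section
namespace Crest.Agent.R080
namespace W1Fin

open CalcA W1Alg
open La (Sm)
open W1 (nv al be)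

theorem int_DD_zero (hZ : StmtZ) (G : Dom) {F : R3 → ℂ} (hF : ContDiff ℝ ∞ F)
    (hF0 : ∀ x ∈ frontier G.Ω, F x = 0) (v : Fin 3 → ℂ) : ∫ x in G.Ω, DD v F x = 0 := by
  unfold DD
  rw [integral_finsetSum]
  · refine Finset.sum_eq_zero fun j _ => ?_
    rw [integral_const_mul, hZ G F (hF.of_le (by norm_cast)) hF0 j, mul_zero]
  · intro j _
    exact DB.integrableOn' G (continuous_const.mul (CalcA.contDiff_pd hF j).continuous)

/-- `Y · X` at a point -/
theorem dot_eq {s0 s1 a b Y0 Y1 X0 X1 : ℂ} (h : a * s1 - b * s0 = 1) :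
    Y0 * X0 + Y1 * X1 = (a * X0 + b * X1) * (s1 * Y0 - s0 * Y1)
      + (s0 * X0 + s1 * X1) * (a * Y1 - b * Y0) := by
  linear_combination (-(Y0 * X0 + Y1 * X1)) * h

end W1Fin

open CalcA W1Alg W1Fin in
open La (Sm) in
open W1 (nv al be) in
theorem t_W1 (h0 : StmtW0) (hb : StmtBdry) (hZ : StmtZ) (hL : W1.StmtLift) : StmtW1 := by
  intro G P₁ P₂ hd s hs X Y hX hY HX HY
  obtain ⟨U, V, V', hU, hV, hV', HU, hV0, HV, HV', hU0, hUθ, hUν, hVs, hV'0, hV'θ⟩ :=
    hL G P₁ P₂ s hs X Y hX hY HX HY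
  set p : R3 → ℂ := fun y => (P₂.sm y : ℂ) * (s 1 * Y (some 0) y - s 0 * Y (some 1) y) with hpdef
  have hp : ContDiff ℝ ∞ p := (CalcA.contDiff_cf (CalcA.contDiff_sm P₂)).mul
    ((contDiff_const.mul (hY _)).sub (contDiff_const.mul (hY _)))
  have hVp : ∀ i x, V (some i) x = p x * nv s i := hVs
  have hVθ : ∀ x, ∑ i, th s i * V (some i) x = 0 := by
    intro x
    simp only [hVp]
    have := W1.th_nv s
    calc ∑ i, th s i * (p x * nv s i) = p x * ∑ i, th s i * nv s i := by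
          rw [Finset.mul_sum]; exact Finset.sum_congr rfl fun i _ => by ring
      _ = 0 := by rw [this, mul_zero]
  have hW0 := h0 G P₁ P₂ hd (th s) (isNull_th hs) U V V' hU hV hV' HU hV0 hVθ HV HV'
  -- the primitives
  set T : Sm := TT (th s) (nv s) (mS P₁) (mS P₂) (uS P₁) (uS P₂) (mk (hU none))
            (mk (contDiff_ct hU (th s))) (mk (contDiff_ct hU (nv s))) (mk (hV' none))
            (mk (contDiff_ct hV' (th s))) (mk hp) with hT
  set C : Sm := CC (th s) (mS P₁) (mS P₂) (uS P₁) (uS P₂) (kS P₁) (mk (hU none))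
            (mk (contDiff_ct hU (th s))) (mk hp) with hC
  set YX : R3 → ℂ := fun y => ∑ a, Y a y * X a y with hYX
  have hYXs : ContDiff ℝ ∞ YX := ContDiff.sum fun a _ => (hY a).mul (hX a)
  set F : R3 → ℂ := fun y => T.1 y - 2 * YX y with hF
  have hTs : ContDiff ℝ ∞ T.1 := La.Sm.smooth T
  have hFs : ContDiff ℝ ∞ F := hTs.sub (contDiff_const.mul hYXs)
  have hid : ∀ x ∈ G.Ω, q2 P₁ P₂ (th s) U V' x + q1 P₁ P₂ (th s) U V x
      = 2 * DD (th s) YX x + DD (th s) F x + DD (nv s) C.1 x := by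
    intro x hx
    have hle : 𝓝 x ≤ 𝓝ˢ (closure G.Ω) := nhds_le_nhdsSet (subset_closure hx)
    have key := ident P₁ P₂ hs hU hV hV' hp hV0 hVp (HU.filter_mono hle) (HV.filter_mono hle)
      (HV'.filter_mono hle)
    rw [key, map_add, ev_dv, ev_dv]
    have e : DD (th s) F x = DD (th s) T.1 x - 2 * DD (th s) YX x := by
      rw [hF, DD_sub_at (f := T.1) (g := fun y => 2 * YX y) _ (diffAt hTs x)
        ((differentiableAt_const _).mul (diffAt hYXs x)), DD_const_mul_at _ _ (diffAt hYXs x)]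
    rw [e]
    ring
  -- boundary values
  have hm : ∀ x ∈ frontier G.Ω, P₁.m x = P₂.m x := fun x hx => by
    unfold Moduli.m; rw [hb G P₁ P₂ hd x hx]
  have hC0 : ∀ x ∈ frontier G.Ω, C.1 x = 0 := by
    intro x hx
    have e1 : (P₁.m x : ℂ) = (P₂.m x : ℂ) := by rw [hm x hx]
    have e2 : ev x (mS P₁) = ev x (mS P₂) := e1
    show ev x C = 0
    simp only [hC, CC, map_mul, map_sub, e2, sub_self, zero_mul]
  have hF0 : ∀ x ∈ frontier G.Ω, F x = 0 := by
    intro x hx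
    have e1 : (P₁.m x : ℂ) = (P₂.m x : ℂ) := by rw [hm x hx]
    have e3 : (P₁.sm x : ℂ) = (P₂.sm x : ℂ) := by unfold Moduli.sm; rw [hm x hx]
    have e2 : ev x (mS P₁) = ev x (mS P₂) := e1
    have e4 : (P₂.sm x : ℂ) * (P₂.sm x : ℂ) = (P₂.m x : ℂ) := by
      exact_mod_cast CalcA.sm_mul_sm P₂ x
    have e5 : (P₂.m x : ℂ) * (P₂.mu x : ℂ) = 1 := by exact_mod_cast CalcA.m_mul_mu P₂ x
    have e6 : (P₁.mu x : ℂ) = (P₂.mu x : ℂ) := by rw [hb G P₁ P₂ hd x hx]
    have e7 : (P₂.sm x : ℂ) ≠ 0 := by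
      have := (CalcA.sm_pos P₂ x).ne'
      exact_mod_cast this
    show ev x T - 2 * YX x = 0
    simp only [hT, TT, map_mul, map_sub, map_add, map_ofNat, e2, sub_self, mul_zero, zero_mul,
      sub_zero, ev_dv]
    show 2 * U none x * (ct (th s) V' x - V' none x * DD (th s) (cf P₂.m) x - DD (nv s) p x)
      - 2 * V' none x * (ct (th s) U x - U none x * DD (th s) (cf P₁.m) x)
      + ((P₁.mu x : ℂ) + (P₂.mu x : ℂ)) * p x * ct (nv s) U x
      - 2 * U none x * p x * DD (nv s) (cf P₁.m) x * (P₂.mu x : ℂ) - 2 * YX x = 0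
    have f1 : ct (th s) V' x = Y none x + V' none x * DD (th s) (cf P₂.m) x + DD (nv s) p x :=
      hV'θ x
    have f2 : ct (th s) U x = (P₁.sm x : ℂ) * (s 0 * X (some 0) x + s 1 * X (some 1) x)
      + X none x * DD (th s) (cf P₁.m) x := hUθ x
    have f3 : ct (nv s) U x = (P₁.sm x : ℂ) * (al s * X (some 0) x + be s * X (some 1) x)
      + X none x * DD (nv s) (cf P₁.m) x := hUν x
    have f4 : YX x = Y none x * X none x + (Y (some 0) x * X (some 0) x
        + Y (some 1) x * X (some 1) x) := by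
      simp only [hYX, Fintype.sum_option, Fin.sum_univ_two]
    have f5 := dot_eq (Y0 := Y (some 0) x) (Y1 := Y (some 1) x) (X0 := X (some 0) x)
      (X1 := X (some 1) x) (W1.al_be hs)
    have f6 : V' none x * (P₂.sm x : ℂ) = -(al s * Y (some 1) x - be s * Y (some 0) x) := by
      rw [hV'0 x, div_mul_cancel₀ _ e7]
    rw [f1, f2, f3, f4, f5, hU0 x, e6, e3]
    have f7 : p x = (P₂.sm x : ℂ) * (s 1 * Y (some 0) x - s 0 * Y (some 1) x) := rfl
    rw [f7]
    linear_combination (-2 * (s 0 * X (some 0) x + s 1 * X (some 1) x)) * f6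
      + 2 * (s 1 * Y (some 0) x - s 0 * Y (some 1) x)
        * (al s * X (some 0) x + be s * X (some 1) x) * ((P₂.mu x : ℂ) * e4 + e5)
  have hI := int_DD_zero hZ G hFs hF0 (th s)
  have hJ := int_DD_zero hZ G C.2 hC0 (nv s)
  have i1 : IntegrableOn (fun x => 2 * DD (th s) YX x) G.Ω :=
    DB.integrableOn' G (continuous_const.mul (contDiff_DD hYXs _).continuous)
  have i2 : IntegrableOn (fun x => DD (th s) F x) G.Ω :=
    DB.integrableOn' G (contDiff_DD hFs _).continuous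
  have i3 : IntegrableOn (fun x => DD (nv s) C.1 x) G.Ω :=
    DB.integrableOn' G (contDiff_DD C.2 _).continuous
  have i12 : IntegrableOn (fun x => 2 * DD (th s) YX x + DD (th s) F x) G.Ω := i1.add i2
  rw [setIntegral_congr_fun (DB.measurableSet G) hid, integral_add i12 i3,
    integral_add i1 i2, hI, hJ, integral_const_mul, add_zero, add_zero] at hW0
  exact (mul_eq_zero.1 hW0).resolve_left two_ne_zero

end Crest.Agent.R080
end
end

-- ▼ part R080/Orth

/-!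
Row 80 (S0107), T14: orthogonality for matrix solutions.
-/

set_option autoImplicit false

open MeasureTheory Filter
open scoped ContDiff Topology
open Crest.AnalysisR.VecCalc3 Crest.AnalysisR.PDE.Elasticity

noncomputable section
namespace Crest.Agent.R080
namespace Orth

/-! ### calculus of `DD` -/

lemma pd_mul {f g : R3 → ℂ} {x : R3} (j : Fin 3) (hf : DifferentiableAt ℝ f x)
    (hg : DifferentiableAt ℝ g x) :
    pd j (fun y => f y * g y) x = pd j f x * g x + f x * pd j g x := by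
  unfold pd
  rw [fderiv_fun_mul hf hg]
  simp only [_root_.add_apply, _root_.smul_apply, smul_eq_mul]
  ring

lemma pd_sum {ι : Type*} (s : Finset ι) {f : ι → R3 → ℂ} {x : R3} (j : Fin 3)
    (hf : ∀ i ∈ s, DifferentiableAt ℝ (f i) x) :
    pd j (fun y => ∑ i ∈ s, f i y) x = ∑ i ∈ s, pd j (f i) x := by
  unfold pd
  rw [fderiv_fun_sum hf]
  simp only [_root_.sum_apply]

lemma DD_mul {θ : Fin 3 → ℂ} {f g : R3 → ℂ} {x : R3} (hf : DifferentiableAt ℝ f x)
    (hg : DifferentiableAt ℝ g x) :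
    DD θ (fun y => f y * g y) x = DD θ f x * g x + f x * DD θ g x := by
  unfold DD
  simp only [pd_mul _ hf hg, mul_add, Finset.sum_add_distrib, Finset.sum_mul, Finset.mul_sum]
  congr 1
  · exact Finset.sum_congr rfl fun j _ => by ring
  · exact Finset.sum_congr rfl fun j _ => by ring

lemma DD_sum {ι : Type*} (s : Finset ι) {θ : Fin 3 → ℂ} {f : ι → R3 → ℂ} {x : R3}
    (hf : ∀ i ∈ s, DifferentiableAt ℝ (f i) x) :
    DD θ (fun y => ∑ i ∈ s, f i y) x = ∑ i ∈ s, DD θ (f i) x := by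
  unfold DD
  simp only [pd_sum s _ hf, Finset.mul_sum]
  rw [Finset.sum_comm]

/-- spinor null vectors are null -/
lemma isNull_th {s : Fin 2 → ℂ} (hs : s ≠ 0) : IsNull (th s) := by
  have hI : Complex.I ^ 2 = -1 := Complex.I_sq
  constructor
  · intro h
    apply hs
    have h0 : s 0 ^ 2 - s 1 ^ 2 = 0 := by simpa [th] using congrFun h 0
    have h1 : s 0 ^ 2 + s 1 ^ 2 = 0 := by simpa [th] using congrFun h 1
    have h00 : s 0 ^ 2 = 0 := by linear_combination (h0 + h1) / 2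
    have h11 : s 1 ^ 2 = 0 := by linear_combination (h1 - h0) / 2
    funext i
    fin_cases i
    · simpa using h00
    · simpa using h11
  · have e2 : th s 2 = 2 * s 0 * s 1 := rfl
    have e1 : th s 1 = Complex.I * (s 0 ^ 2 + s 1 ^ 2) := rfl
    have e0 : th s 0 = s 0 ^ 2 - s 1 ^ 2 := rfl
    rw [Fin.sum_univ_three, e0, e1, e2]
    linear_combination (s 0 ^ 2 + s 1 ^ 2) ^ 2 * hI

/-! ### smoothness of the coefficients -/

lemma contDiff_cf {f : R3 → ℝ} {n : WithTop ℕ∞} (hf : ContDiff ℝ n f) : ContDiff ℝ n (cf f) :=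
  Complex.ofRealCLM.contDiff.comp hf

lemma contDiff_pd {f : R3 → ℂ} (j : Fin 3) (hf : ContDiff ℝ ∞ f) : ContDiff ℝ ∞ (pd j f) := by
  unfold pd
  exact (hf.fderiv_right (m := ∞) (by simp)).clm_apply contDiff_const

lemma contDiff_DD {f : R3 → ℂ} (θ : Fin 3 → ℂ) (hf : ContDiff ℝ ∞ f) :
    ContDiff ℝ ∞ (DD θ f) := by
  unfold DD
  exact ContDiff.sum fun j _ => contDiff_const.mul (contDiff_pd j hf)

section moduli
variable (P : Moduli)

lemma lam_add_two_mu_pos (x : R3) : 0 < P.lam x + 2 * P.mu x := by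
  have h1 := P.mu_pos x
  have h2 := P.bulk_pos x
  linarith

lemma m_pos (x : R3) : 0 < P.m x := inv_pos.mpr (P.mu_pos x)

lemma sm_pos (x : R3) : 0 < P.sm x := Real.sqrt_pos.mpr (m_pos P x)

lemma contDiff_m : ContDiff ℝ ∞ P.m :=
  P.smooth_mu.inv fun x => (P.mu_pos x).ne'

lemma contDiff_sm : ContDiff ℝ ∞ P.sm :=
  (contDiff_m P).sqrt fun x => (m_pos P x).ne'

lemma contDiff_kap : ContDiff ℝ ∞ P.kap := by
  unfold Moduli.kap
  refine ((P.smooth_lam.add P.smooth_mu).mul P.smooth_mu).div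
    (contDiff_const.mul (P.smooth_lam.add (contDiff_const.mul P.smooth_mu))) fun x => ?_
  have := lam_add_two_mu_pos P x
  positivity

lemma contDiff_Amat (s : Fin 2 → ℂ) (a b : Option (Fin 2)) : ContDiff ℝ ∞ (Amat P s a b) := by
  have hm := contDiff_cf (contDiff_m P)
  have hk := contDiff_cf (contDiff_kap P)
  have hs := contDiff_cf (contDiff_sm P)
  have hm0 : ∀ x, (P.m x : ℂ) ≠ 0 := fun x => by exact_mod_cast (m_pos P x).ne'
  have hs0 : ∀ x, (P.sm x : ℂ) ≠ 0 := fun x => by exact_mod_cast (sm_pos P x).ne'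
  match a, b with
  | none, none => exact hk.neg.mul (contDiff_DD _ hm)
  | none, some j => exact (hk.neg.mul hs).mul contDiff_const
  | some i, none =>
    simp only [Amat, div_eq_mul_inv]
    exact ((hk.mul (ContDiff.inv hs hs0)).mul (contDiff_DD _ hm)).mul (contDiff_DD _ hm)
  | some i, some j =>
    simp only [Amat, div_eq_mul_inv]
    refine ((hk.sub (contDiff_const.mul (ContDiff.inv (contDiff_const.mul hm) fun x => ?_))).mul
      contDiff_const).mul (contDiff_DD _ hm)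
    exact mul_ne_zero two_ne_zero (hm0 x)

end moduli

lemma isOpen_dom (G : Dom) : IsOpen G.Ω := by
  rw [G.eq]
  exact isOpen_lt G.smooth.continuous continuous_const

lemma isCompact_closure_dom (G : Dom) : IsCompact (closure G.Ω) := G.bdd.isCompact_closure

lemma integrableOn_dom (G : Dom) {f : R3 → ℂ} (hf : Continuous f) :
    IntegrableOn f G.Ω := by
  exact (hf.continuousOn.integrableOn_compact (isCompact_closure_dom G)).mono_set subset_closure

section slab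

variable {θ : Fin 3 → ℂ} {A₁ A₂ ψ : Option (Fin 2) → Option (Fin 2) → R3 → ℂ}
  {h g : R3 → ℂ} {C Ci : Option (Fin 2) → Option (Fin 2) → R3 → ℂ}

lemma slab_X (hg : ContDiff ℝ ∞ g) (hgD : ∀ x, DD θ g x = 0)
    (hC : ∀ i j, ContDiff ℝ ∞ (C i j)) {x : R3}
    (hCD : x ∈ tsupport g → ∀ i j, DD θ (C i j) x = ∑ l, A₁ i l x * C l j x)
    (b : Option (Fin 2)) :
    DSys θ A₁ (fun i y => g y * C i b y) x := by
  intro i
  rw [DD_mul (hg.differentiable (by simp) x) ((hC i b).differentiable (by simp) x), hgD]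
  by_cases hx : x ∈ tsupport g
  · rw [hCD hx]
    simp only [zero_mul, zero_add, Finset.mul_sum]
    exact Finset.sum_congr rfl fun l _ => by ring
  · have : g x = 0 := by
      by_contra hne
      exact hx (subset_tsupport g hne)
    simp [this]

lemma slab_Y (hh : ContDiff ℝ ∞ h) (hhD : ∀ x, DD θ h x = 0)
    (hψ : ∀ i j, ContDiff ℝ ∞ (ψ i j)) (hCi : ∀ i j, ContDiff ℝ ∞ (Ci i j)) {x : R3}
    (hCD : h x ≠ 0 → ∀ i j, DD θ (Ci i j) x = -∑ l, Ci i l x * A₁ l j x)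
    (hψD : ∀ a b, DD θ (ψ a b) x = - ∑ c, A₂ c a x * ψ c b x + ∑ c, ψ a c x * A₁ b c x)
    (b : Option (Fin 2)) :
    DAdj θ A₂ (fun i y => h y * ∑ c, ψ i c y * Ci b c y) x := by
  intro i
  have hd : ∀ c, DifferentiableAt ℝ (fun y => ψ i c y * Ci b c y) x := fun c =>
    ((hψ i c).differentiable (by simp) x).mul ((hCi b c).differentiable (by simp) x)
  rw [DD_mul (hh.differentiable (by simp) x) (DifferentiableAt.fun_sum fun c _ => hd c), hhD,
    DD_sum _ fun c _ => hd c]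
  by_cases hx : h x = 0
  · simp [hx]
  · have e : ∀ c, DD θ (fun y => ψ i c y * Ci b c y) x
        = (- ∑ d, A₂ d i x * ψ d c x + ∑ d, ψ i d x * A₁ c d x) * Ci b c x
          + ψ i c x * (-∑ l, Ci b l x * A₁ l c x) := fun c => by
      rw [DD_mul ((hψ i c).differentiable (by simp) x) ((hCi b c).differentiable (by simp) x),
        hψD, hCD hx]
    simp only [e, Finset.sum_add_distrib, add_mul, Finset.sum_mul, Finset.mul_sum, neg_mul,
      mul_neg, Finset.sum_neg_distrib, zero_mul, mul_add, Finset.sum_const_zero]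
    have e1 : ∑ c, ∑ d, h x * (A₂ d i x * ψ d c x * Ci b c x)
        = ∑ d, ∑ c, A₂ d i x * (h x * (ψ d c x * Ci b c x)) := by
      rw [Finset.sum_comm]
      exact Finset.sum_congr rfl fun d _ => Finset.sum_congr rfl fun c _ => by ring
    have e2 : ∑ c, ∑ d, h x * (ψ i d x * A₁ c d x * Ci b c x)
        = ∑ d, ∑ c, h x * (ψ i d x * (Ci b c x * A₁ c d x)) := by
      rw [Finset.sum_comm]
      exact Finset.sum_congr rfl fun d _ => Finset.sum_congr rfl fun c _ => by ring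
    rw [e1, e2]
    ring

lemma slab_sum {x : R3} (hhg : h x ≠ 0 → g x = 1)
    (hinv : h x ≠ 0 → ∀ i j, ∑ l, C i l x * Ci l j x = if i = j then 1 else 0)
    (i j : Option (Fin 2)) :
    ∑ b, (h x * ∑ c, ψ i c x * Ci b c x) * (g x * C j b x) = h x * ψ i j x := by
  by_cases hx : h x = 0
  · simp [hx]
  · rw [hhg hx]
    have e : ∀ b, (h x * ∑ c, ψ i c x * Ci b c x) * (1 * C j b x)
        = ∑ c, h x * ψ i c x * (C j b x * Ci b c x) := fun b => by
      rw [Finset.mul_sum, Finset.sum_mul]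
      exact Finset.sum_congr rfl fun c _ => by ring
    simp only [e]
    rw [Finset.sum_comm]
    simp only [← Finset.mul_sum, hinv hx]
    simp

lemma DD_pair {X Y : Option (Fin 2) → R3 → ℂ} {x : R3}
    (hX : ∀ i, ContDiff ℝ ∞ (X i)) (hY : ∀ i, ContDiff ℝ ∞ (Y i))
    (hX' : DSys θ A₁ X x) (hY' : DAdj θ A₂ Y x) :
    DD θ (fun y => ∑ a, Y a y * X a y) x
      = -∑ a, ∑ b, (A₂ a b x - A₁ a b x) * (Y a x * X b x) := by
  have hd : ∀ a, DifferentiableAt ℝ (fun y => Y a y * X a y) x := fun a =>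
    ((hY a).differentiable (by simp) x).mul ((hX a).differentiable (by simp) x)
  rw [DD_sum _ fun a _ => hd a]
  have e : ∀ a, DD θ (fun y => Y a y * X a y) x
      = (-∑ b, A₂ b a x * Y b x) * X a x + Y a x * ∑ b, A₁ a b x * X b x := fun a => by
    rw [DD_mul ((hY a).differentiable (by simp) x) ((hX a).differentiable (by simp) x),
      hX' a, hY' a]
  simp only [e, Finset.sum_add_distrib, sub_mul, Finset.sum_sub_distrib, neg_mul, Finset.sum_mul,
    Finset.mul_sum, Finset.sum_neg_distrib]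
  rw [Finset.sum_comm]
  have e1 : ∑ y, ∑ x_1, A₂ y x_1 x * Y y x * X x_1 x
      = ∑ y, ∑ x_1, A₂ y x_1 x * (Y y x * X x_1 x) :=
    Finset.sum_congr rfl fun d _ => Finset.sum_congr rfl fun c _ => by ring
  have e2 : ∑ y, ∑ x_1, Y y x * (A₁ y x_1 x * X x_1 x)
      = ∑ y, ∑ x_1, A₁ y x_1 x * (Y y x * X x_1 x) :=
    Finset.sum_congr rfl fun d _ => Finset.sum_congr rfl fun c _ => by ring
  rw [e1, e2]
  ring

end slab

end Orth

open Orth in
theorem t_Orth (h1 : StmtW1) (hFM : StmtFM) : StmtOrth := by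
  intro G P₁ P₂ hS s hs ψ hψ hD
  obtain ⟨R, hR⟩ : ∃ R, closure G.Ω ⊆ Metric.ball (0 : R3) R :=
    (isCompact_closure_dom G).isBounded.subset_ball 0
  obtain ⟨N, h, g, C, Ci, hh, hg, hhD, hgD, hsum, hhg, hC, hCi, hF⟩ :=
    hFM (Option (Fin 2)) (th s) (isNull_th hs) (Amat P₁ s) (contDiff_Amat P₁ s) R
  have hball : ∀ᶠ x : R3 in 𝓝ˢ (closure G.Ω), ‖x‖ < R := by
    filter_upwards [Metric.isOpen_ball.mem_nhdsSet.mpr hR] with x hx
    simpa using hx
  have hts : ∀ k x, h k x ≠ 0 → x ∈ tsupport (g k) := fun k x hx =>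
    subset_tsupport _ (by
      rw [Function.mem_support, hhg k x hx]
      exact one_ne_zero)
  have hDψ : ∀ x, (∀ a b, Dstar P₁ P₂ s ψ a b x = 0) → ∀ a b,
      DD (th s) (ψ a b) x
        = - ∑ c, Amat P₂ s c a x * ψ c b x + ∑ c, ψ a c x * Amat P₁ s b c x := by
    intro x hx a b
    have := hx a b
    unfold Dstar at this
    linear_combination -this
  -- the pairs of solutions
  let X : Fin N → Option (Fin 2) → Option (Fin 2) → R3 → ℂ := fun k b i y => g k y * C k i b y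
  let Y : Fin N → Option (Fin 2) → Option (Fin 2) → R3 → ℂ := fun k b i y =>
    h k y * ∑ c, ψ i c y * Ci k b c y
  have hXs : ∀ k b i, ContDiff ℝ ∞ (X k b i) := fun k b i => (hg k).mul (hC k i b)
  have hYs : ∀ k b i, ContDiff ℝ ∞ (Y k b i) := fun k b i =>
    (hh k).mul (ContDiff.sum fun c _ => (hψ i c).mul (hCi k b c))
  have hX : ∀ k b (x : R3), ‖x‖ < R → DSys (th s) (Amat P₁ s) (X k b) x := fun k b x hx =>
    slab_X (hg k) (hgD k) (hC k) (fun hx' => (hF k x hx' hx).1) b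
  have hY : ∀ k b (x : R3), ‖x‖ < R → (∀ a b, Dstar P₁ P₂ s ψ a b x = 0) →
      DAdj (th s) (Amat P₂ s) (Y k b) x := fun k b x hx hx' =>
    slab_Y (hh k) (hhD k) hψ (hCi k) (fun hne => (hF k x (hts k x hne) hx).2.1) (hDψ x hx') b
  have hint : ∀ k b, ∫ x in G.Ω, DD (th s) (fun y => ∑ a, Y k b a y * X k b a y) x = 0 := by
    intro k b
    refine h1 G P₁ P₂ hS s hs (X k b) (Y k b) (hXs k b) (hYs k b) ?_ ?_
    · filter_upwards [hball] with x hx using hX k b x hx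
    · filter_upwards [hball, hD] with x hx hx' using hY k b x hx hx'
  have hsmooth : ∀ k b, Continuous (DD (th s) (fun y => ∑ a, Y k b a y * X k b a y)) :=
    fun k b => (contDiff_DD _ (ContDiff.sum fun a _ => (hYs k b a).mul (hXs k b a))).continuous
  have hpt : ∀ x ∈ G.Ω, ∑ k, ∑ b, DD (th s) (fun y => ∑ a, Y k b a y * X k b a y) x
      = -∑ a, ∑ b, (Amat P₂ s a b x - Amat P₁ s a b x) * ψ a b x := by
    intro x hx
    have hxR : ‖x‖ < R := by simpa using hR (subset_closure hx)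
    have hx' : ∀ a b, Dstar P₁ P₂ s ψ a b x = 0 := hD.self_of_nhdsSet x (subset_closure hx)
    have e : ∀ k b, DD (th s) (fun y => ∑ a, Y k b a y * X k b a y) x
        = -∑ i, ∑ j, (Amat P₂ s i j x - Amat P₁ s i j x) * (Y k b i x * X k b j x) :=
      fun k b => DD_pair (hXs k b) (hYs k b) (hX k b x hxR) (hY k b x hxR hx')
    simp only [e, Finset.sum_neg_distrib]
    congr 1
    have e2 : ∀ k, ∑ b, ∑ i, ∑ j, (Amat P₂ s i j x - Amat P₁ s i j x) * (Y k b i x * X k b j x)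
        = ∑ i, ∑ j, h k x * ((Amat P₂ s i j x - Amat P₁ s i j x) * ψ i j x) := by
      intro k
      rw [Finset.sum_comm]
      refine Finset.sum_congr rfl fun i _ => ?_
      rw [Finset.sum_comm]
      refine Finset.sum_congr rfl fun j _ => ?_
      rw [← Finset.mul_sum]
      have := slab_sum (h := h k) (g := g k) (C := C k) (Ci := Ci k) (ψ := ψ) (hhg k x)
        (fun hne => (hF k x (hts k x hne) hxR).2.2.1) i j
      rw [show ∑ b, Y k b i x * X k b j x = h k x * ψ i j x from this]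
      ring
    simp only [e2]
    rw [Finset.sum_comm]
    refine Finset.sum_congr rfl fun i _ => ?_
    rw [Finset.sum_comm]
    refine Finset.sum_congr rfl fun j _ => ?_
    rw [← Finset.sum_mul, hsum x hxR, one_mul]
  have h0 : ∫ x in G.Ω, ∑ k, ∑ b, DD (th s) (fun y => ∑ a, Y k b a y * X k b a y) x = 0 := by
    rw [integral_finsetSum _ fun k _ => integrable_finsetSum _ fun b _ =>
      integrableOn_dom G (hsmooth k b)]
    refine Finset.sum_eq_zero fun k _ => ?_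
    rw [integral_finsetSum _ fun b _ => integrableOn_dom G (hsmooth k b)]
    exact Finset.sum_eq_zero fun b _ => hint k b
  rw [setIntegral_congr_fun (isOpen_dom G).measurableSet hpt, integral_neg, neg_eq_zero] at h0
  exact h0

end Crest.Agent.R080
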