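import Crest.Agent.R080.Stmts
import Crest.Agent.R080.BdryD
import Crest.Agent.R080.Stmts2
import Crest.Agent.R080.Pompeiu
import Mathlib

-- ▼ part R080/Main
section

/-!
Row 80 (S0107): the theorem from the extension lemma, the relations and the final step.
-/

set_option autoImplicit false

open MeasureTheory Filter
open scoped ContDiff Topology
open Crest.AnalysisR.VecCalc3 Crest.AnalysisR.PDE.Elasticity

namespace Crest.Agent.R080

theorem energy_congr (Ω : Set R3) (hΩ : MeasurableSet Ω) (lam mu lam' mu' : R3 → ℝ)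
    (h : ∀ x ∈ Ω, lam x = lam' x ∧ mu x = mu' x) (u : R3 → R3) :
    elasticEnergy Ω lam mu u = elasticEnergy Ω lam' mu' u := by
  unfold elasticEnergy
  refine setIntegral_congr_fun hΩ fun x hx => ?_
  simp only [energyDensity, (h x hx).1, (h x hx).2]

theorem main (hE : StmtExtend) (hR : StmtRelations) (hF : StmtFinal)
    (Ω : Set R3) (hopen : IsOpen Ω) (hbdd : Bornology.IsBounded Ω) (hconn : IsConnected Ω)
    (hbdry : Crest.AnalysisR.PDE.HasSmoothBoundary Ω)
    (lam₁ mu₁ lam₂ mu₂ : R3 → ℝ)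
    (hl₁ : ContDiffOn ℝ ∞ lam₁ (closure Ω)) (hm₁ : ContDiffOn ℝ ∞ mu₁ (closure Ω))
    (hl₂ : ContDiffOn ℝ ∞ lam₂ (closure Ω)) (hm₂ : ContDiffOn ℝ ∞ mu₂ (closure Ω))
    (hpos : ∀ x ∈ closure Ω, 0 < mu₁ x ∧ 0 < 3 * lam₁ x + 2 * mu₁ x ∧ 0 < mu₂ x ∧
      0 < 3 * lam₂ x + 2 * mu₂ x)
    (hdata : SameBoundaryData Ω lam₁ mu₁ lam₂ mu₂) :
    ∀ x ∈ Ω, lam₁ x = lam₂ x ∧ mu₁ x = mu₂ x := by
  obtain ⟨ρ, hρ, hΩ, hreg⟩ := hbdry
  let G : Dom := ⟨Ω, ρ, hρ, hΩ, hreg, hbdd, hconn⟩
  obtain ⟨P₁, hP₁⟩ := hE G lam₁ mu₁ hl₁ hm₁ fun x hx => ⟨(hpos x hx).1, (hpos x hx).2.1⟩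
  obtain ⟨P₂, hP₂⟩ := hE G lam₂ mu₂ hl₂ hm₂ fun x hx => ⟨(hpos x hx).2.2.1, (hpos x hx).2.2.2⟩
  have e₁ : ∀ u, elasticEnergy Ω lam₁ mu₁ u = elasticEnergy Ω P₁.lam P₁.mu u := fun u =>
    energy_congr Ω hopen.measurableSet _ _ _ _
      (fun x hx => ⟨(hP₁ x (subset_closure hx)).1.symm, (hP₁ x (subset_closure hx)).2.symm⟩) u
  have e₂ : ∀ u, elasticEnergy Ω lam₂ mu₂ u = elasticEnergy Ω P₂.lam P₂.mu u := fun u =>
    energy_congr Ω hopen.measurableSet _ _ _ _
      (fun x hx => ⟨(hP₂ x (subset_closure hx)).1.symm, (hP₂ x (subset_closure hx)).2.symm⟩) u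
  have hd : SameData G P₁ P₂ := by
    intro φ hφ
    obtain ⟨h1, h2⟩ := hdata φ hφ
    simp only [e₁, e₂] at h1 h2
    exact ⟨h1, h2⟩
  intro x hx
  have := hF G P₁ P₂ (hR G P₁ P₂ hd) x hx
  have h1 := hP₁ x (subset_closure hx)
  have h2 := hP₂ x (subset_closure hx)
  exact ⟨by rw [← h1.1, ← h2.1]; exact this.1, by rw [← h1.2, ← h2.2]; exact this.2⟩

end Crest.Agent.R080
end

-- ▼ part R080/Bdry
section

/-!
Row 80 (S0107), T4: `μ₁ = μ₂` on the boundary, from `StmtZ` only.
-/

set_option autoImplicit false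

open MeasureTheory Filter
open scoped ContDiff Topology RealInnerProductSpace
open Crest.AnalysisR.VecCalc3 Crest.AnalysisR.PDE.Elasticity

noncomputable section
namespace Crest.Agent.R080.Bdry

/-! ### values of the cutoff -/

theorem bm_one {y : R3} (hy : ‖y‖ ≤ 1 / 2) : bm y = 1 :=
  bmp.one_of_mem_closedBall (by simpa [bmp] using hy)

theorem bm_zero {y : R3} (hy : 1 ≤ ‖y‖) : bm y = 0 :=
  bmp.zero_of_le_dist (by simpa [bmp] using hy)

theorem dv_eventually_zero {f : R3 → ℝ} {y : R3} (h : ∀ᶠ z in 𝓝 y, f z = 0) (e : R3) :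
    ∀ᶠ z in 𝓝 y, dv e f z = 0 := by
  filter_upwards [eventually_eventually_nhds.mpr h] with z hz
  have h1 : f =ᶠ[𝓝 z] fun _ => (0 : ℝ) := hz
  unfold dv
  rw [h1.fderiv_eq]
  simp

theorem bm_eventually_zero {y : R3} (hy : 1 < ‖y‖) : ∀ᶠ z in 𝓝 y, bm z = 0 := by
  have : ∀ᶠ z in 𝓝 y, 1 < ‖z‖ := continuous_norm.continuousAt.eventually_const_lt hy
  filter_upwards [this] with z hz
  exact bm_zero hz.le

theorem norm_scaled (x₀ x : R3) {ε : ℝ} (hε : 0 < ε) : ‖ε⁻¹ • (x - x₀)‖ = ‖x - x₀‖ / ε := by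
  rw [norm_smul, norm_inv, Real.norm_eq_abs, abs_of_pos hε]
  ring

theorem out_ball {x₀ x : R3} {ε : ℝ} (hε : 0 < ε) (hx : ε < ‖x - x₀‖) :
    chi x₀ ε x = 0 ∧ (∀ e, dv e (chi x₀ ε) x = 0) ∧ ∀ e e', dv e' (dv e (chi x₀ ε)) x = 0 := by
  have h1 : 1 < ‖ε⁻¹ • (x - x₀)‖ := by
    rw [norm_scaled x₀ x hε, one_lt_div hε]; exact hx
  have h2 := bm_eventually_zero h1
  refine ⟨h2.self_of_nhds, fun e => ?_, fun e e' => ?_⟩
  · rw [dv_chi, (dv_eventually_zero h2 e).self_of_nhds, mul_zero]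
  · rw [dv_dv_chi, (dv_eventually_zero (dv_eventually_zero h2 e) e').self_of_nhds, mul_zero]

theorem chi_one {x₀ x : R3} {ε : ℝ} (hε : 0 < ε) (hx : ‖x - x₀‖ ≤ ε / 2) : chi x₀ ε x = 1 := by
  apply bm_one
  rw [norm_scaled x₀ x hε, div_le_iff₀ hε]
  linarith

/-! ### local bounds for the moduli -/

theorem local_bounds (P₁ P₂ : Moduli) (x₀ : R3) (h : P₂.mu x₀ < P₁.mu x₀) :
    ∃ Λ r : ℝ, 0 < r ∧ P₁.mu x₀ ≤ Λ ∧ ∀ x, ‖x - x₀‖ ≤ r →
      P₂.mu x ≤ Λ ∧ (P₁.mu x)⁻¹ ≤ Λ ∧ |P₂.lam x| ≤ Λ ∧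
      (3 * (3 * P₁.lam x + 2 * P₁.mu x))⁻¹ ≤ Λ ∧
      2 * P₂.mu x - 4 * P₁.mu x₀ + 2 * P₁.mu x₀ ^ 2 * (P₁.mu x)⁻¹ ≤ -(P₁.mu x₀ - P₂.mu x₀) := by
  have c1 : Continuous P₁.mu := P₁.smooth_mu.continuous
  have c2 : Continuous P₂.mu := P₂.smooth_mu.continuous
  have c3 : Continuous P₁.lam := P₁.smooth_lam.continuous
  have c4 : Continuous P₂.lam := P₂.smooth_lam.continuous
  have c5 : Continuous fun x => (P₁.mu x)⁻¹ := c1.inv₀ fun x => (P₁.mu_pos x).ne'
  have c6 : Continuous fun x => (3 * (3 * P₁.lam x + 2 * P₁.mu x))⁻¹ :=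
    Continuous.inv₀ (by fun_prop) fun x => by have := P₁.bulk_pos x; positivity
  set Λ : ℝ := P₁.mu x₀ + (P₂.mu x₀ + 1) + ((P₁.mu x₀)⁻¹ + 1) + (|P₂.lam x₀| + 1)
    + ((3 * (3 * P₁.lam x₀ + 2 * P₁.mu x₀))⁻¹ + 1) with hΛ
  have p1 := P₁.mu_pos x₀
  have p2 := P₂.mu_pos x₀
  have p3 : 0 < (P₁.mu x₀)⁻¹ := by positivity
  have p4 := abs_nonneg (P₂.lam x₀)
  have p5 : 0 < (3 * (3 * P₁.lam x₀ + 2 * P₁.mu x₀))⁻¹ := by
    have := P₁.bulk_pos x₀; positivity
  have e1 : ∀ᶠ x in 𝓝 x₀, P₂.mu x < P₂.mu x₀ + 1 := c2.continuousAt.eventually_lt_const (by linarith)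
  have e2 : ∀ᶠ x in 𝓝 x₀, (P₁.mu x)⁻¹ < (P₁.mu x₀)⁻¹ + 1 :=
    c5.continuousAt.eventually_lt_const (by linarith)
  have e3 : ∀ᶠ x in 𝓝 x₀, |P₂.lam x| < |P₂.lam x₀| + 1 :=
    c4.abs.continuousAt.eventually_lt_const (by linarith)
  have e4 : ∀ᶠ x in 𝓝 x₀, (3 * (3 * P₁.lam x + 2 * P₁.mu x))⁻¹
      < (3 * (3 * P₁.lam x₀ + 2 * P₁.mu x₀))⁻¹ + 1 :=
    c6.continuousAt.eventually_lt_const (by linarith)
  have c7 : Continuous fun x => 2 * P₂.mu x - 4 * P₁.mu x₀ + 2 * P₁.mu x₀ ^ 2 * (P₁.mu x)⁻¹ := by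
    fun_prop
  have e5 : ∀ᶠ x in 𝓝 x₀, 2 * P₂.mu x - 4 * P₁.mu x₀ + 2 * P₁.mu x₀ ^ 2 * (P₁.mu x)⁻¹
      < -(P₁.mu x₀ - P₂.mu x₀) := by
    refine c7.continuousAt.eventually_lt_const ?_
    have : 2 * P₁.mu x₀ ^ 2 * (P₁.mu x₀)⁻¹ = 2 * P₁.mu x₀ := by
      field_simp
    show 2 * P₂.mu x₀ - 4 * P₁.mu x₀ + 2 * P₁.mu x₀ ^ 2 * (P₁.mu x₀)⁻¹ < -(P₁.mu x₀ - P₂.mu x₀)
    rw [this]
    linarith
  obtain ⟨r, hr, hball⟩ := Metric.eventually_nhds_iff_ball.mp
    (e1.and (e2.and (e3.and (e4.and e5))))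
  refine ⟨Λ, r / 2, by positivity, by linarith, fun x hx => ?_⟩
  have hxb : x ∈ Metric.ball x₀ r := by
    rw [Metric.mem_ball, dist_eq_norm]; linarith
  obtain ⟨f1, f2, f3, f4, f5⟩ := hball x hxb
  exact ⟨by linarith, by linarith, by linarith, by linarith, f5.le⟩


/-! ### the pointwise inequality for the whole integrand -/

theorem integrand_le {lam1 lam2 mu1 mu2 m Λ δ B : ℝ} (hδ : 0 < δ) (hm : 0 ≤ m) (hmΛ : m ≤ Λ)
    (h2 : 0 ≤ mu2) (h2Λ : mu2 ≤ Λ) (h1 : 0 < mu1) (h1Λ : mu1⁻¹ ≤ Λ)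
    (hl2 : |lam2| ≤ Λ) (hb : 0 < 3 * lam1 + 2 * mu1) (hbΛ : (3 * (3 * lam1 + 2 * mu1))⁻¹ ≤ Λ)
    (hlead : 2 * mu2 - 4 * m + 2 * m ^ 2 * mu1⁻¹ ≤ -δ) (T e s : Fin 3 → Fin 3 → ℝ)
    (hT : ∑ i, T i i = 0) (he : ∀ i j, |e i j| ≤ B) (hs : ∀ i j, |s i j| ≤ B) :
    (lam2 * (∑ i, (T i i + e i i)) ^ 2 + 2 * mu2 * ∑ i, ∑ j, (T i j + e i j) ^ 2)
      + ((∑ i, ∑ j, (2 * m * T i j + s i j) ^ 2) / (2 * mu1)
        + (∑ i, (2 * m * T i i + s i i)) ^ 2 / (3 * (3 * lam1 + 2 * mu1)))
      - 2 * ∑ i, ∑ j, (2 * m * T i j + s i j) * (T i j + e i j)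
      ≤ -(δ / 2) * ∑ i, ∑ j, T i j ^ 2
        + (9 * ((8 * Λ + 2 + 2 * Λ ^ 2) ^ 2 / (2 * δ) + 3 * Λ + 2) + 18 * Λ) * B ^ 2 := by
  have hΛ : 0 ≤ Λ := hm.trans hmΛ
  set C₂ := (8 * Λ + 2 + 2 * Λ ^ 2) ^ 2 / (2 * δ) + 3 * Λ + 2 with hC₂
  have hB : 0 ≤ B := (abs_nonneg _).trans (he 0 0)
  have hent : ∀ i j, 2 * mu2 * (T i j + e i j) ^ 2 - 2 * ((2 * m * T i j + s i j) * (T i j + e i j))
      + (2 * m * T i j + s i j) ^ 2 / (2 * mu1) ≤ -(δ / 2) * T i j ^ 2 + C₂ * B ^ 2 := fun i j =>
    entry_ineq hδ hm hmΛ h2 h2Λ h1 h1Λ hlead (he i j) (hs i j)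
  have hsum : ∑ i, ∑ j, (2 * mu2 * (T i j + e i j) ^ 2
      - 2 * ((2 * m * T i j + s i j) * (T i j + e i j)) + (2 * m * T i j + s i j) ^ 2 / (2 * mu1))
      ≤ ∑ i : Fin 3, ∑ j : Fin 3, (-(δ / 2) * T i j ^ 2 + C₂ * B ^ 2) :=
    Finset.sum_le_sum fun i _ => Finset.sum_le_sum fun j _ => hent i j
  have hR : ∑ i : Fin 3, ∑ j : Fin 3, (-(δ / 2) * T i j ^ 2 + C₂ * B ^ 2)
      = -(δ / 2) * ∑ i, ∑ j, T i j ^ 2 + 9 * C₂ * B ^ 2 := by
    simp only [Fin.sum_univ_three]
    ring
  have hL : ∑ i, ∑ j, (2 * mu2 * (T i j + e i j) ^ 2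
      - 2 * ((2 * m * T i j + s i j) * (T i j + e i j)) + (2 * m * T i j + s i j) ^ 2 / (2 * mu1))
      = 2 * mu2 * ∑ i, ∑ j, (T i j + e i j) ^ 2
        - 2 * ∑ i, ∑ j, (2 * m * T i j + s i j) * (T i j + e i j)
        + (∑ i, ∑ j, (2 * m * T i j + s i j) ^ 2) / (2 * mu1) := by
    simp only [Fin.sum_univ_three]
    ring
  have tr : ∀ a : Fin 3 → Fin 3 → ℝ, (∀ i j, |a i j| ≤ B) → (∑ i, a i i) ^ 2 ≤ 9 * B ^ 2 := by
    intro a ha
    have h3 : |∑ i, a i i| ≤ 3 * B := by
      calc _ ≤ ∑ i, |a i i| := Finset.abs_sum_le_sum_abs _ _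
        _ ≤ ∑ _i : Fin 3, B := Finset.sum_le_sum fun i _ => ha i i
        _ = 3 * B := by simp
    calc _ = |∑ i, a i i| ^ 2 := (sq_abs _).symm
      _ ≤ (3 * B) ^ 2 := pow_le_pow_left₀ (abs_nonneg _) h3 2
      _ = _ := by ring
  have t1 : ∑ i, (T i i + e i i) = ∑ i, e i i := by
    rw [Finset.sum_add_distrib, hT, zero_add]
  have t2 : ∑ i, (2 * m * T i i + s i i) = ∑ i, s i i := by
    rw [Finset.sum_add_distrib, ← Finset.mul_sum, hT, mul_zero, zero_add]
  have q1 : lam2 * (∑ i, e i i) ^ 2 ≤ 9 * Λ * B ^ 2 := by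
    calc _ ≤ |lam2| * (∑ i, e i i) ^ 2 := by gcongr; exact le_abs_self _
      _ ≤ Λ * (9 * B ^ 2) := mul_le_mul hl2 (tr e he) (sq_nonneg _) hΛ
      _ = _ := by ring
  have q2 : (∑ i, s i i) ^ 2 / (3 * (3 * lam1 + 2 * mu1)) ≤ 9 * Λ * B ^ 2 := by
    rw [div_eq_mul_inv]
    calc _ ≤ (9 * B ^ 2) * Λ := mul_le_mul (tr s hs) hbΛ (by positivity) (by positivity)
      _ = _ := by ring
  rw [t1, t2]
  rw [hL, hR] at hsum
  linarith

/-! ### the main estimate -/

set_option maxHeartbeats 2000000 in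
theorem main_est (hZ : StmtZ) (G : Dom) (P₁ P₂ : Moduli) (h : SameData G P₁ P₂) {x₀ : R3}
    (hx : x₀ ∈ frontier G.Ω) (hlt : P₂.mu x₀ < P₁.mu x₀) :
    ∃ r K C : ℝ, 0 < r ∧ 0 < K ∧ ∀ N ε : ℝ, 0 < N → 0 < ε → ε ≤ r → 6 ≤ N * ε →
      N * K * ε ^ 2 ≤ 1 → N * ε ≤ C := by
  obtain ⟨n, K, r₁, hn, hK, hr₁, hin, hout⟩ := exists_normal G hx
  obtain ⟨b, hb0⟩ := exists_frame hn
  obtain ⟨Λ, r₂, hr₂, hmΛ, hloc⟩ := local_bounds P₁ P₂ x₀ hlt
  obtain ⟨C₁, hC₁⟩ := exists_bound_bm1
  set t := b 1 with ht_def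
  obtain ⟨c1, hc1⟩ := exists_bound_bm2 n n
  obtain ⟨c2, hc2⟩ := exists_bound_bm2 n t
  obtain ⟨c3, hc3⟩ := exists_bound_bm2 t t
  set C₂ := max c1 (max c2 c3) with hC₂
  have ht : ‖t‖ = 1 := b.orthonormal.1 1
  have hnn : ⟪n, n⟫ = 1 := by rw [real_inner_self_eq_norm_sq, hn]; norm_num
  have htt : ⟪t, t⟫ = 1 := by rw [real_inner_self_eq_norm_sq, ht]; norm_num
  have hnt : ⟪n, t⟫ = 0 := by
    rw [← hb0]; exact b.orthonormal.2 (by decide)
  have hC₁0 : 0 ≤ C₁ := (abs_nonneg _).trans (hC₁ 0 0 (by simp))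
  have hC₂0 : 0 ≤ C₂ := ((abs_nonneg _).trans (hc1 0)).trans (le_max_left _ _)
  set m := P₁.mu x₀ with hm_def
  have hm : 0 < m := P₁.mu_pos x₀
  set δ := m - P₂.mu x₀ with hδ_def
  have hδ : 0 < δ := by rw [hδ_def]; linarith
  set E := Real.exp 1 with hE_def
  have hE : 0 < E := Real.exp_pos 1
  set M₁ := 2 * E * C₁ + 8 * m * E * (C₂ + 2 * C₁) with hM₁
  have hM₁0 : 0 ≤ M₁ := by positivity
  have hΛ : 0 ≤ Λ := hm.le.trans hmΛ
  set C₃ := 9 * ((8 * Λ + 2 + 2 * Λ ^ 2) ^ 2 / (2 * δ) + 3 * Λ + 2) + 18 * Λ with hC₃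
  have hC₃0 : 0 ≤ C₃ := by positivity
  set V := (volume (Metric.ball (0 : R3) 1)).toReal with hV
  refine ⟨min (r₁ / 2) r₂, K, 4 * Real.exp 4 * (C₃ * M₁ ^ 2 * V) / δ, by positivity, hK, ?_⟩
  intro N ε hN hε hεr hNε hNK
  have hε1 : ε < r₁ := by
    have := (hεr.trans (min_le_left _ _)); linarith
  have hε2 : ε ≤ r₂ := hεr.trans (min_le_right _ _)
  -- the fields
  have hu : ContDiff ℝ 1 (uF x₀ n t N ε) := (smooth_uF x₀ n t N ε).of_le (by norm_cast)
  have hS : ∀ i j, ContDiff ℝ 1 (SF x₀ n t N ε m i j) := fun i j =>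
    (smooth_SF x₀ n t N ε m i j).of_le (by norm_cast)
  have hmain := energy_ineq hZ G P₁ P₂ h (uF x₀ n t N ε) hu (SF x₀ n t N ε m) hS
    (SF_symm x₀ n t N ε m) (SF_div x₀ n t N ε m)
  -- pointwise bound
  have hpt : ∀ x ∈ G.Ω, (energyDensity P₂.lam P₂.mu (uF x₀ n t N ε) x
        + ((∑ i, ∑ j, SF x₀ n t N ε m i j x ^ 2) / (2 * P₁.mu x)
          + (∑ i, SF x₀ n t N ε m i i x) ^ 2 / (3 * (3 * P₁.lam x + 2 * P₁.mu x)))
        - 2 * ∑ i, ∑ j, SF x₀ n t N ε m i j x * symGrad (uF x₀ n t N ε) i j x)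
      ≤ -(δ / 2) * (2 * N ^ 2 * chi x₀ ε x ^ 2 * Real.exp (N * ⟪n, x - x₀⟫) ^ 2)
        + (Metric.closedBall x₀ ε).indicator (fun _ => C₃ * (M₁ / ε) ^ 2) x := by
    intro x hxΩ
    rw [← TF_sq x₀ n t N ε hnn htt hnt x]
    have hed : energyDensity P₂.lam P₂.mu (uF x₀ n t N ε) x
        = P₂.lam x * (∑ i, (TF x₀ n t N ε i i x + eF x₀ n t N ε i i x)) ^ 2
          + 2 * P₂.mu x * ∑ i, ∑ j, (TF x₀ n t N ε i j x + eF x₀ n t N ε i j x) ^ 2 := by
      unfold energyDensity
      rw [div3_eq]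
      simp only [symGrad_uF]
    rw [hed]
    simp only [symGrad_uF, SF_eq x₀ n t N ε m hnn htt hnt hN.ne']
    by_cases hxb : x ∈ Metric.closedBall x₀ ε
    · rw [Set.indicator_of_mem hxb]
      have hxn : ‖x - x₀‖ ≤ ε := by
        rw [← dist_eq_norm]; exact Metric.mem_closedBall.mp hxb
      obtain ⟨l1, l2, l3, l4, l5⟩ := hloc x (hxn.trans hε2)
      have hnx : N * ⟪n, x - x₀⟫ ≤ 1 := by
        have h1 := hin x (lt_of_le_of_lt hxn hε1) hxΩ
        calc N * ⟪n, x - x₀⟫ ≤ N * (K * ‖x - x₀‖ ^ 2) := by gcongr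
          _ ≤ N * (K * ε ^ 2) := by gcongr
          _ ≤ 1 := by linarith
      have hhE : |hh x₀ n t N x| ≤ E :=
        (abs_hh_le x₀ n t N x).trans (Real.exp_le_exp.mpr hnx)
      have hkE : |kk x₀ n t N x| ≤ E :=
        (abs_kk_le x₀ n t N x).trans (Real.exp_le_exp.mpr hnx)
      have hD : ∀ e : R3, ‖e‖ ≤ 1 → |dv e (chi x₀ ε) x| ≤ C₁ / ε := by
        intro e he
        rw [dv_chi, abs_mul, abs_of_pos (by positivity : 0 < ε⁻¹), div_eq_inv_mul]
        exact mul_le_mul_of_nonneg_left (hC₁ e _ he) (by positivity)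
      have hD2 : ∀ e e' : R3, (∀ y, |dv e' (dv e bm) y| ≤ C₂) →
          |dv e' (dv e (chi x₀ ε)) x| ≤ C₂ / ε ^ 2 := by
        intro e e' hee
        rw [dv_dv_chi, abs_mul, abs_of_pos (by positivity : 0 < ε⁻¹ ^ 2)]
        calc _ ≤ ε⁻¹ ^ 2 * C₂ := mul_le_mul_of_nonneg_left (hee _) (by positivity)
          _ = _ := by rw [inv_pow]; ring
      have b1 : ∀ i j, |eF x₀ n t N ε i j x| ≤ M₁ / ε := by
        intro i j
        refine (eF_bound x₀ n t N ε hn.le ht.le x hD hhE hkE i j).trans ?_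
        rw [hM₁, mul_div_assoc', div_le_div_iff_of_pos_right hε]
        have : 0 ≤ 8 * m * E * (C₂ + 2 * C₁) := by positivity
        linarith
      have b2 : ∀ i j, |sF x₀ n t N ε m i j x| ≤ M₁ / ε := by
        intro i j
        refine (sF_bound x₀ n t N ε m hN hm.le hn.le ht.le x hD
          (hD2 n n fun y => (hc1 y).trans (le_max_left _ _))
          (hD2 n t fun y => (hc2 y).trans ((le_max_left _ _).trans (le_max_right _ _)))
          (hD2 t t fun y => (hc3 y).trans ((le_max_right _ _).trans (le_max_right _ _)))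
          hhE hkE i j).trans ?_
        have k1 : C₂ / ε ^ 2 / N ≤ C₂ / ε := by
          rw [div_div, div_le_div_iff₀ (by positivity) hε]
          have : C₂ * ε * 1 ≤ C₂ * ε * (N * ε) := by
            refine mul_le_mul_of_nonneg_left (by linarith) (by positivity)
          linarith
        calc _ ≤ 8 * m * E * (C₂ / ε + 2 * (C₁ / ε)) := by gcongr
          _ = (8 * m * E * (C₂ + 2 * C₁)) / ε := by ring
          _ ≤ _ := by
            rw [hM₁]
            have : 0 ≤ 2 * E * C₁ := by positivity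
            gcongr
            linarith
      exact integrand_le hδ hm.le hmΛ (P₂.mu_pos x).le l1 (P₁.mu_pos x) l2 l3 (P₁.bulk_pos x) l4 l5
        (fun i j => TF x₀ n t N ε i j x) (fun i j => eF x₀ n t N ε i j x)
        (fun i j => sF x₀ n t N ε m i j x) (TF_trace x₀ n t N ε hnn htt hnt x) b1 b2
    · rw [Set.indicator_of_notMem hxb]
      have hxn : ε < ‖x - x₀‖ := by
        rw [← dist_eq_norm]
        by_contra hcon
        exact hxb (Metric.mem_closedBall.mpr (not_lt.mp hcon))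
      obtain ⟨z1, z2, z3⟩ := out_ball (x₀ := x₀) hε hxn
      have zT : ∀ i j, TF x₀ n t N ε i j x = 0 := by intro i j; simp [TF, z1]
      have zE : ∀ i j, eF x₀ n t N ε i j x = 0 := by intro i j; simp [eF, z2]
      have zS : ∀ i j, sF x₀ n t N ε m i j x = 0 := by intro i j; simp [sF, z2, z3]
      simp [zT, zE, zS]
  -- integrate
  have hcont1 : Continuous (fun x => energyDensity P₂.lam P₂.mu (uF x₀ n t N ε) x
        + ((∑ i, ∑ j, SF x₀ n t N ε m i j x ^ 2) / (2 * P₁.mu x)
          + (∑ i, SF x₀ n t N ε m i i x) ^ 2 / (3 * (3 * P₁.lam x + 2 * P₁.mu x)))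
        - 2 * ∑ i, ∑ j, SF x₀ n t N ε m i j x * symGrad (uF x₀ n t N ε) i j x) := by
    have k1 := continuous_energyDensity hu P₂
    have k2 := continuous_symGrad hu
    have k3 : ∀ i j, Continuous (SF x₀ n t N ε m i j) := fun i j => (hS i j).continuous
    have k4 : Continuous P₁.mu := P₁.smooth_mu.continuous
    have k5 : Continuous P₁.lam := P₁.smooth_lam.continuous
    refine ((k1.add (Continuous.add (Continuous.div (by fun_prop) (by fun_prop) ?_)
      (Continuous.div (by fun_prop) (by fun_prop) ?_))).sub (by fun_prop))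
    · intro x; have := P₁.mu_pos x; positivity
    · intro x; have := P₁.bulk_pos x; positivity
  have hcont2 : Continuous (fun x => 2 * N ^ 2 * chi x₀ ε x ^ 2
      * Real.exp (N * ⟪n, x - x₀⟫) ^ 2) := by
    have k1 : Continuous (chi x₀ ε) := (smooth_chi x₀ ε).continuous
    fun_prop
  have hΩm : MeasurableSet G.Ω := (isOpen_dom G).measurableSet
  have hvolfin : volume (Metric.closedBall x₀ ε) < ⊤ := measure_closedBall_lt_top
  have hind : Integrable ((Metric.closedBall x₀ ε).indicator (fun _ : R3 => C₃ * (M₁ / ε) ^ 2)) := by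
    rw [integrable_indicator_iff Metric.isClosed_closedBall.measurableSet]
    exact integrableOn_const hvolfin.ne
  have hI1 : 0 ≤ ∫ x in G.Ω, (-(δ / 2) * (2 * N ^ 2 * chi x₀ ε x ^ 2
        * Real.exp (N * ⟪n, x - x₀⟫) ^ 2)
        + (Metric.closedBall x₀ ε).indicator (fun _ => C₃ * (M₁ / ε) ^ 2) x) := by
    refine hmain.trans (setIntegral_mono_on (intOn G hcont1) ?_ hΩm hpt)
    exact (intOn G (hcont2.const_mul _)).add hind.integrableOn
  have hI2 : ∫ x in G.Ω, (-(δ / 2) * (2 * N ^ 2 * chi x₀ ε x ^ 2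
        * Real.exp (N * ⟪n, x - x₀⟫) ^ 2)
        + (Metric.closedBall x₀ ε).indicator (fun _ => C₃ * (M₁ / ε) ^ 2) x)
      = -(δ / 2) * (∫ x in G.Ω, 2 * N ^ 2 * chi x₀ ε x ^ 2 * Real.exp (N * ⟪n, x - x₀⟫) ^ 2)
        + ∫ x in G.Ω, (Metric.closedBall x₀ ε).indicator (fun _ => C₃ * (M₁ / ε) ^ 2) x := by
    rw [integral_add (intOn G (hcont2.const_mul _)) hind.integrableOn, integral_const_mul]
  have hI3 : ∫ x in G.Ω, (Metric.closedBall x₀ ε).indicator (fun _ => C₃ * (M₁ / ε) ^ 2) x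
      ≤ C₃ * M₁ ^ 2 * V * ε := by
    calc _ ≤ ∫ x, (Metric.closedBall x₀ ε).indicator (fun _ => C₃ * (M₁ / ε) ^ 2) x := by
          refine setIntegral_le_integral hind (Filter.Eventually.of_forall fun x => ?_)
          exact Set.indicator_nonneg (fun _ _ => by positivity) _
      _ = (volume (Metric.closedBall x₀ ε)).toReal * (C₃ * (M₁ / ε) ^ 2) := by
          rw [integral_indicator Metric.isClosed_closedBall.measurableSet, setIntegral_const]
          rfl
      _ = (ε ^ 3 * V) * (C₃ * (M₁ / ε) ^ 2) := by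
          rw [Measure.addHaar_closedBall _ _ hε.le, ENNReal.toReal_mul,
            ENNReal.toReal_ofReal (by positivity)]
          simp [hV]
      _ = _ := by field_simp
  -- lower bound on the main term
  set A : Set R3 := {x : R3 | ∀ i, (![-(2 / N), -(ε / 4), -(ε / 4)] : Fin 3 → ℝ) i ≤ ⟪b i, x - x₀⟫ ∧
    ⟪b i, x - x₀⟫ ≤ (![-(1 / N), ε / 4, ε / 4] : Fin 3 → ℝ) i} with hA
  have hAvol : (volume A).toReal = (1 / N) * (ε / 2) * (ε / 2) := by
    rw [hA, box_volume b x₀, ENNReal.toReal_prod]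
    simp only [Fin.prod_univ_three, Matrix.cons_val_zero, Matrix.cons_val_one, Matrix.cons_val]
    rw [ENNReal.toReal_ofReal, ENNReal.toReal_ofReal]
    · ring
    · linarith
    · have : 1 / N ≤ 2 / N := by gcongr; norm_num
      linarith
  have hAprop : ∀ x ∈ A, -(2 / N) ≤ ⟪n, x - x₀⟫ ∧ ⟪n, x - x₀⟫ ≤ -(1 / N) ∧
      ‖x - x₀‖ ≤ ε / 2 := by
    intro x hxA
    rw [hA, Set.mem_ofPred_eq] at hxA
    have a0 := hxA 0
    have a1 := hxA 1
    have a2 := hxA 2
    simp only [Matrix.cons_val_zero, Matrix.cons_val_one, Matrix.cons_val] at a0 a1 a2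
    have hsq : ‖x - x₀‖ ^ 2 = ⟪b 0, x - x₀⟫ ^ 2 + ⟪b 1, x - x₀⟫ ^ 2 + ⟪b 2, x - x₀⟫ ^ 2 := by
      rw [← b.sum_sq_inner_right (x - x₀)]
      simp [Fin.sum_univ_three]
    have hN2 : 2 / N ≤ ε / 3 := by
      rw [div_le_div_iff₀ hN (by norm_num)]; linarith
    refine ⟨hb0 ▸ a0.1, hb0 ▸ a0.2, ?_⟩
    have s0 : ⟪b 0, x - x₀⟫ ^ 2 ≤ (ε / 3) ^ 2 := by
      apply sq_le_sq'
      · linarith [a0.1]
      · have : 0 < 1 / N := by positivity
        linarith [a0.2]
    have s1 : ⟪b 1, x - x₀⟫ ^ 2 ≤ (ε / 4) ^ 2 := sq_le_sq' a1.1 a1.2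
    have s2 : ⟪b 2, x - x₀⟫ ^ 2 ≤ (ε / 4) ^ 2 := sq_le_sq' a2.1 a2.2
    have : ‖x - x₀‖ ^ 2 ≤ (ε / 2) ^ 2 := by
      rw [hsq]; nlinarith
    exact (pow_le_pow_iff_left₀ (norm_nonneg _) (by positivity) (by norm_num)).mp this
  have hAΩ : A ⊆ G.Ω := by
    intro x hxA
    obtain ⟨_, h2, h3⟩ := hAprop x hxA
    refine hout x (by linarith) (lt_of_le_of_lt h2 ?_)
    rw [neg_lt_neg_iff]
    have h4 : K * ‖x - x₀‖ ^ 2 ≤ K * (ε / 2) ^ 2 := by gcongr
    have h5 : K * (ε / 2) ^ 2 < 1 / N := by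
      rw [lt_div_iff₀ hN]
      have : 0 < N * K * ε ^ 2 := by positivity
      nlinarith
    linarith
  have hAm : MeasurableSet A := by
    have : A = ⋂ i, ((fun x => ⟪b i, x - x₀⟫) ⁻¹' Set.Icc
        ((![-(2 / N), -(ε / 4), -(ε / 4)] : Fin 3 → ℝ) i)
        ((![-(1 / N), ε / 4, ε / 4] : Fin 3 → ℝ) i)) := by
      ext x
      simp [hA, Set.mem_iInter, Set.mem_preimage, Set.mem_Icc]
    rw [this]
    refine MeasurableSet.iInter fun i => ?_
    exact (IsClosed.preimage (by fun_prop) isClosed_Icc).measurableSet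
  have hAfin : volume A ≠ ⊤ := by
    have : A ⊆ Metric.closedBall x₀ (ε / 2) := fun x hxA => by
      rw [Metric.mem_closedBall, dist_eq_norm]; exact (hAprop x hxA).2.2
    exact ((measure_mono this).trans_lt measure_closedBall_lt_top).ne
  have hlow : N * ε ^ 2 * Real.exp (-4) / 2
      ≤ ∫ x in G.Ω, 2 * N ^ 2 * chi x₀ ε x ^ 2 * Real.exp (N * ⟪n, x - x₀⟫) ^ 2 := by
    calc _ = ∫ _x in A, (2 * N ^ 2 * Real.exp (-4) : ℝ) := by
          rw [setIntegral_const, smul_eq_mul, measureReal_def, hAvol]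
          field_simp
      _ ≤ ∫ x in A, 2 * N ^ 2 * chi x₀ ε x ^ 2 * Real.exp (N * ⟪n, x - x₀⟫) ^ 2 := by
          refine setIntegral_mono_on (integrableOn_const hAfin)
            ((intOn G hcont2).mono_set hAΩ) hAm fun x hxA => ?_
          obtain ⟨h1, _, h3⟩ := hAprop x hxA
          rw [chi_one hε h3, one_pow, mul_one]
          refine mul_le_mul_of_nonneg_left ?_ (by positivity)
          rw [← Real.exp_nat_mul]
          apply Real.exp_le_exp.mpr
          have : -2 ≤ N * ⟪n, x - x₀⟫ := by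
            calc (-2 : ℝ) = N * (-(2 / N)) := by field_simp
              _ ≤ _ := by gcongr
          push_cast
          linarith
      _ ≤ _ := by
          refine setIntegral_mono_set (intOn G hcont2)
            (Filter.Eventually.of_forall fun x => by positivity) (hAΩ.eventuallyLE)
  have hfin : δ / 2 * (N * ε ^ 2 * Real.exp (-4) / 2) ≤ C₃ * M₁ ^ 2 * V * ε := by
    have h1 : δ / 2 * (N * ε ^ 2 * Real.exp (-4) / 2) ≤ δ / 2 *
        (∫ x in G.Ω, 2 * N ^ 2 * chi x₀ ε x ^ 2 * Real.exp (N * ⟪n, x - x₀⟫) ^ 2) := by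
      gcongr
    rw [hI2] at hI1
    linarith
  rw [le_div_iff₀ hδ]
  have hexp : Real.exp 4 * Real.exp (-4) = 1 := by rw [← Real.exp_add]; simp
  have h1 : δ / 2 * (N * ε ^ 2 * Real.exp (-4) / 2) * (4 * Real.exp 4)
      ≤ C₃ * M₁ ^ 2 * V * ε * (4 * Real.exp 4) := by gcongr
  have h2 : δ / 2 * (N * ε ^ 2 * Real.exp (-4) / 2) * (4 * Real.exp 4) = (N * ε * δ) * ε := by
    calc _ = δ * N * ε ^ 2 * (Real.exp 4 * Real.exp (-4)) := by ring
      _ = _ := by rw [hexp]; ring
  rw [h2] at h1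
  have h3 : (N * ε * δ) * ε ≤ (4 * Real.exp 4 * (C₃ * M₁ ^ 2 * V)) * ε := by linarith
  exact le_of_mul_le_mul_right h3 hε

theorem not_lt (hZ : StmtZ) (G : Dom) (P₁ P₂ : Moduli) (h : SameData G P₁ P₂) {x₀ : R3}
    (hx : x₀ ∈ frontier G.Ω) : ¬ P₂.mu x₀ < P₁.mu x₀ := by
  intro hlt
  obtain ⟨r, K, C, hr, hK, hest⟩ := main_est hZ G P₁ P₂ h hx hlt
  -- choose `s` small, `ε = s³`, `N = s⁻⁴`
  obtain ⟨s, hs0, hs1, hs2, hs3, hs4⟩ : ∃ s : ℝ, 0 < s ∧ s ≤ 1 / 6 ∧ s ≤ r ∧ K * s ≤ 1 ∧
      C < s⁻¹ := by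
    have hC1 : 0 < |C| + 1 := by positivity
    refine ⟨min (1 / 6) (min r (min K⁻¹ (|C| + 1)⁻¹)), by positivity, min_le_left _ _,
      (min_le_right _ _).trans (min_le_left _ _), ?_, ?_⟩
    · calc _ ≤ K * K⁻¹ := by
            gcongr
            exact (min_le_right _ _).trans ((min_le_right _ _).trans (min_le_left _ _))
        _ = 1 := mul_inv_cancel₀ hK.ne'
    · have h1 : min (1 / 6) (min r (min K⁻¹ (|C| + 1)⁻¹)) ≤ (|C| + 1)⁻¹ :=
        (min_le_right _ _).trans ((min_le_right _ _).trans (min_le_right _ _))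
      have h2 : 0 < min (1 / 6) (min r (min K⁻¹ (|C| + 1)⁻¹)) := by positivity
      have h3 : |C| + 1 ≤ (min (1 / 6) (min r (min K⁻¹ (|C| + 1)⁻¹)))⁻¹ := by
        rw [le_inv_comm₀ hC1 h2]; exact h1
      linarith [le_abs_self C]
  have hs1' : s ≤ 1 := by linarith
  have key := hest (s⁻¹ ^ 4) (s ^ 3) (by positivity) (by positivity) ?_ ?_ ?_
  · have : s⁻¹ ^ 4 * s ^ 3 = s⁻¹ := by field_simp
    rw [this] at key
    linarith
  · calc s ^ 3 ≤ s ^ 1 := pow_le_pow_of_le_one hs0.le hs1' (by norm_num)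
      _ = s := pow_one s
      _ ≤ r := hs2
  · have : s⁻¹ ^ 4 * s ^ 3 = s⁻¹ := by field_simp
    rw [this, le_inv_comm₀ (by norm_num) hs0]
    linarith
  · have : s⁻¹ ^ 4 * K * (s ^ 3) ^ 2 = K * s * s := by field_simp
    rw [this]
    calc K * s * s ≤ 1 * 1 := by gcongr
      _ = 1 := one_mul 1

end Crest.Agent.R080.Bdry

namespace Crest.Agent.R080

/-- T4: the shear moduli agree on the boundary -/
theorem t_Bdry (hZ : StmtZ) : StmtBdry := by
  intro G P₁ P₂ h x hx
  have h' : SameData G P₂ P₁ := fun φ hφ => ⟨(h φ hφ).2, (h φ hφ).1⟩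
  exact le_antisymm (not_lt.mp (Bdry.not_lt hZ G P₁ P₂ h hx))
    (not_lt.mp (Bdry.not_lt hZ G P₂ P₁ h' hx))

end Crest.Agent.R080
end
end

-- ▼ part R080/CauchyOp
section

set_option autoImplicit false
set_option linter.unusedSectionVars false
set_option linter.unusedVariables false
open MeasureTheory Filter Metric Set
open scoped ContDiff Topology

noncomputable section
namespace Crest.Agent.R080.CT

theorem integrable_ball_inv (ρ : ℝ) :
    IntegrableOn (fun w : ℂ => ‖w‖⁻¹) (ball (0 : ℂ) ρ) := by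
  rw [integrableOn_fun_norm_addHaar (μ := (volume : Measure ℂ)) (f := fun r : ℝ => r⁻¹)]
  rw [Complex.finrank_real_complex]
  refine (integrableOn_const (C := (1 : ℝ)) (by simp)).congr_fun (fun y hy => ?_) measurableSet_Ioo
  simp [hy.1.ne']

theorem integral_ball_inv (ρ : ℝ) (hρ : 0 < ρ) :
    ∫ w in ball (0 : ℂ) ρ, ‖w‖⁻¹ = 2 * Real.pi * ρ := by
  have h1 : ∫ w in ball (0 : ℂ) ρ, ‖w‖⁻¹
      = ∫ w : ℂ, (Iio ρ).indicator (fun r : ℝ => r⁻¹) ‖w‖ := by
    rw [← integral_indicator measurableSet_ball]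
    refine integral_congr_ae (.of_forall fun w => ?_)
    simp [indicator]
  rw [h1, integral_fun_norm_addHaar (μ := (volume : Measure ℂ)) (fun y => (Iio ρ).indicator (fun r : ℝ => r⁻¹) y),
    Complex.finrank_real_complex]
  have h2 : ∫ y in Ioi (0 : ℝ), y ^ (2 - 1) • (Iio ρ).indicator (fun r : ℝ => r⁻¹) y = ρ := by
    have : ∫ y in Ioi (0 : ℝ), y ^ (2 - 1) • (Iio ρ).indicator (fun r : ℝ => r⁻¹) y
        = ∫ y in Ioi (0 : ℝ), (Iio ρ).indicator (fun _ => (1 : ℝ)) y := by
      refine setIntegral_congr_fun measurableSet_Ioi fun y hy => ?_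
      have hy' : y ≠ 0 := (mem_Ioi.1 hy).ne'
      by_cases h : y < ρ <;> simp [h, hy', indicator]
    rw [this, setIntegral_indicator measurableSet_Iio, Ioi_inter_Iio]
    simp [hρ.le]
  rw [h2]
  have h3 : (volume : Measure ℂ).real (ball 0 1) = Real.pi := by
    simp [Measure.real, Complex.volume_ball]
  rw [h3]
  simp
  ring

variable {V : Type} [NormedAddCommGroup V] [NormedSpace ℝ V]
variable {E : Type} [NormedAddCommGroup E] [NormedSpace ℝ E] [NormedSpace ℂ E]
  [IsScalarTower ℝ ℂ E]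

/-- the kernel `1/(2πw)` -/
def K (w : ℂ) : ℂ := (2 * Real.pi * w)⁻¹

theorem norm_K (w : ℂ) : ‖K w‖ = (2 * Real.pi)⁻¹ * ‖w‖⁻¹ := by
  simp [K, abs_of_pos Real.pi_pos]
  ring

theorem measurable_K : Measurable K := by
  unfold K; fun_prop

/-- Cauchy transform along the plane `ι` -/
def T (ι : ℂ →L[ℝ] V) (f : V → E) (x : V) : E := ∫ w : ℂ, K w • f (x - ι w)

/-- the function vanishes outside the ball of radius `R` -/
def Sp (R : ℝ) (f : V → E) : Prop := ∀ x, R ≤ ‖x‖ → f x = 0

/-- lower bound for the embedding -/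
def Low (c : ℝ) (ι : ℂ →L[ℝ] V) : Prop := ∀ z, c * ‖z‖ ≤ ‖ι z‖

theorem eq_zero_of_large {c R : ℝ} (hc : 0 < c) {ι : ℂ →L[ℝ] V} (hι : Low c ι) {f : V → E}
    (hf : Sp R f) {x : V} {w : ℂ} (hw : (R + ‖x‖) / c ≤ ‖w‖) : f (x - ι w) = 0 := by
  apply hf
  have h1 := hι w
  have h2 : R + ‖x‖ ≤ c * ‖w‖ := by
    rw [div_le_iff₀ hc] at hw; linarith
  have h3 : ‖ι w‖ ≤ ‖x - ι w‖ + ‖x‖ := by
    have := norm_sub_le x (x - ι w)
    simpa [add_comm] using this
  linarith

/-- dominating function -/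
def Bd (ρ b : ℝ) (w : ℂ) : ℝ := (ball (0 : ℂ) ρ).indicator (fun w => ‖w‖⁻¹) w * ((2 * Real.pi)⁻¹ * b)

theorem integrable_Bd (ρ b : ℝ) : Integrable (Bd ρ b) := by
  unfold Bd
  exact (((integrable_ball_inv ρ).integrable_indicator measurableSet_ball)).mul_const _

theorem norm_le_Bd {c R : ℝ} (hc : 0 < c) {ι : ℂ →L[ℝ] V} (hι : Low c ι) {f : V → E}
    (hf : Sp R f) {b : ℝ} (hb : ∀ x, ‖f x‖ ≤ b) {x : V} {ρ : ℝ} (hρ : (R + ‖x‖) / c ≤ ρ) (w : ℂ) :
    ‖K w • f (x - ι w)‖ ≤ Bd ρ b w := by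
  unfold Bd
  by_cases h : w ∈ ball (0 : ℂ) ρ
  · rw [indicator_of_mem h, norm_smul, norm_K]
    have := hb (x - ι w)
    have hp := Real.pi_pos
    calc (2 * Real.pi)⁻¹ * ‖w‖⁻¹ * ‖f (x - ι w)‖ ≤ (2 * Real.pi)⁻¹ * ‖w‖⁻¹ * b := by gcongr
      _ = _ := by ring
  · rw [indicator_of_notMem h, eq_zero_of_large hc hι hf]
    · simp
    · simp at h; linarith

theorem aesm {ι : ℂ →L[ℝ] V} {f : V → E} (hf : Continuous f) (x : V) :
    AEStronglyMeasurable (fun w : ℂ => K w • f (x - ι w)) := by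
  refine (measurable_K.aestronglyMeasurable).smul ?_
  exact (hf.comp (by fun_prop)).aestronglyMeasurable

theorem integrable {c R : ℝ} (hc : 0 < c) {ι : ℂ →L[ℝ] V} (hι : Low c ι) {f : V → E}
    (hf : Sp R f) (hfc : Continuous f) {b : ℝ} (hb : ∀ x, ‖f x‖ ≤ b) (x : V) :
    Integrable (fun w : ℂ => K w • f (x - ι w)) :=
  (integrable_Bd _ b).mono' (aesm hfc x) (.of_forall fun w => norm_le_Bd hc hι hf hb le_rfl w)

theorem norm_T_le {c R : ℝ} (hc : 0 < c) (hR : 0 < R) {ι : ℂ →L[ℝ] V} (hι : Low c ι) {f : V → E}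
    (hf : Sp R f) {b : ℝ} (hb : ∀ x, ‖f x‖ ≤ b) (x : V) :
    ‖T ι f x‖ ≤ 3 * R / c * b := by
  have hb0 : 0 ≤ b := (norm_nonneg _).trans (hb 0)
  set ρ := 2 * R / c with hρd
  have hρ : 0 < ρ := by positivity
  have hp := Real.pi_pos
  by_cases hS : ∃ w0 : ℂ, ‖x - ι w0‖ < R
  · obtain ⟨w0, hw0⟩ := hS
    have key : ∀ w, ‖K w • f (x - ι w)‖ ≤ (2 * Real.pi)⁻¹ * b *
        ((ball (0 : ℂ) ρ).indicator (fun w => ‖w‖⁻¹) w
          + (ball w0 ρ).indicator (fun _ => ρ⁻¹) w) := by
      intro w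
      by_cases h : ‖x - ι w‖ < R
      · have hw : w ∈ ball w0 ρ := by
          rw [mem_ball, dist_eq_norm, hρd, lt_div_iff₀ hc]
          have h1 := hι (w - w0)
          have h2 : ι (w - w0) = (x - ι w0) - (x - ι w) := by simp
          rw [h2] at h1
          have h3 := norm_sub_le (x - ι w0) (x - ι w)
          linarith
        rw [indicator_of_mem hw, norm_smul, norm_K]
        have h4 : ‖w‖⁻¹ ≤ (ball (0 : ℂ) ρ).indicator (fun w => ‖w‖⁻¹) w + ρ⁻¹ := by
          by_cases h5 : w ∈ ball (0 : ℂ) ρ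
          · rw [indicator_of_mem h5]
            have : 0 < ρ⁻¹ := by positivity
            linarith
          · rw [indicator_of_notMem h5]
            simp at h5
            rw [zero_add]
            exact inv_anti₀ hρ h5
        calc (2 * Real.pi)⁻¹ * ‖w‖⁻¹ * ‖f (x - ι w)‖
            ≤ (2 * Real.pi)⁻¹ * ‖w‖⁻¹ * b := by gcongr; exact hb _
          _ = (2 * Real.pi)⁻¹ * b * ‖w‖⁻¹ := by ring
          _ ≤ _ := by gcongr
      · rw [hf _ (not_lt.1 h), smul_zero, norm_zero]
        have h1 : 0 ≤ (ball (0 : ℂ) ρ).indicator (fun w => ‖w‖⁻¹) w :=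
          indicator_nonneg (fun _ _ => by positivity) _
        have h2 : 0 ≤ (ball w0 ρ).indicator (fun _ => ρ⁻¹) w :=
          indicator_nonneg (fun _ _ => by positivity) _
        positivity
    have hint : Integrable (fun w => (2 * Real.pi)⁻¹ * b *
        ((ball (0 : ℂ) ρ).indicator (fun w => ‖w‖⁻¹) w
          + (ball w0 ρ).indicator (fun _ => ρ⁻¹) w)) := by
      refine (((integrable_ball_inv ρ).integrable_indicator measurableSet_ball).add ?_).const_mul _
      exact (integrableOn_const measure_ball_lt_top.ne).integrable_indicator measurableSet_ball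
    calc ‖T ι f x‖ ≤ ∫ w, ‖K w • f (x - ι w)‖ := norm_integral_le_integral_norm _
      _ ≤ ∫ w, (2 * Real.pi)⁻¹ * b *
        ((ball (0 : ℂ) ρ).indicator (fun w => ‖w‖⁻¹) w
          + (ball w0 ρ).indicator (fun _ => ρ⁻¹) w) :=
        integral_mono_of_nonneg (.of_forall fun _ => norm_nonneg _) hint (.of_forall key)
      _ = (2 * Real.pi)⁻¹ * b * (2 * Real.pi * ρ + Real.pi * ρ) := by
        rw [integral_const_mul, integral_add, integral_indicator measurableSet_ball,
          integral_ball_inv ρ hρ, integral_indicator measurableSet_ball]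
        · simp [Measure.real, Complex.volume_ball, hρ.le]
          left
          field_simp
        · exact (integrable_ball_inv ρ).integrable_indicator measurableSet_ball
        · exact (integrableOn_const measure_ball_lt_top.ne).integrable_indicator measurableSet_ball
      _ = 3 * R / c * b := by
        rw [hρd]; field_simp; ring
  · push Not at hS
    have : T ι f x = 0 := by
      unfold T
      have : (fun w : ℂ => K w • f (x - ι w)) = fun _ => 0 := by
        funext w; rw [hf _ (hS w), smul_zero]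
      rw [this, integral_zero]
    rw [this, norm_zero]
    positivity


theorem K_smul_fderiv {ι : ℂ →L[ℝ] V} (f : V → E) (hf : Differentiable ℝ f) (w : ℂ) (x : V) :
    HasFDerivAt (fun x => K w • f (x - ι w)) (K w • fderiv ℝ f (x - ι w)) x := by
  have h1 : HasFDerivAt (fun x => f (x - ι w)) (fderiv ℝ f (x - ι w)) x := by
    have h2 : HasFDerivAt (fun x : V => x - ι w) (ContinuousLinearMap.id ℝ V) x :=
      (hasFDerivAt_id x).sub_const (ι w)
    exact (hf (x - ι w)).hasFDerivAt.comp x h2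
  exact h1.const_smul (K w)

theorem Sp_fderiv {R : ℝ} {f : V → E} (hf : Sp R f) (hd : Continuous (fderiv ℝ f)) :
    Sp R (fderiv ℝ f) := by
  have h1 : ∀ x, R < ‖x‖ → fderiv ℝ f x = 0 := by
    intro x hx
    have : f =ᶠ[𝓝 x] fun _ => 0 := by
      have : {y : V | R < ‖y‖} ∈ 𝓝 x := (isOpen_lt continuous_const continuous_norm).mem_nhds hx
      filter_upwards [this] with y hy
      exact hf y (le_of_lt hy)
    rw [this.fderiv_eq]
    simp
  intro x hx
  by_cases h0 : x = 0
  · -- then `R ≤ 0`, so the function is zero everywhere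
    subst h0
    rw [norm_zero] at hx
    have : f = fun _ => 0 := by
      funext y; exact hf y (hx.trans (norm_nonneg _))
    rw [this]; simp
  · -- limit
    have ht : Tendsto (fun t : ℝ => fderiv ℝ f (t • x)) (𝓝[>] 1) (𝓝 (fderiv ℝ f x)) := by
      have : Tendsto (fun t : ℝ => fderiv ℝ f (t • x)) (𝓝 1) (𝓝 (fderiv ℝ f ((1 : ℝ) • x))) :=
        (hd.comp (by fun_prop : Continuous fun t : ℝ => t • x)).tendsto 1
      rw [one_smul] at this
      exact this.mono_left nhdsWithin_le_nhds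
    have h2 : ∀ᶠ t : ℝ in 𝓝[>] 1, fderiv ℝ f (t • x) = 0 := by
      filter_upwards [self_mem_nhdsWithin] with t ht
      apply h1
      have ht' : 1 < t := ht
      rw [norm_smul, Real.norm_of_nonneg (by linarith)]
      have : 0 < ‖x‖ := norm_pos_iff.2 h0
      nlinarith
    have h3 : Tendsto (fun t : ℝ => fderiv ℝ f (t • x)) (𝓝[>] 1) (𝓝 0) :=
      tendsto_const_nhds.congr' (h2.mono fun _ h => h.symm)
    exact tendsto_nhds_unique ht h3

theorem bounded_of_Sp [FiniteDimensional ℝ V] {R : ℝ} {f : V → E} (hf : Sp R f)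
    (hc : Continuous f) : ∃ b, 0 ≤ b ∧ ∀ x, ‖f x‖ ≤ b := by
  have : IsCompact (closedBall (0 : V) R) := isCompact_closedBall _ _
  obtain ⟨b, hb⟩ := this.exists_bound_of_continuousOn hc.continuousOn
  refine ⟨max b 0, le_max_right _ _, fun x => ?_⟩
  by_cases h : ‖x‖ ≤ R
  · exact (hb x (by simpa using h)).trans (le_max_left _ _)
  · rw [hf x (le_of_lt (not_le.1 h)), norm_zero]; exact le_max_right _ _

theorem hasFDerivAt_T [FiniteDimensional ℝ V] {c R : ℝ} (hc : 0 < c) {ι : ℂ →L[ℝ] V}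
    (hι : Low c ι) {f : V → E} (hf : Sp R f) (h1 : ContDiff ℝ 1 f) (x : V) :
    HasFDerivAt (T ι f) (T ι (fderiv ℝ f) x) x := by
  have hd : Continuous (fderiv ℝ f) := h1.continuous_fderiv one_ne_zero
  obtain ⟨b0, -, hb0⟩ := bounded_of_Sp hf h1.continuous
  obtain ⟨b, -, hb⟩ := bounded_of_Sp (Sp_fderiv hf hd) hd
  refine hasFDerivAt_integral_of_dominated_of_fderiv_le (s := ball x 1)
    (F := fun x (w : ℂ) => K w • f (x - ι w)) (F' := fun x w => K w • fderiv ℝ f (x - ι w))
    (bound := Bd ((R + (‖x‖ + 1)) / c) b) (ball_mem_nhds x one_pos)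
    (.of_forall fun y => aesm h1.continuous y)
    (integrable hc hι hf h1.continuous hb0 x) (aesm hd x) (.of_forall fun w y hy => ?_)
    (integrable_Bd _ _) (.of_forall fun w y _ => K_smul_fderiv f (h1.differentiable one_ne_zero) w y)
  refine norm_le_Bd hc hι (Sp_fderiv hf hd) hb ?_ w
  have : ‖y‖ ≤ ‖x‖ + 1 := by
    have h2 := norm_sub_norm_le y x
    rw [mem_ball, dist_eq_norm] at hy
    linarith
  gcongr

theorem continuous_T [FiniteDimensional ℝ V] {c R : ℝ} (hc : 0 < c) {ι : ℂ →L[ℝ] V}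
    (hι : Low c ι) {f : V → E} (hf : Sp R f) (h1 : Continuous f) : Continuous (T ι f) := by
  obtain ⟨b, -, hb⟩ := bounded_of_Sp hf h1
  rw [continuous_iff_continuousAt]
  intro x
  refine continuousAt_of_dominated (F := fun x (w : ℂ) => K w • f (x - ι w))
    (bound := Bd ((R + (‖x‖ + 1)) / c) b) (.of_forall fun y => aesm h1 y) ?_ (integrable_Bd _ _)
    (.of_forall fun w => ?_)
  · filter_upwards [ball_mem_nhds x one_pos] with y hy
    refine .of_forall fun w => norm_le_Bd hc hι hf hb ?_ w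
    have : ‖y‖ ≤ ‖x‖ + 1 := by
      have h2 := norm_sub_norm_le y x
      rw [mem_ball, dist_eq_norm] at hy
      linarith
    gcongr
  · fun_prop


theorem contDiff_T_nat [FiniteDimensional ℝ V] {c R : ℝ} (hc : 0 < c) {ι : ℂ →L[ℝ] V}
    (hι : Low c ι) (n : ℕ) : ∀ {E : Type} [NormedAddCommGroup E] [NormedSpace ℝ E]
    [NormedSpace ℂ E] [IsScalarTower ℝ ℂ E] {f : V → E}, Sp R f → ContDiff ℝ n f →
    ContDiff ℝ n (T ι f) := by
  induction n with
  | zero =>
    intro E _ _ _ _ f hf h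
    simp only [Nat.cast_zero, contDiff_zero] at h ⊢
    exact continuous_T hc hι hf h
  | succ n ih =>
    intro E _ _ _ _ f hf h
    have h1 : ContDiff ℝ 1 f := h.of_le (by exact_mod_cast Nat.le_add_left 1 n)
    have hd : Continuous (fderiv ℝ f) := h1.continuous_fderiv one_ne_zero
    have hT := hasFDerivAt_T hc hι hf h1
    push_cast
    rw [contDiff_succ_iff_fderiv]
    refine ⟨fun x => (hT x).differentiableAt, by simp, ?_⟩
    have : fderiv ℝ (T ι f) = T ι (fderiv ℝ f) := funext fun x => (hT x).fderiv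
    rw [this]
    refine ih (Sp_fderiv hf hd) ?_
    have h' : ContDiff ℝ ((n : WithTop ℕ∞) + 1) f := by exact_mod_cast h
    exact (contDiff_succ_iff_fderiv.1 h').2.2

theorem contDiff_T [FiniteDimensional ℝ V] {c R : ℝ} (hc : 0 < c) {ι : ℂ →L[ℝ] V}
    (hι : Low c ι) {f : V → E} (hf : Sp R f) (h : ContDiff ℝ ∞ f) : ContDiff ℝ ∞ (T ι f) :=
  contDiff_infty.2 fun n => contDiff_T_nat hc hι n hf (contDiff_infty.1 h n)

theorem fderiv_T [FiniteDimensional ℝ V] {c R : ℝ} (hc : 0 < c) {ι : ℂ →L[ℝ] V}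
    (hι : Low c ι) {f : V → E} (hf : Sp R f) (h1 : ContDiff ℝ 1 f) :
    fderiv ℝ (T ι f) = T ι (fderiv ℝ f) := funext fun x => (hasFDerivAt_T hc hι hf h1 x).fderiv

/-- all derivatives are bounded by the same constant -/
theorem norm_iteratedFDeriv_T_le [FiniteDimensional ℝ V] {c R : ℝ} (hc : 0 < c) (hR : 0 < R)
    {ι : ℂ →L[ℝ] V} (hι : Low c ι) (k : ℕ) : ∀ {E : Type} [NormedAddCommGroup E] [NormedSpace ℝ E]
    [NormedSpace ℂ E] [IsScalarTower ℝ ℂ E] {f : V → E}, Sp R f → ContDiff ℝ k f → ∀ b,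
    (∀ x, ‖iteratedFDeriv ℝ k f x‖ ≤ b) → ∀ x, ‖iteratedFDeriv ℝ k (T ι f) x‖ ≤ 3 * R / c * b := by
  induction k with
  | zero =>
    intro E _ _ _ _ f hf h b hb x
    simp only [norm_iteratedFDeriv_zero] at hb ⊢
    exact norm_T_le hc hR hι hf hb x
  | succ k ih =>
    intro E _ _ _ _ f hf h b hb x
    have h1 : ContDiff ℝ 1 f := h.of_le (by exact_mod_cast Nat.le_add_left 1 k)
    have hd : Continuous (fderiv ℝ f) := h1.continuous_fderiv one_ne_zero
    rw [← norm_iteratedFDeriv_fderiv, fderiv_T hc hι hf h1]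
    refine ih (Sp_fderiv hf hd) ?_ b (fun y => ?_) x
    · have h' : ContDiff ℝ ((k : WithTop ℕ∞) + 1) f := by exact_mod_cast h
      exact (contDiff_succ_iff_fderiv.1 h').2.2
    · rw [norm_iteratedFDeriv_fderiv]; exact hb y

end Crest.Agent.R080.CT
end
end

-- ▼ part R080/SmallFM
section

/-!
Row 80, T5b: fundamental matrices for small compactly supported coefficients.
-/

set_option autoImplicit false
set_option linter.unusedSectionVars false
set_option linter.unusedVariables false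
open MeasureTheory Filter Metric Set
open scoped ContDiff Topology

noncomputable section
namespace Crest.Agent.R080.SmallFM
open Crest.Agent.R080.CT

variable {V : Type} [NormedAddCommGroup V] [NormedSpace ℝ V] [FiniteDimensional ℝ V]

/-- the Cauchy transform solves the `∂̄` equation -/
theorem Dp_T {c R : ℝ} (hc : 0 < c) {ι : ℂ →L[ℝ] V} (hι : Low c ι) {f : V → ℂ}
    (hf : Sp R f) (h1 : ContDiff ℝ 1 f) (x : V) : Dp ι (T ι f) x = f x := by
  have hd : Continuous (fderiv ℝ f) := h1.continuous_fderiv one_ne_zero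
  obtain ⟨b, -, hb⟩ := bounded_of_Sp (Sp_fderiv hf hd) hd
  have hint := integrable hc hι (Sp_fderiv hf hd) hd hb x
  have e1 : ∀ v : V, T ι (fderiv ℝ f) x v = ∫ w : ℂ, K w * fderiv ℝ f (x - ι w) v := by
    intro v
    unfold T
    rw [ContinuousLinearMap.integral_apply hint]
    rfl
  have hintv : ∀ v : V, Integrable (fun w : ℂ => K w * fderiv ℝ f (x - ι w) v) := by
    intro v
    have := hint.apply_continuousLinearMap v
    exact this
  have e2 : Dp ι (T ι f) x = ∫ w : ℂ, K w * Dp ι f (x - ι w) := by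
    unfold Dp
    rw [fderiv_T hc hι hf h1, e1, e1, ← integral_const_mul, ← integral_add (hintv _)
      ((hintv _).const_mul _)]
    refine integral_congr_ae (.of_forall fun w => ?_)
    simp only
    ring
  -- pass to the plane
  let g : ℂ → ℂ := fun z => f (x + ι z)
  have hg1 : ContDiff ℝ 1 g := h1.comp (by fun_prop)
  have hgs : HasCompactSupport g := by
    refine HasCompactSupport.of_support_subset_isCompact (isCompact_closedBall 0 ((R + ‖x‖) / c)) ?_
    intro z hz
    by_contra hcon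
    apply hz
    have h3 : (R + ‖x‖) / c ≤ ‖-z‖ := by
      rw [norm_neg]
      simp only [mem_closedBall, dist_zero_right, not_le] at hcon
      exact hcon.le
    have := eq_zero_of_large hc hι hf (x := x) h3
    simpa [g] using this
  have hgd : ∀ z, Dp (ContinuousLinearMap.id ℝ ℂ) g z = Dp ι f (x + ι z) := by
    intro z
    have h2 : HasFDerivAt (fun z : ℂ => x + ι z) ι z := ι.hasFDerivAt.const_add x
    have h3 : HasFDerivAt g ((fderiv ℝ f (x + ι z)).comp ι) z :=
      ((h1.differentiable one_ne_zero (x + ι z)).hasFDerivAt).comp z h2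
    unfold Dp
    rw [h3.fderiv]
    simp
  have h4 := Pomp.pompeiu hg1 hgs 0
  have h5 : ∫ w : ℂ, K w * Dp ι f (x - ι w) = ∫ w : ℂ, K (-w) * Dp ι f (x + ι w) := by
    rw [← integral_neg_eq_self (fun w : ℂ => K w * Dp ι f (x - ι w))]
    refine integral_congr_ae (.of_forall fun w => ?_)
    simp
  rw [e2, h5]
  have h6 : ∫ w : ℂ, K (-w) * Dp ι f (x + ι w)
      = -(2 * Real.pi : ℂ)⁻¹ * ∫ z, Dp (ContinuousLinearMap.id ℝ ℂ) g z * (z - 0)⁻¹ := by
    rw [← integral_const_mul]
    refine integral_congr_ae (.of_forall fun w => ?_)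
    simp only [hgd, sub_zero, K]
    rw [mul_neg, inv_neg, mul_inv]
    ring
  rw [h6, h4]
  have hp : (Real.pi : ℂ) ≠ 0 := by exact_mod_cast Real.pi_ne_zero
  simp only [g, map_zero, add_zero]
  field_simp

variable {n : Type} [Fintype n] [DecidableEq n]

/-- the iterates -/
def it (ι : ℂ →L[ℝ] V) (A : n → n → V → ℂ) : ℕ → n → n → V → ℂ
  | 0 => fun i j _ => if i = j then 1 else 0
  | N + 1 => fun i j => T ι (fun x => ∑ l, A i l x * it ι A N l j x)

theorem Sp_prod {R : ℝ} {A : n → n → V → ℂ} (hA : ∀ i j x, R ≤ ‖x‖ → A i j x = 0)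
    (f : n → n → V → ℂ) (i j : n) : Sp R (fun x => ∑ l, A i l x * f l j x) := by
  intro x hx
  exact Finset.sum_eq_zero fun l _ => by rw [hA i l x hx, zero_mul]

theorem smooth_it {c R : ℝ} (hc : 0 < c) {ι : ℂ →L[ℝ] V} (hι : Low c ι) {A : n → n → V → ℂ}
    (hs : ∀ i j, ContDiff ℝ ∞ (A i j)) (hA : ∀ i j x, R ≤ ‖x‖ → A i j x = 0) (N : ℕ) :
    ∀ i j, ContDiff ℝ ∞ (it ι A N i j) := by
  induction N with
  | zero => intro i j; exact contDiff_const
  | succ N ih =>
    intro i j
    exact contDiff_T hc hι (Sp_prod hA _ i j) (ContDiff.sum fun l _ => (hs i l).mul (ih l j))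

/-- bound of all derivatives of the iterates -/
theorem bound_it {c R : ℝ} (hc : 0 < c) (hR : 0 < R) {ι : ℂ →L[ℝ] V} (hι : Low c ι)
    {A : n → n → V → ℂ}
    (hs : ∀ i j, ContDiff ℝ ∞ (A i j)) (hA : ∀ i j x, R ≤ ‖x‖ → A i j x = 0) {δ : ℝ}
    (hδ0 : 0 ≤ δ) (hδ : ∀ i j x, ‖A i j x‖ ≤ δ) (hq : 3 * R / c * (Fintype.card n * δ) ≤ 1 / 4)
    (k : ℕ) : ∃ B : ℝ, 0 ≤ B ∧ ∀ N i j x, ‖iteratedFDeriv ℝ k (it ι A N i j) x‖ ≤ B * (1 / 2) ^ N := by
  set M := 3 * R / c with hM
  have hM0 : 0 < M := by positivity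
  -- bounds of the derivatives of A
  have hAb : ∀ s : ℕ, ∃ a : ℝ, 0 ≤ a ∧ ∀ i j x, ‖iteratedFDeriv ℝ s (A i j) x‖ ≤ a := by
    intro s
    have h1 : ∀ i j, ∃ a : ℝ, ∀ x, ‖iteratedFDeriv ℝ s (A i j) x‖ ≤ a := by
      intro i j
      have hcs : HasCompactSupport (A i j) := by
        refine HasCompactSupport.of_support_subset_isCompact (isCompact_closedBall 0 R) ?_
        intro x hx
        by_contra hcon
        simp only [mem_closedBall, dist_zero_right, not_le] at hcon
        exact hx (hA i j x hcon.le)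
      exact ((hs i j).continuous_iteratedFDeriv (by exact_mod_cast le_top)).bounded_above_of_compact_support
        (hcs.iteratedFDeriv s)
    choose a ha using h1
    refine ⟨∑ i, ∑ j, |a i j|, by positivity, fun i j x => (ha i j x).trans ?_⟩
    calc a i j ≤ |a i j| := le_abs_self _
      _ ≤ ∑ j, |a i j| := Finset.single_le_sum (f := fun j => |a i j|) (fun _ _ => abs_nonneg _) (Finset.mem_univ j)
      _ ≤ _ := Finset.single_le_sum (f := fun i => ∑ j, |a i j|) (fun _ _ => by positivity) (Finset.mem_univ i)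
  choose a ha0 ha using hAb
  induction k using Nat.strong_induction_on with
  | _ k ih =>
    choose! U hU0 hU using ih
    -- constant for the lower order terms
    set W : ℝ := Fintype.card n * ∑ s ∈ Finset.range k,
      (k.choose (s + 1) : ℝ) * a (s + 1) * |U (k - (s + 1))| with hW
    have hW0 : 0 ≤ W := by
      have : ∀ s ∈ Finset.range k, 0 ≤ (k.choose (s + 1) : ℝ) * a (s + 1) * |U (k - (s + 1))| :=
        fun s _ => mul_nonneg (mul_nonneg (by positivity) (ha0 _)) (abs_nonneg _)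
      exact mul_nonneg (by positivity) (Finset.sum_nonneg this)
    -- start
    obtain ⟨B0, hB00, hB0⟩ : ∃ B : ℝ, 0 ≤ B ∧ ∀ i j x, ‖iteratedFDeriv ℝ k (it ι A 0 i j) x‖ ≤ B := by
      refine ⟨1, zero_le_one, fun i j x => ?_⟩
      by_cases hk : k = 0
      · subst hk
        rw [norm_iteratedFDeriv_zero]
        simp only [it]
        split_ifs <;> simp
      · have : iteratedFDeriv ℝ k (it ι A 0 i j) = 0 := by
          simp only [it]
          exact iteratedFDeriv_const_of_ne hk _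
        rw [this]; simp
    set B := max B0 (4 * M * W) with hB
    have hBn : 0 ≤ B := hB00.trans (le_max_left _ _)
    refine ⟨B, hBn, fun N => ?_⟩
    induction N with
    | zero =>
      intro i j x
      rw [pow_zero, mul_one]
      exact (hB0 i j x).trans (le_max_left _ _)
    | succ N ihN =>
      intro i j x
      have hsm := smooth_it hc hι hs hA N
      have hk : ((k : ℕ∞) : WithTop ℕ∞) ≤ ∞ := by exact_mod_cast le_top
      have hprod : ∀ y, ‖iteratedFDeriv ℝ k (fun x => ∑ l, A i l x * it ι A N l j x) y‖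
          ≤ (Fintype.card n * δ) * (B * (1 / 2) ^ N) + W * (1 / 2) ^ N := by
        intro y
        have e1 : iteratedFDeriv ℝ k (fun x => ∑ l, A i l x * it ι A N l j x) y
            = ∑ l, iteratedFDeriv ℝ k (fun x => A i l x * it ι A N l j x) y := by
          have := iteratedFDeriv_sum_apply (𝕜 := ℝ) (f := fun l x => A i l x * it ι A N l j x)
            (u := Finset.univ) (n := k) (x := y)
            (fun l _ => (((hs i l).mul (hsm l j)).of_le hk).contDiffAt)
          have e0 : (fun x => ∑ l, A i l x * it ι A N l j x)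
              = ∑ l, fun x => A i l x * it ι A N l j x := by
            funext x; simp
          rw [e0]
          exact this
        rw [e1]
        have e2 : ∀ l, ‖iteratedFDeriv ℝ k (fun x => A i l x * it ι A N l j x) y‖
            ≤ δ * (B * (1 / 2) ^ N) + (∑ s ∈ Finset.range k,
              (k.choose (s + 1) : ℝ) * a (s + 1) * |U (k - (s + 1))|) * (1 / 2) ^ N := by
          intro l
          refine (norm_iteratedFDeriv_mul_le (hs i l) (hsm l j) y hk).trans ?_
          rw [Finset.sum_range_succ', add_comm]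
          refine add_le_add ?_ ?_
          · simp only [Nat.choose_zero_right, Nat.cast_one, one_mul, Nat.sub_zero,
              norm_iteratedFDeriv_zero]
            exact mul_le_mul (hδ i l y) (ihN l j y) (norm_nonneg _) hδ0
          · rw [Finset.sum_mul]
            refine Finset.sum_le_sum fun s hs' => ?_
            have hs1 : k - (s + 1) < k := by
              have := Finset.mem_range.1 hs'
              omega
            have h1 := ha (s + 1) i l y
            have h2 : ‖iteratedFDeriv ℝ (k - (s + 1)) (it ι A N l j) y‖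
                ≤ |U (k - (s + 1))| * (1 / 2) ^ N :=
              (hU _ hs1 N l j y).trans (by gcongr; exact le_abs_self _)
            calc (k.choose (s + 1) : ℝ) * ‖iteratedFDeriv ℝ (s + 1) (A i l) y‖ *
                  ‖iteratedFDeriv ℝ (k - (s + 1)) (it ι A N l j) y‖
                ≤ (k.choose (s + 1) : ℝ) * a (s + 1) * (|U (k - (s + 1))| * (1 / 2) ^ N) := by
                  have := ha0 (s + 1)
                  gcongr
              _ = _ := by ring
        calc ‖∑ l, iteratedFDeriv ℝ k (fun x => A i l x * it ι A N l j x) y‖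
            ≤ ∑ l : n, (δ * (B * (1 / 2) ^ N) + (∑ s ∈ Finset.range k,
              (k.choose (s + 1) : ℝ) * a (s + 1) * |U (k - (s + 1))|) * (1 / 2) ^ N) :=
              norm_sum_le_of_le _ fun l _ => e2 l
          _ = _ := by
              rw [Finset.sum_const, Finset.card_univ, nsmul_eq_mul, hW]
              ring
      have hT := norm_iteratedFDeriv_T_le hc hR hι k (Sp_prod hA (it ι A N) i j)
        ((ContDiff.sum fun l _ => (hs i l).mul (hsm l j)).of_le hk) _ hprod x
      refine (show ‖iteratedFDeriv ℝ k (it ι A (N + 1) i j) x‖ ≤ _ from hT).trans ?_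
      rw [← hM]
      have h4 : 4 * M * W ≤ B := le_max_right _ _
      have h5 : M * (Fintype.card n * δ) ≤ 1 / 4 := hq
      have hp : 0 < (1 / 2 : ℝ) ^ N := by positivity
      calc M * ((Fintype.card n * δ) * (B * (1 / 2) ^ N) + W * (1 / 2) ^ N)
          = (M * (Fintype.card n * δ)) * B * (1 / 2) ^ N + (M * W) * (1 / 2) ^ N := by ring
        _ ≤ (1 / 4) * B * (1 / 2) ^ N + (B / 4) * (1 / 2) ^ N := by
            have : M * W ≤ B / 4 := by linarith
            gcongr
        _ = B * (1 / 2) ^ (N + 1) := by ring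

/-- geometric bound of the iterates -/
theorem bound_it0 {c R : ℝ} (hc : 0 < c) (hR : 0 < R) {ι : ℂ →L[ℝ] V} (hι : Low c ι)
    {A : n → n → V → ℂ}
    (hs : ∀ i j, ContDiff ℝ ∞ (A i j)) (hA : ∀ i j x, R ≤ ‖x‖ → A i j x = 0) {δ : ℝ}
    (hδ0 : 0 ≤ δ) (hδ : ∀ i j x, ‖A i j x‖ ≤ δ) (N : ℕ) :
    ∀ i j x, ‖it ι A N i j x‖ ≤ (3 * R / c * (Fintype.card n * δ)) ^ N := by
  induction N with
  | zero => intro i j x; simp only [it]; split_ifs <;> simp
  | succ N ih =>
    intro i j x
    have h := norm_T_le hc hR hι (Sp_prod hA (it ι A N) i j)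
      (b := Fintype.card n * δ * (3 * R / c * (Fintype.card n * δ)) ^ N) (fun y => ?_) x
    · refine (show ‖it ι A (N + 1) i j x‖ ≤ _ from h).trans (le_of_eq ?_)
      ring
    · calc ‖∑ l, A i l y * it ι A N l j y‖
          ≤ ∑ l : n, δ * (3 * R / c * (Fintype.card n * δ)) ^ N :=
            norm_sum_le_of_le _ fun l _ => by
              rw [norm_mul]
              exact mul_le_mul (hδ i l y) (ih l j y) (norm_nonneg _) hδ0
        _ = _ := by rw [Finset.sum_const, Finset.card_univ, nsmul_eq_mul]; ring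


/-- the fundamental matrix -/
def C (ι : ℂ →L[ℝ] V) (A : n → n → V → ℂ) (i j : n) (x : V) : ℂ := ∑' N, it ι A N i j x


end Crest.Agent.R080.SmallFM

namespace Crest.Agent.R080
open SmallFM CT

theorem t_SmallFM : StmtSmallFM := by
  intro V _ _ _ n _ _ c R e hc hR he
  -- choice of δ
  set M := 3 * R / c with hM
  have hM0 : 0 < M := by positivity
  set q : ℝ := min (1 / 4) (e / 2) with hq
  have hq0 : 0 < q := lt_min (by norm_num) (by positivity)
  set d : ℝ := (Fintype.card n : ℝ) + 1 with hd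
  have hd0 : 0 < d := by positivity
  refine ⟨q / (M * d), by positivity, fun ι hι A hs hA hδ => ?_⟩
  have hι' : Low c ι := hι
  set δ := q / (M * d) with hδd
  have hδ0 : 0 ≤ δ := by positivity
  have hqle : M * (Fintype.card n * δ) ≤ q := by
    have : M * (Fintype.card n * δ) ≤ M * (d * δ) := by
      have : (Fintype.card n : ℝ) ≤ d := by linarith
      gcongr
    refine this.trans (le_of_eq ?_)
    rw [hδd]; field_simp
  have hq4 : M * (Fintype.card n * δ) ≤ 1 / 4 := hqle.trans (min_le_left _ _)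
  have hqe : M * (Fintype.card n * δ) ≤ e / 2 := hqle.trans (min_le_right _ _)
  have hb := fun k => bound_it hc hR hι' hs hA hδ0 hδ hq4 k
  choose B hB0 hB using hb
  have hb0 := fun N => bound_it0 hc hR hι' hs hA hδ0 hδ N
  have hsm := fun N => smooth_it hc hι' hs hA N
  have hgeo : Summable fun N : ℕ => ((1 / 2 : ℝ)) ^ N := summable_geometric_two
  have hsum : ∀ i j x, Summable fun N => it ι A N i j x := by
    intro i j x
    refine Summable.of_norm_bounded (hgeo.mul_left (B 0)) fun N => ?_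
    have := hB 0 N i j x
    rwa [norm_iteratedFDeriv_zero] at this
  have hfd : ∀ i j N x, ‖fderiv ℝ (it ι A N i j) x‖ ≤ B 1 * (1 / 2) ^ N := by
    intro i j N x
    have := hB 1 N i j x
    rwa [← norm_iteratedFDeriv_fderiv, norm_iteratedFDeriv_zero] at this
  have hdiff : ∀ i j N, Differentiable ℝ (it ι A N i j) := fun i j N =>
    (hsm N i j).differentiable (by simp)
  refine ⟨SmallFM.C ι A, fun i j => ?_, fun i j x => ?_, fun i j x => ?_⟩
  · -- smoothness
    refine contDiff_tsum (𝕜 := ℝ) (N := (⊤ : ℕ∞)) (f := fun N => it ι A N i j)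
      (v := fun k N => B k * (1 / 2) ^ N) (fun N => hsm N i j) (fun k _ => hgeo.mul_left _) ?_
    intro k N x _
    exact hB k N i j x
  · -- the equation
    have h1 : fderiv ℝ (SmallFM.C ι A i j) x = ∑' N, fderiv ℝ (it ι A N i j) x :=
      fderiv_tsum_apply (hgeo.mul_left (B 1)) (fun N => hdiff i j N) (fun N x => hfd i j N x)
        (hsum i j 0) x
    have hsfd : Summable fun N => fderiv ℝ (it ι A N i j) x :=
      Summable.of_norm_bounded (hgeo.mul_left (B 1)) fun N => hfd i j N x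
    have h2 : ∀ v, fderiv ℝ (SmallFM.C ι A i j) x v = ∑' N, fderiv ℝ (it ι A N i j) x v := by
      intro v
      rw [h1]
      exact (ContinuousLinearMap.apply ℝ ℂ v).map_tsum hsfd
    have hsv : ∀ v, Summable fun N => fderiv ℝ (it ι A N i j) x v := fun v =>
      (ContinuousLinearMap.apply ℝ ℂ v).summable hsfd
    have h3 : Dp ι (SmallFM.C ι A i j) x = ∑' N, Dp ι (it ι A N i j) x := by
      unfold Dp
      rw [h2, h2, ← tsum_mul_left, ← Summable.tsum_add (hsv _) ((hsv _).mul_left _)]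
    have hsD : Summable fun N => Dp ι (it ι A N i j) x := by
      unfold Dp
      exact (hsv _).add ((hsv _).mul_left _)
    rw [h3, hsD.tsum_eq_zero_add]
    have h4 : Dp ι (it ι A 0 i j) x = 0 := by
      unfold Dp; simp [it]
    have h5 : ∀ N, Dp ι (it ι A (N + 1) i j) x = ∑ l, A i l x * it ι A N l j x := by
      intro N
      exact Dp_T hc hι' (Sp_prod hA (it ι A N) i j)
        ((ContDiff.sum fun l _ => (hs i l).mul (hsm N l j)).of_le (by exact_mod_cast le_top)) x
    rw [h4, zero_add, tsum_congr h5, Summable.tsum_finsetSum fun l _ => (hsum l j x).mul_left _]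
    exact Finset.sum_congr rfl fun l _ => tsum_mul_left
  · -- closeness
    have h1 : SmallFM.C ι A i j x - (if i = j then 1 else 0) = ∑' N, it ι A (N + 1) i j x := by
      unfold SmallFM.C
      rw [(hsum i j x).tsum_eq_zero_add]
      simp [it]
    rw [h1]
    set p := M * (Fintype.card n * δ) with hp
    have hp0 : 0 ≤ p := by positivity
    have hp1 : p < 1 := by linarith
    have hgp : HasSum (fun N : ℕ => p ^ (N + 1)) (p / (1 - p)) := by
      have := (hasSum_geometric_of_lt_one hp0 hp1).mul_left p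
      simpa [pow_succ', div_eq_mul_inv] using this
    refine (tsum_of_norm_bounded hgp fun N => hb0 (N + 1) i j x).trans ?_
    rw [div_le_iff₀ (by linarith)]
    nlinarith

end Crest.Agent.R080
end
private theorem rz_4732998294 : type_of% @_root_.Crest.Agent.R080.SmallFM.it.eq_def := @_root_.Crest.Agent.R080.SmallFM.it.eq_def -- L85
private theorem rz_824954f60a : type_of% @_root_.Crest.Agent.R080.SmallFM.it.eq_1 := @_root_.Crest.Agent.R080.SmallFM.it.eq_1 -- L85
end

-- ▼ part R080/Ksol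
section

/-!
Row 80, T6a: nondegenerate continuous weak solution matrices of `D X = A X` on the plane
(Gaussian weights).
-/

set_option autoImplicit false

open MeasureTheory Filter Set
open scoped ContDiff Topology ComplexConjugate BoundedContinuousFunction

noncomputable section
namespace Crest.Agent.R080
namespace Ks

/-- Gaussian-weighted kernel in the variable `w = z - u` -/
def ker (K : ℝ) (z w : ℂ) : ℂ :=
  Complex.exp (K * (w * conj (z - w)) + ((K / 2 * ‖z - w‖ ^ 2 - K / 2 * ‖z‖ ^ 2 : ℝ) : ℂ)) *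
    (2 * Real.pi * w)⁻¹

theorem norm_ker (K : ℝ) (z w : ℂ) :
    ‖ker K z w‖ = Real.exp (-(K / 2) * ‖w‖ ^ 2) * ‖w‖⁻¹ * (2 * Real.pi)⁻¹ := by
  rw [ker, norm_mul, Complex.norm_exp, norm_inv, norm_mul, norm_mul, Complex.norm_real,
    Real.norm_of_nonneg Real.pi_pos.le, RCLike.norm_ofNat, mul_inv, mul_comm ((2 * Real.pi)⁻¹),
    ← mul_assoc]
  congr 3
  simp only [Complex.add_re, Complex.ofReal_re, Complex.sq_norm, Complex.normSq_apply,
    Complex.mul_re, Complex.ofReal_im, Complex.conj_re, Complex.conj_im, Complex.sub_re,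
    Complex.sub_im]
  ring

theorem continuous_ker_left (K : ℝ) (w : ℂ) : Continuous fun z => ker K z w := by
  unfold ker
  fun_prop

theorem measurable_ker (K : ℝ) (z : ℂ) : Measurable fun w => ker K z w := by
  unfold ker
  have h1 : Measurable fun w : ℂ => Complex.exp (K * (w * conj (z - w)) +
      ((K / 2 * ‖z - w‖ ^ 2 - K / 2 * ‖z‖ ^ 2 : ℝ) : ℂ)) := by
    apply Continuous.measurable
    fun_prop
  have h2 : Measurable fun w : ℂ => (2 * Real.pi * w)⁻¹ := by
    apply Measurable.inv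
    fun_prop
  exact h1.mul h2

theorem integrable_norm_ker {K : ℝ} (hK : 0 < K) :
    Integrable fun w : ℂ => Real.exp (-(K / 2) * ‖w‖ ^ 2) * ‖w‖⁻¹ * (2 * Real.pi)⁻¹ :=
  (Pomp.integrable_gauss hK).mul_const _

/-- the operator norm -/
def cK (K : ℝ) : ℝ := Real.sqrt (2 * Real.pi / K) / 2

theorem integral_norm_ker {K : ℝ} (hK : 0 < K) :
    ∫ w : ℂ, Real.exp (-(K / 2) * ‖w‖ ^ 2) * ‖w‖⁻¹ * (2 * Real.pi)⁻¹ = cK K := by
  rw [integral_mul_const, Pomp.integral_gauss hK, cK]
  have := Real.pi_pos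
  field_simp

section conv
variable {E : Type*} [NormedAddCommGroup E] [NormedSpace ℂ E]

/-- integral operator -/
def cv (K : ℝ) (g : ℂ → E) (z : ℂ) : E := ∫ w, ker K z w • g (z - w)

theorem integrable_cv {K : ℝ} (hK : 0 < K) {g : ℂ → E} (hg : Continuous g) {b : ℝ}
    (hb : ∀ z, ‖g z‖ ≤ b) (z : ℂ) : Integrable fun w => ker K z w • g (z - w) := by
  refine ((integrable_norm_ker hK).mul_const b).mono' ?_ (Eventually.of_forall fun w => ?_)
  · exact (measurable_ker K z).aestronglyMeasurable.smul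
      (Continuous.aestronglyMeasurable (by fun_prop))
  · rw [norm_smul, norm_ker]
    exact mul_le_mul_of_nonneg_left (hb _) (by positivity)

theorem continuous_cv {K : ℝ} (hK : 0 < K) {g : ℂ → E} (hg : Continuous g) {b : ℝ}
    (hb : ∀ z, ‖g z‖ ≤ b) : Continuous (cv K g) := by
  unfold cv
  refine continuous_of_dominated (bound := fun w =>
    Real.exp (-(K / 2) * ‖w‖ ^ 2) * ‖w‖⁻¹ * (2 * Real.pi)⁻¹ * b) (fun z => ?_) (fun z => ?_)
    ((integrable_norm_ker hK).mul_const b) ?_
  · exact (integrable_cv hK hg hb z).aestronglyMeasurable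
  · refine Eventually.of_forall fun w => ?_
    rw [norm_smul, norm_ker]
    exact mul_le_mul_of_nonneg_left (hb _) (by positivity)
  · refine Eventually.of_forall fun w => ?_
    exact (continuous_ker_left K w).smul (by fun_prop)

theorem norm_cv_le {K : ℝ} (hK : 0 < K) {g : ℂ → E} {b : ℝ}
    (hb : ∀ z, ‖g z‖ ≤ b) (z : ℂ) : ‖cv K g z‖ ≤ cK K * b := by
  unfold cv
  rw [← integral_norm_ker hK, ← integral_mul_const]
  refine norm_integral_le_of_norm_le ((integrable_norm_ker hK).mul_const b)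
    (Eventually.of_forall fun w => ?_)
  rw [norm_smul, norm_ker]
  exact mul_le_mul_of_nonneg_left (hb _) (by positivity)

theorem cv_sub {K : ℝ} (hK : 0 < K) {g h : ℂ → E} (hg : Continuous g) (hh : Continuous h) {b c : ℝ}
    (hb : ∀ z, ‖g z‖ ≤ b) (hc : ∀ z, ‖h z‖ ≤ c) (z : ℂ) :
    cv K g z - cv K h z = cv K (fun z => g z - h z) z := by
  unfold cv
  rw [← integral_sub (integrable_cv hK hg hb z) (integrable_cv hK hh hc z)]
  refine integral_congr_ae (Eventually.of_forall fun w => ?_)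
  show _ = ker K z w • (g (z - w) - h (z - w))
  rw [smul_sub]

end conv

section fix
variable {n : Type} [Fintype n]

/-- multiplication by the coefficient matrix -/
def mulA (A : n → n → ℂ → ℂ) (u : ℂ) (y : n → ℂ) : n → ℂ := fun i => ∑ l, A i l u * y l

theorem norm_mulA_le {A : n → n → ℂ → ℂ} {M : ℝ} (hM0 : 0 ≤ M) (hM : ∀ i l u, ‖A i l u‖ ≤ M)
    (u : ℂ) (y : n → ℂ) : ‖mulA A u y‖ ≤ (Fintype.card n * M) * ‖y‖ := by
  rw [pi_norm_le_iff_of_nonneg (by positivity)]
  intro i
  calc ‖∑ l, A i l u * y l‖ ≤ ∑ l, ‖A i l u * y l‖ := norm_sum_le _ _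
    _ ≤ ∑ _l : n, M * ‖y‖ := by
        refine Finset.sum_le_sum fun l _ => ?_
        rw [norm_mul]
        exact mul_le_mul (hM i l u) (norm_le_pi_norm y l) (norm_nonneg _) hM0
    _ = _ := by
        rw [Finset.sum_const, Finset.card_univ, nsmul_eq_mul]
        ring

theorem mulA_sub (A : n → n → ℂ → ℂ) (u : ℂ) (y y' : n → ℂ) :
    mulA A u y - mulA A u y' = mulA A u (y - y') := by
  funext i
  simp only [mulA, Pi.sub_apply, mul_sub, Finset.sum_sub_distrib]

theorem continuous_mulA {A : n → n → ℂ → ℂ} (hA : ∀ i l, Continuous (A i l)) {Y : ℂ → n → ℂ}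
    (hY : Continuous Y) : Continuous fun u => mulA A u (Y u) := by
  refine continuous_pi fun i => ?_
  show Continuous fun u => ∑ l, A i l u * Y u l
  refine continuous_finsetSum _ fun l _ => (hA i l).mul ?_
  exact (continuous_apply l).comp hY

theorem exists_fix {A : n → n → ℂ → ℂ} (hA : ∀ i l, Continuous (A i l)) {M : ℝ} (hM0 : 0 ≤ M)
    (hM : ∀ i l u, ‖A i l u‖ ≤ M) {K : ℝ} (hK : 0 < K) {q : ℝ}
    (hq : cK K * (Fintype.card n * M) ≤ q) (hq1 : q < 1) (Y0 : ℂ →ᵇ (n → ℂ)) :
    ∃ Y : ℂ →ᵇ (n → ℂ), ∀ z, Y z = Y0 z + cv K (fun u => mulA A u (Y u)) z := by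
  have hc0 : 0 ≤ cK K := by unfold cK; positivity
  have hbd : ∀ (Y : ℂ →ᵇ (n → ℂ)) (u : ℂ), ‖mulA A u (Y u)‖ ≤ (Fintype.card n * M) * ‖Y‖ :=
    fun Y u => (norm_mulA_le hM0 hM u (Y u)).trans
      (mul_le_mul_of_nonneg_left (Y.norm_coe_le_norm u) (by positivity))
  have hct : ∀ (Y : ℂ →ᵇ (n → ℂ)), Continuous fun u => mulA A u (Y u) := fun Y =>
    continuous_mulA hA Y.continuous
  let Ψ : (ℂ →ᵇ (n → ℂ)) → (ℂ →ᵇ (n → ℂ)) := fun Y =>
    BoundedContinuousFunction.ofNormedAddCommGroup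
      (fun z => Y0 z + cv K (fun u => mulA A u (Y u)) z)
      (Y0.continuous.add (continuous_cv hK (hct Y) (hbd Y)))
      (‖Y0‖ + cK K * ((Fintype.card n * M) * ‖Y‖))
      (fun z => (norm_add_le _ _).trans (add_le_add (Y0.norm_coe_le_norm z)
        (norm_cv_le hK (hbd Y) z)))
  have hΨ : ∀ Y z, Ψ Y z = Y0 z + cv K (fun u => mulA A u (Y u)) z := fun _ _ => rfl
  have hq0 : 0 ≤ q := le_trans (by positivity) hq
  have hlip : LipschitzWith ⟨q, hq0⟩ Ψ := by
    refine LipschitzWith.of_dist_le_mul fun Y Y' => ?_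
    rw [BoundedContinuousFunction.dist_le (by positivity)]
    intro z
    rw [hΨ, hΨ, dist_add_left, dist_eq_norm, cv_sub hK (hct Y) (hct Y') (hbd Y) (hbd Y')]
    have h1 : ∀ u, ‖mulA A u (Y u) - mulA A u (Y' u)‖ ≤ (Fintype.card n * M) * dist Y Y' := by
      intro u
      rw [mulA_sub]
      refine (norm_mulA_le hM0 hM u _).trans (mul_le_mul_of_nonneg_left ?_ (by positivity))
      rw [← dist_eq_norm]
      exact BoundedContinuousFunction.dist_coe_le_dist u
    refine (norm_cv_le hK h1 z).trans ?_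
    rw [← mul_assoc]
    exact mul_le_mul_of_nonneg_right hq dist_nonneg
  have hcon : ContractingWith ⟨q, hq0⟩ Ψ := ⟨by exact_mod_cast hq1, hlip⟩
  refine ⟨hcon.fixedPoint Ψ, fun z => ?_⟩
  have h := hcon.fixedPoint_isFixedPt
  conv_lhs => rw [← h]
  rw [hΨ]

theorem fix_bound {A : n → n → ℂ → ℂ} {M : ℝ} (hM0 : 0 ≤ M)
    (hM : ∀ i l u, ‖A i l u‖ ≤ M) {K : ℝ} (hK : 0 < K) {q : ℝ}
    (hq : cK K * (Fintype.card n * M) ≤ q) (hq1 : q ≤ 1 / 2) {Y0 Y : ℂ →ᵇ (n → ℂ)}
    (hY0 : ‖Y0‖ ≤ 1) (hY : ∀ z, Y z = Y0 z + cv K (fun u => mulA A u (Y u)) z) (z : ℂ) :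
    ‖Y z - Y0 z‖ ≤ 2 * q := by
  have hc0 : 0 ≤ cK K := by unfold cK; positivity
  have hbd : ∀ (u : ℂ), ‖mulA A u (Y u)‖ ≤ (Fintype.card n * M) * ‖Y‖ :=
    fun u => (norm_mulA_le hM0 hM u (Y u)).trans
      (mul_le_mul_of_nonneg_left (Y.norm_coe_le_norm u) (by positivity))
  have hq0 : 0 ≤ q := le_trans (by positivity) hq
  have h1 : ∀ z, ‖Y z - Y0 z‖ ≤ q * ‖Y‖ := by
    intro z
    rw [hY z, add_sub_cancel_left]
    refine (norm_cv_le hK hbd z).trans ?_
    rw [← mul_assoc]
    exact mul_le_mul_of_nonneg_right hq (norm_nonneg _)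
  have h2 : ‖Y‖ ≤ 1 + q * ‖Y‖ := by
    rw [BoundedContinuousFunction.norm_le (by positivity)]
    intro z
    calc ‖Y z‖ = ‖Y0 z + (Y z - Y0 z)‖ := by rw [add_sub_cancel]
      _ ≤ ‖Y0 z‖ + ‖Y z - Y0 z‖ := norm_add_le _ _
      _ ≤ 1 + q * ‖Y‖ := add_le_add ((Y0.norm_coe_le_norm z).trans hY0) (h1 z)
  have h3 : ‖Y‖ ≤ 2 := by nlinarith [norm_nonneg Y]
  exact (h1 z).trans (by nlinarith [norm_nonneg Y])

end fix

/-! ### the weak equation -/

/-- the kernel `F(z,u) = e^{K(z-u) ū} / (2π (z-u))` -/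
theorem ker_eq (K : ℝ) (z u : ℂ) :
    (Real.exp (K / 2 * ‖z‖ ^ 2) : ℂ) * ker K z (z - u) =
      Complex.exp (K * ((z - u) * conj u)) * (2 * Real.pi * (z - u))⁻¹ *
        (Real.exp (K / 2 * ‖u‖ ^ 2) : ℂ) := by
  unfold ker
  have h1 : ∀ a b c : ℂ, Complex.exp a * (Complex.exp b * c) = Complex.exp (a + b) * c :=
    fun a b c => by rw [Complex.exp_add]; ring
  have h2 : ∀ a b c : ℂ, Complex.exp a * c * Complex.exp b = Complex.exp (a + b) * c :=
    fun a b c => by rw [Complex.exp_add]; ring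
  rw [sub_sub_cancel, Complex.ofReal_exp, Complex.ofReal_exp, h1, h2]
  congr 2
  push_cast
  ring

/-- integrability on the product -/
theorem integrable_prod_div {H : ℂ × ℂ → ℂ} (hH : Continuous H) (hs : HasCompactSupport H) :
    Integrable (fun p : ℂ × ℂ => H p * (p.1 - p.2)⁻¹) (volume.prod volume) := by
  have h1 : Continuous fun p : ℂ × ℂ => H p *
      ((Real.exp (1 / 2 * ‖p.1 - p.2‖ ^ 2) : ℂ) * (Real.exp (‖p.2‖ ^ 2) : ℂ)) := by fun_prop
  have h2 : HasCompactSupport fun p : ℂ × ℂ => H p *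
      ((Real.exp (1 / 2 * ‖p.1 - p.2‖ ^ 2) : ℂ) * (Real.exp (‖p.2‖ ^ 2) : ℂ)) := hs.mul_right
  obtain ⟨C, hC⟩ := h1.bounded_above_of_compact_support h2
  have hf : Integrable (fun u : ℂ => (Real.exp (-‖u‖ ^ 2) : ℂ)) := by
    have := Pomp.integrable_radial (f := fun r => Real.exp (-r ^ 2)) (by
      have := integrable_mul_exp_neg_mul_sq (b := 1) one_pos
      refine this.integrableOn.congr_fun (fun y _ => ?_) measurableSet_Ioi
      simp)
    exact this.ofReal
  have hg := Pomp.integrable_gauss_inv (K := 1) one_pos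
  have h3 := (Integrable.convolution_integrand (ContinuousLinearMap.mul ℝ ℂ) hf hg).bdd_mul
    (c := C) (f := fun p : ℂ × ℂ => H p *
      ((Real.exp (1 / 2 * ‖p.1 - p.2‖ ^ 2) : ℂ) * (Real.exp (‖p.2‖ ^ 2) : ℂ)))
    h1.aestronglyMeasurable (Eventually.of_forall hC)
  refine h3.congr (Eventually.of_forall fun p => ?_)
  show H p * ((Real.exp (1 / 2 * ‖p.1 - p.2‖ ^ 2) : ℂ) * (Real.exp (‖p.2‖ ^ 2) : ℂ)) *
    ((Real.exp (-‖p.2‖ ^ 2) : ℂ) * ((Real.exp (-(1 / 2) * ‖p.1 - p.2‖ ^ 2) : ℂ) *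
      (p.1 - p.2)⁻¹)) = _
  have e1 : (Real.exp (1 / 2 * ‖p.1 - p.2‖ ^ 2) : ℂ) *
      (Real.exp (-(1 / 2) * ‖p.1 - p.2‖ ^ 2) : ℂ) = 1 := by
    rw [← Complex.ofReal_mul, ← Real.exp_add]
    simp
  have e2 : (Real.exp (‖p.2‖ ^ 2) : ℂ) * (Real.exp (-‖p.2‖ ^ 2) : ℂ) = 1 := by
    rw [← Complex.ofReal_mul, ← Real.exp_add]
    simp
  calc _ = H p * (p.1 - p.2)⁻¹ * ((Real.exp (1 / 2 * ‖p.1 - p.2‖ ^ 2) : ℂ) *
      (Real.exp (-(1 / 2) * ‖p.1 - p.2‖ ^ 2) : ℂ)) *
      ((Real.exp (‖p.2‖ ^ 2) : ℂ) * (Real.exp (-‖p.2‖ ^ 2) : ℂ)) := by ring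
    _ = _ := by rw [e1, e2, mul_one, mul_one]

/-- `D` of an exponential times a test function -/
theorem Dp_exp_mul (K : ℝ) (u : ℂ) {φ : ℂ → ℂ} (hφ : ContDiff ℝ ∞ φ) (z : ℂ) :
    Dp (ContinuousLinearMap.id ℝ ℂ) (fun z => Complex.exp (K * ((z - u) * conj u)) * φ z) z =
      Complex.exp (K * ((z - u) * conj u)) * Dp (ContinuousLinearMap.id ℝ ℂ) φ z := by
  have hφd : HasFDerivAt φ (fderiv ℝ φ z) z :=
    (hφ.differentiable (by simp) z).hasFDerivAt
  have he : HasDerivAt (fun z : ℂ => Complex.exp (K * ((z - u) * conj u)))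
      (Complex.exp (K * ((z - u) * conj u)) * (K * conj u)) z := by
    have h1 : HasDerivAt (fun z : ℂ => (K : ℂ) * ((z - u) * conj u)) (K * (1 * conj u)) z :=
      ((hasDerivAt_id z).sub_const u |>.mul_const (conj u)).const_mul _
    simpa using h1.cexp
  have he' := he.hasFDerivAt.restrictScalars ℝ
  have h := he'.mul hφd
  have h' : HasFDerivAt (fun z => Complex.exp (K * ((z - u) * conj u)) * φ z) _ z := h
  unfold Dp
  rw [h'.fderiv]
  simp
  ring_nf
  simp only [Complex.I_sq]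
  ring

/-- the adjoint of the kernel -/
theorem kernel_adj (K : ℝ) (u : ℂ) {φ : ℂ → ℂ} (hφ : ContDiff ℝ ∞ φ) (hs : HasCompactSupport φ) :
    ∫ z, Complex.exp (K * ((z - u) * conj u)) * (2 * Real.pi * (z - u))⁻¹ *
      Dp (ContinuousLinearMap.id ℝ ℂ) φ z = -φ u := by
  have h := Pomp.pompeiu (f := fun z => Complex.exp (K * ((z - u) * conj u)) * φ z)
    (by
      have : ContDiff ℝ 1 φ := hφ.of_le (by simp)
      have h2 : ContDiff ℝ 1 fun z : ℂ => (K : ℂ) * ((z - u) * conj u) := by fun_prop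
      exact h2.cexp.mul this) hs.mul_left u
  simp only [sub_self, zero_mul, mul_zero, Complex.exp_zero, one_mul] at h
  have h2 : ∫ z, Complex.exp (K * ((z - u) * conj u)) * (2 * Real.pi * (z - u))⁻¹ *
      Dp (ContinuousLinearMap.id ℝ ℂ) φ z = (2 * Real.pi : ℂ)⁻¹ *
      ∫ z, Dp (ContinuousLinearMap.id ℝ ℂ) (fun z => Complex.exp (K * ((z - u) * conj u)) * φ z) z
        * (z - u)⁻¹ := by
    rw [← integral_const_mul]
    refine integral_congr_ae (Eventually.of_forall fun z => ?_)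
    show Complex.exp (K * ((z - u) * conj u)) * (2 * Real.pi * (z - u))⁻¹ *
      Dp (ContinuousLinearMap.id ℝ ℂ) φ z = (2 * Real.pi : ℂ)⁻¹ *
        (Dp (ContinuousLinearMap.id ℝ ℂ) (fun z => Complex.exp (K * ((z - u) * conj u)) * φ z) z
          * (z - u)⁻¹)
    rw [Dp_exp_mul K u hφ, mul_inv]
    ring
  rw [h2, h]
  have hpi : (2 * Real.pi : ℂ) ≠ 0 := by
    have := Real.pi_ne_zero
    exact_mod_cast mul_ne_zero two_ne_zero this
  field_simp

theorem exists_bound {n : Type} [Fintype n] {A : n → n → ℂ → ℂ} (hA : ∀ i j, Continuous (A i j))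
    (hs : ∀ i j, HasCompactSupport (A i j)) : ∃ M : ℝ, 0 ≤ M ∧ ∀ i l u, ‖A i l u‖ ≤ M := by
  choose C hC using fun i j => (hA i j).bounded_above_of_compact_support (hs i j)
  refine ⟨∑ i, ∑ j, |C i j|, by positivity, fun i l u => (hC i l u).trans ?_⟩
  calc C i l ≤ |C i l| := le_abs_self _
    _ ≤ ∑ j, |C i j| := Finset.single_le_sum (f := fun j => |C i j|) (fun _ _ => abs_nonneg _)
        (Finset.mem_univ l)
    _ ≤ _ := Finset.single_le_sum (f := fun i => ∑ j, |C i j|)
        (fun _ _ => Finset.sum_nonneg fun _ _ => abs_nonneg _) (Finset.mem_univ i)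

/-- T6a -/
theorem t_Ksol : StmtKsol := by
  intro n _ _ A hA hs
  obtain ⟨M, hM0, hM⟩ := exists_bound hA hs
  set N : ℝ := (Fintype.card n : ℝ) with hN
  have hN0 : 0 ≤ N := by positivity
  -- choice of `K`
  set a : ℝ := N * M * (N + 1) + 1 with ha
  have ha0 : 0 < a := by positivity
  set K : ℝ := 2 * Real.pi * a ^ 2 with hKdef
  have hpi := Real.pi_pos
  have hK : 0 < K := by positivity
  have hcK : cK K = 1 / (2 * a) := by
    have h1 : 2 * Real.pi / K = (1 / a) ^ 2 := by rw [hKdef]; field_simp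
    rw [cK, h1, Real.sqrt_sq (by positivity)]
    field_simp
  set q : ℝ := 1 / (2 * (N + 1)) with hqdef
  have hq : cK K * (Fintype.card n * M) ≤ q := by
    rw [hcK, hqdef, ← hN, one_div_mul_eq_div, div_le_div_iff₀ (by positivity) (by positivity), ha]
    nlinarith
  have hq2 : q ≤ 1 / 2 := by
    rw [hqdef, div_le_div_iff₀ (by positivity) (by positivity)]
    nlinarith
  -- the free solutions
  let Y0 : n → (ℂ →ᵇ (n → ℂ)) := fun j => BoundedContinuousFunction.ofNormedAddCommGroup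
    (fun z => fun i => if i = j then (Real.exp (-(K / 2) * ‖z‖ ^ 2) : ℂ) else 0)
    (by
      refine continuous_pi fun i => ?_
      split_ifs
      · fun_prop
      · fun_prop) 1
    (fun z => by
      rw [pi_norm_le_iff_of_nonneg zero_le_one]
      intro i
      split_ifs
      · rw [Complex.norm_real, Real.norm_of_nonneg (Real.exp_pos _).le, Real.exp_le_one_iff]
        nlinarith [sq_nonneg ‖z‖]
      · simp)
  have hY0e : ∀ j z i, Y0 j z i = if i = j then (Real.exp (-(K / 2) * ‖z‖ ^ 2) : ℂ) else 0 :=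
    fun _ _ _ => rfl
  have hY0 : ∀ j, ‖Y0 j‖ ≤ 1 := fun j =>
    BoundedContinuousFunction.norm_ofNormedAddCommGroup_le _ zero_le_one _
  choose Y hY using fun j => exists_fix hA hM0 hM hK hq (by linarith) (Y0 j)
  have hclose : ∀ j z, ‖Y j z - Y0 j z‖ ≤ 2 * q := fun j z =>
    fix_bound hM0 hM hK hq hq2 (hY0 j) (hY j) z
  have hbd : ∀ j (u : ℂ), ‖mulA A u (Y j u)‖ ≤ (Fintype.card n * M) * ‖Y j‖ :=
    fun j u => (norm_mulA_le hM0 hM u (Y j u)).trans
      (mul_le_mul_of_nonneg_left ((Y j).norm_coe_le_norm u) (by positivity))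
  have hYi : ∀ j i, Continuous fun z => Y j z i := fun j i =>
    (continuous_apply i).comp (Y j).continuous
  refine ⟨fun i j z => (Real.exp (K / 2 * ‖z‖ ^ 2) : ℂ) * Y j z i, fun i j => ?_, ?_, ?_⟩
  · exact (by fun_prop : Continuous fun z : ℂ => (Real.exp (K / 2 * ‖z‖ ^ 2) : ℂ)).mul (hYi j i)
  · -- weak equation
    intro i j φ hφ hφs
    set f : ℂ → ℂ := fun u => ∑ l, A i l u * ((Real.exp (K / 2 * ‖u‖ ^ 2) : ℂ) * Y j u l) with hf
    have hfe : ∀ u, f u = (Real.exp (K / 2 * ‖u‖ ^ 2) : ℂ) * mulA A u (Y j u) i := by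
      intro u
      rw [hf, mulA, Finset.mul_sum]
      refine Finset.sum_congr rfl fun l _ => ?_
      ring
    have hfc : Continuous f := by
      refine continuous_finsetSum _ fun l _ => (hA i l).mul ?_
      exact (by fun_prop : Continuous fun z : ℂ => (Real.exp (K / 2 * ‖z‖ ^ 2) : ℂ)).mul (hYi j l)
    have hfs : HasCompactSupport f := by
      refine HasCompactSupport.intro (K := ⋃ l, tsupport (A i l))
        (isCompact_iUnion fun l => (hs i l)) fun u hu => ?_
      rw [hf]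
      refine Finset.sum_eq_zero fun l _ => ?_
      have : u ∉ tsupport (A i l) := fun h => hu (mem_iUnion.mpr ⟨l, h⟩)
      rw [image_eq_zero_of_notMem_tsupport this, zero_mul]
    -- representation
    have hX : ∀ z, (Real.exp (K / 2 * ‖z‖ ^ 2) : ℂ) * Y j z i = (if i = j then 1 else 0) +
        ∫ u, Complex.exp (K * ((z - u) * conj u)) * (2 * Real.pi * (z - u))⁻¹ * f u := by
      intro z
      have h1 : (cv K (fun u => mulA A u (Y j u)) z) i =
          ∫ u, ker K z (z - u) * mulA A u (Y j u) i := by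
        have hi := integrable_cv hK (continuous_mulA hA (Y j).continuous) (hbd j) z
        have h2 := (ContinuousLinearMap.proj (R := ℂ) (φ := fun _ : n => ℂ) i).integral_comp_comm hi
        have h3 : (cv K (fun u => mulA A u (Y j u)) z) i =
            ∫ w, ker K z w * mulA A (z - w) (Y j (z - w)) i := h2.symm
        rw [h3, ← integral_sub_left_eq_self
          (fun w => ker K z w * mulA A (z - w) (Y j (z - w)) i) volume z]
        refine integral_congr_ae (Eventually.of_forall fun u => ?_)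
        show ker K z (z - u) * mulA A (z - (z - u)) (Y j (z - (z - u))) i = _
        rw [sub_sub_cancel]
      have h4 := congrFun (hY j z) i
      rw [h4, Pi.add_apply, mul_add, hY0e, h1, ← integral_const_mul]
      congr 1
      · split_ifs
        · rw [← Complex.ofReal_mul, ← Real.exp_add]
          simp
        · simp
      · refine integral_congr_ae (Eventually.of_forall fun u => ?_)
        show (Real.exp (K / 2 * ‖z‖ ^ 2) : ℂ) * (ker K z (z - u) * mulA A u (Y j u) i) =
          Complex.exp (K * ((z - u) * conj u)) * (2 * Real.pi * (z - u))⁻¹ * f u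
        rw [hfe, ← mul_assoc, ker_eq]
        ring
    have hDc : Continuous (Dp (ContinuousLinearMap.id ℝ ℂ) φ) := by
      have h1 : ContDiff ℝ 1 φ := hφ.of_le (by simp)
      have hcont : ∀ v, Continuous fun z => fderiv ℝ φ z v := fun v =>
        (h1.continuous_fderiv one_ne_zero).clm_apply continuous_const
      show Continuous fun z => fderiv ℝ φ z _ + Complex.I * fderiv ℝ φ z _
      exact (hcont _).add (continuous_const.mul (hcont _))
    have hDs : HasCompactSupport (Dp (ContinuousLinearMap.id ℝ ℂ) φ) := by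
      have hsup : ∀ v, HasCompactSupport fun z => fderiv ℝ φ z v := fun v =>
        (hφs.fderiv ℝ).comp_left (g := fun L : ℂ →L[ℝ] ℂ => L v) (by simp)
      show HasCompactSupport fun z => fderiv ℝ φ z _ + Complex.I * fderiv ℝ φ z _
      exact (hsup _).add ((hsup _).mul_left)
    set D := Dp (ContinuousLinearMap.id ℝ ℂ) φ with hD
    -- product integrability
    let H : ℂ × ℂ → ℂ := fun p => Complex.exp (K * ((p.1 - p.2) * conj p.2)) *
      (2 * Real.pi : ℂ)⁻¹ * f p.2 * D p.1
    have hHc : Continuous H := by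
      have h1 : Continuous fun p : ℂ × ℂ => f p.2 := hfc.comp continuous_snd
      have h2 : Continuous fun p : ℂ × ℂ => D p.1 := hDc.comp continuous_fst
      have h3 : Continuous fun p : ℂ × ℂ => Complex.exp (K * ((p.1 - p.2) * conj p.2)) *
        (2 * Real.pi : ℂ)⁻¹ := by fun_prop
      exact (h3.mul h1).mul h2
    have hHs : HasCompactSupport H := by
      refine HasCompactSupport.intro (K := tsupport D ×ˢ tsupport f)
        (IsCompact.prod hDs hfs) fun p hp => ?_
      rw [mem_prod, not_and_or] at hp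
      show Complex.exp (K * ((p.1 - p.2) * conj p.2)) * (2 * Real.pi : ℂ)⁻¹ * f p.2 * D p.1 = 0
      rcases hp with hp | hp
      · rw [image_eq_zero_of_notMem_tsupport hp, mul_zero]
      · rw [image_eq_zero_of_notMem_tsupport hp, mul_zero, zero_mul]
    have hint := integrable_prod_div hHc hHs
    have hint' : Integrable (Function.uncurry fun z u =>
        Complex.exp (K * ((z - u) * conj u)) * (2 * Real.pi * (z - u))⁻¹ * f u * D z)
        (volume.prod volume) := by
      refine hint.congr (Eventually.of_forall fun p => ?_)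
      show Complex.exp (K * ((p.1 - p.2) * conj p.2)) * (2 * Real.pi : ℂ)⁻¹ * f p.2 * D p.1 *
        (p.1 - p.2)⁻¹ = Complex.exp (K * ((p.1 - p.2) * conj p.2)) *
          (2 * Real.pi * (p.1 - p.2))⁻¹ * f p.2 * D p.1
      rw [mul_inv (2 * (Real.pi : ℂ)) (p.1 - p.2)]
      ring
    have hswap := integral_integral_swap hint'
    have e1 : ∀ z, (Real.exp (K / 2 * ‖z‖ ^ 2) : ℂ) * Y j z i * D z =
        (if i = j then 1 else 0) * D z + ∫ u, Complex.exp (K * ((z - u) * conj u)) *
          (2 * Real.pi * (z - u))⁻¹ * f u * D z := by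
      intro z
      rw [hX z, add_mul, integral_mul_const]
    have hi1 : Integrable fun z => (if i = j then (1 : ℂ) else 0) * D z :=
      (hDc.integrable_of_hasCompactSupport hDs).const_mul _
    have hi2 : Integrable fun z => ∫ u, Complex.exp (K * ((z - u) * conj u)) *
          (2 * Real.pi * (z - u))⁻¹ * f u * D z := hint'.integral_prod_left
    show -∫ z, (Real.exp (K / 2 * ‖z‖ ^ 2) : ℂ) * Y j z i * D z = ∫ z, f z * φ z
    rw [integral_congr_ae (Eventually.of_forall e1), integral_add hi1 hi2,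
      integral_const_mul, hD, Pomp.integral_Dp_zero (hφ.of_le (by simp)) hφs, mul_zero, zero_add,
      ← hD]
    show -∫ z, ∫ u, Complex.exp (K * ((z - u) * conj u)) *
          (2 * Real.pi * (z - u))⁻¹ * f u * D z = _
    rw [hswap, ← integral_neg]
    refine integral_congr_ae (Eventually.of_forall fun u => ?_)
    show -∫ z, Complex.exp (K * ((z - u) * conj u)) *
          (2 * Real.pi * (z - u))⁻¹ * f u * D z = f u * φ u
    have h5 : ∫ z, Complex.exp (K * ((z - u) * conj u)) *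
          (2 * Real.pi * (z - u))⁻¹ * f u * D z = f u * ∫ z, Complex.exp (K * ((z - u) * conj u)) *
          (2 * Real.pi * (z - u))⁻¹ * D z := by
      rw [← integral_const_mul]
      refine integral_congr_ae (Eventually.of_forall fun z => ?_)
      show _ = f u * (Complex.exp (K * ((z - u) * conj u)) * (2 * Real.pi * (z - u))⁻¹ * D z)
      ring
    rw [h5, kernel_adj K u hφ hφs]
    ring
  · -- determinant
    have h2q : 2 * q = 1 / (N + 1) := by rw [hqdef]; field_simp
    have hentry : ∀ i j, ‖(Real.exp (K / 2 * ‖(0 : ℂ)‖ ^ 2) : ℂ) * Y j 0 i -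
        (if i = j then 1 else 0)‖ ≤ 1 / (N + 1) := by
      intro i j
      have h1 := (norm_le_pi_norm (Y j 0 - Y0 j 0) i).trans (hclose j 0)
      rw [Pi.sub_apply, hY0e, h2q] at h1
      simpa using h1
    apply det_ne_zero_of_sum_row_lt_diag
    intro k
    simp only [Matrix.of_apply]
    have hoff : ∀ j ∈ Finset.univ.erase k, ‖(Real.exp (K / 2 * ‖(0 : ℂ)‖ ^ 2) : ℂ) * Y j 0 k‖ ≤
        1 / (N + 1) := by
      intro j hj
      have h1 := hentry k j
      rw [if_neg (fun h => (Finset.ne_of_mem_erase hj) h.symm), sub_zero] at h1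
      exact h1
    have hdiag : 1 - 1 / (N + 1) ≤ ‖(Real.exp (K / 2 * ‖(0 : ℂ)‖ ^ 2) : ℂ) * Y k 0 k‖ := by
      have h1 := hentry k k
      rw [if_pos rfl] at h1
      have h2 := norm_sub_norm_le (1 : ℂ) ((Real.exp (K / 2 * ‖(0 : ℂ)‖ ^ 2) : ℂ) * Y k 0 k)
      rw [norm_one, norm_sub_rev] at h2
      linarith
    refine lt_of_le_of_lt (Finset.sum_le_sum hoff) (lt_of_lt_of_le ?_ hdiag)
    rw [Finset.sum_const, nsmul_eq_mul, Finset.card_erase_of_mem (Finset.mem_univ k),
      Finset.card_univ]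
    have hcard : 1 ≤ Fintype.card n := Fintype.card_pos_iff.mpr ⟨k⟩
    rw [Nat.cast_sub hcard, ← hN, Nat.cast_one]
    have hN1 : 0 < N + 1 := by positivity
    rw [lt_sub_iff_add_lt, ← add_one_mul, sub_add_cancel, mul_one_div, div_lt_one hN1]
    linarith

end Ks

/-- T6a -/
theorem t_Ksol : StmtKsol := Ks.t_Ksol

end Crest.Agent.R080
end
end

-- ▼ part R080/DbarBasic
section

/-!
Row 80 (S0107), task T6b, part 1: calculus of `D = ∂₁ + i ∂₂` on `ℂ`, Weyl's lemma for `D`.
-/

set_option autoImplicit false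

open MeasureTheory Filter Set
open scoped ContDiff Topology

noncomputable section
namespace Crest.Agent.R080.DbarBasic

/-- `∂₁ + i∂₂` on `ℂ` -/
abbrev D1 (f : ℂ → ℂ) (z : ℂ) : ℂ := Dp (ContinuousLinearMap.id ℝ ℂ) f z

theorem D1_def (f : ℂ → ℂ) (z : ℂ) :
    D1 f z = fderiv ℝ f z 1 + Complex.I * fderiv ℝ f z Complex.I := rfl

theorem D1_of_hasFDerivAt {f : ℂ → ℂ} {z : ℂ} {f' : ℂ →L[ℝ] ℂ} (h : HasFDerivAt f f' z) :
    D1 f z = f' 1 + Complex.I * f' Complex.I := by
  rw [D1_def, h.fderiv]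

theorem D1_mul {f g : ℂ → ℂ} {z : ℂ} (hf : DifferentiableAt ℝ f z)
    (hg : DifferentiableAt ℝ g z) :
    D1 (fun w => f w * g w) z = D1 f z * g z + f z * D1 g z := by
  have h : HasFDerivAt (fun w => f w * g w) _ z := hf.hasFDerivAt.mul hg.hasFDerivAt
  rw [D1_of_hasFDerivAt h, D1_def, D1_def]
  simp only [_root_.add_apply, _root_.smul_apply, smul_eq_mul]
  ring


theorem D1_sum {κ : Type*} (s : Finset κ) {f : κ → ℂ → ℂ} {z : ℂ}
    (hf : ∀ i ∈ s, DifferentiableAt ℝ (f i) z) :
    D1 (fun w => ∑ i ∈ s, f i w) z = ∑ i ∈ s, D1 (f i) z := by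
  have h := HasFDerivAt.fun_sum (u := s) (fun i hi => (hf i hi).hasFDerivAt)
  rw [D1_of_hasFDerivAt h]
  simp only [D1_def, _root_.sum_apply, Finset.mul_sum, Finset.sum_add_distrib]

theorem D1_const (c : ℂ) (z : ℂ) : D1 (fun _ => c) z = 0 := by
  simp [D1_def]

theorem D1_congr {f g : ℂ → ℂ} {z : ℂ} (h : f =ᶠ[𝓝 z] g) : D1 f z = D1 g z := by
  rw [D1_def, D1_def, h.fderiv_eq]

theorem D1_of_complex {f : ℂ → ℂ} {z : ℂ} (h : DifferentiableAt ℂ f z) : D1 f z = 0 := by
  have h2 := (differentiableAt_complex_iff_differentiableAt_real.1 h).2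
  rw [D1_def, h2, smul_eq_mul, ← mul_assoc, Complex.I_mul_I]
  ring

theorem complex_of_D1 {f : ℂ → ℂ} {z : ℂ} (h : DifferentiableAt ℝ f z) (h0 : D1 f z = 0) :
    DifferentiableAt ℂ f z := by
  rw [differentiableAt_complex_iff_differentiableAt_real]
  refine ⟨h, ?_⟩
  rw [D1_def] at h0
  have : fderiv ℝ f z 1 = -(Complex.I * fderiv ℝ f z Complex.I) := by linear_combination h0
  rw [this, smul_eq_mul]
  linear_combination (fderiv ℝ f z Complex.I) * Complex.I_mul_I

theorem D1_comp_complex {f g : ℂ → ℂ} {z : ℂ} (hf : DifferentiableAt ℂ f (g z))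
    (hg : DifferentiableAt ℝ g z) :
    D1 (fun w => f (g w)) z = deriv f (g z) * D1 g z := by
  have h1 : HasFDerivAt f ((ContinuousLinearMap.toSpanSingleton ℂ (deriv f (g z))).restrictScalars ℝ)
      (g z) := hf.hasDerivAt.hasFDerivAt.restrictScalars ℝ
  have h := h1.comp z hg.hasFDerivAt
  have h' : D1 (fun w => f (g w)) z = _ := D1_of_hasFDerivAt h
  rw [h', D1_def]
  simp
  ring

/-- derivative after an affine real rescaling -/
theorem D1_comp_affine {f : ℂ → ℂ} (z0 : ℂ) {ε : ℝ} (z : ℂ)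
    (hf : DifferentiableAt ℝ f ((ε⁻¹ : ℝ) • (z - z0))) :
    D1 (fun w => f ((ε⁻¹ : ℝ) • (w - z0))) z = (ε⁻¹ : ℝ) * D1 f ((ε⁻¹ : ℝ) • (z - z0)) := by
  have hg : HasFDerivAt (fun w : ℂ => (ε⁻¹ : ℝ) • (w - z0))
      ((ε⁻¹ : ℝ) • ContinuousLinearMap.id ℝ ℂ) z :=
    HasFDerivAt.const_smul (f := fun w : ℂ => w - z0) ((hasFDerivAt_id z).sub_const z0) (ε⁻¹ : ℝ)
  have h := hf.hasFDerivAt.comp z hg
  have h' : D1 (fun w => f ((ε⁻¹ : ℝ) • (w - z0))) z = _ := D1_of_hasFDerivAt h
  rw [h', D1_def]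
  rw [ContinuousLinearMap.comp_apply, ContinuousLinearMap.comp_apply, _root_.smul_apply,
    _root_.smul_apply, ContinuousLinearMap.id_apply, ContinuousLinearMap.id_apply,
    ContinuousLinearMap.map_smul, ContinuousLinearMap.map_smul]
  simp only [Complex.real_smul]
  ring

/-! ### Weyl's lemma -/

theorem contDiff_D1 {f : ℂ → ℂ} (hf : ContDiff ℝ ∞ f) : ContDiff ℝ ∞ (D1 f) := by
  have h := hf.fderiv_right (m := ∞) (by simp)
  exact (h.clm_apply contDiff_const).add (contDiff_const.mul (h.clm_apply contDiff_const))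

theorem D1_eq_zero_of_notMem_tsupport {f : ℂ → ℂ} {z : ℂ} (hz : z ∉ tsupport f) : D1 f z = 0 := by
  have h : f =ᶠ[𝓝 z] fun _ => (0 : ℂ) := by
    exact (notMem_tsupport_iff_eventuallyEq.1 hz)
  rw [D1_congr h, D1_const]

/-- reflected translate of a test function -/
theorem D1_reflect (f : ℂ → ℂ) (x w : ℂ) (hf : DifferentiableAt ℝ f (x - w)) :
    D1 (fun w => f (x - w)) w = -D1 f (x - w) := by
  have hg : HasFDerivAt (fun w : ℂ => x - w) (-ContinuousLinearMap.id ℝ ℂ) w :=
    (hasFDerivAt_id w).const_sub x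
  have h := hf.hasFDerivAt.comp w hg
  have h' : D1 (fun w => f (x - w)) w = _ := D1_of_hasFDerivAt h
  rw [h', D1_def]
  simp only [ContinuousLinearMap.comp_apply, _root_.neg_apply,
    ContinuousLinearMap.id_apply, map_neg]
  ring

open ContinuousLinearMap in
theorem weyl_D1 {H : ℂ → ℂ} (hH : Continuous H) {U : Set ℂ} (hU : IsOpen U)
    (hw : ∀ φ : ℂ → ℂ, ContDiff ℝ ∞ φ → HasCompactSupport φ → tsupport φ ⊆ U →
      ∫ z, H z * D1 φ z = 0) : DifferentiableOn ℂ H U := by
  intro z1 hz1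
  obtain ⟨ρ, hρ, hρU⟩ := Metric.isOpen_iff.1 hU z1 hz1
  suffices h : DifferentiableOn ℂ H (Metric.ball z1 (ρ / 2)) from
    ((h z1 (Metric.mem_ball_self (by positivity))).differentiableAt
      (Metric.isOpen_ball.mem_nhds (Metric.mem_ball_self (by positivity)))).differentiableWithinAt
  -- bump functions with radii tending to zero
  let φ : ℕ → ContDiffBump (0 : ℂ) := fun n =>
    { rIn := ρ / (4 * (n + 1)), rOut := ρ / (2 * (n + 1)), rIn_pos := by positivity,
      rIn_lt_rOut := by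
        have : (0 : ℝ) < n + 1 := by positivity
        rw [div_lt_div_iff₀ (by positivity) (by positivity)]
        nlinarith }
  let L : ℝ →L[ℝ] ℂ →L[ℝ] ℂ := ContinuousLinearMap.lsmul ℝ ℝ
  let F : ℕ → ℂ → ℂ := fun n => convolution ((φ n).normed volume) H L volume
  have hφlim : Tendsto (fun n => (φ n).rOut) atTop (𝓝 0) := by
    have h1 : Tendsto (fun n : ℕ => (ρ / 2) * (1 / ((n : ℝ) + 1))) atTop (𝓝 ((ρ / 2) * 0)) :=
      tendsto_one_div_add_atTop_nhds_zero_nat.const_mul _
    rw [mul_zero] at h1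
    refine h1.congr fun n => ?_
    show _ = ρ / (2 * (n + 1))
    have : (0 : ℝ) < n + 1 := by positivity
    field_simp
  have hrO : ∀ n, (φ n).rOut ≤ ρ / 2 := by
    intro n
    show ρ / (2 * (n + 1)) ≤ ρ / 2
    have h0 : (0 : ℝ) ≤ n := Nat.cast_nonneg n
    rw [div_le_div_iff₀ (by positivity) (by positivity)]
    nlinarith
  -- convergence
  have hconv : TendstoLocallyUniformlyOn F H atTop (Metric.ball z1 (ρ / 2)) := by
    rw [Metric.tendstoLocallyUniformlyOn_iff]
    intro e he x hx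
    -- uniform continuity of H on a compact ball
    have hK : IsCompact (Metric.closedBall z1 (2 * ρ)) := isCompact_closedBall _ _
    have huc : UniformContinuousOn H (Metric.closedBall z1 (2 * ρ)) :=
      hK.uniformContinuousOn_of_continuous hH.continuousOn
    rw [Metric.uniformContinuousOn_iff] at huc
    obtain ⟨d, hd, hd'⟩ := huc (e / 2) (by positivity)
    refine ⟨Metric.ball z1 (ρ / 2), self_mem_nhdsWithin, ?_⟩
    have hev : ∀ᶠ n in atTop, (φ n).rOut < d := hφlim.eventually (gt_mem_nhds hd)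
    filter_upwards [hev] with n hn y hy
    have hb : dist (F n y) (H y) ≤ e / 2 := by
      refine ContDiffBump.dist_normed_convolution_le (φ := φ n) hH.aestronglyMeasurable ?_
      intro x' hx'
      have h1 : dist x' y < (φ n).rOut := hx'
      have h2 : dist y z1 < ρ / 2 := hy
      refine (hd' x' ?_ y ?_ ?_).le
      · rw [Metric.mem_closedBall]
        have := dist_triangle x' y z1
        have := hrO n
        linarith
      · rw [Metric.mem_closedBall]; linarith
      · exact h1.trans hn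
    rw [dist_comm]
    linarith
  have hFd : ∀ n, DifferentiableOn ℂ (F n) (Metric.ball z1 (ρ / 2)) := by
    intro n x hx
    refine DifferentiableAt.differentiableWithinAt ?_
    have hcs : HasCompactSupport ((φ n).normed volume) := (φ n).hasCompactSupport_normed
    have hcd : ContDiff ℝ 1 ((φ n).normed volume) := (φ n).contDiff_normed
    have hder := hcs.hasFDerivAt_convolution_left L hcd
      (hH.locallyIntegrable (μ := volume)) x
    refine complex_of_D1 hder.differentiableAt ?_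
    rw [D1_of_hasFDerivAt hder]
    -- the test function
    let ψ : ℂ → ℂ := fun w => (((φ n).normed volume (x - w) : ℝ) : ℂ)
    let η : ℂ → ℂ := fun w => (((φ n).normed volume w : ℝ) : ℂ)
    have hη : ContDiff ℝ ∞ η := Complex.ofRealCLM.contDiff.comp (φ n).contDiff_normed
    have hψ : ContDiff ℝ ∞ ψ := hη.comp (contDiff_const.sub contDiff_id)
    have hψsub : tsupport ψ ⊆ Metric.closedBall x (φ n).rOut := by
      refine closure_minimal ?_ Metric.isClosed_closedBall
      intro w hw'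
      rw [Function.mem_support] at hw'
      have h1 : (φ n).normed volume (x - w) ≠ 0 := by
        intro h; apply hw'; simp [ψ, h]
      have h2 : x - w ∈ Function.support ((φ n).normed volume) := h1
      rw [(φ n).support_normed_eq] at h2
      rw [Metric.mem_ball, dist_zero_right] at h2
      rw [Metric.mem_closedBall, dist_comm, dist_eq_norm]
      exact h2.le
    have hψc : HasCompactSupport ψ :=
      (isCompact_closedBall x (φ n).rOut).of_isClosed_subset (isClosed_tsupport _) hψsub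
    have hψU : tsupport ψ ⊆ U := by
      refine hψsub.trans (subset_trans ?_ hρU)
      intro w hw'
      rw [Metric.mem_closedBall] at hw'
      rw [Metric.mem_ball] at hx ⊢
      have := dist_triangle w x z1
      have := hrO n
      linarith
    have key := hw ψ hψ hψc hψU
    have hD : ∀ w, D1 ψ w = -D1 η (x - w) := fun w =>
      D1_reflect η x w (hη.differentiable (by simp)).differentiableAt
    have hηfd : ∀ w v, fderiv ℝ η w v = ((fderiv ℝ ((φ n).normed volume) w v : ℝ) : ℂ) := by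
      intro w v
      have h1 : HasFDerivAt ((φ n).normed volume) (fderiv ℝ ((φ n).normed volume) w) w :=
        (hcd.differentiable (by simp)).differentiableAt.hasFDerivAt
      have h2 : HasFDerivAt η (Complex.ofRealCLM.comp (fderiv ℝ ((φ n).normed volume) w)) w :=
        Complex.ofRealCLM.hasFDerivAt.comp w h1
      rw [h2.fderiv]; rfl
    -- evaluate the derivative of the convolution
    have hev : ∀ v : ℂ, (convolution (fderiv ℝ ((φ n).normed volume)) H (L.precompL ℂ) volume x) v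
        = ∫ t, fderiv ℝ η t v * H (x - t) := by
      intro v
      have hcf : HasCompactSupport (fderiv ℝ ((φ n).normed volume)) := hcs.fderiv ℝ
      have hcont : Continuous (fderiv ℝ ((φ n).normed volume)) :=
        hcd.continuous_fderiv (by simp)
      have hce : ConvolutionExistsAt (fderiv ℝ ((φ n).normed volume)) H x (L.precompL ℂ) volume :=
        (hcf.convolutionExists_left (L.precompL ℂ) hcont
          (hH.locallyIntegrable (μ := volume))) x
      rw [convolution_def, ContinuousLinearMap.integral_apply hce v]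
      refine integral_congr_ae (Filter.Eventually.of_forall fun t => ?_)
      simp only [ContinuousLinearMap.precompL_apply, hηfd, L, ContinuousLinearMap.lsmul_apply,
        Complex.real_smul]
    rw [hev, hev, ← integral_const_mul, ← integral_add]
    · have h3 : (fun t => fderiv ℝ η t 1 * H (x - t)
          + Complex.I * (fderiv ℝ η t Complex.I * H (x - t))) =
          fun t => (fun w => -(H w * D1 ψ w)) (x - t) := by
        funext t
        simp only [hD, sub_sub_cancel, D1_def]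
        ring
      rw [h3, integral_sub_left_eq_self (fun w => -(H w * D1 ψ w)) volume x, integral_neg, key,
        neg_zero]
    all_goals
      have hηcs : HasCompactSupport η := hcs.comp_left (g := fun r : ℝ => (r : ℂ)) (by simp)
      have hcont2 : Continuous (fderiv ℝ η) := hη.continuous_fderiv (by simp)
      have hcf2 : HasCompactSupport (fderiv ℝ η) := hηcs.fderiv ℝ
    · refine Continuous.integrable_of_hasCompactSupport ?_ ?_
      · exact (hcont2.clm_apply continuous_const).mul (hH.comp (continuous_const.sub continuous_id))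
      · exact (hcf2.comp_left (g := fun l : ℂ →L[ℝ] ℂ => l 1) (by simp)).mul_right
    · refine Integrable.const_mul (Continuous.integrable_of_hasCompactSupport ?_ ?_) _
      · exact (hcont2.clm_apply continuous_const).mul (hH.comp (continuous_const.sub continuous_id))
      · exact (hcf2.comp_left (g := fun l : ℂ →L[ℝ] ℂ => l Complex.I) (by simp)).mul_right
  exact hconv.differentiableOn (Filter.Eventually.of_forall hFd) Metric.isOpen_ball

end Crest.Agent.R080.DbarBasic
end
end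

-- ▼ part R080/MatField
section

/-!
Row 80 (S0107), task T6b, part 3: matrix valued functions on `ℂ`: determinant, inverse, Jacobi's
formula, local fundamental matrices.
-/

set_option autoImplicit false

open MeasureTheory Filter Set
open scoped ContDiff Topology

noncomputable section
namespace Crest.Agent.R080.DbarBasic

variable {n : Type} [Fintype n] [DecidableEq n]

/-- determinant of a matrix field -/
def detF (M : n → n → ℂ → ℂ) (z : ℂ) : ℂ := (Matrix.of fun i j => M i j z).det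

/-- entries of the inverse of a matrix field -/
def invF (M : n → n → ℂ → ℂ) (i j : n) (z : ℂ) : ℂ := (Matrix.of fun i j => M i j z)⁻¹ i j

theorem detF_eq (M : n → n → ℂ → ℂ) (z : ℂ) :
    detF M z = ∑ σ : Equiv.Perm n, ((Equiv.Perm.sign σ : ℤ) : ℂ) * ∏ i, M i (σ i) z := by
  rw [detF, ← Matrix.det_transpose, Matrix.det_apply']
  rfl

theorem contDiffAt_detF {M : n → n → ℂ → ℂ} {z : ℂ} (h : ∀ i j, ContDiffAt ℝ ∞ (M i j) z) :
    ContDiffAt ℝ ∞ (detF M) z := by
  have e : detF M = fun z => ∑ σ : Equiv.Perm n, ((Equiv.Perm.sign σ : ℤ) : ℂ) *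
      ∏ i, M i (σ i) z := funext (detF_eq M)
  rw [e]
  refine ContDiffAt.sum fun σ _ => ?_
  refine contDiffAt_const.mul ?_
  exact contDiffAt_prod fun i _ => h i (σ i)

theorem continuous_detF {M : n → n → ℂ → ℂ} (h : ∀ i j, Continuous (M i j)) :
    Continuous (detF M) := by
  have e : detF M = fun z => ∑ σ : Equiv.Perm n, ((Equiv.Perm.sign σ : ℤ) : ℂ) *
      ∏ i, M i (σ i) z := funext (detF_eq M)
  rw [e]
  exact continuous_finsetSum _ fun σ _ => continuous_const.mul
    (continuous_finsetProd _ fun i _ => h i (σ i))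

theorem invF_eq {M : n → n → ℂ → ℂ} {z : ℂ} (i j : n) :
    invF M i j z = (detF M z)⁻¹ *
      detF (fun a b w => if a = j then (Pi.single i (1 : ℂ) : n → ℂ) b else M a b w) z := by
  rw [invF, Matrix.inv_def, Matrix.smul_apply, Ring.inverse_eq_inv', smul_eq_mul,
    Matrix.adjugate_apply]
  congr 1
  rw [detF]
  congr 1
  ext a b
  simp only [Matrix.updateRow_apply, Matrix.of_apply]

theorem contDiffAt_invF {M : n → n → ℂ → ℂ} {z : ℂ} (h : ∀ i j, ContDiffAt ℝ ∞ (M i j) z)
    (hd : detF M z ≠ 0) (i j : n) : ContDiffAt ℝ ∞ (invF M i j) z := by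
  have e : invF M i j = fun z => (detF M z)⁻¹ *
      detF (fun a b w => if a = j then (Pi.single i (1 : ℂ) : n → ℂ) b else M a b w) z :=
    funext fun z => invF_eq i j
  rw [e]
  refine ((contDiffAt_detF h).inv hd).mul (contDiffAt_detF fun a b => ?_)
  by_cases ha : a = j
  · simp only [ha, if_true]; exact contDiffAt_const
  · simp only [ha, if_false]; exact h a b

theorem mul_invF {M : n → n → ℂ → ℂ} {z : ℂ} (hd : detF M z ≠ 0) (i j : n) :
    ∑ l, M i l z * invF M l j z = if i = j then 1 else 0 := by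
  have h1 := Matrix.mul_nonsing_inv (Matrix.of fun i j => M i j z) (isUnit_iff_ne_zero.2 hd)
  have h2 := congrFun (congrFun h1 i) j
  rw [Matrix.mul_apply, Matrix.one_apply] at h2
  exact h2

theorem invF_mul {M : n → n → ℂ → ℂ} {z : ℂ} (hd : detF M z ≠ 0) (i j : n) :
    ∑ l, invF M i l z * M l j z = if i = j then 1 else 0 := by
  have h1 := Matrix.nonsing_inv_mul (Matrix.of fun i j => M i j z) (isUnit_iff_ne_zero.2 hd)
  have h2 := congrFun (congrFun h1 i) j
  rw [Matrix.mul_apply, Matrix.one_apply] at h2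
  exact h2

omit [Fintype n] in
theorem D1_prod {s : Finset n} {f : n → ℂ → ℂ} {z : ℂ} (hf : ∀ i, DifferentiableAt ℝ (f i) z) :
    D1 (fun w => ∏ i ∈ s, f i w) z = ∑ k ∈ s, (∏ i ∈ s.erase k, f i z) * D1 (f k) z := by
  have h := HasFDerivAt.finsetProd (u := s) (g := f) (x := z)
    (fun i _ => (hf i).hasFDerivAt)
  have h' : D1 (fun w => ∏ i ∈ s, f i w) z = _ := D1_of_hasFDerivAt h
  rw [h']
  simp only [_root_.sum_apply, _root_.smul_apply, smul_eq_mul, D1_def, Finset.mul_sum,
    ← Finset.sum_add_distrib]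
  refine Finset.sum_congr rfl fun k _ => ?_
  ring

theorem det_updateRow_eq (X : Matrix n n ℂ) (k : n) (v : n → ℂ) :
    (X.updateRow k v).det = ∑ σ : Equiv.Perm n, ((Equiv.Perm.sign σ : ℤ) : ℂ) *
      ((∏ i ∈ Finset.univ.erase k, X i (σ i)) * v (σ k)) := by
  rw [← Matrix.det_transpose, Matrix.det_apply']
  refine Finset.sum_congr rfl fun σ _ => ?_
  congr 1
  rw [← Finset.mul_prod_erase _ _ (Finset.mem_univ k), mul_comm]
  congr 1
  · refine Finset.prod_congr rfl fun i hi => ?_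
    rw [Matrix.transpose_apply, Matrix.updateRow_ne (Finset.ne_of_mem_erase hi)]
  · rw [Matrix.transpose_apply, Matrix.updateRow_self]

theorem D1_detF {M : n → n → ℂ → ℂ} {z : ℂ} (h : ∀ i j, DifferentiableAt ℝ (M i j) z) :
    D1 (detF M) z = ∑ k, ((Matrix.of fun i j => M i j z).updateRow k
      (fun j => D1 (M k j) z)).det := by
  have e : detF M = fun z => ∑ σ : Equiv.Perm n, ((Equiv.Perm.sign σ : ℤ) : ℂ) *
      ∏ i, M i (σ i) z := funext (detF_eq M)
  have hp : ∀ σ : Equiv.Perm n, DifferentiableAt ℝ (fun w => ∏ i, M i (σ i) w) z := fun σ =>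
    (HasFDerivAt.finsetProd (u := Finset.univ) (g := fun i => M i (σ i)) (x := z)
      (fun i _ => (h i (σ i)).hasFDerivAt)).differentiableAt
  rw [e, D1_sum _ fun σ _ => (hp σ).const_mul _]
  simp only [det_updateRow_eq]
  rw [Finset.sum_comm]
  refine Finset.sum_congr rfl fun σ _ => ?_
  rw [D1_mul (differentiableAt_const _) (hp σ), D1_const, zero_mul, zero_add,
    D1_prod fun i => h i (σ i), Finset.mul_sum]
  rfl

/-- Jacobi's formula -/
theorem D1_detF_of_sol {M : n → n → ℂ → ℂ} {z : ℂ} {a : n → n → ℂ}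
    (h : ∀ i j, DifferentiableAt ℝ (M i j) z)
    (hM : ∀ i j, D1 (M i j) z = ∑ l, a i l * M l j z) :
    D1 (detF M) z = (∑ i, a i i) * detF M z := by
  rw [D1_detF h, Finset.sum_mul]
  refine Finset.sum_congr rfl fun k _ => ?_
  have h1 := Matrix.det_updateRow_sum (Matrix.of fun i j => M i j z) k (a k)
  rw [smul_eq_mul] at h1
  rw [detF, ← h1]
  congr 2
  funext j
  rw [hM k j, Finset.sum_apply]
  rfl

/-- matrices close to the identity are invertible -/
theorem exists_det_ne_zero (n : Type) [Fintype n] [DecidableEq n] :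
    ∃ e : ℝ, 0 < e ∧ ∀ M : n → n → ℂ, (∀ i j, ‖M i j - if i = j then 1 else 0‖ ≤ e) →
      (Matrix.of M).det ≠ 0 := by
  have hc : Continuous fun M : n → n → ℂ => (Matrix.of M).det := by
    have : Continuous fun M : n → n → ℂ => (Matrix.of M : Matrix n n ℂ) := continuous_id
    exact this.matrix_det
  let I : n → n → ℂ := fun i j => if i = j then 1 else 0
  have hI : (Matrix.of I).det = 1 := by
    have : (Matrix.of I) = (1 : Matrix n n ℂ) := by
      ext i j; simp [I, Matrix.one_apply]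
    rw [this, Matrix.det_one]
  have hopen : IsOpen {M : n → n → ℂ | (Matrix.of M).det ≠ 0} := isOpen_ne.preimage hc
  obtain ⟨e, he, hball⟩ := Metric.isOpen_iff.1 hopen I (by
    show (Matrix.of I).det ≠ 0
    rw [hI]; exact one_ne_zero)
  refine ⟨e / 2, by positivity, fun M hM => ?_⟩
  refine hball (show M ∈ Metric.ball I e from ?_)
  rw [Metric.mem_ball]
  have : dist M I ≤ e / 2 := by
    rw [dist_pi_le_iff (by positivity)]
    intro i
    rw [dist_pi_le_iff (by positivity)]
    intro j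
    rw [dist_eq_norm]
    exact hM i j
  linarith

end Crest.Agent.R080.DbarBasic
end
end

-- ▼ part R080/EntireFactor
section

/-!
Row 80 (S0107), task T6b, part 2: factorization of an entire function on a disc.
-/

set_option autoImplicit false

open Filter Set
open scoped Topology

noncomputable section
namespace Crest.Agent.R080.DbarBasic

theorem zeros_finite {h : ℂ → ℂ} (hh : Differentiable ℂ h) (h0 : h 0 ≠ 0) (R : ℝ) :
    {z : ℂ | ‖z‖ ≤ R ∧ h z = 0}.Finite := by
  by_contra hinf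
  have hsub : {z : ℂ | ‖z‖ ≤ R ∧ h z = 0} ⊆ Metric.closedBall (0 : ℂ) R := by
    intro z hz
    rw [mem_closedBall_zero_iff]; exact hz.1
  obtain ⟨x, -, hx⟩ := Set.Infinite.exists_accPt_of_subset_isCompact hinf
    (isCompact_closedBall (0 : ℂ) R) hsub
  have hfr : ∃ᶠ z in 𝓝[≠] x, h z = 0 := by
    rw [accPt_iff_frequently_nhdsNE] at hx
    exact hx.mono fun z hz => hz.2
  have han : AnalyticOnNhd ℂ h univ := fun z _ => (hh.differentiableOn.analyticAt univ_mem)
  have := han.eqOn_zero_of_preconnected_of_frequently_eq_zero isPreconnected_univ (mem_univ x) hfr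
  exact h0 (this (mem_univ 0))

theorem entire_factor_aux (R : ℝ) (N : ℕ) : ∀ {h : ℂ → ℂ}, Differentiable ℂ h → h 0 ≠ 0 →
    {z : ℂ | ‖z‖ ≤ R ∧ h z = 0}.ncard = N →
    ∃ (l : List ℂ) (g : ℂ → ℂ), Differentiable ℂ g ∧ (∀ z, ‖z‖ ≤ R → g z ≠ 0) ∧
      ∀ z, h z = (l.map (fun a => z - a)).prod * g z := by
  induction N with
  | zero =>
    intro h hh h0 hN
    rw [Set.ncard_eq_zero (zeros_finite hh h0 R)] at hN
    refine ⟨[], h, hh, fun z hz h1 => ?_, fun z => by simp⟩
    have : z ∈ {z : ℂ | ‖z‖ ≤ R ∧ h z = 0} := ⟨hz, h1⟩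
    rw [hN] at this
    exact this
  | succ N ih =>
    intro h hh h0 hN
    have hfin := zeros_finite hh h0 R
    have hne : {z : ℂ | ‖z‖ ≤ R ∧ h z = 0}.Nonempty := by
      rw [← Set.ncard_pos hfin, hN]; exact Nat.succ_pos _
    obtain ⟨a, haR, ha⟩ := hne
    have hana : AnalyticAt ℂ h a := hh.differentiableOn.analyticAt univ_mem
    have hnz : ¬ ∀ᶠ z in 𝓝 a, h z = 0 := by
      intro hev
      have han : AnalyticOnNhd ℂ h univ := fun z _ => (hh.differentiableOn.analyticAt univ_mem)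
      have := han.eqOn_zero_of_preconnected_of_eventuallyEq_zero isPreconnected_univ
        (mem_univ a) hev
      exact h0 (this (mem_univ 0))
    obtain ⟨n, g, hg, hga, hev⟩ := hana.exists_eventuallyEq_pow_smul_nonzero_iff.2 hnz
    have ha0 : (0 : ℂ) ≠ a := by
      rintro rfl; exact h0 ha
    have hn : n ≠ 0 := by
      rintro rfl
      have := hev.self_of_nhds
      simp only [pow_zero, one_smul] at this
      exact hga (by rw [← this, ha])
    -- the new function
    let G : ℂ → ℂ := Function.update (fun z => h z / (z - a) ^ n) a (g a)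
    have hGa : G a = g a := Function.update_self _ _ _
    have hGz : ∀ z, z ≠ a → G z = h z / (z - a) ^ n := fun z hz => Function.update_of_ne hz _ _
    have hfac : ∀ z, h z = (z - a) ^ n * G z := by
      intro z
      by_cases hz : z = a
      · subst hz; rw [ha, sub_self, zero_pow hn, zero_mul]
      · rw [hGz z hz, mul_div_cancel₀]
        exact pow_ne_zero _ (sub_ne_zero.2 hz)
    have hGd : Differentiable ℂ G := by
      intro z
      by_cases hz : z = a
      · subst hz
        have : G =ᶠ[𝓝 z] g := by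
          filter_upwards [hev] with w hw
          by_cases hwz : w = z
          · subst hwz; exact hGa
          · rw [hGz w hwz, hw, smul_eq_mul, mul_div_cancel_left₀]
            exact pow_ne_zero _ (sub_ne_zero.2 hwz)
        exact this.differentiableAt_iff.2 hg.differentiableAt
      · have : G =ᶠ[𝓝 z] fun w => h w / (w - a) ^ n := by
          filter_upwards [isOpen_ne.mem_nhds hz] with w hw
          exact hGz w hw
        refine this.differentiableAt_iff.2 ?_
        refine DifferentiableAt.div hh.differentiableAt (by fun_prop) ?_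
        exact pow_ne_zero _ (sub_ne_zero.2 hz)
    have hG0 : G 0 ≠ 0 := by
      intro h1
      apply h0; rw [hfac 0, h1, mul_zero]
    have hset : {z : ℂ | ‖z‖ ≤ R ∧ G z = 0} = {z : ℂ | ‖z‖ ≤ R ∧ h z = 0} \ {a} := by
      ext z
      simp only [Set.mem_ofPred_eq, Set.mem_sdiff, mem_singleton_iff]
      constructor
      · rintro ⟨h1, h2⟩
        refine ⟨⟨h1, by rw [hfac z, h2, mul_zero]⟩, ?_⟩
        rintro rfl
        rw [hGa] at h2; exact hga h2
      · rintro ⟨⟨h1, h2⟩, h3⟩
        refine ⟨h1, ?_⟩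
        rw [hGz z h3, h2, zero_div]
    have hcard : {z : ℂ | ‖z‖ ≤ R ∧ G z = 0}.ncard = N := by
      have hmem : a ∈ {z : ℂ | ‖z‖ ≤ R ∧ h z = 0} := ⟨haR, ha⟩
      rw [hset, Set.ncard_sdiff_singleton_of_mem hmem, hN]
      rfl
    obtain ⟨l, g', hg', hg'0, hl⟩ := ih hGd hG0 hcard
    refine ⟨List.replicate n a ++ l, g', hg', hg'0, fun z => ?_⟩
    rw [hfac z, hl z, List.map_append, List.prod_append, List.map_replicate, List.prod_replicate,
      mul_assoc]

theorem entire_factor {h : ℂ → ℂ} (hh : Differentiable ℂ h) (h0 : h 0 ≠ 0) (R : ℝ) :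
    ∃ (l : List ℂ) (g : ℂ → ℂ), Differentiable ℂ g ∧ (∀ z, ‖z‖ ≤ R → g z ≠ 0) ∧
      ∀ z, h z = (l.map (fun a => z - a)).prod * g z :=
  entire_factor_aux R _ hh h0 rfl

end Crest.Agent.R080.DbarBasic
end
end

-- ▼ part R080/PlaneFM

/-!
Row 80 (S0107), task T6b: fundamental matrices on discs of the plane (zero removal).
-/

set_option autoImplicit false

open MeasureTheory Filter Set
open scoped ContDiff Topology

noncomputable section
namespace Crest.Agent.R080.DbarBasic

variable {n : Type} [Fintype n] [DecidableEq n]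

theorem exists_localFM (hS : StmtSmallFM) (A : n → n → ℂ → ℂ)
    (hA : ∀ i j, ContDiff ℝ ∞ (A i j)) (hAc : ∀ i j, HasCompactSupport (A i j)) (z0 : ℂ) :
    ∃ (r : ℝ) (C : n → n → ℂ → ℂ), 0 < r ∧ (∀ i j, ContDiff ℝ ∞ (C i j)) ∧
      (∀ z, detF C z ≠ 0) ∧
      ∀ z ∈ Metric.ball z0 r, ∀ i j, D1 (C i j) z = ∑ l, A i l z * C l j z := by
  obtain ⟨e, he, hdet⟩ := exists_det_ne_zero n
  obtain ⟨δ, hδ, hSδ⟩ := hS ℂ n 1 1 e one_pos one_pos he
  -- bound on A
  have hb : ∀ i j, ∃ c : ℝ, ∀ z, ‖A i j z‖ ≤ c := fun i j =>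
    (hAc i j).exists_bound_of_continuous (hA i j).continuous
  choose c hc using hb
  let B : ℝ := (∑ i, ∑ j, |c i j|) + 1
  have hB : ∀ i j z, ‖A i j z‖ ≤ B := by
    intro i j z
    have h1 : |c i j| ≤ ∑ j, |c i j| :=
      Finset.single_le_sum (f := fun j => |c i j|) (fun _ _ => abs_nonneg _) (Finset.mem_univ j)
    have h2 : (∑ j, |c i j|) ≤ ∑ i, ∑ j, |c i j| :=
      Finset.single_le_sum (f := fun i => ∑ j, |c i j|)
        (fun _ _ => Finset.sum_nonneg fun _ _ => abs_nonneg _) (Finset.mem_univ i)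
    have h3 := hc i j z
    have h4 := le_abs_self (c i j)
    simp only [B]
    linarith
  have hBpos : 0 < B := by
    have : 0 ≤ ∑ i, ∑ j, |c i j| :=
      Finset.sum_nonneg fun _ _ => Finset.sum_nonneg fun _ _ => abs_nonneg _
    simp only [B]; linarith
  let ε : ℝ := δ / B
  have hε : 0 < ε := div_pos hδ hBpos
  have hεB : ε * B = δ := div_mul_cancel₀ _ hBpos.ne'
  let ψ : ContDiffBump (0 : ℂ) :=
    { rIn := 1 / 2, rOut := 1, rIn_pos := by norm_num, rIn_lt_rOut := by norm_num }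
  let A' : n → n → ℂ → ℂ := fun i j w => ((ε * ψ w : ℝ) : ℂ) * A i j (z0 + ε • w)
  have hA'1 : ∀ i j, ContDiff ℝ ∞ (A' i j) := by
    intro i j
    refine ContDiff.mul ?_ ?_
    · exact Complex.ofRealCLM.contDiff.comp (contDiff_const.mul ψ.contDiff)
    · exact (hA i j).comp (contDiff_const.add (contDiff_const_smul ε))
  have hA'2 : ∀ i j w, 1 ≤ ‖w‖ → A' i j w = 0 := by
    intro i j w hw
    have : ψ w = 0 := ψ.zero_of_le_dist (by rw [dist_zero_right]; exact hw)
    simp [A', this]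
  have hA'3 : ∀ i j w, ‖A' i j w‖ ≤ δ := by
    intro i j w
    simp only [A', norm_mul, Complex.norm_real, Real.norm_eq_abs]
    rw [abs_of_pos hε, abs_of_nonneg ψ.nonneg, ← hεB]
    have h1 := hB i j (z0 + ε • w)
    have h2 : ψ w ≤ 1 := ψ.le_one
    have h3 : 0 ≤ ψ w := ψ.nonneg
    have h4 := norm_nonneg (A i j (z0 + ε • w))
    calc ε * ψ w * ‖A i j (z0 + ε • w)‖ ≤ ε * 1 * B := by gcongr
      _ = ε * B := by ring
  obtain ⟨C', hC'1, hC'2, hC'3⟩ := hSδ (ContinuousLinearMap.id ℝ ℂ) (fun z => by simp) A'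
    hA'1 hA'2 hA'3
  let C : n → n → ℂ → ℂ := fun i j z => C' i j ((ε⁻¹ : ℝ) • (z - z0))
  refine ⟨ε / 2, C, by positivity, fun i j => ?_, fun z => ?_, fun z hz i j => ?_⟩
  · exact (hC'1 i j).comp ((contDiff_const_smul _).comp (contDiff_id.sub contDiff_const))
  · exact hdet (fun i j => C i j z) fun i j => hC'3 i j _
  · have hd : DifferentiableAt ℝ (C' i j) ((ε⁻¹ : ℝ) • (z - z0)) :=
      ((hC'1 i j).differentiable (by simp)).differentiableAt
    have h1 : D1 (C i j) z = (ε⁻¹ : ℝ) * D1 (C' i j) ((ε⁻¹ : ℝ) • (z - z0)) :=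
      D1_comp_affine z0 z hd
    rw [h1]
    have h2 : D1 (C' i j) ((ε⁻¹ : ℝ) • (z - z0)) = _ := hC'2 i j ((ε⁻¹ : ℝ) • (z - z0))
    rw [h2]
    have h3 : z0 + ε • ((ε⁻¹ : ℝ) • (z - z0)) = z := by
      rw [smul_smul, mul_inv_cancel₀ hε.ne', one_smul]; ring
    have h4 : ψ ((ε⁻¹ : ℝ) • (z - z0)) = 1 := by
      apply ψ.one_of_mem_closedBall
      rw [mem_closedBall_zero_iff, norm_smul, norm_inv, Real.norm_eq_abs, abs_of_pos hε]
      rw [Metric.mem_ball, dist_eq_norm] at hz
      show ε⁻¹ * ‖z - z0‖ ≤ 1 / 2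
      rw [inv_mul_le_iff₀ hε]
      linarith
    rw [Finset.mul_sum]
    refine Finset.sum_congr rfl fun l _ => ?_
    simp only [A', h3, h4, C]
    push_cast
    have : (ε : ℂ) ≠ 0 := by exact_mod_cast hε.ne'
    field_simp

/-- derivative of the inverse of a local fundamental matrix -/
theorem D1_invF {A C : n → n → ℂ → ℂ} {z : ℂ} (hC : ∀ i j, ContDiff ℝ ∞ (C i j))
    (hdet : ∀ z, detF C z ≠ 0)
    (hz : ∀ i j, D1 (C i j) z = ∑ l, A i l z * C l j z) (i j : n) :
    D1 (invF C i j) z = -∑ l, invF C i l z * A l j z := by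
  have hCd : ∀ i j, DifferentiableAt ℝ (C i j) z := fun i j =>
    ((hC i j).differentiable (by simp)).differentiableAt
  have hCid : ∀ i j, DifferentiableAt ℝ (invF C i j) z := fun i j =>
    (contDiffAt_invF (fun a b => (hC a b).contDiffAt) (hdet z) i j).differentiableAt (by simp)
  let Cm : Matrix n n ℂ := Matrix.of fun i j => C i j z
  let Ci : Matrix n n ℂ := Matrix.of fun i j => invF C i j z
  let Am : Matrix n n ℂ := Matrix.of fun i j => A i j z
  let Di : Matrix n n ℂ := Matrix.of fun i j => D1 (invF C i j) z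
  have e1 : Ci * Cm = 1 := by
    ext a b; rw [Matrix.mul_apply, Matrix.one_apply]; exact invF_mul (hdet z) a b
  have e2 : Cm * Ci = 1 := by
    ext a b; rw [Matrix.mul_apply, Matrix.one_apply]; exact mul_invF (hdet z) a b
  have e3 : Am * Cm * Ci + Cm * Di = 0 := by
    ext a b
    have h1 : D1 (fun w => ∑ l, C a l w * invF C l b w) z = 0 := by
      have : (fun w => ∑ l, C a l w * invF C l b w) = fun _ => if a = b then 1 else 0 :=
        funext fun w => mul_invF (hdet w) a b
      rw [this, D1_const]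
    rw [D1_sum _ fun l _ => (hCd a l).fun_mul (hCid l b)] at h1
    simp only [D1_mul (hCd a _) (hCid _ b), hz, Finset.sum_add_distrib] at h1
    rw [Matrix.add_apply, Matrix.mul_apply, Matrix.mul_apply]
    simp only [Matrix.mul_apply]
    exact h1
  have e4 : Di = -(Ci * Am) := by
    have h5 : Ci * (Am * Cm * Ci + Cm * Di) = 0 := by rw [e3, mul_zero]
    have h6 : Ci * (Am * Cm * Ci + Cm * Di) = Ci * Am * (Cm * Ci) + Ci * Cm * Di := by
      simp only [mul_add, Matrix.mul_assoc]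
    rw [h6, e1, e2, Matrix.mul_one, Matrix.one_mul] at h5
    exact eq_neg_of_add_eq_zero_right h5
  have := congrFun (congrFun e4 i) j
  rw [Matrix.neg_apply, Matrix.mul_apply] at this
  exact this

/-- strong smooth vector solutions -/
def VSol (A : n → n → ℂ → ℂ) (x : n → ℂ → ℂ) : Prop :=
  (∀ i, ContDiff ℝ ∞ (x i)) ∧ ∀ i z, D1 (x i) z = ∑ l, A i l z * x l z

theorem contDiffAt_of_differentiableOn {H : ℂ → ℂ} {U : Set ℂ} (hU : IsOpen U)
    (hH : DifferentiableOn ℂ H U) {z : ℂ} (hz : z ∈ U) : ContDiffAt ℝ ∞ H z :=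
  ((hH.contDiffOn hU).contDiffAt (hU.mem_nhds hz)).restrict_scalars ℝ

/-- reconstruction from the local holomorphic factor -/
theorem eq_sum_of_H {C : n → n → ℂ → ℂ} (hdet : ∀ z, detF C z ≠ 0) (x : n → ℂ → ℂ) (i : n)
    (z : ℂ) : x i z = ∑ l, C i l z * ∑ m, invF C l m z * x m z := by
  have h : ∀ m, ∑ l, C i l z * invF C l m z = if i = m then 1 else 0 := fun m =>
    mul_invF (hdet z) i m
  calc x i z = ∑ m, (if i = m then 1 else 0) * x m z := by simp
    _ = ∑ m, (∑ l, C i l z * invF C l m z) * x m z := by simp only [h]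
    _ = ∑ l, C i l z * ∑ m, invF C l m z * x m z := by
      simp only [Finset.sum_mul, Finset.mul_sum]
      rw [Finset.sum_comm]
      simp only [mul_assoc]

theorem vsol_of_weak (hS : StmtSmallFM) (A : n → n → ℂ → ℂ)
    (hA : ∀ i j, ContDiff ℝ ∞ (A i j)) (hAc : ∀ i j, HasCompactSupport (A i j))
    (x : n → ℂ → ℂ) (hx : ∀ i, Continuous (x i))
    (hw : ∀ i, ∀ φ : ℂ → ℂ, ContDiff ℝ ∞ φ → HasCompactSupport φ →
      -∫ z, x i z * D1 φ z = ∫ z, (∑ l, A i l z * x l z) * φ z) : VSol A x := by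
  have main : ∀ z0, (∀ i, ContDiffAt ℝ ∞ (x i) z0) ∧
      ∀ i, D1 (x i) z0 = ∑ l, A i l z0 * x l z0 := by
    intro z0
    obtain ⟨r, C, hr, hC, hdet, hCA⟩ := exists_localFM hS A hA hAc z0
    let H : n → ℂ → ℂ := fun i z => ∑ l, invF C i l z * x l z
    have hCi : ∀ i j, ContDiff ℝ ∞ (invF C i j) := fun i j => contDiff_iff_contDiffAt.2 fun z =>
      contDiffAt_invF (fun a b => (hC a b).contDiffAt) (hdet z) i j
    have hHc : ∀ i, Continuous (H i) := fun i =>
      continuous_finsetSum _ fun l _ => (hCi i l).continuous.mul (hx l)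
    have hHd : ∀ i, DifferentiableOn ℂ (H i) (Metric.ball z0 r) := by
      intro i
      refine weyl_D1 (hHc i) Metric.isOpen_ball fun φ hφ hφc hφs => ?_
      have hφl : ∀ l, ContDiff ℝ ∞ (fun z => invF C i l z * φ z) := fun l => (hCi i l).mul hφ
      have hφlc : ∀ l, HasCompactSupport (fun z => invF C i l z * φ z) := fun l => hφc.mul_left
      have h1 : ∀ l, ∫ z, x l z * D1 (fun z => invF C i l z * φ z) z =
          -∫ z, (∑ m, A l m z * x m z) * (invF C i l z * φ z) := by
        intro l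
        have := hw l _ (hφl l) (hφlc l)
        rw [← this, neg_neg]
      have hD1c : ∀ l, Continuous (D1 (fun z => invF C i l z * φ z)) := fun l =>
        (contDiff_D1 (hφl l)).continuous
      have hD1s : ∀ l, HasCompactSupport (D1 (fun z => invF C i l z * φ z)) := by
        intro l
        refine HasCompactSupport.intro (hφlc l) fun z hz => ?_
        exact D1_eq_zero_of_notMem_tsupport hz
      have hint1 : ∀ l, Integrable (fun z => x l z * D1 (fun z => invF C i l z * φ z) z) :=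
        fun l => ((hx l).mul (hD1c l)).integrable_of_hasCompactSupport (hD1s l).mul_left
      have hint2 : ∀ l, Integrable
          (fun z => (∑ m, A l m z * x m z) * (invF C i l z * φ z)) := fun l =>
        ((continuous_finsetSum _ fun m _ => (hA l m).continuous.mul (hx m)).mul
          (hφl l).continuous).integrable_of_hasCompactSupport (hφlc l).mul_left
      have h2 : ∫ z, ((∑ l, x l z * D1 (fun z => invF C i l z * φ z) z)
          + ∑ l, (∑ m, A l m z * x m z) * (invF C i l z * φ z)) = 0 := by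
        rw [integral_add (integrable_finsetSum _ fun l _ => hint1 l)
          (integrable_finsetSum _ fun l _ => hint2 l),
          integral_finsetSum _ fun l _ => hint1 l, integral_finsetSum _ fun l _ => hint2 l,
          ← Finset.sum_add_distrib]
        refine Finset.sum_eq_zero fun l _ => ?_
        rw [h1 l, neg_add_cancel]
      rw [← h2]
      refine integral_congr_ae (Filter.Eventually.of_forall fun z => ?_)
      have hCd : ∀ l, DifferentiableAt ℝ (invF C i l) z := fun l =>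
        ((hCi i l).differentiable (by simp)).differentiableAt
      have hφd : DifferentiableAt ℝ φ z := (hφ.differentiable (by simp)).differentiableAt
      simp only [D1_mul (hCd _) hφd]
      by_cases hz : z ∈ Metric.ball z0 r
      · simp only [D1_invF hC hdet (hCA z hz)]
        simp only [H]
        have e1 : ∑ l, x l z * (-(∑ m, invF C i m z * A m l z) * φ z + invF C i l z * D1 φ z)
            = (∑ l, invF C i l z * x l z) * D1 φ z
              - ∑ l, ∑ m, (invF C i m z * A m l z * x l z) * φ z := by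
          rw [Finset.sum_mul, ← Finset.sum_sub_distrib]
          refine Finset.sum_congr rfl fun l _ => ?_
          rw [← Finset.sum_mul, ← Finset.sum_mul]
          ring
        have e2 : ∑ l, (∑ m, A l m z * x m z) * (invF C i l z * φ z)
            = ∑ l, ∑ m, (invF C i m z * A m l z * x l z) * φ z := by
          rw [Finset.sum_comm]
          refine Finset.sum_congr rfl fun l _ => ?_
          rw [Finset.sum_mul]
          refine Finset.sum_congr rfl fun m _ => ?_
          ring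
        rw [e1, e2]; ring
      · have hφ0 : φ z = 0 := by
          by_contra h0
          exact hz (hφs (subset_tsupport _ h0))
        have hφ1 : D1 φ z = 0 := D1_eq_zero_of_notMem_tsupport fun h => hz (hφs h)
        simp [hφ0, hφ1]
    have hxH : ∀ i, x i = fun z => ∑ l, C i l z * H l z := fun i => funext fun z =>
      eq_sum_of_H hdet x i z
    have hz0 : z0 ∈ Metric.ball z0 r := Metric.mem_ball_self hr
    have hHs : ∀ l, ContDiffAt ℝ ∞ (H l) z0 := fun l =>
      contDiffAt_of_differentiableOn Metric.isOpen_ball (hHd l) hz0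
    refine ⟨fun i => ?_, fun i => ?_⟩
    · rw [hxH i]
      exact ContDiffAt.sum fun l _ => (hC i l).contDiffAt.mul (hHs l)
    · have hCd : ∀ l, DifferentiableAt ℝ (C i l) z0 := fun l =>
        ((hC i l).differentiable (by simp)).differentiableAt
      have hHd' : ∀ l, DifferentiableAt ℝ (H l) z0 := fun l =>
        (hHs l).differentiableAt (by simp)
      have hH0 : ∀ l, D1 (H l) z0 = 0 := fun l =>
        D1_of_complex ((hHd l).differentiableAt (Metric.isOpen_ball.mem_nhds hz0))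
      calc D1 (x i) z0 = D1 (fun z => ∑ l, C i l z * H l z) z0 := by rw [← hxH i]
        _ = ∑ l, (∑ m, A i m z0 * C m l z0) * H l z0 := by
          rw [D1_sum _ fun l _ => (hCd l).fun_mul (hHd' l)]
          refine Finset.sum_congr rfl fun l _ => ?_
          rw [D1_mul (hCd l) (hHd' l), hH0, mul_zero, add_zero, hCA z0 hz0]
        _ = ∑ m, A i m z0 * x m z0 := by
          simp only [Finset.sum_mul]
          rw [Finset.sum_comm]
          refine Finset.sum_congr rfl fun m _ => ?_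
          rw [hxH m, Finset.mul_sum]
          simp only [mul_assoc]
  exact ⟨fun i => contDiff_iff_contDiffAt.2 fun z => (main z).1 i, fun i z => (main z).2 i⟩

/-- division of a vector solution vanishing at a point -/
theorem vsol_div (hS : StmtSmallFM) (A : n → n → ℂ → ℂ)
    (hA : ∀ i j, ContDiff ℝ ∞ (A i j)) (hAc : ∀ i j, HasCompactSupport (A i j))
    {x : n → ℂ → ℂ} (hx : VSol A x) {a : ℂ} (ha : ∀ i, x i a = 0) :
    ∃ y : n → ℂ → ℂ, VSol A y ∧ ∀ i z, x i z = (z - a) * y i z := by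
  obtain ⟨r, C, hr, hC, hdet, hCA⟩ := exists_localFM hS A hA hAc a
  let H : n → ℂ → ℂ := fun i z => ∑ l, invF C i l z * x l z
  have hCi : ∀ i j, ContDiff ℝ ∞ (invF C i j) := fun i j => contDiff_iff_contDiffAt.2 fun z =>
    contDiffAt_invF (fun a b => (hC a b).contDiffAt) (hdet z) i j
  have hHd : ∀ i, DifferentiableOn ℂ (H i) (Metric.ball a r) := by
    intro i z hz
    refine DifferentiableAt.differentiableWithinAt ?_
    have hCd : ∀ l, DifferentiableAt ℝ (invF C i l) z := fun l =>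
      ((hCi i l).differentiable (by simp)).differentiableAt
    have hxd : ∀ l, DifferentiableAt ℝ (x l) z := fun l =>
      ((hx.1 l).differentiable (by simp)).differentiableAt
    refine complex_of_D1 ?_ ?_
    · exact DifferentiableAt.fun_sum fun l _ => (hCd l).mul (hxd l)
    · have e0 : D1 (H i) z = ∑ l, D1 (fun z => invF C i l z * x l z) z :=
        D1_sum _ fun l _ => (hCd l).mul (hxd l)
      rw [e0]
      simp only [D1_mul (hCd _) (hxd _), D1_invF hC hdet (hCA z hz), hx.2,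
        Finset.sum_add_distrib]
      have e1 : ∑ l, (-∑ m, invF C i m z * A m l z) * x l z
          = -∑ l, ∑ m, invF C i m z * A m l z * x l z := by
        rw [← Finset.sum_neg_distrib]
        refine Finset.sum_congr rfl fun l _ => ?_
        rw [neg_mul, Finset.sum_mul]
      have e2 : ∑ l, invF C i l z * ∑ m, A l m z * x m z
          = ∑ l, ∑ m, invF C i m z * A m l z * x l z := by
        rw [Finset.sum_comm]
        refine Finset.sum_congr rfl fun l _ => ?_
        rw [Finset.mul_sum]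
        refine Finset.sum_congr rfl fun m _ => ?_
        ring
      rw [e1, e2, neg_add_cancel]
  have hHa : ∀ i, H i a = 0 := by
    intro i
    simp only [H, ha, mul_zero, Finset.sum_const_zero]
  let K : n → ℂ → ℂ := fun i => dslope (H i) a
  have hball : Metric.ball a r ∈ 𝓝 a := Metric.ball_mem_nhds a hr
  have hKd : ∀ i, DifferentiableOn ℂ (K i) (Metric.ball a r) := fun i =>
    (Complex.differentiableOn_dslope hball).2 (hHd i)
  have hHK : ∀ i z, H i z = (z - a) * K i z := by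
    intro i z
    have := sub_smul_dslope (H i) a z
    rw [hHa, sub_zero, smul_eq_mul] at this
    exact this.symm
  let y : n → ℂ → ℂ := fun i z => if z = a then ∑ l, C i l a * K l a else x i z / (z - a)
  have hxy : ∀ i z, x i z = (z - a) * y i z := by
    intro i z
    by_cases hz : z = a
    · subst hz; simp [ha i]
    · simp only [y, if_neg hz]
      rw [mul_div_cancel₀]
      exact sub_ne_zero.2 hz
  have hyC : ∀ i z, y i z = ∑ l, C i l z * K l z := by
    intro i z
    by_cases hz : z = a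
    · subst hz; simp only [y, if_true]
    · have hza : z - a ≠ 0 := sub_ne_zero.2 hz
      apply mul_left_cancel₀ hza
      rw [← hxy i z, eq_sum_of_H hdet x i z, Finset.mul_sum]
      refine Finset.sum_congr rfl fun l _ => ?_
      have : ∑ m, invF C l m z * x m z = (z - a) * K l z := hHK l z
      rw [this]; ring
  have hys : ∀ i, ContDiff ℝ ∞ (y i) := by
    intro i
    rw [contDiff_iff_contDiffAt]
    intro z
    by_cases hz : z = a
    · subst hz
      have : y i = fun w => ∑ l, C i l w * K l w := funext (hyC i)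
      rw [this]
      exact ContDiffAt.sum fun l _ => (hC i l).contDiffAt.mul
        (contDiffAt_of_differentiableOn Metric.isOpen_ball (hKd l) (Metric.mem_ball_self hr))
    · have hev : y i =ᶠ[𝓝 z] fun w => x i w / (w - a) := by
        filter_upwards [isOpen_ne.mem_nhds hz] with w hw
        simp only [y]; exact if_neg hw
      refine ContDiffAt.congr_of_eventuallyEq ?_ hev
      simp only [div_eq_mul_inv]
      exact (hx.1 i).contDiffAt.mul ((contDiffAt_id.sub contDiffAt_const).inv (sub_ne_zero.2 hz))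
  refine ⟨y, ⟨hys, fun i => ?_⟩, hxy⟩
  -- the equation
  have hc1 : Continuous (D1 (y i)) := (contDiff_D1 (hys i)).continuous
  have hc2 : Continuous fun z => ∑ l, A i l z * y l z :=
    continuous_finsetSum _ fun l _ => (hA i l).continuous.mul (hys l).continuous
  have heq : EqOn (D1 (y i)) (fun z => ∑ l, A i l z * y l z) ({a}ᶜ : Set ℂ) := by
    intro z hz
    have hza : z - a ≠ 0 := sub_ne_zero.2 hz
    apply mul_left_cancel₀ hza
    have hyd : DifferentiableAt ℝ (y i) z := ((hys i).differentiable (by simp)).differentiableAt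
    have hid : DifferentiableAt ℂ (fun w : ℂ => w - a) z := by fun_prop
    have h1 : D1 (x i) z = (z - a) * D1 (y i) z := by
      have : x i = fun w => (w - a) * y i w := funext (hxy i)
      rw [this, D1_mul (hid.restrictScalars ℝ) hyd, D1_of_complex hid, zero_mul, zero_add]
    show (z - a) * D1 (y i) z = (z - a) * ∑ l, A i l z * y l z
    rw [← h1, hx.2 i z, Finset.mul_sum]
    refine Finset.sum_congr rfl fun l _ => ?_
    rw [hxy l z]; ring
  have := Continuous.ext_on (dense_compl_singleton a) hc1 hc2 heq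
  exact fun z => congrFun this z

/-- smooth matrix solutions -/
def MSol (A X : n → n → ℂ → ℂ) : Prop := ∀ j, VSol A (fun i => X i j)

theorem remove_zeros (hS : StmtSmallFM) (A : n → n → ℂ → ℂ)
    (hA : ∀ i j, ContDiff ℝ ∞ (A i j)) (hAc : ∀ i j, HasCompactSupport (A i j)) (R : ℝ)
    (l : List ℂ) : ∀ (X : n → n → ℂ → ℂ) (k : ℂ → ℂ), MSol A X → Continuous k →
    (∀ z, detF X z = (l.map (fun a => z - a)).prod * k z) → (∀ z, ‖z‖ ≤ R → k z ≠ 0) →
    ∃ Y : n → n → ℂ → ℂ, MSol A Y ∧ ∀ z, ‖z‖ ≤ R → detF Y z ≠ 0 := by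
  induction l with
  | nil =>
    intro X k hX _ hd hk0
    refine ⟨X, hX, fun z hz => ?_⟩
    rw [hd z]; simpa using hk0 z hz
  | cons a l ih =>
    intro X k hX hk hd hk0
    have hXa : (Matrix.of fun i j => X i j a).det = 0 := by
      have := hd a
      simp only [List.map_cons, List.prod_cons, sub_self, zero_mul] at this
      exact this
    obtain ⟨v, hv, hv0⟩ := Matrix.exists_mulVec_eq_zero_iff.2 hXa
    obtain ⟨j0, hj0⟩ : ∃ j, v j ≠ 0 := by
      by_contra h
      push Not at h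
      exact hv (funext h)
    -- the vanishing combination
    let x : n → ℂ → ℂ := fun i z => ∑ j, v j * X i j z
    have hXd : ∀ i j z, DifferentiableAt ℝ (X i j) z := fun i j z =>
      (((hX j).1 i).differentiable (by simp)).differentiableAt
    have hx : VSol A x := by
      refine ⟨fun i => ContDiff.sum fun j _ => contDiff_const.mul ((hX j).1 i), fun i z => ?_⟩
      have e0 : D1 (x i) z = ∑ j, D1 (fun z => v j * X i j z) z :=
        D1_sum _ fun j _ => (hXd i j z).const_mul _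
      rw [e0]
      have e1 : ∀ j, D1 (fun z => v j * X i j z) z = v j * ∑ l, A i l z * X l j z := by
        intro j
        rw [D1_mul (differentiableAt_const _) (hXd i j z), D1_const, zero_mul, zero_add]
        congr 1
        exact (hX j).2 i z
      simp only [e1, x, Finset.mul_sum]
      rw [Finset.sum_comm]
      refine Finset.sum_congr rfl fun m _ => Finset.sum_congr rfl fun j _ => ?_
      ring
    have hxa : ∀ i, x i a = 0 := by
      intro i
      have := congrFun hv0 i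
      rw [Matrix.mulVec_eq_sum] at this
      simp only [x]
      simpa [mul_comm] using this
    obtain ⟨y, hy, hxy⟩ := vsol_div hS A hA hAc hx hxa
    let Y : n → n → ℂ → ℂ := fun i j => if j = j0 then y i else X i j
    have hY : MSol A Y := by
      intro j
      by_cases hj : j = j0
      · have : (fun i => Y i j) = y := by funext i; simp [Y, hj]
        rw [this]; exact hy
      · have : (fun i => Y i j) = fun i => X i j := by funext i; simp [Y, hj]
        rw [this]; exact hX j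
    have hdet : ∀ z, (z - a) * detF Y z = v j0 * detF X z := by
      intro z
      let M : Matrix n n ℂ := Matrix.of fun i j => X i j z
      have h1 : (Matrix.of fun i j => Y i j z) = M.updateCol j0 (fun i => y i z) := by
        ext i j
        by_cases hj : j = j0
        · subst hj; simp [Y, M]
        · rw [Matrix.updateCol_ne hj]; simp [Y, M, hj]
      have h2 : (z - a) * (M.updateCol j0 (fun i => y i z)).det
          = (M.updateCol j0 ((z - a) • fun i => y i z)).det := by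
        rw [Matrix.det_updateCol_smul]
      have h3 : ((z - a) • fun i => y i z) = fun i => ∑ j, v j • M i j := by
        funext i
        rw [Pi.smul_apply, smul_eq_mul, ← hxy i z]
        rfl
      rw [detF, h1, h2, h3, Matrix.det_updateCol_sum, smul_eq_mul, detF]
    have hdY : ∀ z, detF Y z = (l.map (fun a => z - a)).prod * (v j0 * k z) := by
      have hc1 : Continuous (detF Y) := continuous_detF fun i j => ((hY j).1 i).continuous
      have hc2 : Continuous fun z : ℂ => (l.map (fun a => z - a)).prod * (v j0 * k z) := by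
        refine Continuous.mul ?_ (continuous_const.mul hk)
        exact continuous_list_prod _ fun b _ => by fun_prop
      have heq : EqOn (detF Y) (fun z => (l.map (fun a => z - a)).prod * (v j0 * k z))
          ({a}ᶜ : Set ℂ) := by
        intro z hz
        have hza : z - a ≠ 0 := sub_ne_zero.2 hz
        apply mul_left_cancel₀ hza
        rw [hdet z, hd z, List.map_cons, List.prod_cons]
        ring
      have := Continuous.ext_on (dense_compl_singleton a) hc1 hc2 heq
      exact fun z => congrFun this z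
    exact ih Y (fun z => v j0 * k z) hY (continuous_const.mul hk) hdY
      fun z hz => mul_ne_zero hj0 (hk0 z hz)

end Crest.Agent.R080.DbarBasic

namespace Crest.Agent.R080
open DbarBasic

theorem t_PlaneFM (hC : StmtCauchy) (hS : StmtSmallFM) (hK : StmtKsol) : StmtPlaneFM := by
  intro n _ _ A hA R
  -- cutoff of the coefficient
  let ρ : ℝ := max R 0 + 1
  have hρ : 0 < ρ := by
    have := le_max_right R 0
    simp only [ρ]; linarith
  have hRρ : R < ρ := by
    have := le_max_left R 0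
    simp only [ρ]; linarith
  let χ : ContDiffBump (0 : ℂ) :=
    { rIn := ρ, rOut := ρ + 1, rIn_pos := hρ, rIn_lt_rOut := by linarith }
  let A' : n → n → ℂ → ℂ := fun i j z => ((χ z : ℝ) : ℂ) * A i j z
  have hχ : ContDiff ℝ ∞ fun z => ((χ z : ℝ) : ℂ) := Complex.ofRealCLM.contDiff.comp χ.contDiff
  have hA' : ∀ i j, ContDiff ℝ ∞ (A' i j) := fun i j => hχ.mul (hA i j)
  have hχc : HasCompactSupport fun z => ((χ z : ℝ) : ℂ) :=
    χ.hasCompactSupport.comp_left (g := fun r : ℝ => (r : ℂ)) (by simp)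
  have hA'c : ∀ i j, HasCompactSupport (A' i j) := fun i j => hχc.mul_right
  have hAA : ∀ i j z, ‖z‖ ≤ ρ → A' i j z = A i j z := by
    intro i j z hz
    have : χ z = 1 := χ.one_of_mem_closedBall (by rw [mem_closedBall_zero_iff]; exact hz)
    simp [A', this]
  -- the solution
  obtain ⟨X, hXc, hXw, hX0⟩ := hK n A' (fun i j => (hA' i j).continuous) hA'c
  have hX : MSol A' X := fun j => vsol_of_weak hS A' hA' hA'c (fun i => X i j)
    (fun i => hXc i j) (fun i φ hφ hφc => hXw i j φ hφ hφc)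
  have hXs : ∀ i j, ContDiff ℝ ∞ (X i j) := fun i j => (hX j).1 i
  have hXd : ∀ i j z, DifferentiableAt ℝ (X i j) z := fun i j z =>
    ((hXs i j).differentiable (by simp)).differentiableAt
  -- the exponential factor
  let t : ℂ → ℂ := fun z => ∑ i, A' i i z
  have ht : ContDiff ℝ ∞ t := ContDiff.sum fun i _ => hA' i i
  have ht0 : ∀ z, ρ + 1 ≤ ‖z‖ → t z = 0 := by
    intro z hz
    have : χ z = 0 := χ.zero_of_le_dist (by rw [dist_zero_right]; exact hz)
    simp [t, A', this]
  have htc : HasCompactSupport t := HasCompactSupport.intro (isCompact_closedBall (0 : ℂ) (ρ + 1))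
    fun z hz => ht0 z (by rw [mem_closedBall_zero_iff, not_le] at hz; exact hz.le)
  obtain ⟨b, hb⟩ := htc.exists_bound_of_continuous ht.continuous
  obtain ⟨M, -, hM⟩ := hC ℂ 1 (ρ + 1) one_pos (by linarith)
  obtain ⟨u, hu, hDu, -⟩ := hM (ContinuousLinearMap.id ℝ ℂ) (fun z => by simp) t ht ht0 b hb
  have hDu' : ∀ z, D1 u z = t z := hDu
  have hud : ∀ z, DifferentiableAt ℝ u z := fun z => (hu.differentiable (by simp)).differentiableAt
  let h : ℂ → ℂ := fun z => Complex.exp (-u z) * detF X z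
  have hdXs : ∀ z, ContDiffAt ℝ ∞ (detF X) z := fun z =>
    contDiffAt_detF fun i j => (hXs i j).contDiffAt
  have hh : Differentiable ℂ h := by
    intro z
    have hdX : DifferentiableAt ℝ (detF X) z := (hdXs z).differentiableAt (by simp)
    have hexpd : DifferentiableAt ℝ (fun z => Complex.exp (-u z)) z := (hud z).neg.cexp
    refine complex_of_D1 (hexpd.mul hdX) ?_
    have e1 : D1 h z = D1 (fun z => Complex.exp (-u z)) z * detF X z
        + Complex.exp (-u z) * D1 (detF X) z := D1_mul hexpd hdX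
    have e2 : D1 (fun z => Complex.exp (-u z)) z = -(Complex.exp (-u z) * t z) := by
      have h1 := D1_comp_complex (f := Complex.exp) (g := fun z => -u z) (z := z)
        Complex.differentiable_exp.differentiableAt (hud z).neg
      have h2 : D1 (fun z => -u z) z = -t z := by
        have : (fun z => -u z) = fun z => (-1) * u z := by funext w; ring
        rw [this, D1_mul (differentiableAt_const _) (hud z), D1_const, hDu']
        ring
      rw [h1, h2, Complex.deriv_exp]; ring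
    have e3 : D1 (detF X) z = t z * detF X z :=
      D1_detF_of_sol (a := fun i j => A' i j z) (fun i j => hXd i j z)
        (fun i j => (hX j).2 i z)
    rw [e1, e2, e3]; ring
  have hh0 : h 0 ≠ 0 := mul_ne_zero (Complex.exp_ne_zero _) hX0
  obtain ⟨l, g, hg, hg0, hl⟩ := entire_factor hh hh0 ρ
  let k : ℂ → ℂ := fun z => Complex.exp (u z) * g z
  have hk : Continuous k := (Complex.continuous_exp.comp hu.continuous).mul hg.continuous
  have hdk : ∀ z, detF X z = (l.map (fun a => z - a)).prod * k z := by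
    intro z
    have h1 : detF X z = Complex.exp (u z) * h z := by
      simp only [h]
      rw [← mul_assoc, ← Complex.exp_add, add_neg_cancel, Complex.exp_zero, one_mul]
    rw [h1, hl z]
    simp only [k]; ring
  obtain ⟨Y, hY, hY0⟩ := remove_zeros hS A' hA' hA'c ρ l X k hX hk hdk
    fun z hz => mul_ne_zero (Complex.exp_ne_zero _) (hg0 z hz)
  have hYs : ∀ i j, ContDiff ℝ ∞ (Y i j) := fun i j => (hY j).1 i
  -- cutoff of the inverse
  have hR2 : max R 0 + 1 / 2 < ρ := by simp only [ρ]; linarith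
  let χ2 : ContDiffBump (0 : ℂ) :=
    { rIn := max R 0 + 1 / 4, rOut := max R 0 + 1 / 2,
      rIn_pos := by have := le_max_right R 0; linarith, rIn_lt_rOut := by linarith }
  have hχ2 : ContDiff ℝ ∞ fun z => ((χ2 z : ℝ) : ℂ) :=
    Complex.ofRealCLM.contDiff.comp χ2.contDiff
  refine ⟨Y, fun i j z => ((χ2 z : ℝ) : ℂ) * invF Y i j z, hYs, fun i j => ?_, fun z hz => ?_⟩
  · rw [contDiff_iff_contDiffAt]
    intro z
    by_cases hz : ‖z‖ ≤ ρ
    · exact hχ2.contDiffAt.mul (contDiffAt_invF (fun a b => (hYs a b).contDiffAt) (hY0 z hz) i j)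
    · push Not at hz
      have hev : (fun z => ((χ2 z : ℝ) : ℂ) * invF Y i j z) =ᶠ[𝓝 z] fun _ => 0 := by
        have hopen : IsOpen {w : ℂ | ρ < ‖w‖} := isOpen_lt continuous_const continuous_norm
        filter_upwards [hopen.mem_nhds hz] with w hw
        have hw' : ρ < ‖w‖ := hw
        have : χ2 w = 0 := χ2.zero_of_le_dist (by
          rw [dist_zero_right]
          show max R 0 + 1 / 2 ≤ ‖w‖
          linarith)
        simp [this]
      exact contDiffAt_const.congr_of_eventuallyEq hev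
  · have hzρ : ‖z‖ ≤ ρ := by linarith
    have h1 : χ2 z = 1 := χ2.one_of_mem_closedBall (by
      rw [mem_closedBall_zero_iff]
      show ‖z‖ ≤ max R 0 + 1 / 4
      have := le_max_left R 0
      linarith)
    refine ⟨fun i j => ?_, fun i j => ?_⟩
    · have h2 := (hY j).2 i z
      have h3 : D1 (Y i j) z = ∑ l, A' i l z * Y l j z := h2
      simp only [hAA _ _ z hzρ] at h3
      exact h3
    · have := mul_invF (hY0 z hzρ) i j
      simpa [h1] using this

end Crest.Agent.R080
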