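import Crest.Agent.R080.SeeleyHalf
import Crest.Agent.R080.Stmts
import Crest.Agent.R080.DomBasic
import Crest.Agent.R080.Stmts2
import Mathlib

-- ▼ part R080/Extend
section

/-!
Row 80, T1: smooth positive extension of the moduli (`StmtExtend`).
-/

set_option autoImplicit false

open Filter Topology Set Metric
open scoped ContDiff Manifold
open Crest.AnalysisR.VecCalc3 Crest.AnalysisR.PDE.Elasticity

noncomputable section
namespace Crest.Agent.R080.Extend

/-- the closure of the domain is the closed sublevel set -/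
theorem dom_closure_eq (G : Dom) : closure G.Ω = {x | G.rho x ≤ 0} := by
  apply Subset.antisymm
  · rw [G.eq]
    exact closure_lt_subset_le G.smooth.continuous continuous_const
  · intro x (hx : G.rho x ≤ 0)
    rcases hx.lt_or_eq with h | h
    · exact subset_closure (by rw [G.eq]; exact h)
    · have hne := G.reg x h
      obtain ⟨v, hv⟩ : ∃ v, fderiv ℝ G.rho x v < 0 := by
        by_contra hcon
        push Not at hcon
        apply hne
        ext v
        have h1 := hcon v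
        have h2 := hcon (-v)
        rw [map_neg] at h2
        simpa using le_antisymm (by linarith) h1
      have hd : HasDerivAt (fun t : ℝ => G.rho (x + t • v)) (fderiv ℝ G.rho x v) 0 := by
        have h1 : HasFDerivAt G.rho (fderiv ℝ G.rho x) (x + (0 : ℝ) • v) := by
          rw [zero_smul, add_zero]
          exact (G.smooth.differentiable (by simp)).differentiableAt.hasFDerivAt
        have h2 : HasDerivAt (fun t : ℝ => x + t • v) v 0 := by
          simpa using ((hasDerivAt_id (0 : ℝ)).smul_const v).const_add x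
        exact h1.comp_hasDerivAt (0 : ℝ) h2
      have hsl := hd.hasDerivWithinAt (s := Ioi 0)
      have hlt : ∀ᶠ t in 𝓝[>] (0 : ℝ), G.rho (x + t • v) < 0 := by
        have hd' := hasDerivWithinAt_iff_tendsto_slope.mp hsl
        have he : Ioi (0 : ℝ) \ {0} = Ioi 0 := by
          ext t; simp only [Set.mem_sdiff, mem_singleton_iff]
          exact ⟨fun h => h.1, fun h => ⟨h, ne_of_gt h⟩⟩
        rw [he] at hd'
        filter_upwards [hd'.eventually_lt_const hv, self_mem_nhdsWithin] with t ht ht0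
        have ht0' : 0 < t := ht0
        rw [slope_def_field] at ht
        simp only [zero_smul, add_zero, h, sub_zero] at ht
        rw [div_lt_iff₀ ht0', zero_mul] at ht
        exact ht
      have hcont : Tendsto (fun t : ℝ => x + t • v) (𝓝[>] 0) (𝓝 x) := by
        have : Continuous (fun t : ℝ => x + t • v) := by fun_prop
        have h3 := this.tendsto 0
        simp only [zero_smul, add_zero] at h3
        exact h3.mono_left nhdsWithin_le_nhds
      refine mem_closure_of_tendsto hcont ?_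
      filter_upwards [hlt] with t ht
      rw [G.eq]; exact ht

/-- local smooth extension near a boundary point -/
theorem local_ext (G : Dom) {F : Type} [NormedAddCommGroup F] [NormedSpace ℝ F] [CompleteSpace F]
    {f : R3 → F} (hf : ContDiffOn ℝ ∞ f (closure G.Ω)) {x₀ : R3} (hx₀ : G.rho x₀ = 0) :
    ∃ h : R3 → F, ContDiff ℝ ∞ h ∧ ∀ᶠ x in 𝓝 x₀, x ∈ closure G.Ω → h x = f x := by
  have hne := G.reg x₀ hx₀
  set ℓ : R3 →L[ℝ] ℝ := fderiv ℝ G.rho x₀ with hℓdef
  obtain ⟨v, hv⟩ : ∃ v, ℓ v ≠ 0 := by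
    by_contra hcon
    push Not at hcon
    exact hne (by ext v; simpa using hcon v)
  set e : R3 := (ℓ v)⁻¹ • v with he
  have hℓ : ℓ e = 1 := by rw [he, map_smul, smul_eq_mul, inv_mul_cancel₀ hv]
  set Φ : R3 → R3 := fun x => x + (G.rho x - ℓ x) • e with hΦ
  have hΦs : ContDiff ℝ ∞ Φ :=
    contDiff_id.add ((G.smooth.sub ℓ.contDiff).smul contDiff_const)
  have hΦℓ : ∀ x, ℓ (Φ x) = G.rho x := by
    intro x
    simp only [hΦ, map_add, map_smul, hℓ, smul_eq_mul, mul_one]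
    ring
  have hder : HasFDerivAt Φ ((ContinuousLinearEquiv.refl ℝ R3 : R3 ≃L[ℝ] R3) : R3 →L[ℝ] R3) x₀ := by
    have h1 : HasFDerivAt G.rho ℓ x₀ :=
      (G.smooth.differentiable (by simp)).differentiableAt.hasFDerivAt
    have h2 := (hasFDerivAt_id (𝕜 := ℝ) x₀).add
      ((h1.sub ℓ.hasFDerivAt).smul_const e)
    refine h2.congr_fderiv ?_
    rw [sub_self]
    ext w
    simp
  have hn : (∞ : ℕ∞ω) ≠ 0 := by simp
  set P := hΦs.contDiffAt.toOpenPartialHomeomorph Φ hder hn with hP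
  have hPc : (P : R3 → R3) = Φ := rfl
  have hx₀s : x₀ ∈ P.source := ContDiffAt.mem_toOpenPartialHomeomorph_source _ hder hn
  set U₁ : Set R3 := (fun x => fderiv ℝ Φ x) ⁻¹'
    (range ((↑) : (R3 ≃L[ℝ] R3) → R3 →L[ℝ] R3)) with hU₁
  have hU₁o : IsOpen U₁ :=
    ContinuousLinearEquiv.isOpen.preimage (hΦs.continuous_fderiv (by simp))
  have hx₀U : x₀ ∈ U₁ := ⟨ContinuousLinearEquiv.refl ℝ R3, hder.fderiv.symm⟩
  set W : Set R3 := P.target ∩ P.symm ⁻¹' U₁ with hW
  have hWo : IsOpen W := P.isOpen_inter_preimage_symm hU₁o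
  set z₀ : R3 := Φ x₀ with hz₀
  have hz₀t : z₀ ∈ P.target := by
    have := P.map_source hx₀s
    rwa [hPc] at this
  have hsymm0 : P.symm z₀ = x₀ := by
    have := P.left_inv hx₀s
    rwa [hPc] at this
  have hz₀W : z₀ ∈ W := ⟨hz₀t, by rw [mem_preimage, hsymm0]; exact hx₀U⟩
  obtain ⟨r, hr, hball⟩ := Metric.nhds_basis_closedBall.mem_iff.mp (hWo.mem_nhds hz₀W)
  let b : ContDiffBump z₀ := ⟨r / 2, r, by positivity, by linarith⟩
  set f₁ : R3 → F := fun z => b z • f (P.symm z) with hf₁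
  have hsm : ∀ z ∈ W, ContDiffAt ℝ ∞ P.symm z := by
    intro z hz
    obtain ⟨e', he'⟩ := hz.2
    refine P.contDiffAt_symm hz.1 (f₀' := e') ?_ ?_
    · rw [hPc, he']
      exact (hΦs.differentiable (by simp)).differentiableAt.hasFDerivAt
    · rw [hPc]; exact hΦs.contDiffAt
  have hzero : ∀ z, z ∉ closedBall z₀ r → f₁ z = 0 := by
    intro z hz
    have : b z = 0 := by
      apply b.zero_of_le_dist
      rw [mem_closedBall, not_le] at hz
      exact hz.le
    simp only [hf₁, this, zero_smul]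
  have hcl : ∀ z ∈ W, ℓ z ≤ 0 → P.symm z ∈ closure G.Ω := by
    intro z hz hℓz
    rw [dom_closure_eq G]
    have h1 : Φ (P.symm z) = z := by
      have := P.right_inv hz.1
      rwa [hPc] at this
    change G.rho (P.symm z) ≤ 0
    rw [← hΦℓ, h1]
    exact hℓz
  have hf₁s : ContDiffOn ℝ ∞ f₁ {z | ℓ z ≤ 0} := by
    intro z hz
    by_cases hzW : z ∈ W
    · have h1 : ContDiffWithinAt ℝ ∞ (fun z => f (P.symm z)) ({z | ℓ z ≤ 0} ∩ W) z := by
        have h2 : ContDiffWithinAt ℝ ∞ P.symm ({z | ℓ z ≤ 0} ∩ W) z :=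
          (hsm z hzW).contDiffWithinAt
        exact (hf (P.symm z) (hcl z hzW hz)).comp z h2 fun y hy => hcl y hy.2 hy.1
      have h3 : ContDiffWithinAt ℝ ∞ (fun z => f (P.symm z)) {z | ℓ z ≤ 0} z :=
        h1.mono_of_mem_nhdsWithin (inter_mem self_mem_nhdsWithin
          (mem_nhdsWithin_of_mem_nhds (hWo.mem_nhds hzW)))
      exact (b.contDiff.contDiffAt.contDiffWithinAt).smul h3
    · have h1 : z ∉ closedBall z₀ r := fun h => hzW (hball h)
      have h2 : f₁ =ᶠ[𝓝 z] fun _ => 0 := by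
        filter_upwards [isClosed_closedBall.isOpen_compl.mem_nhds h1] with y hy
        exact hzero y hy
      exact (contDiffAt_const.congr_of_eventuallyEq h2).contDiffWithinAt
  obtain ⟨g, hg, hgf⟩ := Seeley.halfspace_ext hℓ hf₁s (isCompact_closedBall z₀ r) hzero
  refine ⟨g ∘ Φ, hg.comp hΦs, ?_⟩
  have h1 : ∀ᶠ x in 𝓝 x₀, x ∈ P.source := P.open_source.mem_nhds hx₀s
  have h2 : ∀ᶠ x in 𝓝 x₀, Φ x ∈ closedBall z₀ (r / 2) :=
    hΦs.continuous.continuousAt.eventually_mem (closedBall_mem_nhds _ (by positivity))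
  filter_upwards [h1, h2] with x hxs hxb hx
  rw [dom_closure_eq G] at hx
  have h3 : ℓ (Φ x) ≤ 0 := by rw [hΦℓ]; exact hx
  rw [Function.comp_apply, hgf _ h3]
  have h4 : b (Φ x) = 1 := b.one_of_mem_closedBall hxb
  have h5 : P.symm (Φ x) = x := by
    have := P.left_inv hxs
    rwa [hPc] at this
  simp only [hf₁, h4, h5, one_smul]

end Crest.Agent.R080.Extend

namespace Crest.Agent.R080
open Crest.Agent.R080.Extend

theorem t_Extend : StmtExtend := by
  intro G lam mu hlam hmu hpos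
  set f : R3 → ℝ × ℝ := fun x => (lam x, mu x) with hf
  have hfs : ContDiffOn ℝ ∞ f (closure G.Ω) := hlam.prodMk hmu
  have hop : IsOpen G.Ω := by
    rw [G.eq]; exact isOpen_lt G.smooth.continuous continuous_const
  set pos : Set (ℝ × ℝ) := {v | 0 < v.2 ∧ 0 < 3 * v.1 + 2 * v.2} with hposdef
  have hposo : IsOpen pos :=
    (isOpen_lt continuous_const continuous_snd).inter
      (isOpen_lt (g := fun v : ℝ × ℝ => 3 * v.1 + 2 * v.2) continuous_const
        ((continuous_const.mul continuous_fst).add (continuous_const.mul continuous_snd)))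
  have hposc : Convex ℝ pos := by
    intro a ha b hb s t hs ht hst
    obtain ⟨ha1, ha2⟩ := ha
    obtain ⟨hb1, hb2⟩ := hb
    constructor
    · change 0 < s * a.2 + t * b.2
      rcases hs.lt_or_eq with h | h
      · have : 0 ≤ t * b.2 := by positivity
        have : 0 < s * a.2 := by positivity
        linarith
      · have : t = 1 := by linarith
        subst h; rw [this]; linarith
    · change 0 < 3 * (s * a.1 + t * b.1) + 2 * (s * a.2 + t * b.2)
      have h1 : 3 * (s * a.1 + t * b.1) + 2 * (s * a.2 + t * b.2)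
        = s * (3 * a.1 + 2 * a.2) + t * (3 * b.1 + 2 * b.2) := by ring
      rw [h1]
      rcases hs.lt_or_eq with h | h
      · have : 0 ≤ t * (3 * b.1 + 2 * b.2) := by positivity
        have : 0 < s * (3 * a.1 + 2 * a.2) := by positivity
        linarith
      · have : t = 1 := by linarith
        subst h; rw [this]; linarith
  set t : R3 → Set (ℝ × ℝ) := fun x => {v | (x ∈ closure G.Ω → v = f x) ∧ v ∈ pos} with ht
  have htc : ∀ x, Convex ℝ (t x) := by
    intro x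
    by_cases hx : x ∈ closure G.Ω
    · have : t x = {f x} ∩ pos := by
        ext v
        constructor
        · rintro ⟨h1, h2⟩; exact ⟨h1 hx, h2⟩
        · rintro ⟨h1, h2⟩; exact ⟨fun _ => h1, h2⟩
      rw [this]
      exact (convex_singleton _).inter hposc
    · have : t x = pos := by
        ext v
        constructor
        · rintro ⟨h1, h2⟩; exact h2
        · intro h2; exact ⟨fun h => absurd h hx, h2⟩
      rw [this]
      exact hposc
  have hfpos : ∀ x ∈ closure G.Ω, f x ∈ pos := fun x hx => hpos x hx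
  obtain ⟨g, hg⟩ := exists_contMDiffMap_forall_mem_convex_of_local (n := ⊤) (t := t)
    𝓘(ℝ, R3) htc (by
      intro x
      by_cases hx : x ∈ closure G.Ω
      · by_cases hxΩ : x ∈ G.Ω
        · refine ⟨G.Ω, hop.mem_nhds hxΩ, f, ?_, ?_⟩
          · rw [contMDiffOn_iff_contDiffOn]
            exact hfs.mono subset_closure
          · intro y hy
            exact ⟨fun _ => rfl, hfpos y (subset_closure hy)⟩
        · have hx0 : G.rho x = 0 := by
            rw [dom_closure_eq G] at hx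
            rw [G.eq] at hxΩ
            exact le_antisymm hx (not_lt.mp hxΩ)
          obtain ⟨h, hh, hev⟩ := local_ext G hfs hx0
          have hpx : h x ∈ pos := by
            rw [hev.self_of_nhds hx]
            exact hfpos x hx
          have hev2 : ∀ᶠ y in 𝓝 x, h y ∈ pos := hh.continuous.continuousAt.eventually_mem
            (hposo.mem_nhds hpx)
          refine ⟨{y | (y ∈ closure G.Ω → h y = f y) ∧ h y ∈ pos}, hev.and hev2, h, ?_, ?_⟩
          · rw [contMDiffOn_iff_contDiffOn]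
            exact hh.contDiffOn
          · intro y hy
            exact hy
      · refine ⟨(closure G.Ω)ᶜ, isClosed_closure.isOpen_compl.mem_nhds hx, fun _ => (1, 1), ?_, ?_⟩
        · exact contMDiffOn_const
        · intro y hy
          exact ⟨fun h => absurd h hy, by constructor <;> norm_num⟩)
  have hgs : ContDiff ℝ ∞ (g : R3 → ℝ × ℝ) := by
    have := g.contMDiff
    rw [contMDiff_iff_contDiff] at this
    exact this
  refine ⟨⟨fun x => (g x).1, fun x => (g x).2, hgs.fst, hgs.snd, fun x => (hg x).2.1,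
    fun x => (hg x).2.2⟩, fun x hx => ?_⟩
  have := (hg x).1 hx
  exact ⟨congrArg Prod.fst this, congrArg Prod.snd this⟩

end Crest.Agent.R080
end
end

-- ▼ part R080/CutOff
section

/-!
Row 80 (S0107), T2a: a `C¹` function vanishing on the frontier of `Ω` is approximated by `C¹`
functions with compact support in `Ω`, and `StmtZ`.
-/

set_option autoImplicit false

open MeasureTheory Filter
open scoped ContDiff Topology
open Crest.AnalysisR.VecCalc3 Crest.AnalysisR.PDE.Elasticity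

noncomputable section
namespace Crest.Agent.R080
namespace DB

/-- integral of a derivative of a compactly supported `C¹` function -/
theorem integral_fderiv_eq_zero {f : R3 → ℂ} (hf : ContDiff ℝ 1 f) (hc : HasCompactSupport f)
    (v : R3) : ∫ x, fderiv ℝ f x v = 0 := by
  have hd : Differentiable ℝ f := hf.differentiable (by norm_num)
  have hcd : Continuous fun x => fderiv ℝ f x v :=
    (hf.continuous_fderiv (by norm_num)).clm_apply continuous_const
  have hcs : HasCompactSupport fun x => fderiv ℝ f x v := by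
    refine (hc.fderiv ℝ).mono' ?_
    intro x hx
    apply subset_tsupport
    intro h
    apply hx
    simp [h]
  have h := integral_mul_fderiv_eq_neg_fderiv_mul_of_integrable (μ := (volume : Measure R3))
    (f := fun _ : R3 => (1 : ℂ)) (g := f) (v := v) (by simp)
    (by simpa using hcd.integrable_of_hasCompactSupport hcs)
    (by simpa using hd.continuous.integrable_of_hasCompactSupport hc)
    (by intro x _; exact differentiableAt_const _) (by intro x _; exact hd x)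
  simpa using h

theorem integral_pd_eq_zero {f : R3 → ℂ} (hf : ContDiff ℝ 1 f) (hc : HasCompactSupport f)
    (j : Fin 3) : ∫ x, pd j f x = 0 := integral_fderiv_eq_zero hf hc _

/-! ### the cutoff of small values -/

/-- a fixed bump on `ℂ` -/
def kb : ContDiffBump (0 : ℂ) := ⟨1, 2, one_pos, one_lt_two⟩

/-- `k z = β(z) z` -/
def kk (z : ℂ) : ℂ := (kb z : ℂ) * z

theorem kk_contDiff : ContDiff ℝ ∞ kk := by
  unfold kk
  have h1 : ContDiff ℝ ∞ (kb : ℂ → ℝ) := kb.contDiff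
  exact (Complex.ofRealCLM.contDiff.comp h1).mul contDiff_id

theorem kk_compact : HasCompactSupport kk := by
  have h1 : HasCompactSupport (kb : ℂ → ℝ) := kb.hasCompactSupport
  refine h1.mono ?_
  intro z hz h
  apply hz
  simp [kk, h]

theorem kk_of_le {z : ℂ} (h : ‖z‖ ≤ 1) : kk z = z := by
  have : kb z = 1 := kb.one_of_mem_closedBall (by simpa [kb] using h)
  simp [kk, this]

theorem kk_of_ge {z : ℂ} (h : 2 ≤ ‖z‖) : kk z = 0 := by
  have : kb z = 0 := kb.zero_of_le_dist (by simpa [kb] using h)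
  simp [kk, this]

theorem kk_bound : ∃ C : ℝ, 0 < C ∧ ∀ z, ‖fderiv ℝ kk z‖ ≤ C := by
  have h1 : Continuous (fderiv ℝ kk) := kk_contDiff.continuous_fderiv (by simp)
  obtain ⟨C, hC⟩ := h1.bounded_above_of_compact_support (kk_compact.fderiv ℝ)
  exact ⟨max C 1, by positivity, fun z => (hC z).trans (le_max_left _ _)⟩

/-- `K_δ z = δ k(z/δ)` -/
def Kd (δ : ℝ) (z : ℂ) : ℂ := (δ : ℂ) * kk ((δ⁻¹ : ℝ) • z)

theorem Kd_contDiff (δ : ℝ) : ContDiff ℝ ∞ (Kd δ) := by
  unfold Kd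
  exact contDiff_const.mul (kk_contDiff.comp (contDiff_id.const_smul (δ⁻¹ : ℝ)))

theorem Kd_of_le {δ : ℝ} (hδ : 0 < δ) {z : ℂ} (h : ‖z‖ ≤ δ) : Kd δ z = z := by
  unfold Kd
  rw [kk_of_le]
  · rw [Complex.real_smul, ← mul_assoc, ← Complex.ofReal_mul, mul_inv_cancel₀ hδ.ne']
    simp
  · rw [norm_smul, Real.norm_of_nonneg (inv_nonneg.2 hδ.le), inv_mul_le_iff₀ hδ]
    simpa using h

theorem Kd_of_ge {δ : ℝ} (hδ : 0 < δ) {z : ℂ} (h : 2 * δ ≤ ‖z‖) : Kd δ z = 0 := by
  unfold Kd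
  rw [kk_of_ge, mul_zero]
  rw [norm_smul, Real.norm_of_nonneg (inv_nonneg.2 hδ.le), le_inv_mul_iff₀ hδ]
  linarith

theorem norm_kk_le (z : ℂ) : ‖kk z‖ ≤ ‖z‖ := by
  unfold kk
  rw [norm_mul, Complex.norm_real, Real.norm_of_nonneg kb.nonneg]
  exact mul_le_of_le_one_left (norm_nonneg _) kb.le_one

theorem norm_Kd_le {δ : ℝ} (hδ : 0 < δ) (z : ℂ) : ‖Kd δ z‖ ≤ 2 * δ := by
  rcases le_total (2 * δ) ‖z‖ with h | h
  · rw [Kd_of_ge hδ h]; simp; positivity
  · unfold Kd
    rw [norm_mul, Complex.norm_real, Real.norm_of_nonneg hδ.le]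
    refine (mul_le_mul_of_nonneg_left (norm_kk_le _) hδ.le).trans ?_
    rw [norm_smul, Real.norm_of_nonneg (inv_nonneg.2 hδ.le), ← mul_assoc,
      mul_inv_cancel₀ hδ.ne', one_mul]
    exact h

theorem fderiv_Kd {δ : ℝ} (hδ : 0 < δ) (z : ℂ) :
    fderiv ℝ (Kd δ) z = fderiv ℝ kk ((δ⁻¹ : ℝ) • z) := by
  have h0 : HasFDerivAt (fun z : ℂ => (δ⁻¹ : ℝ) • z)
      ((δ⁻¹ : ℝ) • ContinuousLinearMap.id ℝ ℂ) z := (hasFDerivAt_id (𝕜 := ℝ) z).const_smul (δ⁻¹ : ℝ)
  have h1 : HasFDerivAt kk (fderiv ℝ kk ((δ⁻¹ : ℝ) • z)) ((δ⁻¹ : ℝ) • z) :=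
    (kk_contDiff.differentiable (by simp) _).hasFDerivAt
  have h2 := (h1.comp z h0).const_mul (δ : ℂ)
  have h3 : Kd δ = fun y => (δ : ℂ) * (kk ∘ fun z : ℂ => (δ⁻¹ : ℝ) • z) y := rfl
  rw [h3, h2.fderiv]
  ext w
  simp only [ContinuousLinearMap.smul_apply, ContinuousLinearMap.comp_apply,
    ContinuousLinearMap.id_apply, map_smul, smul_eq_mul]
  rw [Complex.real_smul, ← mul_assoc, ← Complex.ofReal_mul, mul_inv_cancel₀ hδ.ne']
  simp

theorem fderiv_Kd_zero {δ : ℝ} (hδ : 0 < δ) :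
    fderiv ℝ (Kd δ) 0 = ContinuousLinearMap.id ℝ ℂ := by
  have h : Kd δ =ᶠ[𝓝 0] id := by
    filter_upwards [Metric.ball_mem_nhds (0 : ℂ) hδ] with z hz
    exact Kd_of_le hδ (by simpa using (mem_ball_zero_iff.1 hz).le)
  rw [h.fderiv_eq, fderiv_id]

theorem fderiv_Kd_of_gt {δ : ℝ} (hδ : 0 < δ) {z : ℂ} (h : 2 * δ < ‖z‖) :
    fderiv ℝ (Kd δ) z = 0 := by
  have h1 : Kd δ =ᶠ[𝓝 z] fun _ => (0 : ℂ) := by
    filter_upwards [(isOpen_lt continuous_const continuous_norm).mem_nhds h] with y hy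
    exact Kd_of_ge hδ (le_of_lt hy)
  rw [h1.fderiv_eq]; simp

theorem fderiv_Kd_comp {F : R3 → ℂ} {x : R3} (hF : DifferentiableAt ℝ F x) (δ : ℝ) (v : R3) :
    fderiv ℝ (fun y => Kd δ (F y)) x v = fderiv ℝ (Kd δ) (F x) (fderiv ℝ F x v) := by
  have h := ((Kd_contDiff δ).differentiable (by simp) (F x)).hasFDerivAt.comp x hF.hasFDerivAt
  have h2 : (fun y => Kd δ (F y)) = Kd δ ∘ F := rfl
  rw [h2, h.fderiv]; rfl

/-- pointwise limit of the derivative of the cutoff -/
theorem tendsto_fderiv_Kd (z w : ℂ) (δ : ℕ → ℝ) (hδ : ∀ n, 0 < δ n)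
    (hl : Tendsto δ atTop (𝓝 0)) :
    Tendsto (fun n => fderiv ℝ (Kd (δ n)) z w) atTop (𝓝 (if z = 0 then w else 0)) := by
  by_cases hz : z = 0
  · subst hz
    simp only [if_true]
    refine tendsto_const_nhds.congr fun n => ?_
    rw [fderiv_Kd_zero (hδ n)]; rfl
  · rw [if_neg hz]
    have h1 : ∀ᶠ n in atTop, 2 * δ n < ‖z‖ := by
      have : Tendsto (fun n => 2 * δ n) atTop (𝓝 (2 * 0)) := hl.const_mul 2
      apply this.eventually_lt_const
      simpa using hz
    refine tendsto_const_nhds.congr' ?_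
    filter_upwards [h1] with n hn
    rw [fderiv_Kd_of_gt (hδ n) hn]; rfl

/-- **the gradient vanishes almost everywhere on the zero set** -/
theorem ae_fderiv_eq_zero {F : R3 → ℂ} (hF : ContDiff ℝ 1 F) (v : R3) :
    ∀ᵐ x, F x = 0 → fderiv ℝ F x v = 0 := by
  classical
  have hFd : Differentiable ℝ F := hF.differentiable (by norm_num)
  have hFc : Continuous F := hF.continuous
  have hcd : Continuous fun x => fderiv ℝ F x v :=
    (hF.continuous_fderiv (by norm_num)).clm_apply continuous_const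
  let g : R3 → ℂ := fun x => if F x = 0 then fderiv ℝ F x v else 0
  have hmeas : MeasurableSet {x | F x = 0} := (isClosed_eq hFc continuous_const).measurableSet
  have hg : g = Set.indicator {x | F x = 0} (fun x => fderiv ℝ F x v) := by
    ext x; simp only [g, Set.indicator_apply]; rfl
  have hloc : LocallyIntegrable g volume := by
    rw [hg]
    exact hcd.locallyIntegrable.indicator hmeas
  obtain ⟨C, hC0, hC⟩ := kk_bound
  have key : ∀ φ : R3 → ℝ, ContDiff ℝ ∞ φ → HasCompactSupport φ → ∫ x, φ x • g x = 0 := by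
    intro φ hφ hφc
    let δ : ℕ → ℝ := fun n => 1 / ((n : ℝ) + 1)
    have hδ : ∀ n, 0 < δ n := fun n => by positivity
    have hl : Tendsto δ atTop (𝓝 0) := tendsto_one_div_add_atTop_nhds_zero_nat
    have hφd : Differentiable ℝ φ := hφ.differentiable (by simp)
    have hφcd : Continuous fun x => fderiv ℝ φ x v :=
      (hφ.continuous_fderiv (by simp)).clm_apply continuous_const
    have hφcs : HasCompactSupport fun x => fderiv ℝ φ x v := by
      refine (hφc.fderiv ℝ).mono' ?_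
      intro x hx
      apply subset_tsupport
      intro h
      apply hx
      simp [h]
    -- the exact identity
    have h1 : ∀ n, (∫ x, φ x • fderiv ℝ (Kd (δ n)) (F x) (fderiv ℝ F x v))
        + ∫ x, fderiv ℝ φ x v • Kd (δ n) (F x) = 0 := by
      intro n
      have hK : ContDiff ℝ 1 fun x => Kd (δ n) (F x) := ((Kd_contDiff (δ n)).of_le (by simp)).comp hF
      have hsm : ContDiff ℝ 1 fun x => φ x • Kd (δ n) (F x) :=
        (hφ.of_le (by simp)).smul hK
      have hcs : HasCompactSupport fun x => φ x • Kd (δ n) (F x) := hφc.smul_right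
      have h2 := integral_fderiv_eq_zero hsm hcs v
      have h3 : ∀ x, fderiv ℝ (fun x => φ x • Kd (δ n) (F x)) x v
          = φ x • fderiv ℝ (Kd (δ n)) (F x) (fderiv ℝ F x v) + fderiv ℝ φ x v • Kd (δ n) (F x) := by
        intro x
        rw [fderiv_fun_smul (hφd x) (hK.differentiable (by norm_num) x)]
        simp only [ContinuousLinearMap.add_apply, ContinuousLinearMap.smul_apply,
          ContinuousLinearMap.smulRight_apply]
        rw [fderiv_Kd_comp (hFd x)]
      simp only [h3] at h2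
      rw [← integral_add, h2]
      · apply Continuous.integrable_of_hasCompactSupport
        · exact hφ.continuous.smul ((((Kd_contDiff (δ n)).continuous_fderiv (by simp)).comp
            hFc).clm_apply hcd)
        · exact hφc.smul_right
      · apply Continuous.integrable_of_hasCompactSupport
        · exact hφcd.smul ((Kd_contDiff (δ n)).continuous.comp hFc)
        · exact hφcs.smul_right
    have h4 : Tendsto (fun n => ∫ x, φ x • fderiv ℝ (Kd (δ n)) (F x) (fderiv ℝ F x v)) atTop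
        (𝓝 (∫ x, φ x • g x)) := by
      apply tendsto_integral_of_dominated_convergence
        (fun x => ‖φ x‖ * (C * ‖fderiv ℝ F x v‖))
      · intro n
        exact (hφ.continuous.smul ((((Kd_contDiff (δ n)).continuous_fderiv (by simp)).comp
            hFc).clm_apply hcd)).aestronglyMeasurable
      · apply Continuous.integrable_of_hasCompactSupport
        · exact hφ.continuous.norm.mul (continuous_const.mul hcd.norm)
        · exact hφc.norm.mul_right
      · intro n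
        refine Eventually.of_forall fun x => ?_
        rw [norm_smul]
        refine mul_le_mul_of_nonneg_left ?_ (norm_nonneg _)
        refine (ContinuousLinearMap.le_opNorm _ _).trans ?_
        refine mul_le_mul_of_nonneg_right ?_ (norm_nonneg _)
        rw [fderiv_Kd (hδ n)]; exact hC _
      · refine Eventually.of_forall fun x => ?_
        exact (tendsto_fderiv_Kd (F x) (fderiv ℝ F x v) δ hδ hl).const_smul (φ x)
    have h5 : Tendsto (fun n => ∫ x, fderiv ℝ φ x v • Kd (δ n) (F x)) atTop (𝓝 (∫ x : R3, (0 : ℂ))) := by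
      apply tendsto_integral_of_dominated_convergence
        (fun x => ‖fderiv ℝ φ x v‖ * 2)
      · intro n
        exact (hφcd.smul ((Kd_contDiff (δ n)).continuous.comp hFc)).aestronglyMeasurable
      · apply Continuous.integrable_of_hasCompactSupport
        · exact hφcd.norm.mul continuous_const
        · exact hφcs.norm.mul_right
      · intro n
        refine Eventually.of_forall fun x => ?_
        rw [norm_smul]
        refine mul_le_mul_of_nonneg_left ?_ (norm_nonneg _)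
        refine (norm_Kd_le (hδ n) _).trans ?_
        have : δ n ≤ 1 := by
          simp only [δ]
          rw [div_le_one (by positivity)]
          linarith [Nat.cast_nonneg (α := ℝ) n]
        linarith
      · refine Eventually.of_forall fun x => ?_
        have h6 : Tendsto (fun n => Kd (δ n) (F x)) atTop (𝓝 0) := by
          rw [tendsto_zero_iff_norm_tendsto_zero]
          have : Tendsto (fun n => 2 * δ n) atTop (𝓝 0) := by simpa using hl.const_mul 2
          exact squeeze_zero (fun _ => norm_nonneg _) (fun n => norm_Kd_le (hδ n) _) this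
        simpa using h6.const_smul (fderiv ℝ φ x v)
    have h7 := h4.add h5
    have h8 : Tendsto (fun n => (∫ x, φ x • fderiv ℝ (Kd (δ n)) (F x) (fderiv ℝ F x v))
        + ∫ x, fderiv ℝ φ x v • Kd (δ n) (F x)) atTop (𝓝 0) := by
      simp only [h1]; exact tendsto_const_nhds
    have := tendsto_nhds_unique h7 h8
    simpa using this
  have h9 := ae_eq_zero_of_integral_contDiff_smul_eq_zero hloc key
  filter_upwards [h9] with x hx h0
  simpa [g, h0] using hx

theorem ae_pd_eq_zero {F : R3 → ℂ} (hF : ContDiff ℝ 1 F) (j : Fin 3) :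
    ∀ᵐ x, F x = 0 → pd j F x = 0 := ae_fderiv_eq_zero hF _

/-- approximation by `C¹` functions compactly supported in `Ω` -/
theorem exists_cutoff_seq (G : Dom) {F : R3 → ℂ} (hF : ContDiff ℝ 1 F)
    (h0 : ∀ x ∈ frontier G.Ω, F x = 0) :
    ∃ Fn : ℕ → R3 → ℂ, (∀ n, ContDiff ℝ 1 (Fn n)) ∧ (∀ n, HasCompactSupport (Fn n)) ∧
      (∀ n, tsupport (Fn n) ⊆ G.Ω) ∧
      (∃ C, ∀ n x, ‖Fn n x‖ ≤ C ∧ ∀ j, ‖pd j (Fn n) x‖ ≤ C) ∧
      (∀ j, ∀ᵐ x ∂(volume.restrict G.Ω), Tendsto (fun n => pd j (Fn n) x) atTop (𝓝 (pd j F x))) ∧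
      (∀ x ∈ G.Ω, Tendsto (fun n => Fn n x) atTop (𝓝 (F x))) := by
  classical
  have hFd : Differentiable ℝ F := hF.differentiable (by norm_num)
  have hFc : Continuous F := hF.continuous
  let δ : ℕ → ℝ := fun n => 1 / ((n : ℝ) + 1)
  have hδ : ∀ n, 0 < δ n := fun n => by positivity
  have hl : Tendsto δ atTop (𝓝 0) := tendsto_one_div_add_atTop_nhds_zero_nat
  obtain ⟨C, hC0, hC⟩ := kk_bound
  let Fn : ℕ → R3 → ℂ := fun n x => if x ∈ G.Ω then F x - Kd (δ n) (F x) else 0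
  have hK : ∀ n, ContDiff ℝ 1 fun x => Kd (δ n) (F x) := fun n =>
    ((Kd_contDiff (δ n)).of_le (by simp)).comp hF
  let S : ℕ → Set R3 := fun n => closure G.Ω ∩ {x | δ n ≤ ‖F x‖}
  have hSc : ∀ n, IsClosed (S n) := fun n =>
    isClosed_closure.inter (isClosed_le continuous_const hFc.norm)
  have hSΩ : ∀ n, S n ⊆ G.Ω := by
    intro n x hx
    by_contra hcon
    have h1 : x ∈ frontier G.Ω := by
      rw [(DB.isOpen G).frontier_eq]; exact ⟨hx.1, hcon⟩
    have h2 : δ n ≤ ‖F x‖ := hx.2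
    rw [h0 x h1, norm_zero] at h2
    exact absurd h2 (not_le.2 (hδ n))
  have hout : ∀ n x, x ∉ S n → Fn n x = 0 := by
    intro n x hx
    by_cases hxΩ : x ∈ G.Ω
    · have : ‖F x‖ < δ n := by
        by_contra hcon
        exact hx ⟨subset_closure hxΩ, le_of_not_gt hcon⟩
      simp only [Fn, if_pos hxΩ]
      rw [Kd_of_le (hδ n) this.le, sub_self]
    · simp only [Fn, if_neg hxΩ]
  have hts : ∀ n, tsupport (Fn n) ⊆ S n := by
    intro n
    apply closure_minimal _ (hSc n)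
    intro x hx
    by_contra hcon
    exact hx (hout n x hcon)
  have hin : ∀ n, ∀ x ∈ G.Ω, Fn n =ᶠ[𝓝 x] fun y => F y - Kd (δ n) (F y) := by
    intro n x hx
    filter_upwards [(DB.isOpen G).mem_nhds hx] with y hy
    simp only [Fn, if_pos hy]
  have hnear : ∀ n, ∀ x ∉ G.Ω, Fn n =ᶠ[𝓝 x] fun _ => (0 : ℂ) := by
    intro n x hx
    have h1 : x ∉ S n := fun h => hx (hSΩ n h)
    filter_upwards [(hSc n).isOpen_compl.mem_nhds h1] with y hy
    exact hout n y hy
  have hpd : ∀ n, ∀ x ∈ G.Ω, ∀ j, pd j (Fn n) x = pd j F x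
      - fderiv ℝ (Kd (δ n)) (F x) (pd j F x) := by
    intro n x hx j
    rw [pd_congr (hin n x hx), pd_sub (hFd x) ((hK n).differentiable (by norm_num) x)]
    congr 1
    exact fderiv_Kd_comp (hFd x) (δ n) _
  have hpd0 : ∀ n, ∀ x ∉ G.Ω, ∀ j, pd j (Fn n) x = 0 := by
    intro n x hx j
    rw [pd_congr (hnear n x hx), pd_const]
  -- bounds on the closure
  obtain ⟨M0, hM0⟩ := (DB.isCompact_closure G).exists_bound_of_continuousOn hFc.continuousOn
  have hMj : ∀ j, ∃ M, ∀ x ∈ closure G.Ω, ‖pd j F x‖ ≤ M := fun j =>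
    (DB.isCompact_closure G).exists_bound_of_continuousOn (continuous_pd hF j).continuousOn
  choose M hM using hMj
  obtain ⟨x0, hx0⟩ := (DB.nonempty G)
  have hM0' : 0 ≤ M0 := (norm_nonneg _).trans (hM0 x0 (subset_closure hx0))
  have hM' : ∀ j, 0 ≤ M j := fun j => (norm_nonneg _).trans (hM j x0 (subset_closure hx0))
  refine ⟨Fn, ?_, ?_, ?_, ?_, ?_, ?_⟩
  · intro n
    rw [contDiff_iff_contDiffAt]
    intro x
    by_cases hx : x ∈ G.Ω
    · exact (hF.sub (hK n)).contDiffAt.congr_of_eventuallyEq (hin n x hx)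
    · exact contDiffAt_const.congr_of_eventuallyEq (hnear n x hx)
  · intro n
    exact (DB.isCompact_closure G).of_isClosed_subset (isClosed_tsupport _)
      ((hts n).trans Set.inter_subset_left)
  · intro n; exact (hts n).trans (hSΩ n)
  · refine ⟨(M0 + 2) + (1 + C) * ∑ j, M j, fun n x => ⟨?_, fun j => ?_⟩⟩
    · have h2 : 0 ≤ (1 + C) * ∑ j, M j :=
        mul_nonneg (by positivity) (Finset.sum_nonneg fun j _ => hM' j)
      by_cases hx : x ∈ G.Ω
      · simp only [Fn, if_pos hx]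
        have h3 := norm_sub_le (F x) (Kd (δ n) (F x))
        have h4 := hM0 x (subset_closure hx)
        have h5 := norm_Kd_le (hδ n) (F x)
        have : δ n ≤ 1 := by
          simp only [δ]
          rw [div_le_one (by positivity)]
          linarith [Nat.cast_nonneg (α := ℝ) n]
        linarith
      · simp only [Fn, if_neg hx, norm_zero]; positivity
    · have h1 : (1 + C) * M j ≤ (1 + C) * ∑ j, M j :=
        mul_le_mul_of_nonneg_left
          (Finset.single_le_sum (f := M) (fun i _ => hM' i) (Finset.mem_univ j)) (by positivity)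
      by_cases hx : x ∈ G.Ω
      · rw [hpd n x hx j]
        have h3 := norm_sub_le (pd j F x) (fderiv ℝ (Kd (δ n)) (F x) (pd j F x))
        have h4 := hM j x (subset_closure hx)
        have h5 : ‖fderiv ℝ (Kd (δ n)) (F x) (pd j F x)‖ ≤ C * M j := by
          refine (ContinuousLinearMap.le_opNorm _ _).trans ?_
          apply mul_le_mul _ h4 (norm_nonneg _) hC0.le
          rw [fderiv_Kd (hδ n)]; exact hC _
        nlinarith
      · rw [hpd0 n x hx j, norm_zero]
        have : 0 ≤ (1 + C) * M j := mul_nonneg (by positivity) (hM' j)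
        linarith
  · intro j
    rw [ae_restrict_iff' (DB.measurableSet G)]
    filter_upwards [ae_pd_eq_zero hF j] with x hx hxΩ
    have h1 : Tendsto (fun n => pd j F x - fderiv ℝ (Kd (δ n)) (F x) (pd j F x)) atTop
        (𝓝 (pd j F x - if F x = 0 then pd j F x else 0)) :=
      tendsto_const_nhds.sub (tendsto_fderiv_Kd _ _ δ hδ hl)
    have h2 : (pd j F x - if F x = 0 then pd j F x else 0) = pd j F x := by
      by_cases h : F x = 0
      · simp [h, hx h]
      · simp [h]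
    rw [h2] at h1
    refine h1.congr fun n => ?_
    rw [hpd n x hxΩ j]
  · intro x hx
    have h6 : Tendsto (fun n => Kd (δ n) (F x)) atTop (𝓝 0) := by
      rw [tendsto_zero_iff_norm_tendsto_zero]
      have : Tendsto (fun n => 2 * δ n) atTop (𝓝 0) := by simpa using hl.const_mul 2
      exact squeeze_zero (fun _ => norm_nonneg _) (fun n => norm_Kd_le (hδ n) _) this
    have h7 : Tendsto (fun n => F x - Kd (δ n) (F x)) atTop (𝓝 (F x - 0)) :=
      tendsto_const_nhds.sub h6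
    rw [sub_zero] at h7
    refine h7.congr fun n => ?_
    simp only [Fn, if_pos hx]

end DB

open DB in
/-- **T2a** -/
theorem t_Z : StmtZ := by
  intro G F hF h0 j
  obtain ⟨Fn, h1, h2, h3, ⟨C, hC⟩, h4, -⟩ := exists_cutoff_seq G hF h0
  have h5 : Tendsto (fun n => ∫ x in G.Ω, pd j (Fn n) x) atTop (𝓝 (∫ x in G.Ω, pd j F x)) := by
    apply tendsto_integral_of_dominated_convergence (fun _ => C)
    · intro n; exact (continuous_pd (h1 n) j).aestronglyMeasurable
    · exact (DB.integrableOn' G) continuous_const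
    · intro n; exact Eventually.of_forall fun x => (hC n x).2 j
    · exact h4 j
  have h6 : ∀ n, ∫ x in G.Ω, pd j (Fn n) x = 0 := by
    intro n
    rw [setIntegral_eq_integral_of_forall_compl_eq_zero]
    · exact integral_pd_eq_zero (h1 n) (h2 n) j
    · intro x hx
      have : x ∉ tsupport (pd j (Fn n)) := fun h => hx (h3 n (tsupport_pd_subset _ j h))
      exact image_eq_zero_of_notMem_tsupport this
  simp only [h6] at h5
  exact tendsto_nhds_unique h5 tendsto_const_nhds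

end Crest.Agent.R080
end
end

-- ▼ part R080/Korn
section

/-!
Row 80 (S0107): Korn and Poincaré inequalities for `C¹` fields vanishing on the boundary
(helper251).
-/

set_option autoImplicit false

open MeasureTheory Filter
open scoped ContDiff Topology
open Crest.AnalysisR.VecCalc3 Crest.AnalysisR.PDE.Elasticity

noncomputable section
namespace Crest.Agent.R080
namespace KornAux

theorem dom_isOpen (G : Dom) : IsOpen G.Ω := by
  rw [G.eq]; exact isOpen_lt G.smooth.continuous continuous_const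

theorem dom_meas (G : Dom) : MeasurableSet G.Ω := (dom_isOpen G).measurableSet

theorem intOn (G : Dom) {E : Type*} [NormedAddCommGroup E] {f : R3 → E}
    (hf : Continuous f) : IntegrableOn f G.Ω :=
  (hf.continuousOn.integrableOn_compact G.bdd.isCompact_closure).mono_set subset_closure

theorem diff1 {f : R3 → ℂ} (hf : ContDiff ℝ 1 f) : Differentiable ℝ f :=
  hf.differentiable (by norm_num)

theorem continuous_pd {f : R3 → ℂ} (hf : ContDiff ℝ 1 f) (j : Fin 3) : Continuous (pd j f) :=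
  (hf.continuous_fderiv (by norm_num)).clm_apply continuous_const

theorem contDiff_pd {f : R3 → ℂ} (hf : ContDiff ℝ ∞ f) (j : Fin 3) : ContDiff ℝ ∞ (pd j f) :=
  (hf.fderiv_right (m := ∞) (by simp)).clm_apply contDiff_const

theorem pd_mul {f g : R3 → ℂ} {x : R3} (hf : DifferentiableAt ℝ f x)
    (hg : DifferentiableAt ℝ g x) (j : Fin 3) :
    pd j (fun y => f y * g y) x = pd j f x * g x + f x * pd j g x := by
  unfold pd
  rw [fderiv_fun_mul hf hg]
  simp only [add_apply, smul_apply, smul_eq_mul]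
  ring

theorem pd_conj {f : R3 → ℂ} {x : R3} (hf : DifferentiableAt ℝ f x) (j : Fin 3) :
    pd j (fun y => (starRingEnd ℂ) (f y)) x = (starRingEnd ℂ) (pd j f x) := by
  unfold pd
  have h := (Complex.conjCLE.toContinuousLinearMap.hasFDerivAt (x := f x)).comp x hf.hasFDerivAt
  have h2 : (fun y => (starRingEnd ℂ) (f y)) = Complex.conjCLE.toContinuousLinearMap ∘ f := by
    ext y; simp
  rw [h2, h.fderiv]
  rfl

theorem contDiff_conj {f : R3 → ℂ} {n : WithTop ℕ∞} (hf : ContDiff ℝ n f) :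
    ContDiff ℝ n (fun y => (starRingEnd ℂ) (f y)) :=
  Complex.conjCLE.toContinuousLinearMap.contDiff.comp hf

theorem pd_comm {f : R3 → ℂ} (hf : ContDiff ℝ ∞ f) (i j : Fin 3) (x : R3) :
    pd i (pd j f) x = pd j (pd i f) x := by
  have hd : Differentiable ℝ (fderiv ℝ f) :=
    (hf.fderiv_right (m := ∞) (by simp)).differentiable (by simp)
  have key : ∀ a b : Fin 3, pd a (pd b f) x = fderiv ℝ (fderiv ℝ f) x (ee a) (ee b) := by
    intro a b
    have h1 : pd b f = fun y => fderiv ℝ f y (ee b) := rfl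
    rw [h1]
    unfold pd
    rw [fderiv_clm_apply (hd x) (by fun_prop)]
    simp
  rw [key, key]
  have hs : IsSymmSndFDerivAt ℝ f x := by
    apply ContDiffAt.isSymmSndFDerivAt (n := ∞) hf.contDiffAt
    rw [minSmoothness_of_isRCLikeNormedField]
    exact WithTop.coe_le_coe.2 le_top
  exact hs _ _

/-- A `C¹` function is approximated on a bounded set, together with its first derivatives, by
smooth functions. -/
theorem exists_smooth_approx {g : R3 → ℂ} (hg : ContDiff ℝ 1 g) (R : ℝ) {ε : ℝ} (hε : 0 < ε) :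
    ∃ g' : R3 → ℂ, ContDiff ℝ ∞ g' ∧ HasCompactSupport g' ∧
      (∀ x ∈ Metric.ball (0 : R3) R, ‖g' x - g x‖ ≤ ε) ∧
      ∀ j, ∀ x ∈ Metric.ball (0 : R3) R, ‖pd j g' x - pd j g x‖ ≤ ε := by
  -- cut off
  let χ : ContDiffBump (0 : R3) := ⟨|R| + 1, |R| + 2, by positivity, by linarith⟩
  let h : R3 → ℂ := fun x => (χ x : ℂ) * g x
  have hχ : ContDiff ℝ ∞ (fun x : R3 => ((χ x : ℝ) : ℂ)) :=
    Complex.ofRealCLM.contDiff.comp (χ.contDiff (n := ⊤))
  have hh : ContDiff ℝ 1 h := (hχ.of_le (by simp)).mul hg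
  have hhc : HasCompactSupport h := by
    apply HasCompactSupport.mul_right
    have := χ.hasCompactSupport
    exact this.comp_left (g := fun r : ℝ => (r : ℂ)) (by simp)
  have heq : ∀ x ∈ Metric.ball (0 : R3) R, h =ᶠ[𝓝 x] g := by
    intro x hx
    have hx' : x ∈ Metric.ball (0 : R3) (|R| + 1) := by
      simp only [Metric.mem_ball] at hx ⊢
      have := le_abs_self R
      linarith
    filter_upwards [Metric.isOpen_ball.mem_nhds hx'] with y hy
    have : χ y = 1 := χ.one_of_mem_closedBall (Metric.ball_subset_closedBall hy)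
    simp [h, this]
  have hfd : Continuous (fderiv ℝ h) := hh.continuous_fderiv (by norm_num)
  have hfdc : HasCompactSupport (fderiv ℝ h) := hhc.fderiv ℝ
  have u1 : UniformContinuous h := hhc.uniformContinuous_of_continuous hh.continuous
  have u2 : UniformContinuous (fderiv ℝ h) := hfdc.uniformContinuous_of_continuous hfd
  obtain ⟨δ1, hδ1, h1⟩ := Metric.uniformContinuous_iff.1 u1 ε hε
  obtain ⟨δ2, hδ2, h2⟩ := Metric.uniformContinuous_iff.1 u2 ε hε
  let δ := min δ1 δ2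
  have hδ : 0 < δ := lt_min hδ1 hδ2
  let φ : ContDiffBump (0 : R3) := ⟨δ / 2, δ, half_pos hδ, half_lt_self hδ⟩
  let L := ContinuousLinearMap.lsmul ℝ ℝ (E := ℂ)
  let g' : R3 → ℂ := MeasureTheory.convolution (φ.normed volume) h L volume
  have hφl : LocallyIntegrable (φ.normed volume) (volume : Measure R3) :=
    (φ.continuous_normed).locallyIntegrable
  have hd : ∀ x, HasFDerivAt g'
      ((MeasureTheory.convolution (φ.normed volume) (fderiv ℝ h) (L.precompR R3) volume) x) x :=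
    fun x => hhc.hasFDerivAt_convolution_right L hφl hh x
  refine ⟨g', ?_, ?_, ?_, ?_⟩
  · exact φ.hasCompactSupport_normed.contDiff_convolution_left (n := ⊤) _ φ.contDiff_normed
      hh.continuous.locallyIntegrable
  · exact φ.hasCompactSupport_normed.convolution L hhc
  · intro x hx
    have := φ.dist_normed_convolution_le (μ := volume) (g := h) (x₀ := x) (ε := ε)
      hh.continuous.aestronglyMeasurable (fun y hy => (h1 (lt_of_lt_of_le hy (min_le_left _ _))).le)
    rw [← (heq x hx).self_of_nhds, ← dist_eq_norm]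
    exact this
  · intro j x hx
    have hpd : pd j g' x
        = MeasureTheory.convolution (φ.normed volume) (fun y => fderiv ℝ h y (ee j)) L volume x := by
      unfold pd
      rw [(hd x).fderiv]
      exact convolution_precompR_apply L hφl hfdc hfd x (ee j)
    have hnorm : ‖(ee j : R3)‖ = 1 := by simp
    have := φ.dist_normed_convolution_le (μ := volume) (g := fun y => fderiv ℝ h y (ee j))
      (x₀ := x) (ε := ε) (by
        exact (hfd.clm_apply continuous_const).aestronglyMeasurable)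
      (fun y hy => by
        have h3 := (h2 (lt_of_lt_of_le hy (min_le_right _ _))).le
        rw [dist_eq_norm] at h3 ⊢
        rw [← sub_apply]
        refine (ContinuousLinearMap.le_opNorm _ _).trans ?_
        rw [hnorm, mul_one]
        exact h3)
    have e1 : pd j g x = fderiv ℝ h x (ee j) := by
      unfold pd
      rw [(heq x hx).fderiv_eq]
    rw [hpd, e1, ← dist_eq_norm]
    exact this

/-- symmetry of the first order bilinear form -/
theorem symm_form (hZ : StmtZ) (G : Dom) {f g : R3 → ℂ} (hf : ContDiff ℝ 1 f)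
    (hg : ContDiff ℝ 1 g) (h0 : ∀ x ∈ frontier G.Ω, f x = 0) (i j : Fin 3) :
    ∫ x in G.Ω, pd i f x * pd j g x = ∫ x in G.Ω, pd j f x * pd i g x := by
  -- smooth case
  have smooth : ∀ g : R3 → ℂ, ContDiff ℝ ∞ g →
      ∫ x in G.Ω, pd i f x * pd j g x = ∫ x in G.Ω, pd j f x * pd i g x := by
    intro g hg
    have hgj := contDiff_pd hg j
    have hgi := contDiff_pd hg i
    have e1 := hZ G (fun x => f x * pd j g x) (hf.mul (hgj.of_le (by simp)))
      (fun x hx => by simp [h0 x hx]) i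
    have e2 := hZ G (fun x => f x * pd i g x) (hf.mul (hgi.of_le (by simp)))
      (fun x hx => by simp [h0 x hx]) j
    have d1 : ∀ x, pd i (fun x => f x * pd j g x) x
        = pd i f x * pd j g x + f x * pd i (pd j g) x := fun x =>
      pd_mul (diff1 hf x) (hgj.differentiable (by simp) x) i
    have d2 : ∀ x, pd j (fun x => f x * pd i g x) x
        = pd j f x * pd i g x + f x * pd i (pd j g) x := fun x => by
      rw [pd_mul (diff1 hf x) (hgi.differentiable (by simp) x) j, pd_comm hg j i]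
    have c1 : Continuous (fun x => pd i f x * pd j g x) :=
      (continuous_pd hf i).mul hgj.continuous
    have c2 : Continuous (fun x => pd j f x * pd i g x) :=
      (continuous_pd hf j).mul hgi.continuous
    have c3 : Continuous (fun x => f x * pd i (pd j g) x) :=
      hf.continuous.mul (contDiff_pd hgj i).continuous
    simp only [d1] at e1
    simp only [d2] at e2
    rw [integral_add (intOn G c1) (intOn G c3)] at e1
    rw [integral_add (intOn G c2) (intOn G c3)] at e2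
    linear_combination e1 - e2
  -- approximation
  obtain ⟨R, hR⟩ := G.bdd.isCompact_closure.isBounded.subset_ball (0 : R3)
  have hR' : G.Ω ⊆ Metric.ball (0 : R3) R := subset_closure.trans hR
  let Ci := ∫ x in G.Ω, ‖pd i f x‖
  let Cj := ∫ x in G.Ω, ‖pd j f x‖
  have key : ∀ (a b : Fin 3) (ε : ℝ), 0 < ε → ∀ g' : R3 → ℂ, ContDiff ℝ ∞ g' →
      (∀ j, ∀ x ∈ Metric.ball (0 : R3) R, ‖pd j g' x - pd j g x‖ ≤ ε) →
      ‖(∫ x in G.Ω, pd a f x * pd b g' x) - ∫ x in G.Ω, pd a f x * pd b g x‖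
        ≤ (∫ x in G.Ω, ‖pd a f x‖) * ε := by
    intro a b ε hε g' hg' hclose
    have c1 : Continuous (fun x => pd a f x * pd b g' x) :=
      (continuous_pd hf a).mul (contDiff_pd hg' b).continuous
    have c2 : Continuous (fun x => pd a f x * pd b g x) :=
      (continuous_pd hf a).mul (continuous_pd hg b)
    rw [← integral_sub (intOn G c1) (intOn G c2)]
    refine (norm_integral_le_integral_norm _).trans ?_
    rw [← integral_mul_const]
    apply setIntegral_mono_on (intOn G (c1.sub c2).norm)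
      ((intOn G (continuous_pd hf a).norm).mul_const _) (dom_meas G)
    intro x hx
    show ‖pd a f x * pd b g' x - pd a f x * pd b g x‖ ≤ ‖pd a f x‖ * ε
    rw [← mul_sub, norm_mul]
    exact mul_le_mul_of_nonneg_left (hclose b x (hR' hx)) (norm_nonneg _)
  have fin : ∀ ε : ℝ, 0 < ε →
      ‖(∫ x in G.Ω, pd i f x * pd j g x) - ∫ x in G.Ω, pd j f x * pd i g x‖
        ≤ (Ci + Cj) * ε := by
    intro ε hε
    obtain ⟨g', hg', -, -, hcl⟩ := exists_smooth_approx hg R hε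
    have k1 := key i j ε hε g' hg' hcl
    have k2 := key j i ε hε g' hg' hcl
    have k3 := smooth g' hg'
    rw [k3] at k1
    rw [norm_sub_rev] at k1
    calc _ = ‖((∫ x in G.Ω, pd i f x * pd j g x) - ∫ x in G.Ω, pd j f x * pd i g' x)
          + ((∫ x in G.Ω, pd j f x * pd i g' x) - ∫ x in G.Ω, pd j f x * pd i g x)‖ := by
            congr 1; ring
      _ ≤ _ := (norm_add_le _ _).trans (by rw [add_mul]; exact add_le_add k1 k2)
  have hC : 0 ≤ Ci + Cj := by
    apply add_nonneg <;> exact integral_nonneg fun x => norm_nonneg _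
  have : ‖(∫ x in G.Ω, pd i f x * pd j g x) - ∫ x in G.Ω, pd j f x * pd i g x‖ ≤ 0 := by
    apply le_of_forall_pos_le_add
    intro η hη
    have := fin (η / (Ci + Cj + 1)) (by positivity)
    refine this.trans ?_
    rw [zero_add, mul_div_assoc']
    rw [div_le_iff₀ (by positivity)]
    nlinarith
  exact sub_eq_zero.1 (norm_le_zero_iff.1 this)

/-- Poincaré -/
theorem poincare (hZ : StmtZ) (G : Dom) {R : ℝ} (hR : closure G.Ω ⊆ Metric.ball (0 : R3) R)
    {f : R3 → ℂ} (hf : ContDiff ℝ 1 f) (h0 : ∀ x ∈ frontier G.Ω, f x = 0) :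
    ∫ x in G.Ω, ‖f x‖ ^ 2 ≤ 4 * R ^ 2 * ∫ x in G.Ω, ‖pd 0 f x‖ ^ 2 := by
  let X : R3 → ℂ := fun x => ((x 0 : ℝ) : ℂ)
  have hX : ContDiff ℝ 1 X := by
    apply Complex.ofRealCLM.contDiff.comp
    exact (EuclideanSpace.proj (𝕜 := ℝ) (0 : Fin 3)).contDiff
  have hXd : ∀ x, pd 0 X x = 1 := by
    intro x
    have h1 : HasFDerivAt X (Complex.ofRealCLM.comp (EuclideanSpace.proj (𝕜 := ℝ) (0 : Fin 3))) x :=
      Complex.ofRealCLM.hasFDerivAt.comp x (EuclideanSpace.proj (𝕜 := ℝ) (0 : Fin 3)).hasFDerivAt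
    unfold pd
    rw [h1.fderiv]
    simp
  let F : R3 → ℂ := fun x => X x * (f x * (starRingEnd ℂ) (f x))
  have hF : ContDiff ℝ 1 F := hX.mul (hf.mul (contDiff_conj hf))
  have e1 := hZ G F hF (fun x hx => by simp [F, h0 x hx]) 0
  have d1 : ∀ x, pd 0 F x = ((‖f x‖ ^ 2 + 2 * (x 0 * (pd 0 f x * (starRingEnd ℂ) (f x)).re) : ℝ)
      : ℂ) := by
    intro x
    have a1 := pd_mul (diff1 hX x) ((diff1 (hf.mul (contDiff_conj hf))) x) 0
    have a2 := pd_mul (diff1 hf x) ((diff1 (contDiff_conj hf)) x) 0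
    have a3 := pd_conj (diff1 hf x) 0
    have b1 : f x * (starRingEnd ℂ) (f x) = ((‖f x‖ ^ 2 : ℝ) : ℂ) := by
      rw [Complex.mul_conj, Complex.normSq_eq_norm_sq]
    have b2 : pd 0 f x * (starRingEnd ℂ) (f x) + f x * (starRingEnd ℂ) (pd 0 f x)
        = ((2 * (pd 0 f x * (starRingEnd ℂ) (f x)).re : ℝ) : ℂ) := by
      rw [← Complex.add_conj]
      simp only [map_mul, Complex.conj_conj]
      ring
    show pd 0 (fun y => X y * (f y * (starRingEnd ℂ) (f y))) x = _
    have a1' : pd 0 (fun y => X y * (f y * (starRingEnd ℂ) (f y))) x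
        = pd 0 X x * (f x * (starRingEnd ℂ) (f x))
          + X x * pd 0 (fun y => f y * (starRingEnd ℂ) (f y)) x := a1
    rw [a1', a2, a3, hXd, b1, b2]
    push_cast
    simp only [X]
    ring
  have c1 : Continuous (fun x : R3 => ‖f x‖ ^ 2) := by
    have := hf.continuous
    fun_prop
  have c2 : Continuous (fun x : R3 => ‖pd 0 f x‖ ^ 2) := by
    have := continuous_pd hf 0
    fun_prop
  have c3 : Continuous (fun x : R3 => 2 * (x 0 * (pd 0 f x * (starRingEnd ℂ) (f x)).re)) := by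
    have h1 := continuous_pd hf 0
    have h2 := (contDiff_conj hf).continuous
    have h3 : Continuous fun x : R3 => x 0 := (EuclideanSpace.proj (𝕜 := ℝ) (0 : Fin 3)).continuous
    exact continuous_const.mul (h3.mul (Complex.continuous_re.comp (h1.mul h2)))
  have e2 : (∫ x in G.Ω, ‖f x‖ ^ 2)
      + ∫ x in G.Ω, 2 * (x 0 * (pd 0 f x * (starRingEnd ℂ) (f x)).re) = 0 := by
    rw [← integral_add (intOn G c1) (intOn G c3)]
    simp only [d1] at e1
    rw [integral_complex_ofReal] at e1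
    exact_mod_cast e1
  -- pointwise bound
  have e3 : -(∫ x in G.Ω, 2 * (x 0 * (pd 0 f x * (starRingEnd ℂ) (f x)).re))
      ≤ ∫ x in G.Ω, ((1 / 2) * ‖f x‖ ^ 2 + 2 * R ^ 2 * ‖pd 0 f x‖ ^ 2) := by
    rw [← integral_neg]
    apply setIntegral_mono_on (intOn G c3.neg)
      (intOn G ((c1.const_smul (1 / 2 : ℝ)).add (c2.const_smul (2 * R ^ 2 : ℝ)))) (dom_meas G)
    intro x hx
    have hx1 : ‖x‖ < R := by simpa using hR (subset_closure hx)
    have hx0 : |x 0| ≤ R := by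
      have := EuclideanSpace.norm_eq x
      have h4 : ‖x 0‖ ≤ ‖x‖ := PiLp.norm_apply_le x 0
      rw [Real.norm_eq_abs] at h4
      linarith
    have h5 : |(pd 0 f x * (starRingEnd ℂ) (f x)).re| ≤ ‖pd 0 f x‖ * ‖f x‖ := by
      refine (Complex.abs_re_le_norm _).trans ?_
      rw [norm_mul, RCLike.norm_conj]
    have h6 : |x 0 * (pd 0 f x * (starRingEnd ℂ) (f x)).re| ≤ R * (‖pd 0 f x‖ * ‖f x‖) := by
      rw [abs_mul]
      exact mul_le_mul hx0 h5 (abs_nonneg _) (by linarith [abs_nonneg (x 0)])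
    have h7 := (abs_le.1 h6).1
    show -(2 * (x 0 * (pd 0 f x * (starRingEnd ℂ) (f x)).re))
      ≤ (1 / 2) * ‖f x‖ ^ 2 + 2 * R ^ 2 * ‖pd 0 f x‖ ^ 2
    nlinarith [sq_nonneg (‖f x‖ - 2 * (R * ‖pd 0 f x‖))]
  have e4 : ∫ x in G.Ω, ((1 / 2) * ‖f x‖ ^ 2 + 2 * R ^ 2 * ‖pd 0 f x‖ ^ 2)
      = (1 / 2) * (∫ x in G.Ω, ‖f x‖ ^ 2) + 2 * R ^ 2 * ∫ x in G.Ω, ‖pd 0 f x‖ ^ 2 := by
    rw [integral_add ((intOn G c1).const_mul _) ((intOn G c2).const_mul _), integral_const_mul,
      integral_const_mul]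
  rw [e4] at e3
  linarith

/-- pointwise expansion of the squared strain -/
theorem strain_sq (v : Fin 3 → R3 → ℂ) (x : R3) :
    ((∑ i, ∑ j, ‖strain v i j x‖ ^ 2 : ℝ) : ℂ)
      = (1 / 2) * ((∑ i, ∑ j, ‖pd j (v i) x‖ ^ 2 : ℝ) : ℂ)
        + (1 / 2) * ∑ i, ∑ j, pd i (v j) x * (starRingEnd ℂ) (pd j (v i) x) := by
  have h : ∀ i j, ((‖strain v i j x‖ ^ 2 : ℝ) : ℂ)
      = (1 / 4) * ((‖pd i (v j) x‖ ^ 2 : ℝ) : ℂ) + (1 / 4) * ((‖pd j (v i) x‖ ^ 2 : ℝ) : ℂ)
        + (1 / 4) * (pd i (v j) x * (starRingEnd ℂ) (pd j (v i) x))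
        + (1 / 4) * (pd j (v i) x * (starRingEnd ℂ) (pd i (v j) x)) := by
    intro i j
    have e : ∀ z : ℂ, ((‖z‖ ^ 2 : ℝ) : ℂ) = z * (starRingEnd ℂ) z := fun z => by
      rw [Complex.mul_conj, Complex.normSq_eq_norm_sq]
    rw [e, e, e]
    unfold strain
    simp only [map_div₀, map_add, map_ofNat]
    ring
  simp only [Fin.sum_univ_three]
  push_cast
  have h' : ∀ i j, ((‖strain v i j x‖ : ℂ)) ^ 2
      = (1 / 4) * ((‖pd i (v j) x‖ ^ 2 : ℝ) : ℂ) + (1 / 4) * ((‖pd j (v i) x‖ ^ 2 : ℝ) : ℂ)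
        + (1 / 4) * (pd i (v j) x * (starRingEnd ℂ) (pd j (v i) x))
        + (1 / 4) * (pd j (v i) x * (starRingEnd ℂ) (pd i (v j) x)) := by
    intro i j
    rw [← h]
    push_cast
    rfl
  simp only [h']
  push_cast
  ring

theorem korn (hZ : StmtZ) (G : Dom) {v : Fin 3 → R3 → ℂ} (hv : ∀ i, ContDiff ℝ 1 (v i))
    (h0 : ∀ x ∈ frontier G.Ω, ∀ i, v i x = 0) :
    gradSq G.Ω v ≤ 2 * ∫ x in G.Ω, ∑ i, ∑ j, ‖strain v i j x‖ ^ 2 := by
  have cpd : ∀ i j, Continuous (pd j (v i)) := fun i j => continuous_pd (hv i) j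
  have cconj : ∀ i j, Continuous (fun x => (starRingEnd ℂ) (pd j (v i) x)) := fun i j =>
    Complex.continuous_conj.comp (cpd i j)
  have s1 : ∀ i j, ∫ x in G.Ω, pd i (v j) x * (starRingEnd ℂ) (pd j (v i) x)
      = ∫ x in G.Ω, pd j (v j) x * (starRingEnd ℂ) (pd i (v i) x) := by
    intro i j
    have := symm_form hZ G (hv j) (contDiff_conj (hv i)) (fun x hx => h0 x hx j) i j
    simpa only [pd_conj (diff1 (hv i) _)] using this
  have c1 : Continuous (fun x => ∑ i, ∑ j, ‖pd j (v i) x‖ ^ 2) := by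
    refine continuous_finsetSum _ fun i _ => continuous_finsetSum _ fun j _ => ?_
    exact (cpd i j).norm.pow 2
  have c2 : ∀ i j, Continuous (fun x => pd i (v j) x * (starRingEnd ℂ) (pd j (v i) x)) :=
    fun i j => (cpd j i).mul (cconj i j)
  have c3 : Continuous (fun x => ∑ i, ∑ j, pd i (v j) x * (starRingEnd ℂ) (pd j (v i) x)) :=
    continuous_finsetSum _ fun i _ => continuous_finsetSum _ fun j _ => c2 i j
  have c4 : ∀ i j, Continuous (fun x => pd j (v j) x * (starRingEnd ℂ) (pd i (v i) x)) :=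
    fun i j => (cpd j j).mul (cconj i i)
  have e1 : ((∫ x in G.Ω, ∑ i, ∑ j, ‖strain v i j x‖ ^ 2 : ℝ) : ℂ)
      = (1 / 2) * ((gradSq G.Ω v : ℝ) : ℂ)
        + (1 / 2) * ∫ x in G.Ω, ∑ i, ∑ j, pd i (v j) x * (starRingEnd ℂ) (pd j (v i) x) := by
    rw [← integral_complex_ofReal]
    simp only [strain_sq]
    rw [integral_add, integral_const_mul, integral_const_mul, integral_complex_ofReal]
    · rfl
    · exact (intOn G (Complex.continuous_ofReal.comp c1)).const_mul _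
    · exact (intOn G c3).const_mul _
  have e2 : ∫ x in G.Ω, ∑ i, ∑ j, pd i (v j) x * (starRingEnd ℂ) (pd j (v i) x)
      = ((∫ x in G.Ω, ‖divg v x‖ ^ 2 : ℝ) : ℂ) := by
    rw [integral_finsetSum _ fun i _ =>
      intOn G (continuous_finsetSum _ fun j _ => c2 i j)]
    have : ∀ i, ∫ x in G.Ω, ∑ j, pd i (v j) x * (starRingEnd ℂ) (pd j (v i) x)
        = ∫ x in G.Ω, ∑ j, pd j (v j) x * (starRingEnd ℂ) (pd i (v i) x) := by
      intro i
      rw [integral_finsetSum _ fun j _ => intOn G (c2 i j),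
        integral_finsetSum _ fun j _ => intOn G (c4 i j)]
      exact Finset.sum_congr rfl fun j _ => s1 i j
    rw [Finset.sum_congr rfl fun i _ => this i]
    rw [← integral_finsetSum _ fun i _ =>
      intOn G (continuous_finsetSum _ fun j _ => c4 i j)]
    rw [← integral_complex_ofReal]
    congr 1
    ext x
    have e : ((‖divg v x‖ ^ 2 : ℝ) : ℂ) = divg v x * (starRingEnd ℂ) (divg v x) := by
      rw [Complex.mul_conj, Complex.normSq_eq_norm_sq]
    rw [e]
    unfold divg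
    rw [map_sum, Finset.sum_mul_sum, Finset.sum_comm]
  rw [e2] at e1
  have e3 : (∫ x in G.Ω, ∑ i, ∑ j, ‖strain v i j x‖ ^ 2)
      = (1 / 2) * gradSq G.Ω v + (1 / 2) * ∫ x in G.Ω, ‖divg v x‖ ^ 2 := by
    apply Complex.ofReal_injective
    rw [e1]
    push_cast
    rfl
  have e4 : 0 ≤ ∫ x in G.Ω, ‖divg v x‖ ^ 2 := integral_nonneg fun x => sq_nonneg _
  linarith

end KornAux

open KornAux in
theorem t_Korn (hZ : StmtZ) : StmtKorn := by
  intro G
  obtain ⟨R, hR⟩ := G.bdd.isCompact_closure.isBounded.subset_ball (0 : R3)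
  refine ⟨4 * R ^ 2 + 2, by positivity, fun v hv h0 => ⟨?_, ?_⟩⟩
  · have cpd : ∀ i j, Continuous (pd j (v i)) := fun i j => continuous_pd (hv i) j
    have h1 : ∀ i, ∫ x in G.Ω, ‖v i x‖ ^ 2 ≤ 4 * R ^ 2 * ∫ x in G.Ω, ‖pd 0 (v i) x‖ ^ 2 :=
      fun i => poincare hZ G hR (hv i) fun x hx => h0 x hx i
    have cv : ∀ i, Continuous (fun x => ‖v i x‖ ^ 2) := fun i => (hv i).continuous.norm.pow 2
    have cp : ∀ i j, Continuous (fun x => ‖pd j (v i) x‖ ^ 2) := fun i j => (cpd i j).norm.pow 2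
    rw [integral_finsetSum _ fun i _ => intOn G (cv i)]
    refine (Finset.sum_le_sum fun i _ => h1 i).trans ?_
    rw [← Finset.mul_sum, ← integral_finsetSum _ fun i _ => intOn G (cp i 0)]
    have h2 : ∫ x in G.Ω, ∑ i, ‖pd 0 (v i) x‖ ^ 2 ≤ gradSq G.Ω v := by
      apply setIntegral_mono_on _ _ (dom_meas G)
      · intro x _
        apply Finset.sum_le_sum
        intro i _
        exact Finset.single_le_sum (f := fun j => ‖pd j (v i) x‖ ^ 2) (fun j _ => sq_nonneg _)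
          (Finset.mem_univ 0)
      · exact intOn G (continuous_finsetSum _ fun i _ => cp i 0)
      · exact intOn G (continuous_finsetSum _ fun i _ => continuous_finsetSum _ fun j _ =>
          cp i j)
    have h3 : 0 ≤ gradSq G.Ω v := integral_nonneg fun x =>
      Finset.sum_nonneg fun i _ => Finset.sum_nonneg fun j _ => sq_nonneg _
    have h4 : (0 : ℝ) ≤ 4 * R ^ 2 := by positivity
    nlinarith [mul_le_mul_of_nonneg_left h2 h4]
  · have h1 := korn hZ G hv h0
    have h3 : 0 ≤ ∫ x in G.Ω, ∑ i, ∑ j, ‖strain v i j x‖ ^ 2 := integral_nonneg fun x =>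
      Finset.sum_nonneg fun i _ => Finset.sum_nonneg fun j _ => sq_nonneg _
    have h4 : (0 : ℝ) ≤ 4 * R ^ 2 := by positivity
    nlinarith [mul_nonneg h4 h3]

end Crest.Agent.R080
end
end

-- ▼ part R080/PolarAbs
section

/-!
Row 80, T3: abstract polarization lemma.
-/

set_option autoImplicit false

namespace Crest.Agent.R080.Polar

variable {E : Type*} [AddCommGroup E] [Module ℝ E]

/-- the infimum of the quadratic form over a coset -/
noncomputable def Q (V : Submodule ℝ E) (b : E →ₗ[ℝ] E →ₗ[ℝ] ℝ) (φ : E) : ℝ :=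
  ⨅ w : V, b (φ + w) (φ + w)

variable {V : Submodule ℝ E} {b : E →ₗ[ℝ] E →ₗ[ℝ] ℝ}

theorem bddBelow_Q (hp : ∀ v, 0 ≤ b v v) (φ : E) :
    BddBelow (Set.range fun w : V => b (φ + w) (φ + w)) :=
  ⟨0, by rintro _ ⟨w, rfl⟩; exact hp _⟩

theorem Q_le (hp : ∀ v, 0 ≤ b v v) (φ : E) {w : E} (hw : w ∈ V) :
    Q V b φ ≤ b (φ + w) (φ + w) :=
  ciInf_le (bddBelow_Q hp φ) ⟨w, hw⟩

theorem exists_lt_Q_add (φ : E) {e : ℝ} (he : 0 < e) :
    ∃ w ∈ V, b (φ + w) (φ + w) < Q V b φ + e := by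
  obtain ⟨w, hw⟩ := exists_lt_of_ciInf_lt (f := fun w : V => b (φ + w) (φ + w))
    (show (⨅ w : V, b (φ + w) (φ + w)) < Q V b φ + e by unfold Q; linarith)
  exact ⟨w, w.2, hw⟩

theorem le_Q (φ : E) {a : ℝ} (h : ∀ w ∈ V, a ≤ b (φ + w) (φ + w)) : a ≤ Q V b φ :=
  le_ciInf fun w => h w w.2

theorem Q_neg (φ : E) : Q V b (-φ) = Q V b φ := by
  unfold Q
  have h : ∀ w : V, b (-φ + w) (-φ + w) = b (φ + ((-w : V) : E)) (φ + ((-w : V) : E)) := by
    intro w
    have : (-φ + (w : E)) = -(φ + ((-w : V) : E)) := by push_cast; abel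
    rw [this]; simp only [map_neg, LinearMap.neg_apply, neg_neg]
  simp_rw [h]
  exact (Equiv.neg V).iInf_congr (fun w => by simp)

theorem expand (hs : ∀ u v, b u v = b v u) (u v w : E) (s : ℝ) (hs2 : s ^ 2 = 1) :
    b (u + s • v + s • w) (u + s • v + s • w)
      = b u u + 2 * s * b u v + 2 * s * b u w + b (v + w) (v + w) := by
  simp only [map_add, map_smul, LinearMap.add_apply, LinearMap.smul_apply, smul_eq_mul]
  rw [hs v u, hs w u, hs w v]
  have : s * s = 1 := by rw [← sq]; exact hs2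
  linear_combination (b v v + 2 * b v w + b w w) * this

theorem para (hs : ∀ u v, b u v = b v u) (hp : ∀ v, 0 ≤ b v v) (v w : E) :
    b w w ≤ 2 * b (v + w) (v + w) + 2 * b v v := by
  have h := hp (2 • v + w)
  simp only [map_add, map_nsmul, LinearMap.add_apply, LinearMap.smul_apply, smul_eq_mul,
    nsmul_eq_mul] at h ⊢
  rw [hs w v] at h ⊢
  push_cast at h
  linarith

variable {N : E → ℝ} {c C : ℝ}

/-- the constant `A` -/
noncomputable def cA (c C : ℝ) : ℝ := 1 + (4 + 4 * C) / c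

set_option maxHeartbeats 2000000 in
theorem Q_est (hs : ∀ u v, b u v = b v u) (hp : ∀ v, 0 ≤ b v v) (hN : ∀ v, 0 ≤ N v)
    (hc : 0 < c) (hC : 0 < C) (hco : ∀ w ∈ V, c * N w ^ 2 ≤ b w w)
    (hup : ∀ v, b v v ≤ C * N v ^ 2) (u v : E) (ε : ℝ) (hε : 0 ≤ ε)
    (h : ∀ w ∈ V, |b u w| ≤ ε * N w) (s : ℝ) (hs2 : s ^ 2 = 1) :
    |Q V b (u + s • v) - (b u u + 2 * s * b u v + Q V b v)|
      ≤ 2 * cA c C * (ε ^ 2 + ε * N v) := by
  have hs1 : |s| = 1 := by
    have := sq_abs s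
    rw [hs2] at this
    nlinarith [abs_nonneg s, this, sq_nonneg (|s| - 1)]
  have hss : s * s = 1 := by rw [← sq]; exact hs2
  have hsu : ∀ w ∈ V, |s * b u w| ≤ ε * N w := fun w hw => by
    rw [abs_mul, hs1, one_mul]; exact h w hw
  have hA1 : 1 ≤ cA c C := by
    unfold cA; have : 0 ≤ (4 + 4 * C) / c := by positivity
    linarith
  have hA2 : 4 + 4 * C ≤ c * cA c C := by
    unfold cA; rw [mul_add, mul_div_cancel₀ _ hc.ne']; linarith
  set A := cA c C with hA
  have hA0 : 0 < A := by linarith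
  rw [abs_le]
  constructor
  · -- lower bound
    suffices H : b u u + 2 * s * b u v + Q V b v - 2 * A * (ε ^ 2 + ε * N v) ≤ Q V b (u + s • v) by
      linarith
    refine le_Q _ fun w hw => ?_
    have hw' : s • w ∈ V := V.smul_mem s hw
    have e1 : u + s • v + w = u + s • v + s • (s • w) := by rw [smul_smul, hss, one_smul]
    rw [e1, expand hs u v (s • w) s hs2]
    set w' := s • w with hw'def
    have h1 := (abs_le.mp (hsu w' hw')).1
    have hX := hN w'
    have hv := hN v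
    have hQ1 : Q V b v ≤ b (v + w') (v + w') := Q_le hp v hw'
    have hQ2 : Q V b v ≤ b v v := by
      have := Q_le hp v V.zero_mem (b := b); simpa using this
    have hpara := para hs hp v w'
    have hcow := hco w' hw'
    have hupv := hup v
    by_cases hcase : N w' ≤ A * (N v + ε)
    · have : ε * N w' ≤ ε * (A * (N v + ε)) := mul_le_mul_of_nonneg_left hcase hε
      nlinarith
    · push Not at hcase
      have hXε : A * ε ≤ N w' := by nlinarith
      have hXv : A * N v ≤ N w' := by nlinarith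
      -- A * (2 ε X) ≤ 2 X²
      have k1 : A * (ε * N w') ≤ N w' ^ 2 := by nlinarith
      have k2 : A ^ 2 * N v ^ 2 ≤ N w' ^ 2 := by nlinarith [mul_nonneg hA0.le hv]
      have k2' : A * (C * N v ^ 2) ≤ C * N w' ^ 2 := by
        have : A * N v ^ 2 ≤ A ^ 2 * N v ^ 2 := by
          have : A ≤ A ^ 2 := by nlinarith
          exact mul_le_mul_of_nonneg_right this (sq_nonneg _)
        nlinarith
      have k3 : (4 + 4 * C) * N w' ^ 2 ≤ A * (c * N w' ^ 2) := by nlinarith [sq_nonneg (N w')]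
      -- goal after multiplying by A
      have k4 : 0 ≤ A * (b (v + w') (v + w') - 2 * (ε * N w') - Q V b v) := by nlinarith
      have k5 : 0 ≤ b (v + w') (v + w') - 2 * (ε * N w') - Q V b v :=
        nonneg_of_mul_nonneg_right k4 hA0
      have k6 : 0 ≤ 2 * A * (ε ^ 2 + ε * N v) := by positivity
      nlinarith
  · -- upper bound
    suffices H : Q V b (u + s • v) ≤ b u u + 2 * s * b u v + Q V b v + 2 * A * (ε ^ 2 + ε * N v) by
      linarith
    refine le_of_forall_pos_le_add fun e he => ?_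
    obtain ⟨η, hη0, hη1, hηe⟩ : ∃ η : ℝ, 0 < η ∧ η ≤ 1 ∧ (2 * ε + c / 2) * η ≤ e := by
      refine ⟨min 1 (e / (2 * ε + c / 2)), by positivity, min_le_left _ _, ?_⟩
      calc (2 * ε + c / 2) * min 1 (e / (2 * ε + c / 2))
          ≤ (2 * ε + c / 2) * (e / (2 * ε + c / 2)) :=
            mul_le_mul_of_nonneg_left (min_le_right _ _) (by positivity)
        _ = e := by field_simp
    obtain ⟨w, hw, hwlt⟩ := exists_lt_Q_add (V := V) (b := b) v (e := c * η ^ 2 / 2) (by positivity)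
    have h0 := Q_le hp (u + s • v) (V.smul_mem s hw)
    rw [expand hs u v w s hs2] at h0
    have h1 := (abs_le.mp (hsu w hw)).2
    have hQ2 : Q V b v ≤ b v v := by
      have := Q_le hp v V.zero_mem (b := b); simpa using this
    have hpara := para hs hp v w
    have hcow := hco w hw
    have hupv := hup v
    have hv := hN v
    have hX := hN w
    have h2 : c * N w ^ 2 ≤ 4 * C * N v ^ 2 + c * η ^ 2 := by linarith
    have h3 : N w ≤ A * N v + η := by
      have h4 : c * N w ^ 2 ≤ c * (A * N v + η) ^ 2 := by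
        have : 4 * C * N v ^ 2 ≤ c * A ^ 2 * N v ^ 2 := by
          have : 4 * C ≤ c * A ^ 2 := by nlinarith
          exact mul_le_mul_of_nonneg_right this (sq_nonneg _)
        nlinarith [mul_nonneg (mul_nonneg hc.le hA0.le) (mul_nonneg hv hη0.le)]
      have h5 : N w ^ 2 ≤ (A * N v + η) ^ 2 := le_of_mul_le_mul_left h4 hc
      exact (abs_le_of_sq_le_sq' h5 (by positivity)).2
    have h6 : ε * N w ≤ ε * (A * N v + η) := mul_le_mul_of_nonneg_left h3 hε
    have h7' : η ^ 2 ≤ η := by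
      calc η ^ 2 = η * η := sq η
        _ ≤ 1 * η := mul_le_mul_of_nonneg_right hη1 hη0.le
        _ = η := one_mul η
    have h7 : c * η ^ 2 ≤ c * η := mul_le_mul_of_nonneg_left h7' hc.le
    have h8 : 0 ≤ A * ε ^ 2 := mul_nonneg hA0.le (sq_nonneg ε)
    have h9 : ε * (A * N v + η) = A * (ε * N v) + ε * η := by ring
    have h10 : (2 * ε + c / 2) * η = 2 * (ε * η) + c * η / 2 := by ring
    have h11 : 2 * A * (ε ^ 2 + ε * N v) = 2 * (A * ε ^ 2) + 2 * (A * (ε * N v)) := by ring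
    have h12 : 2 * s * b u w = 2 * (s * b u w) := by ring
    rw [h11]
    rw [h12] at h0
    rw [h10] at hηe
    rw [h9] at h6
    linarith

theorem Q_congr {b₁ b₂ : E →ₗ[ℝ] E →ₗ[ℝ] ℝ} (hp₁ : ∀ v, 0 ≤ b₁ v v) (φ : E)
    (h : ∀ w ∈ V, ∀ ε : ℝ, 0 < ε → ∃ w' ∈ V, b₁ (φ + w') (φ + w') < b₂ (φ + w) (φ + w) + ε) :
    Q V b₁ φ ≤ Q V b₂ φ := by
  refine le_Q _ fun w hw => le_of_forall_pos_le_add fun ε hε => ?_
  obtain ⟨w', hw', hlt⟩ := h w hw ε hε
  exact (Q_le hp₁ φ hw').trans hlt.le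

theorem abstract_polar {b₁ b₂ : E →ₗ[ℝ] E →ₗ[ℝ] ℝ}
    (hs₁ : ∀ u v, b₁ u v = b₁ v u) (hs₂ : ∀ u v, b₂ u v = b₂ v u)
    (hp₁ : ∀ v, 0 ≤ b₁ v v) (hp₂ : ∀ v, 0 ≤ b₂ v v) (hN : ∀ v, 0 ≤ N v)
    (hc : 0 < c) (hC : 0 < C)
    (hco₁ : ∀ w ∈ V, c * N w ^ 2 ≤ b₁ w w) (hco₂ : ∀ w ∈ V, c * N w ^ 2 ≤ b₂ w w)
    (hup₁ : ∀ v, b₁ v v ≤ C * N v ^ 2) (hup₂ : ∀ v, b₂ v v ≤ C * N v ^ 2)
    (h12 : ∀ φ, ∀ w ∈ V, ∀ ε : ℝ, 0 < ε →
      ∃ w' ∈ V, b₂ (φ + w') (φ + w') < b₁ (φ + w) (φ + w) + ε)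
    (h21 : ∀ φ, ∀ w ∈ V, ∀ ε : ℝ, 0 < ε →
      ∃ w' ∈ V, b₁ (φ + w') (φ + w') < b₂ (φ + w) (φ + w) + ε)
    (u v : E) (ε₁ ε₂ : ℝ) (hε₁ : 0 ≤ ε₁) (hε₂ : 0 ≤ ε₂)
    (h₁ : ∀ w ∈ V, |b₁ u w| ≤ ε₁ * N w) (h₂ : ∀ w ∈ V, |b₂ v w| ≤ ε₂ * N w) :
    |b₁ u v - b₂ u v| ≤ cA c C * (ε₁ ^ 2 + ε₂ ^ 2 + ε₁ * N v + ε₂ * N u) := by
  have hQ : ∀ φ, Q V b₁ φ = Q V b₂ φ := fun φ =>
    le_antisymm (Q_congr hp₁ φ (h21 φ)) (Q_congr hp₂ φ (h12 φ))
  have a1 := Q_est hs₁ hp₁ hN hc hC hco₁ hup₁ u v ε₁ hε₁ h₁ 1 (by norm_num)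
  have a2 := Q_est hs₁ hp₁ hN hc hC hco₁ hup₁ u v ε₁ hε₁ h₁ (-1) (by norm_num)
  have a3 := Q_est hs₂ hp₂ hN hc hC hco₂ hup₂ v u ε₂ hε₂ h₂ 1 (by norm_num)
  have a4 := Q_est hs₂ hp₂ hN hc hC hco₂ hup₂ v u ε₂ hε₂ h₂ (-1) (by norm_num)
  have e1 : Q V b₁ (u + (1 : ℝ) • v) = Q V b₂ (v + (1 : ℝ) • u) := by
    rw [hQ, one_smul, one_smul, add_comm]
  have e2 : Q V b₁ (u + (-1 : ℝ) • v) = Q V b₂ (v + (-1 : ℝ) • u) := by
    rw [hQ, ← Q_neg (V := V) (b := b₂) (v + (-1 : ℝ) • u)]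
    congr 1
    simp only [neg_smul, one_smul]
    abel
  rw [e1] at a1
  rw [e2] at a2
  have a1l := (abs_le.mp a1).1
  have a1r := (abs_le.mp a1).2
  have a2l := (abs_le.mp a2).1
  have a2r := (abs_le.mp a2).2
  have a3l := (abs_le.mp a3).1
  have a3r := (abs_le.mp a3).2
  have a4l := (abs_le.mp a4).1
  have a4r := (abs_le.mp a4).2
  rw [hs₂ v u] at a3l a3r a4l a4r
  rw [abs_le]
  constructor <;> linarith

end Crest.Agent.R080.Polar
end

-- ▼ part R080/Polar

/-!
Row 80, T3: polarization of the boundary data hypothesis.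
-/

set_option autoImplicit false

open MeasureTheory Filter
open scoped ContDiff Topology
open Crest.AnalysisR.VecCalc3 Crest.AnalysisR.PDE.Elasticity

noncomputable section
namespace Crest.Agent.R080.Polar

/-! ### basic calculus facts -/

theorem pderiv_add {f g : R3 → ℝ} (hf : ContDiff ℝ 1 f) (hg : ContDiff ℝ 1 g) (i : Fin 3) (x : R3) :
    pderiv (f + g) i x = pderiv f i x + pderiv g i x := by
  unfold pderiv
  rw [fderiv_add ((hf.differentiable one_ne_zero) x) ((hg.differentiable one_ne_zero) x)]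
  rfl

theorem pderiv_smul {f : R3 → ℝ} (hf : ContDiff ℝ 1 f) (c : ℝ) (i : Fin 3) (x : R3) :
    pderiv (c • f) i x = c * pderiv f i x := by
  unfold pderiv
  rw [fderiv_const_smul ((hf.differentiable one_ne_zero) x)]
  rfl

theorem pderiv_cont {f : R3 → ℝ} (hf : ContDiff ℝ 1 f) (i : Fin 3) : Continuous (pderiv f i) :=
  (hf.continuous_fderiv one_ne_zero).clm_apply continuous_const


theorem pd_ofReal {f : R3 → ℝ} (hf : ContDiff ℝ 1 f) (i : Fin 3) (x : R3) :
    pd i (fun y => (f y : ℂ)) x = (pderiv f i x : ℂ) := by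
  unfold pd pderiv
  have h := (Complex.ofRealCLM.hasFDerivAt (x := f x)).comp x
    ((hf.differentiable one_ne_zero) x).hasFDerivAt
  have h' : HasFDerivAt (fun y => (f y : ℂ)) (Complex.ofRealCLM.comp (fderiv ℝ f x)) x := h
  rw [h'.fderiv]
  rfl

theorem pd_re_im {u : R3 → ℂ} (hu : ContDiff ℝ 1 u) (i : Fin 3) (x : R3) :
    pd i u x = (pderiv (fun y => (u y).re) i x : ℂ) + (pderiv (fun y => (u y).im) i x : ℂ)
      * Complex.I := by
  have hd := ((hu.differentiable one_ne_zero) x).hasFDerivAt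
  have h1 : HasFDerivAt (fun y => (u y).re) (Complex.reCLM.comp (fderiv ℝ u x)) x :=
    (Complex.reCLM.hasFDerivAt (x := u x)).comp x hd
  have h2 : HasFDerivAt (fun y => (u y).im) (Complex.imCLM.comp (fderiv ℝ u x)) x :=
    (Complex.imCLM.hasFDerivAt (x := u x)).comp x hd
  unfold pd pderiv
  rw [h1.fderiv, h2.fderiv]
  exact (Complex.re_add_im _).symm

/-! ### real fields -/

/-- strain of a real field -/
def strR (f : Fin 3 → R3 → ℝ) (i j : Fin 3) (x : R3) : ℝ :=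
  (pderiv (f j) i x + pderiv (f i) j x) / 2

/-- divergence of a real field -/
def dvR (f : Fin 3 → R3 → ℝ) (x : R3) : ℝ := ∑ i, pderiv (f i) i x

/-- density of the bilinear form -/
def dens (P : Moduli) (f g : Fin 3 → R3 → ℝ) (x : R3) : ℝ :=
  P.lam x * dvR f x * dvR g x + 2 * P.mu x * ∑ i, ∑ j, strR f i j x * strR g i j x

/-- real bilinear form -/
def bR (Ω : Set R3) (P : Moduli) (f g : Fin 3 → R3 → ℝ) : ℝ := ∫ x in Ω, dens P f g x

/-- squared gradient norm -/
def gR (Ω : Set R3) (f : Fin 3 → R3 → ℝ) : ℝ := ∫ x in Ω, ∑ i, ∑ j, pderiv (f i) j x ^ 2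

theorem measG (G : Dom) : MeasurableSet G.Ω := by
  rw [G.eq]
  exact (isOpen_lt G.smooth.continuous continuous_const).measurableSet

theorem intG (G : Dom) {E : Type*} [NormedAddCommGroup E] {f : R3 → E} (hf : Continuous f) :
    IntegrableOn f G.Ω :=
  (hf.continuousOn.integrableOn_compact G.bdd.isCompact_closure).mono_set subset_closure

/-- `C¹` real fields -/
def EC : Submodule ℝ (Fin 3 → R3 → ℝ) where
  carrier := {f | ∀ i, ContDiff ℝ 1 (f i)}
  add_mem' := fun hf hg i => (hf i).add (hg i)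
  zero_mem' := fun _ => contDiff_const
  smul_mem' := fun c _ hf i => (hf i).const_smul c

/-- fields vanishing on the boundary -/
def V0 (G : Dom) : Submodule ℝ EC where
  carrier := {f | ∀ x ∈ frontier G.Ω, ∀ i, (f : Fin 3 → R3 → ℝ) i x = 0}
  add_mem' := by
    intro f g hf hg x hx i
    have h1 := hf x hx i
    have h2 := hg x hx i
    show (f : Fin 3 → R3 → ℝ) i x + (g : Fin 3 → R3 → ℝ) i x = 0
    rw [h1, h2, add_zero]
  zero_mem' := fun _ _ _ => rfl
  smul_mem' := by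
    intro c f hf x hx i
    show c * (f : Fin 3 → R3 → ℝ) i x = 0
    rw [hf x hx i, mul_zero]

theorem strR_cont {f : Fin 3 → R3 → ℝ} (hf : ∀ i, ContDiff ℝ 1 (f i)) (i j : Fin 3) :
    Continuous (strR f i j) :=
  ((pderiv_cont (hf j) i).add (pderiv_cont (hf i) j)).div_const 2

theorem dvR_cont {f : Fin 3 → R3 → ℝ} (hf : ∀ i, ContDiff ℝ 1 (f i)) : Continuous (dvR f) :=
  continuous_finsetSum _ fun i _ => pderiv_cont (hf i) i

theorem dens_cont (P : Moduli) {f g : Fin 3 → R3 → ℝ} (hf : ∀ i, ContDiff ℝ 1 (f i))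
    (hg : ∀ i, ContDiff ℝ 1 (g i)) : Continuous (dens P f g) := by
  unfold dens
  have h1 := P.smooth_lam.continuous
  have h2 := P.smooth_mu.continuous
  have h3 := dvR_cont hf
  have h4 := dvR_cont hg
  refine ((h1.mul h3).mul h4).add ((continuous_const.mul h2).mul ?_)
  exact continuous_finsetSum _ fun i _ => continuous_finsetSum _ fun j _ =>
    (strR_cont hf i j).mul (strR_cont hg i j)

theorem strR_add {f g : Fin 3 → R3 → ℝ} (hf : ∀ i, ContDiff ℝ 1 (f i))
    (hg : ∀ i, ContDiff ℝ 1 (g i)) (i j : Fin 3) (x : R3) :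
    strR (f + g) i j x = strR f i j x + strR g i j x := by
  unfold strR
  rw [Pi.add_apply, Pi.add_apply, pderiv_add (hf j) (hg j), pderiv_add (hf i) (hg i)]
  ring

theorem strR_smul {f : Fin 3 → R3 → ℝ} (hf : ∀ i, ContDiff ℝ 1 (f i)) (c : ℝ) (i j : Fin 3)
    (x : R3) : strR (c • f) i j x = c * strR f i j x := by
  unfold strR
  rw [Pi.smul_apply, Pi.smul_apply, pderiv_smul (hf j), pderiv_smul (hf i)]
  ring

theorem dvR_add {f g : Fin 3 → R3 → ℝ} (hf : ∀ i, ContDiff ℝ 1 (f i))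
    (hg : ∀ i, ContDiff ℝ 1 (g i)) (x : R3) : dvR (f + g) x = dvR f x + dvR g x := by
  unfold dvR
  rw [← Finset.sum_add_distrib]
  exact Finset.sum_congr rfl fun i _ => by rw [Pi.add_apply, pderiv_add (hf i) (hg i)]

theorem dvR_smul {f : Fin 3 → R3 → ℝ} (hf : ∀ i, ContDiff ℝ 1 (f i)) (c : ℝ)
    (x : R3) : dvR (c • f) x = c * dvR f x := by
  unfold dvR
  rw [Finset.mul_sum]
  exact Finset.sum_congr rfl fun i _ => by rw [Pi.smul_apply, pderiv_smul (hf i)]

theorem dens_symm (P : Moduli) (f g : Fin 3 → R3 → ℝ) (x : R3) : dens P f g x = dens P g f x := by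
  unfold dens
  have : (∑ i, ∑ j, strR f i j x * strR g i j x) = ∑ i, ∑ j, strR g i j x * strR f i j x :=
    Finset.sum_congr rfl fun i _ => Finset.sum_congr rfl fun j _ => mul_comm _ _
  rw [this]; ring

theorem dens_add_left (P : Moduli) {f g h : Fin 3 → R3 → ℝ} (hf : ∀ i, ContDiff ℝ 1 (f i))
    (hg : ∀ i, ContDiff ℝ 1 (g i)) (x : R3) :
    dens P (f + g) h x = dens P f h x + dens P g h x := by
  unfold dens
  simp only [dvR_add hf hg, strR_add hf hg, add_mul, Finset.sum_add_distrib]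
  ring

theorem dens_smul_left (P : Moduli) {f h : Fin 3 → R3 → ℝ} (hf : ∀ i, ContDiff ℝ 1 (f i))
    (c : ℝ) (x : R3) : dens P (c • f) h x = c * dens P f h x := by
  unfold dens
  simp only [dvR_smul hf, strR_smul hf, mul_assoc, ← Finset.mul_sum]
  ring

theorem bR_symm (Ω : Set R3) (P : Moduli) (f g : Fin 3 → R3 → ℝ) : bR Ω P f g = bR Ω P g f := by
  unfold bR; simp_rw [dens_symm P f g]

theorem bR_add_left (G : Dom) (P : Moduli) {f g h : Fin 3 → R3 → ℝ}
    (hf : ∀ i, ContDiff ℝ 1 (f i)) (hg : ∀ i, ContDiff ℝ 1 (g i)) (hh : ∀ i, ContDiff ℝ 1 (h i)) :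
    bR G.Ω P (f + g) h = bR G.Ω P f h + bR G.Ω P g h := by
  unfold bR
  simp_rw [dens_add_left P hf hg]
  exact integral_add (intG G (dens_cont P hf hh)) (intG G (dens_cont P hg hh))

theorem bR_smul_left (G : Dom) (P : Moduli) {f h : Fin 3 → R3 → ℝ}
    (hf : ∀ i, ContDiff ℝ 1 (f i)) (c : ℝ) :
    bR G.Ω P (c • f) h = c * bR G.Ω P f h := by
  unfold bR
  simp_rw [dens_smul_left P hf]
  exact integral_const_mul _ _

/-- the bilinear form as a bilinear map -/
def bL (G : Dom) (P : Moduli) : EC →ₗ[ℝ] EC →ₗ[ℝ] ℝ :=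
  LinearMap.mk₂ ℝ (fun f g => bR G.Ω P f g)
    (fun f g h => bR_add_left G P f.2 g.2 h.2)
    (fun c f h => bR_smul_left G P f.2 c)
    (fun f g h => by
      show bR G.Ω P f (g + h) = _
      rw [bR_symm G.Ω P f, bR_add_left G P g.2 h.2 f.2, bR_symm G.Ω P g, bR_symm G.Ω P h])
    (fun c f h => by
      show bR G.Ω P f (c • (h : Fin 3 → R3 → ℝ)) = _
      rw [bR_symm G.Ω P f, bR_smul_left G P h.2, bR_symm G.Ω P h]; rfl)

theorem bL_apply (G : Dom) (P : Moduli) (f g : EC) : bL G P f g = bR G.Ω P f g := rfl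

/-! ### coercivity and boundedness -/

theorem trace_sq_le (e : Fin 3 → Fin 3 → ℝ) :
    (∑ i, e i i) ^ 2 ≤ 3 * ∑ i, ∑ j, e i j ^ 2 := by
  simp only [Fin.sum_univ_three]
  nlinarith [sq_nonneg (e 0 0 - e 1 1), sq_nonneg (e 0 0 - e 2 2), sq_nonneg (e 1 1 - e 2 2),
    sq_nonneg (e 0 1), sq_nonneg (e 0 2), sq_nonneg (e 1 0), sq_nonneg (e 1 2), sq_nonneg (e 2 0),
    sq_nonneg (e 2 1)]

theorem sym_sq_le (d : Fin 3 → Fin 3 → ℝ) :
    ∑ i, ∑ j, ((d i j + d j i) / 2) ^ 2 ≤ ∑ i, ∑ j, d i j ^ 2 := by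
  simp only [Fin.sum_univ_three]
  nlinarith [sq_nonneg (d 0 1 - d 1 0), sq_nonneg (d 0 2 - d 2 0), sq_nonneg (d 1 2 - d 2 1)]

theorem dens_lower (P : Moduli) (f : Fin 3 → R3 → ℝ) (x : R3) (c : ℝ) (h1 : c ≤ 2 * P.mu x)
    (h2 : c ≤ 3 * P.lam x + 2 * P.mu x) :
    c * ∑ i, ∑ j, strR f i j x ^ 2 ≤ dens P f f x := by
  have hd : dvR f x = ∑ i, strR f i i x := by
    unfold dvR strR; exact Finset.sum_congr rfl fun i _ => by ring
  have ht := trace_sq_le fun i j => strR f i j x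
  have hS : 0 ≤ ∑ i, ∑ j, strR f i j x ^ 2 :=
    Finset.sum_nonneg fun i _ => Finset.sum_nonneg fun j _ => sq_nonneg _
  unfold dens
  rw [hd]
  simp only [← sq]
  set S := ∑ i, ∑ j, strR f i j x ^ 2
  set T := ∑ i, strR f i i x
  have hT := sq_nonneg T
  have : P.lam x * T * T = P.lam x * T ^ 2 := by ring
  rw [this]
  by_cases hl : 0 ≤ P.lam x
  · nlinarith [mul_nonneg hl hT]
  · push Not at hl
    nlinarith

theorem dens_upper (P : Moduli) (f : Fin 3 → R3 → ℝ) (x : R3) (C : ℝ)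
    (h1 : 3 * |P.lam x| + 2 * P.mu x ≤ C) :
    dens P f f x ≤ C * ∑ i, ∑ j, pderiv (f i) j x ^ 2 := by
  have ht : dvR f x ^ 2 ≤ 3 * ∑ i, ∑ j, pderiv (f i) j x ^ 2 :=
    trace_sq_le fun i j => pderiv (f i) j x
  have hs : ∑ i, ∑ j, strR f i j x ^ 2 ≤ ∑ i, ∑ j, pderiv (f i) j x ^ 2 := by
    have h := sym_sq_le fun i j => pderiv (f i) j x
    refine le_trans (le_of_eq ?_) h
    refine Finset.sum_congr rfl fun i _ => Finset.sum_congr rfl fun j _ => ?_
    unfold strR; ring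
  have hS : 0 ≤ ∑ i, ∑ j, strR f i j x ^ 2 :=
    Finset.sum_nonneg fun i _ => Finset.sum_nonneg fun j _ => sq_nonneg _
  unfold dens
  simp only [← sq]
  set D := ∑ i, ∑ j, pderiv (f i) j x ^ 2
  set S := ∑ i, ∑ j, strR f i j x ^ 2
  have hT := sq_nonneg (dvR f x)
  have hmu := P.mu_pos x
  have e1 : P.lam x * dvR f x * dvR f x ≤ |P.lam x| * (3 * D) := by
    calc P.lam x * dvR f x * dvR f x = P.lam x * dvR f x ^ 2 := by ring
      _ ≤ |P.lam x| * dvR f x ^ 2 := mul_le_mul_of_nonneg_right (le_abs_self _) hT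
      _ ≤ |P.lam x| * (3 * D) := mul_le_mul_of_nonneg_left ht (abs_nonneg _)
  have e2 : 2 * P.mu x * S ≤ 2 * P.mu x * D := mul_le_mul_of_nonneg_left hs (by linarith)
  have hD : 0 ≤ D := hS.trans hs
  have e3 : (3 * |P.lam x| + 2 * P.mu x) * D ≤ C * D := mul_le_mul_of_nonneg_right h1 hD
  nlinarith

theorem exists_lower (G : Dom) (P : Moduli) : ∃ c : ℝ, 0 < c ∧ ∀ x ∈ G.Ω,
    c ≤ 2 * P.mu x ∧ c ≤ 3 * P.lam x + 2 * P.mu x := by
  have hK : IsCompact (closure G.Ω) := G.bdd.isCompact_closure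
  have hne : (closure G.Ω).Nonempty := G.conn.nonempty.closure
  have hc : Continuous fun x => min (2 * P.mu x) (3 * P.lam x + 2 * P.mu x) := by
    have h1 := P.smooth_lam.continuous
    have h2 := P.smooth_mu.continuous
    fun_prop
  obtain ⟨x0, _, hx0⟩ := hK.exists_isMinOn hne hc.continuousOn
  refine ⟨min (2 * P.mu x0) (3 * P.lam x0 + 2 * P.mu x0), ?_, fun x hx => ?_⟩
  · exact lt_min (by linarith [P.mu_pos x0]) (P.bulk_pos x0)
  · have := hx0 (subset_closure hx)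
    simp only [Set.mem_ofPred_eq] at this
    exact ⟨this.trans (min_le_left _ _), this.trans (min_le_right _ _)⟩

theorem exists_upper (G : Dom) (P : Moduli) : ∃ C : ℝ, 0 < C ∧ ∀ x ∈ G.Ω,
    3 * |P.lam x| + 2 * P.mu x ≤ C := by
  have hK : IsCompact (closure G.Ω) := G.bdd.isCompact_closure
  have hne : (closure G.Ω).Nonempty := G.conn.nonempty.closure
  have hc : Continuous fun x => 3 * |P.lam x| + 2 * P.mu x := by
    have h1 := P.smooth_lam.continuous
    have h2 := P.smooth_mu.continuous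
    fun_prop
  obtain ⟨x0, _, hx0⟩ := hK.exists_isMaxOn hne hc.continuousOn
  refine ⟨3 * |P.lam x0| + 2 * P.mu x0, ?_, fun x hx => hx0 (subset_closure hx)⟩
  have := P.mu_pos x0
  positivity

theorem gR_nonneg (Ω : Set R3) (f : Fin 3 → R3 → ℝ) : 0 ≤ gR Ω f :=
  integral_nonneg fun _ => Finset.sum_nonneg fun _ _ => Finset.sum_nonneg fun _ _ => sq_nonneg _

theorem gR_integrable (G : Dom) {f : Fin 3 → R3 → ℝ} (hf : ∀ i, ContDiff ℝ 1 (f i)) :
    IntegrableOn (fun x => ∑ i, ∑ j, pderiv (f i) j x ^ 2) G.Ω :=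
  intG G (continuous_finsetSum _ fun i _ => continuous_finsetSum _ fun j _ =>
    (pderiv_cont (hf i) j).pow 2)

theorem str_integrable (G : Dom) {f : Fin 3 → R3 → ℝ} (hf : ∀ i, ContDiff ℝ 1 (f i)) :
    IntegrableOn (fun x => ∑ i, ∑ j, strR f i j x ^ 2) G.Ω :=
  intG G (continuous_finsetSum _ fun i _ => continuous_finsetSum _ fun j _ =>
    (strR_cont hf i j).pow 2)

theorem bR_upper (G : Dom) (P : Moduli) {C : ℝ}
    (hC : ∀ x ∈ G.Ω, 3 * |P.lam x| + 2 * P.mu x ≤ C) {f : Fin 3 → R3 → ℝ}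
    (hf : ∀ i, ContDiff ℝ 1 (f i)) : bR G.Ω P f f ≤ C * gR G.Ω f := by
  unfold bR gR
  rw [← integral_const_mul]
  exact setIntegral_mono_on (intG G (dens_cont P hf hf)) ((gR_integrable G hf).const_mul C)
    (measG G) fun x hx => dens_upper P f x C (hC x hx)

theorem bR_lower (G : Dom) (P : Moduli) {c : ℝ}
    (hc : ∀ x ∈ G.Ω, c ≤ 2 * P.mu x ∧ c ≤ 3 * P.lam x + 2 * P.mu x) {f : Fin 3 → R3 → ℝ}
    (hf : ∀ i, ContDiff ℝ 1 (f i)) :
    c * ∫ x in G.Ω, ∑ i, ∑ j, strR f i j x ^ 2 ≤ bR G.Ω P f f := by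
  unfold bR
  rw [← integral_const_mul]
  exact setIntegral_mono_on ((str_integrable G hf).const_mul c) (intG G (dens_cont P hf hf))
    (measG G) fun x hx => dens_lower P f x c (hc x hx).1 (hc x hx).2

/-! ### complexification -/

theorem strain_ofReal {f : Fin 3 → R3 → ℝ} (hf : ∀ i, ContDiff ℝ 1 (f i)) (i j : Fin 3) (x : R3) :
    strain (fun k y => (f k y : ℂ)) i j x = (strR f i j x : ℂ) := by
  unfold strain strR
  rw [pd_ofReal (hf j), pd_ofReal (hf i)]
  push_cast; ring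

theorem korn_real (G : Dom) {C : ℝ} (hC : ∀ v : Fin 3 → R3 → ℂ, (∀ i, ContDiff ℝ 1 (v i)) →
    (∀ x ∈ frontier G.Ω, ∀ i, v i x = 0) →
      (∫ x in G.Ω, ∑ i, ‖v i x‖ ^ 2 ≤ C * gradSq G.Ω v) ∧
      (gradSq G.Ω v ≤ C * ∫ x in G.Ω, ∑ i, ∑ j, ‖strain v i j x‖ ^ 2))
    {f : Fin 3 → R3 → ℝ} (hf : ∀ i, ContDiff ℝ 1 (f i))
    (h0 : ∀ x ∈ frontier G.Ω, ∀ i, f i x = 0) :
    gR G.Ω f ≤ C * ∫ x in G.Ω, ∑ i, ∑ j, strR f i j x ^ 2 := by
  have h := (hC (fun k y => (f k y : ℂ)) (fun i => Complex.ofRealCLM.contDiff.comp (hf i))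
    (fun x hx i => by simp [h0 x hx i])).2
  have e1 : gradSq G.Ω (fun k y => (f k y : ℂ)) = gR G.Ω f := by
    unfold gradSq gR
    congr 1; ext x
    refine Finset.sum_congr rfl fun i _ => Finset.sum_congr rfl fun j _ => ?_
    rw [pd_ofReal (hf i), Complex.norm_real, Real.norm_eq_abs, sq_abs]
  have e2 : (∫ x in G.Ω, ∑ i, ∑ j, ‖strain (fun k y => (f k y : ℂ)) i j x‖ ^ 2)
      = ∫ x in G.Ω, ∑ i, ∑ j, strR f i j x ^ 2 := by
    congr 1; ext x
    refine Finset.sum_congr rfl fun i _ => Finset.sum_congr rfl fun j _ => ?_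
    rw [strain_ofReal hf, Complex.norm_real, Real.norm_eq_abs, sq_abs]
  rwa [e1, e2] at h

/-- real part of a field -/
def rp (u : Fin 3 → R3 → ℂ) : Fin 3 → R3 → ℝ := fun i x => (u i x).re
/-- imaginary part of a field -/
def ip (u : Fin 3 → R3 → ℂ) : Fin 3 → R3 → ℝ := fun i x => (u i x).im

theorem rp_smooth {u : Fin 3 → R3 → ℂ} (hu : ∀ i, ContDiff ℝ 1 (u i)) (i : Fin 3) :
    ContDiff ℝ 1 (rp u i) := Complex.reCLM.contDiff.comp (hu i)

theorem ip_smooth {u : Fin 3 → R3 → ℂ} (hu : ∀ i, ContDiff ℝ 1 (u i)) (i : Fin 3) :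
    ContDiff ℝ 1 (ip u i) := Complex.imCLM.contDiff.comp (hu i)

theorem pd_decomp {u : Fin 3 → R3 → ℂ} (hu : ∀ i, ContDiff ℝ 1 (u i)) (i j : Fin 3) (x : R3) :
    pd j (u i) x = (pderiv (rp u i) j x : ℂ) + (pderiv (ip u i) j x : ℂ) * Complex.I :=
  pd_re_im (hu i) j x

theorem strain_decomp {u : Fin 3 → R3 → ℂ} (hu : ∀ i, ContDiff ℝ 1 (u i)) (i j : Fin 3) (x : R3) :
    strain u i j x = (strR (rp u) i j x : ℂ) + (strR (ip u) i j x : ℂ) * Complex.I := by
  unfold strain strR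
  rw [pd_decomp hu, pd_decomp hu]
  push_cast; ring

theorem divg_decomp {u : Fin 3 → R3 → ℂ} (hu : ∀ i, ContDiff ℝ 1 (u i)) (x : R3) :
    divg u x = (dvR (rp u) x : ℂ) + (dvR (ip u) x : ℂ) * Complex.I := by
  unfold divg dvR
  simp only [pd_decomp hu]
  push_cast
  rw [Finset.sum_add_distrib, ← Finset.sum_mul]

theorem BE_decomp (G : Dom) (P : Moduli) {u v : Fin 3 → R3 → ℂ} (hu : ∀ i, ContDiff ℝ 1 (u i))
    (hv : ∀ i, ContDiff ℝ 1 (v i)) :
    BE G.Ω P u v = ((bR G.Ω P (rp u) (rp v) - bR G.Ω P (ip u) (ip v) : ℝ) : ℂ)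
      + ((bR G.Ω P (rp u) (ip v) + bR G.Ω P (ip u) (rp v) : ℝ) : ℂ) * Complex.I := by
  have hru := rp_smooth hu
  have hiu := ip_smooth hu
  have hrv := rp_smooth hv
  have hiv := ip_smooth hv
  have key : ∀ x, (P.lam x : ℂ) * divg u x * divg v x
      + 2 * (P.mu x : ℂ) * ∑ i, ∑ j, strain u i j x * strain v i j x
      = ((dens P (rp u) (rp v) x - dens P (ip u) (ip v) x : ℝ) : ℂ)
      + ((dens P (rp u) (ip v) x + dens P (ip u) (rp v) x : ℝ) : ℂ) * Complex.I := by
    intro x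
    have hs : (∑ i, ∑ j, strain u i j x * strain v i j x)
        = ((∑ i, ∑ j, strR (rp u) i j x * strR (rp v) i j x
            - ∑ i, ∑ j, strR (ip u) i j x * strR (ip v) i j x : ℝ) : ℂ)
          + ((∑ i, ∑ j, strR (rp u) i j x * strR (ip v) i j x
            + ∑ i, ∑ j, strR (ip u) i j x * strR (rp v) i j x : ℝ) : ℂ) * Complex.I := by
      push_cast
      simp only [← Finset.sum_sub_distrib, ← Finset.sum_add_distrib, Finset.sum_mul]
      refine Finset.sum_congr rfl fun i _ => Finset.sum_congr rfl fun j _ => ?_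
      rw [strain_decomp hu, strain_decomp hv]
      linear_combination (strR (ip u) i j x : ℂ) * (strR (ip v) i j x : ℂ) * Complex.I_mul_I
    rw [hs, divg_decomp hu, divg_decomp hv]
    unfold dens
    push_cast
    linear_combination (P.lam x : ℂ) * (dvR (ip u) x : ℂ) * (dvR (ip v) x : ℂ) * Complex.I_mul_I
  have i1 := intG G (dens_cont P hru hrv)
  have i2 := intG G (dens_cont P hiu hiv)
  have i3 := intG G (dens_cont P hru hiv)
  have i4 := intG G (dens_cont P hiu hrv)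
  unfold BE bR
  simp_rw [key]
  rw [integral_add, integral_mul_const, integral_complex_ofReal, integral_complex_ofReal,
    integral_sub i1 i2, integral_add i3 i4]
  · exact (i1.sub i2).ofReal
  · exact ((i3.add i4).ofReal).mul_const _

theorem gradSq_decomp (G : Dom) {u : Fin 3 → R3 → ℂ} (hu : ∀ i, ContDiff ℝ 1 (u i)) :
    gradSq G.Ω u = gR G.Ω (rp u) + gR G.Ω (ip u) := by
  unfold gradSq gR
  rw [← integral_add (gR_integrable G (rp_smooth hu)) (gR_integrable G (ip_smooth hu))]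
  congr 1; ext x
  simp only [← Finset.sum_add_distrib]
  refine Finset.sum_congr rfl fun i _ => Finset.sum_congr rfl fun j _ => ?_
  rw [pd_decomp hu, ← Complex.normSq_eq_norm_sq, Complex.normSq_add_mul_I]

/-! ### the hypothesis for real fields -/

/-- a family of components as an `R3`-valued field -/
def toF (f : Fin 3 → R3 → ℝ) (x : R3) : R3 := WithLp.toLp 2 fun i => f i x

theorem toF_apply (f : Fin 3 → R3 → ℝ) (x : R3) (i : Fin 3) : toF f x i = f i x := rfl

theorem toF_smooth {f : Fin 3 → R3 → ℝ} (hf : ∀ i, ContDiff ℝ 1 (f i)) : ContDiff ℝ 1 (toF f) :=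
  contDiff_euclidean.2 fun i => hf i

theorem energy_toF (Ω : Set R3) (P : Moduli) (f : Fin 3 → R3 → ℝ) :
    elasticEnergy Ω P.lam P.mu (toF f) = bR Ω P f f := by
  unfold elasticEnergy bR
  congr 1; ext x
  unfold energyDensity dens div3 symGrad dvR strR
  simp only [toF_apply, sq]
  ring

theorem hyp_real (G : Dom) (P₁ P₂ : Moduli)
    (h : ∀ φ : R3 → R3, ContDiff ℝ 1 φ → ∀ u, IsCompetitor G.Ω φ u → ∀ ε : ℝ, 0 < ε →
      ∃ w, IsCompetitor G.Ω φ w ∧
        elasticEnergy G.Ω P₂.lam P₂.mu w < elasticEnergy G.Ω P₁.lam P₁.mu u + ε)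
    (φ w : EC) (hw : w ∈ V0 G) (ε : ℝ) (hε : 0 < ε) :
    ∃ w' ∈ V0 G, bL G P₂ (φ + w') (φ + w') < bL G P₁ (φ + w) (φ + w) + ε := by
  obtain ⟨g, ⟨hg1, hg2⟩, hg3⟩ := h (toF φ) (toF_smooth φ.2) (toF ((φ + w : EC) : Fin 3 → R3 → ℝ))
    ⟨toF_smooth (φ + w).2, fun x hx => by
      ext i
      rw [toF_apply, toF_apply]
      show (φ : Fin 3 → R3 → ℝ) i x + (w : Fin 3 → R3 → ℝ) i x = _
      rw [hw x hx i, add_zero]⟩ ε hε
  have hgc : ∀ i, ContDiff ℝ 1 fun x => g x i := fun i => contDiff_euclidean.1 hg1 i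
  let g' : EC := ⟨fun i x => g x i, hgc⟩
  have hgg : g = toF (g' : Fin 3 → R3 → ℝ) := by ext x i; rfl
  refine ⟨g' - φ, fun x hx i => ?_, ?_⟩
  · show (g' : Fin 3 → R3 → ℝ) i x - (φ : Fin 3 → R3 → ℝ) i x = 0
    have := congrArg (fun y : R3 => y i) (hg2 x hx)
    simp only [toF_apply] at this
    show g x i - (φ : Fin 3 → R3 → ℝ) i x = 0
    rw [this, sub_self]
  · rw [add_sub_cancel, bL_apply, bL_apply, ← energy_toF, ← energy_toF, ← hgg]
    exact hg3

theorem polar_real (hK : StmtKorn) (G : Dom) (P₁ P₂ : Moduli) (h : SameData G P₁ P₂) :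
    ∃ C : ℝ, 0 < C ∧ ∀ (u v : EC) (ε₁ ε₂ : ℝ), 0 ≤ ε₁ → 0 ≤ ε₂ →
      (∀ w ∈ V0 G, |bL G P₁ u w| ≤ ε₁ * Real.sqrt (gR G.Ω w)) →
      (∀ w ∈ V0 G, |bL G P₂ v w| ≤ ε₂ * Real.sqrt (gR G.Ω w)) →
      |bL G P₁ u v - bL G P₂ u v| ≤ C * (ε₁ ^ 2 + ε₂ ^ 2 + ε₁ * Real.sqrt (gR G.Ω v)
        + ε₂ * Real.sqrt (gR G.Ω u)) := by
  obtain ⟨CK, hCK, hKorn⟩ := hK G
  obtain ⟨c₁, hc₁, hl₁⟩ := exists_lower G P₁
  obtain ⟨c₂, hc₂, hl₂⟩ := exists_lower G P₂
  obtain ⟨C₁, hC₁, hu₁⟩ := exists_upper G P₁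
  obtain ⟨C₂, hC₂, hu₂⟩ := exists_upper G P₂
  have hsq : ∀ f : EC, Real.sqrt (gR G.Ω f) ^ 2 = gR G.Ω f := fun f =>
    Real.sq_sqrt (gR_nonneg _ _)
  have hstr : ∀ f : EC, 0 ≤ ∫ x in G.Ω, ∑ i, ∑ j, strR f i j x ^ 2 := fun f =>
    integral_nonneg fun _ => Finset.sum_nonneg fun _ _ => Finset.sum_nonneg fun _ _ => sq_nonneg _
  set c := min c₁ c₂ / CK with hc
  have hmin : 0 < min c₁ c₂ := lt_min hc₁ hc₂
  have hc0 : 0 < c := div_pos hmin hCK
  have hco : ∀ (P : Moduli) (cP : ℝ), min c₁ c₂ ≤ cP →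
      (∀ x ∈ G.Ω, cP ≤ 2 * P.mu x ∧ cP ≤ 3 * P.lam x + 2 * P.mu x) →
      ∀ w ∈ V0 G, c * Real.sqrt (gR G.Ω w) ^ 2 ≤ bL G P w w := by
    intro P cP hcP hl w hw
    rw [hsq, bL_apply]
    have h1 := korn_real G hKorn w.2 hw
    have h2 := bR_lower G P hl w.2
    have h3 := hstr w
    calc c * gR G.Ω w ≤ c * (CK * ∫ x in G.Ω, ∑ i, ∑ j, strR w i j x ^ 2) :=
          mul_le_mul_of_nonneg_left h1 hc0.le
      _ = min c₁ c₂ * ∫ x in G.Ω, ∑ i, ∑ j, strR w i j x ^ 2 := by
          rw [hc]; field_simp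
      _ ≤ cP * ∫ x in G.Ω, ∑ i, ∑ j, strR w i j x ^ 2 := mul_le_mul_of_nonneg_right hcP h3
      _ ≤ _ := h2
  have hnn : ∀ (P : Moduli) (cP : ℝ), 0 < cP →
      (∀ x ∈ G.Ω, cP ≤ 2 * P.mu x ∧ cP ≤ 3 * P.lam x + 2 * P.mu x) →
      ∀ w, 0 ≤ bL G P w w := by
    intro P cP hcP hl w
    exact le_trans (mul_nonneg hcP.le (hstr w)) (bR_lower G P hl w.2)
  have hup : ∀ (P : Moduli) (CP : ℝ), CP ≤ max C₁ C₂ →
      (∀ x ∈ G.Ω, 3 * |P.lam x| + 2 * P.mu x ≤ CP) →
      ∀ v, bL G P v v ≤ max C₁ C₂ * Real.sqrt (gR G.Ω v) ^ 2 := by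
    intro P CP hCP hu v
    rw [hsq, bL_apply]
    exact (bR_upper G P hu v.2).trans (mul_le_mul_of_nonneg_right hCP (gR_nonneg _ _))
  have hCm : 0 < max C₁ C₂ := lt_max_of_lt_left hC₁
  refine ⟨cA c (max C₁ C₂), ?_, fun u v ε₁ ε₂ hε₁ hε₂ h₁ h₂ => ?_⟩
  · unfold cA; positivity
  · exact abstract_polar (V := V0 G) (N := fun f : EC => Real.sqrt (gR G.Ω f))
      (fun u v => bR_symm _ _ _ _) (fun u v => bR_symm _ _ _ _)
      (hnn P₁ c₁ hc₁ hl₁) (hnn P₂ c₂ hc₂ hl₂) (fun _ => Real.sqrt_nonneg _) hc0 hCm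
      (hco P₁ c₁ (min_le_left _ _) hl₁) (hco P₂ c₂ (min_le_right _ _) hl₂)
      (hup P₁ C₁ (le_max_left _ _) hu₁) (hup P₂ C₂ (le_max_right _ _) hu₂)
      (fun φ w hw ε hε => hyp_real G P₁ P₂ (fun φ hφ => (h φ hφ).1) φ w hw ε hε)
      (fun φ w hw ε hε => hyp_real G P₂ P₁ (fun φ hφ => (h φ hφ).2) φ w hw ε hε)
      u v ε₁ ε₂ hε₁ hε₂ h₁ h₂

/-- weak residual bounds pass to real and imaginary parts -/
theorem weakRes_real (G : Dom) (P : Moduli) {u : Fin 3 → R3 → ℂ} (hu : ∀ i, ContDiff ℝ 1 (u i))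
    {ε : ℝ} (h : WeakRes G P u ε) (w : EC) (hw : w ∈ V0 G) :
    |bR G.Ω P (rp u) w| ≤ ε * Real.sqrt (gR G.Ω w) ∧
    |bR G.Ω P (ip u) w| ≤ ε * Real.sqrt (gR G.Ω w) := by
  have hwc : ∀ i, ContDiff ℝ 1 fun x => ((w : Fin 3 → R3 → ℝ) i x : ℂ) := fun i =>
    Complex.ofRealCLM.contDiff.comp (w.2 i)
  have h1 := h (fun i x => ((w : Fin 3 → R3 → ℝ) i x : ℂ)) hwc
    (fun x hx i => by simp [hw x hx i])
  have er : rp (fun i x => ((w : Fin 3 → R3 → ℝ) i x : ℂ)) = w := by
    ext i x; simp [rp]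
  have ei : ip (fun i x => ((w : Fin 3 → R3 → ℝ) i x : ℂ)) = 0 := by
    ext i x; simp [ip]
  have hz : ∀ f : Fin 3 → R3 → ℝ, bR G.Ω P f 0 = 0 := by
    intro f
    have h0 : (0 : Fin 3 → R3 → ℝ) = (0 : ℝ) • (0 : Fin 3 → R3 → ℝ) := by simp
    rw [bR_symm, h0, bR_smul_left G P (f := (0 : Fin 3 → R3 → ℝ)) (h := f)
      (fun i => (contDiff_const : ContDiff ℝ 1 fun _ : R3 => (0 : ℝ))) 0, zero_mul]
  have hgz : gR G.Ω (0 : Fin 3 → R3 → ℝ) = 0 := by
    unfold gR
    have : ∀ x, (∑ i, ∑ j, pderiv ((0 : Fin 3 → R3 → ℝ) i) j x ^ 2) = 0 := by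
      intro x
      refine Finset.sum_eq_zero fun i _ => Finset.sum_eq_zero fun j _ => ?_
      have : pderiv ((0 : Fin 3 → R3 → ℝ) i) j x = 0 := by
        unfold pderiv
        have : fderiv ℝ ((0 : Fin 3 → R3 → ℝ) i) x = 0 := fderiv_const_apply (0 : ℝ)
        rw [this]; rfl
      rw [this]; simp
    simp_rw [this]; simp
  rw [BE_decomp G P hu hwc, gradSq_decomp G hwc, er, ei, hz, hz, hgz, add_zero, sub_zero,
    zero_add] at h1
  constructor
  · refine le_trans ?_ h1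
    have := Complex.abs_re_le_norm (((bR G.Ω P (rp u) w : ℝ) : ℂ)
      + ((bR G.Ω P (ip u) w : ℝ) : ℂ) * Complex.I)
    simpa using this
  · refine le_trans ?_ h1
    have := Complex.abs_im_le_norm (((bR G.Ω P (rp u) w : ℝ) : ℂ)
      + ((bR G.Ω P (ip u) w : ℝ) : ℂ) * Complex.I)
    simpa using this

end Crest.Agent.R080.Polar

namespace Crest.Agent.R080
open Polar

theorem t_Polar (hK : StmtKorn) : StmtPolar := by
  intro G P₁ P₂ hdata
  obtain ⟨C, hC, hmain⟩ := polar_real hK G P₁ P₂ hdata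
  refine ⟨4 * C, by positivity, ?_⟩
  intro u v hu hv ε₁ ε₂ hε₁ hε₂ hwu hwv
  have hru := rp_smooth hu
  have hiu := ip_smooth hu
  have hrv := rp_smooth hv
  have hiv := ip_smooth hv
  have su : Real.sqrt (gR G.Ω (rp u)) ≤ Real.sqrt (gradSq G.Ω u) := by
    rw [gradSq_decomp G hu]; exact Real.sqrt_le_sqrt (by linarith [gR_nonneg G.Ω (ip u)])
  have su' : Real.sqrt (gR G.Ω (ip u)) ≤ Real.sqrt (gradSq G.Ω u) := by
    rw [gradSq_decomp G hu]; exact Real.sqrt_le_sqrt (by linarith [gR_nonneg G.Ω (rp u)])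
  have sv : Real.sqrt (gR G.Ω (rp v)) ≤ Real.sqrt (gradSq G.Ω v) := by
    rw [gradSq_decomp G hv]; exact Real.sqrt_le_sqrt (by linarith [gR_nonneg G.Ω (ip v)])
  have sv' : Real.sqrt (gR G.Ω (ip v)) ≤ Real.sqrt (gradSq G.Ω v) := by
    rw [gradSq_decomp G hv]; exact Real.sqrt_le_sqrt (by linarith [gR_nonneg G.Ω (rp v)])
  set X := ε₁ ^ 2 + ε₂ ^ 2 + ε₁ * Real.sqrt (gradSq G.Ω v) + ε₂ * Real.sqrt (gradSq G.Ω u)
  have bound : ∀ f g : EC, Real.sqrt (gR G.Ω f) ≤ Real.sqrt (gradSq G.Ω u) →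
      Real.sqrt (gR G.Ω g) ≤ Real.sqrt (gradSq G.Ω v) →
      (∀ w ∈ V0 G, |bL G P₁ f w| ≤ ε₁ * Real.sqrt (gR G.Ω w)) →
      (∀ w ∈ V0 G, |bL G P₂ g w| ≤ ε₂ * Real.sqrt (gR G.Ω w)) →
      |bR G.Ω P₁ f g - bR G.Ω P₂ f g| ≤ C * X := by
    intro f g h1 h2 h3 h4
    refine (hmain f g ε₁ ε₂ hε₁ hε₂ h3 h4).trans (mul_le_mul_of_nonneg_left ?_ hC.le)
    have := mul_le_mul_of_nonneg_left h2 hε₁
    have := mul_le_mul_of_nonneg_left h1 hε₂
    simp only [X]; linarith
  have w1 := fun w hw => (weakRes_real G P₁ hu hwu w hw).1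
  have w2 := fun w hw => (weakRes_real G P₁ hu hwu w hw).2
  have w3 := fun w hw => (weakRes_real G P₂ hv hwv w hw).1
  have w4 := fun w hw => (weakRes_real G P₂ hv hwv w hw).2
  have b1 := bound ⟨rp u, hru⟩ ⟨rp v, hrv⟩ su sv w1 w3
  have b2 := bound ⟨ip u, hiu⟩ ⟨ip v, hiv⟩ su' sv' w2 w4
  have b3 := bound ⟨rp u, hru⟩ ⟨ip v, hiv⟩ su sv' w1 w4
  have b4 := bound ⟨ip u, hiu⟩ ⟨rp v, hrv⟩ su' sv w2 w3
  simp only at b1 b2 b3 b4
  rw [BE_decomp G P₁ hu hv, BE_decomp G P₂ hu hv]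
  set r1 := bR G.Ω P₁ (rp u) (rp v) - bR G.Ω P₂ (rp u) (rp v)
  set r2 := bR G.Ω P₁ (ip u) (ip v) - bR G.Ω P₂ (ip u) (ip v)
  set r3 := bR G.Ω P₁ (rp u) (ip v) - bR G.Ω P₂ (rp u) (ip v)
  set r4 := bR G.Ω P₁ (ip u) (rp v) - bR G.Ω P₂ (ip u) (rp v)
  have e : (((bR G.Ω P₁ (rp u) (rp v) - bR G.Ω P₁ (ip u) (ip v) : ℝ) : ℂ)
      + ((bR G.Ω P₁ (rp u) (ip v) + bR G.Ω P₁ (ip u) (rp v) : ℝ) : ℂ) * Complex.I)
      - (((bR G.Ω P₂ (rp u) (rp v) - bR G.Ω P₂ (ip u) (ip v) : ℝ) : ℂ)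
      + ((bR G.Ω P₂ (rp u) (ip v) + bR G.Ω P₂ (ip u) (rp v) : ℝ) : ℂ) * Complex.I)
      = ((r1 - r2 : ℝ) : ℂ) + ((r3 + r4 : ℝ) : ℂ) * Complex.I := by
    simp only [r1, r2, r3, r4]; push_cast; ring
  rw [e]
  calc ‖((r1 - r2 : ℝ) : ℂ) + ((r3 + r4 : ℝ) : ℂ) * Complex.I‖
      ≤ ‖((r1 - r2 : ℝ) : ℂ)‖ + ‖((r3 + r4 : ℝ) : ℂ) * Complex.I‖ := norm_add_le _ _
    _ = |r1 - r2| + |r3 + r4| := by
        rw [norm_mul, Complex.norm_I, mul_one, Complex.norm_real, Complex.norm_real,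
          Real.norm_eq_abs, Real.norm_eq_abs]
    _ ≤ (|r1| + |r2|) + (|r3| + |r4|) := add_le_add (abs_sub _ _) (abs_add_le _ _)
    _ ≤ 4 * C * X := by linarith

end Crest.Agent.R080
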