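import Mathlib

-- ▼ part R080/SeeleyCoef
section

/-!
Row 80, T1 (a): Seeley coefficients. There is a sequence `c` with `∑ |c_j| R^j < ∞` for all `R`,
`∑ c_j = 1`, `∑ c_j 2^{jk} = 0` for `k ≥ 1`.
-/

set_option autoImplicit false

open Filter Topology

noncomputable section
namespace Crest.Agent.R080.Seeley

/-- `d_0 = 1`, `d_{j+1} = - d_j 2^{-j}/(1-2^{-(j+1)})` -/
def dco : ℕ → ℝ
  | 0 => 1
  | j + 1 => -(dco j * (1 / 2) ^ j / (1 - (1 / 2) ^ (j + 1)))

theorem one_sub_pos (j : ℕ) : (1 / 2 : ℝ) ≤ 1 - (1 / 2) ^ (j + 1) := by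
  have : (1 / 2 : ℝ) ^ (j + 1) ≤ (1 / 2) ^ 1 :=
    pow_le_pow_of_le_one (by norm_num) (by norm_num) (by omega)
  linarith [this, pow_one (1 / 2 : ℝ)]

theorem dco_succ (j : ℕ) :
    dco (j + 1) * (1 - (1 / 2) ^ (j + 1)) = -(dco j * (1 / 2) ^ j) := by
  have h := one_sub_pos j
  have h' : (1 - (1 / 2 : ℝ) ^ (j + 1)) ≠ 0 := by linarith
  rw [dco, neg_mul, div_mul_cancel₀ _ h']

theorem dco_ne (j : ℕ) : dco j ≠ 0 := by
  induction j with
  | zero => simp [dco]
  | succ j ih =>
    have h := one_sub_pos j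
    have h' : (1 - (1 / 2 : ℝ) ^ (j + 1)) ≠ 0 := by linarith
    rw [dco]
    exact neg_ne_zero.mpr (div_ne_zero (mul_ne_zero ih (by positivity)) h')

theorem abs_dco_succ_le (j : ℕ) : |dco (j + 1)| ≤ |dco j| * (2 * (1 / 2) ^ j) := by
  have h := one_sub_pos j
  have h' : 0 < (1 - (1 / 2 : ℝ) ^ (j + 1)) := by linarith
  have e := congrArg abs (dco_succ j)
  rw [abs_mul, abs_neg, abs_mul, abs_of_pos h', abs_of_pos (by positivity : (0 : ℝ) < (1 / 2) ^ j)] at e
  nlinarith [abs_nonneg (dco (j + 1)), abs_nonneg (dco j)]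

theorem summable_dco (R : ℝ) : Summable fun j => |dco j| * R ^ j := by
  by_cases hR : R = 0
  · subst hR
    refine summable_of_ne_finset_zero (s := {0}) ?_
    intro j hj
    simp at hj
    simp [hj]
  refine summable_of_ratio_test_tendsto_lt_one (l := 0) (by norm_num) ?_ ?_
  · exact Eventually.of_forall fun j => mul_ne_zero (abs_ne_zero.mpr (dco_ne j)) (pow_ne_zero _ hR)
  · have hlim : Tendsto (fun j : ℕ => (2 * |R|) * (1 / 2 : ℝ) ^ j) atTop (𝓝 0) := by
      simpa using (tendsto_pow_atTop_nhds_zero_of_lt_one (r := (1 / 2 : ℝ)) (by norm_num)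
        (by norm_num)).const_mul (2 * |R|)
    refine squeeze_zero (fun j => by positivity) (fun j => ?_) hlim
    have hd : 0 < |dco j| := abs_pos.mpr (dco_ne j)
    have hRp : 0 < |R| ^ j := by positivity
    simp only [Real.norm_eq_abs, abs_mul, abs_abs, abs_pow]
    rw [div_le_iff₀ (by positivity)]
    have := abs_dco_succ_le j
    calc |dco (j + 1)| * |R| ^ (j + 1) ≤ (|dco j| * (2 * (1 / 2) ^ j)) * |R| ^ (j + 1) := by gcongr
      _ = 2 * |R| * (1 / 2) ^ j * (|dco j| * |R| ^ j) := by ring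

theorem summable_dco' (z : ℝ) : Summable fun j => dco j * z ^ j := by
  refine Summable.of_norm ?_
  have := summable_dco |z|
  refine this.congr fun j => ?_
  simp [abs_mul, abs_pow]

/-- the entire function `∑ d_j z^j` -/
def SS (z : ℝ) : ℝ := ∑' j, dco j * z ^ j

theorem SS_eq (z : ℝ) : SS z = (1 - z) * SS (z / 2) := by
  have h1 := summable_dco' z
  have h2 := summable_dco' (z / 2)
  have h3 : Summable fun j => z * (dco j * (z / 2) ^ j) := h2.mul_left z
  unfold SS
  rw [sub_mul, one_mul, ← tsum_mul_left]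
  rw [h1.tsum_eq_zero_add, h2.tsum_eq_zero_add]
  have h1' := (summable_nat_add_iff 1).mpr h1
  have h2' := (summable_nat_add_iff 1).mpr h2
  have : (∑' j, dco (j + 1) * z ^ (j + 1)) =
      (∑' j, dco (j + 1) * (z / 2) ^ (j + 1)) - ∑' j, z * (dco j * (z / 2) ^ j) := by
    rw [← h2'.tsum_sub h3]
    congr 1
    ext j
    have e := dco_succ j
    have : dco (j + 1) = dco (j + 1) * (1 / 2) ^ (j + 1) - dco j * (1 / 2) ^ j := by linarith
    rw [div_pow, div_pow, pow_succ z j]
    have e2 : dco (j + 1) * (z ^ j * z) =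
        (dco (j + 1) * (1 / 2) ^ (j + 1) - dco j * (1 / 2) ^ j) * (z ^ j * z) := by rw [← this]
    rw [e2]
    simp only [one_div, inv_pow]
    ring
  rw [this]
  ring

theorem SS_pow (k : ℕ) : SS (2 ^ k) = 0 := by
  induction k with
  | zero => rw [SS_eq]; simp
  | succ k ih => rw [SS_eq, pow_succ, mul_div_assoc, div_self (by norm_num), mul_one, ih, mul_zero]

theorem SS_zero : SS 0 = 1 := by
  unfold SS
  rw [tsum_eq_single 0]
  · simp [dco]
  · intro j hj; simp [hj]

theorem SS_cont0 : Tendsto (fun n : ℕ => SS ((1 / 2) ^ n)) atTop (𝓝 (SS 0)) := by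
  unfold SS
  refine tendsto_tsum_of_dominated_convergence (bound := fun j => |dco j| * 1 ^ j)
    (summable_dco 1) ?_ ?_
  · intro j
    refine (Tendsto.pow ?_ j).const_mul _
    exact tendsto_pow_atTop_nhds_zero_of_lt_one (by norm_num) (by norm_num)
  · refine Eventually.of_forall fun n j => ?_
    rw [norm_mul, Real.norm_eq_abs, norm_pow, norm_pow, one_pow]
    have : ‖(1 / 2 : ℝ)‖ ≤ 1 := by norm_num
    have h1 : (‖(1 / 2 : ℝ)‖ ^ n) ^ j ≤ 1 := pow_le_one₀ (by positivity)
      (pow_le_one₀ (by positivity) this)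
    gcongr

theorem SS_half : SS (1 / 2) ≠ 0 := by
  intro h
  have hn : ∀ n : ℕ, SS ((1 / 2) ^ (n + 1)) = 0 := by
    intro n
    induction n with
    | zero => simpa using h
    | succ n ih =>
      have e := SS_eq ((1 / 2) ^ (n + 1))
      rw [ih] at e
      have : (1 - (1 / 2 : ℝ) ^ (n + 1)) ≠ 0 := by linarith [one_sub_pos n]
      have e2 := (mul_eq_zero.mp e.symm).resolve_left this
      rw [pow_succ, ← div_eq_mul_one_div]
      exact e2
  have h1 : Tendsto (fun n : ℕ => SS ((1 / 2) ^ (n + 1))) atTop (𝓝 (SS 0)) :=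
    SS_cont0.comp (tendsto_add_atTop_nat 1)
  simp only [hn, SS_zero] at h1
  have := tendsto_nhds_unique h1 tendsto_const_nhds
  norm_num at this

/-- Seeley coefficients -/
theorem exists_coef : ∃ c : ℕ → ℝ, (∀ k : ℕ, Summable fun j => |c j| * (2 ^ j) ^ k) ∧
    (∑' j, c j = 1) ∧ ∀ k : ℕ, 1 ≤ k → ∑' j, c j * (2 ^ j) ^ k = 0 := by
  refine ⟨fun j => dco j * (1 / 2) ^ j / SS (1 / 2), fun k => ?_, ?_, fun k hk => ?_⟩
  · have := (summable_dco (2 ^ k / 2)).div_const |SS (1 / 2)|
    refine this.congr fun j => ?_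
    rw [abs_div, abs_mul, abs_of_pos (by positivity : (0 : ℝ) < (1 / 2) ^ j), ← pow_mul,
      mul_comm j k, pow_mul, div_pow]
    simp only [one_div, inv_pow]
    ring
  · rw [tsum_div_const]
    exact div_self SS_half
  · have : ∀ j, dco j * (1 / 2) ^ j / SS (1 / 2) * (2 ^ j) ^ k
        = dco j * (2 ^ (k - 1)) ^ j / SS (1 / 2) := by
      intro j
      obtain ⟨k, rfl⟩ : ∃ k', k = k' + 1 := ⟨k - 1, by omega⟩
      rw [Nat.add_sub_cancel, ← pow_mul (2 : ℝ) k j, mul_comm k j, pow_mul, pow_succ]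
      simp only [one_div, inv_pow]
      field_simp
    simp only [this]
    rw [tsum_div_const]
    have h := SS_pow (k - 1)
    unfold SS at h
    rw [h, zero_div]

end Crest.Agent.R080.Seeley
end
private theorem rz_c3e7e2da65 : type_of% @_root_.Crest.Agent.R080.Seeley.dco.eq_def := @_root_.Crest.Agent.R080.Seeley.dco.eq_def -- L16
private theorem rz_a389111ea1 : type_of% @_root_.Crest.Agent.R080.Seeley.dco.eq_1 := @_root_.Crest.Agent.R080.Seeley.dco.eq_1 -- L16
end

-- ▼ part R080/SeeleyHalf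

/-!
Row 80, T1 (b): Seeley extension of smooth functions from a closed half space.
-/

set_option autoImplicit false

open Filter Topology Set
open scoped ContDiff

noncomputable section
namespace Crest.Agent.R080.Seeley

section series
variable {E G : Type*} [NormedAddCommGroup E] [NormedSpace ℝ E] [NormedAddCommGroup G]
  [NormedSpace ℝ G] [CompleteSpace G]

/-- termwise differentiation of a series within a convex set -/
theorem hasFDerivWithinAt_tsum_of_convex {s : Set E} (hs : Convex ℝ s) {f : ℕ → E → G}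
    {f' : ℕ → E → (E →L[ℝ] G)} {u : ℕ → ℝ} (hu : Summable u)
    (hf : ∀ j, ∀ x ∈ s, HasFDerivWithinAt (f j) (f' j x) s x)
    (hb : ∀ j, ∀ x ∈ s, ‖f' j x‖ ≤ u j)
    (hsum : ∀ x ∈ s, Summable fun j => f j x) :
    ∀ x ∈ s, HasFDerivWithinAt (fun y => ∑' j, f j y) (∑' j, f' j x) s x := by
  intro x hx
  rw [hasFDerivWithinAt_iff_tendsto]
  have hf's : Summable fun j => f' j x := Summable.of_norm_bounded hu (fun j => hb j x hx)
  have key : Tendsto (fun x' => ∑' j, (‖x' - x‖⁻¹ • (f j x' - f j x - f' j x (x' - x)))) (𝓝[s] x)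
      (𝓝 (∑' _j : ℕ, (0 : G))) := by
    refine tendsto_tsum_of_dominated_convergence (bound := fun j => 2 * u j) (hu.mul_left 2) ?_ ?_
    · intro j
      have h := (hasFDerivWithinAt_iff_tendsto.mp (hf j x hx))
      rw [tendsto_zero_iff_norm_tendsto_zero]
      refine h.congr fun x' => ?_
      rw [norm_smul, norm_inv, norm_norm]
    · filter_upwards [self_mem_nhdsWithin] with x' hx' j
      have h1 : ‖f j x' - f j x‖ ≤ u j * ‖x' - x‖ :=
        hs.norm_image_sub_le_of_norm_hasFDerivWithin_le (hf j) (hb j) hx hx'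
      have h2 : ‖f' j x (x' - x)‖ ≤ u j * ‖x' - x‖ :=
        ((f' j x).le_opNorm _).trans (mul_le_mul_of_nonneg_right (hb j x hx) (norm_nonneg _))
      have h3 : ‖f j x' - f j x - f' j x (x' - x)‖ ≤ 2 * u j * ‖x' - x‖ :=
        (norm_sub_le _ _).trans (by linarith)
      rw [norm_smul, norm_inv, norm_norm]
      by_cases h0 : ‖x' - x‖ = 0
      · rw [h0, inv_zero, zero_mul]
        have := (norm_nonneg (f' j x)).trans (hb j x hx)
        positivity
      · have h0' : 0 < ‖x' - x‖ := lt_of_le_of_ne (norm_nonneg _) (Ne.symm h0)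
        rw [inv_mul_le_iff₀ h0']
        linarith
  rw [tsum_zero] at key
  rw [tendsto_zero_iff_norm_tendsto_zero] at key
  refine key.congr' ?_
  filter_upwards [self_mem_nhdsWithin] with x' hx'
  have e1 : (∑' j, f' j x) (x' - x) = ∑' j, f' j x (x' - x) :=
    ContinuousLinearMap.map_tsum (ContinuousLinearMap.apply ℝ G (x' - x)) hf's
  have hs1 : Summable fun j => f' j x (x' - x) :=
    hf's.mapL (ContinuousLinearMap.apply ℝ G (x' - x))
  rw [tsum_const_smul'', norm_smul, norm_inv, norm_norm, e1,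
    ← (hsum x' hx').tsum_sub (hsum x hx), ← ((hsum x' hx').sub (hsum x hx)).tsum_sub hs1]

end series

section glue
variable {E F : Type*} [NormedAddCommGroup E] [NormedSpace ℝ E] [NormedAddCommGroup F]
  [NormedSpace ℝ F]

/-- gluing of Taylor series on two closed sets -/
theorem taylor_union {n : ℕ∞ω} {f : E → F} {p : E → FormalMultilinearSeries ℝ E F} {s t : Set E}
    (hs : IsClosed s) (ht : IsClosed t) (h1 : HasFTaylorSeriesUpToOn n f p s)
    (h2 : HasFTaylorSeriesUpToOn n f p t) : HasFTaylorSeriesUpToOn n f p (s ∪ t) := by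
  have aux : ∀ (m : ℕ), m < n → ∀ x, ∀ u : Set E, IsClosed u → HasFTaylorSeriesUpToOn n f p u →
      HasFDerivWithinAt (p · m) (p x m.succ).curryLeft u x := by
    intro m hm x u hu h
    by_cases hx : x ∈ u
    · exact h.fderivWithin m hm x hx
    · exact HasFDerivWithinAt.of_notMem_closure (by rwa [hu.closure_eq])
  refine ⟨?_, ?_, ?_⟩
  · rintro x (hx | hx)
    · exact h1.zero_eq x hx
    · exact h2.zero_eq x hx
  · intro m hm x _
    exact (aux m hm x s hs h1).union (aux m hm x t ht h2)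
  · intro m hm
    exact (h1.cont m hm).union_of_isClosed (h2.cont m hm) hs ht

end glue

variable {E F : Type*} [NormedAddCommGroup E] [NormedSpace ℝ E] [NormedAddCommGroup F]
  [NormedSpace ℝ F]

/-- the reflection-like maps `v ↦ v - 2^{j+1} ℓ(v) e` -/
def Lj (ℓ : E →L[ℝ] ℝ) (e : E) (j : ℕ) : E →L[ℝ] E :=
  ContinuousLinearMap.id ℝ E - (2 : ℝ) ^ (j + 1) • ℓ.smulRight e

theorem Lj_apply (ℓ : E →L[ℝ] ℝ) (e : E) (j : ℕ) (v : E) :
    Lj ℓ e j v = v - ((2 : ℝ) ^ (j + 1) * ℓ v) • e := by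
  simp [Lj, smul_smul]

theorem Lj_norm (ℓ : E →L[ℝ] ℝ) (e : E) (j : ℕ) :
    ‖Lj ℓ e j‖ ≤ (1 + 2 * (‖ℓ‖ * ‖e‖)) * 2 ^ j := by
  have h1 : ‖ℓ.smulRight e‖ ≤ ‖ℓ‖ * ‖e‖ := by rw [ContinuousLinearMap.norm_smulRight_apply]
  have h2 : ‖ContinuousLinearMap.id ℝ E‖ ≤ 1 := ContinuousLinearMap.norm_id_le
  have h3 : (1 : ℝ) ≤ 2 ^ j := one_le_pow₀ (by norm_num)
  calc ‖Lj ℓ e j‖ ≤ ‖ContinuousLinearMap.id ℝ E‖ + ‖(2 : ℝ) ^ (j + 1) • ℓ.smulRight e‖ :=
        norm_sub_le _ _
    _ ≤ 1 + 2 ^ (j + 1) * (‖ℓ‖ * ‖e‖) := by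
        rw [norm_smul, Real.norm_eq_abs, abs_of_pos (by positivity)]
        gcongr
    _ ≤ 2 ^ j + 2 ^ (j + 1) * (‖ℓ‖ * ‖e‖) := by gcongr
    _ = (1 + 2 * (‖ℓ‖ * ‖e‖)) * 2 ^ j := by ring

theorem Lj_neg {ℓ : E →L[ℝ] ℝ} {e : E} (hℓ : ℓ e = 1) (j : ℕ) {v : E} (hv : 0 ≤ ℓ v) :
    ℓ (Lj ℓ e j v) ≤ 0 := by
  rw [Lj_apply, map_sub, map_smul, hℓ, smul_eq_mul, mul_one]
  have : (1 : ℝ) ≤ 2 ^ (j + 1) := one_le_pow₀ (by norm_num)
  nlinarith

theorem Lj_zero {ℓ : E →L[ℝ] ℝ} {e : E} (j : ℕ) {v : E} (hv : ℓ v = 0) : Lj ℓ e j v = v := by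
  rw [Lj_apply, hv]; simp

/-- the moment identity -/
theorem moment {ℓ : E →L[ℝ] ℝ} {e : E} {c : ℕ → ℝ}
    (hc : ∀ k : ℕ, Summable fun j => |c j| * (2 ^ j) ^ k) (h1 : ∑' j, c j = 1)
    (hk : ∀ k : ℕ, 1 ≤ k → ∑' j, c j * (2 ^ j) ^ k = 0) [CompleteSpace F] {n : ℕ}
    (P : ContinuousMultilinearMap ℝ (fun _ : Fin n => E) F) :
    ∑' j, c j • P.compContinuousLinearMap (fun _ => Lj ℓ e j) = P := by
  have hsum : Summable fun j => c j • P.compContinuousLinearMap (fun _ : Fin n => Lj ℓ e j) := by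
    refine Summable.of_norm_bounded
      (g := fun j => (‖P‖ * (1 + 2 * (‖ℓ‖ * ‖e‖)) ^ n) * (|c j| * (2 ^ j) ^ n))
      ((hc n).mul_left _) fun j => ?_
    rw [norm_smul, Real.norm_eq_abs]
    have := P.norm_compContinuousLinearMap_le (fun _ : Fin n => Lj ℓ e j)
    rw [Finset.prod_const, Finset.card_univ, Fintype.card_fin] at this
    calc |c j| * ‖P.compContinuousLinearMap (fun _ : Fin n => Lj ℓ e j)‖
        ≤ |c j| * (‖P‖ * ((1 + 2 * (‖ℓ‖ * ‖e‖)) * 2 ^ j) ^ n) := by
          gcongr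
          refine this.trans ?_
          gcongr
          exact Lj_norm ℓ e j
      _ = _ := by rw [mul_pow]; ring
  ext v
  rw [ContinuousMultilinearMap.tsum_eval hsum]
  set w : Fin n → E := fun i => -(ℓ (v i) • e) with hw
  have expand : ∀ j, (c j • P.compContinuousLinearMap (fun _ : Fin n => Lj ℓ e j)) v =
      ∑ s : Finset (Fin n), (c j * (2 ^ (j + 1)) ^ s.card) • P (s.piecewise w v) := by
    intro j
    rw [smul_apply, ContinuousMultilinearMap.compContinuousLinearMap_apply]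
    have e1 : (fun i => Lj ℓ e j (v i)) = (fun i => (2 : ℝ) ^ (j + 1) • w i) + v := by
      ext1 i
      simp only [Lj_apply, hw, Pi.add_apply, smul_neg, smul_smul]
      abel
    rw [e1, P.map_add_univ, Finset.smul_sum]
    refine Finset.sum_congr rfl fun s _ => ?_
    have e2 : s.piecewise (fun i => (2 : ℝ) ^ (j + 1) • w i) v
        = s.piecewise (fun i => (2 : ℝ) ^ (j + 1) • (s.piecewise w v) i) (s.piecewise w v) := by
      ext1 i
      by_cases hi : i ∈ s <;> simp [Finset.piecewise, hi]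
    rw [e2, P.map_piecewise_smul, Finset.prod_const, smul_smul]
  simp only [expand]
  have hsm : ∀ s : Finset (Fin n), Summable fun j : ℕ =>
      (c j * (2 ^ (j + 1)) ^ s.card) • P (s.piecewise w v) := by
    intro s
    refine Summable.smul_const ?_ _
    refine Summable.of_norm_bounded (g := fun j => 2 ^ s.card * (|c j| * (2 ^ j) ^ s.card))
      ((hc _).mul_left _) fun j => ?_
    rw [norm_mul, Real.norm_eq_abs, norm_pow, norm_pow, Real.norm_ofNat]
    apply le_of_eq
    rw [pow_succ, mul_pow]; ring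
  rw [Summable.tsum_finsetSum (fun s _ => hsm s)]
  rw [Finset.sum_eq_single (∅ : Finset (Fin n))]
  · simp only [Finset.card_empty, pow_zero, mul_one, Finset.piecewise_empty]
    have hcs : Summable c := by
      have := hc 0
      simp only [pow_zero, mul_one] at this
      exact this.of_abs
    rw [hcs.tsum_smul_const, h1, one_smul]
  · intro s _ hs
    have hcard : 1 ≤ s.card := Finset.card_pos.mpr (Finset.nonempty_iff_ne_empty.mpr hs)
    have hs2 : Summable fun j => c j * (2 ^ (j + 1)) ^ s.card := by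
      refine Summable.of_norm_bounded (g := fun j => 2 ^ s.card * (|c j| * (2 ^ j) ^ s.card))
        ((hc _).mul_left _) fun j => ?_
      rw [norm_mul, Real.norm_eq_abs, norm_pow, norm_pow, Real.norm_ofNat]
      apply le_of_eq
      rw [pow_succ, mul_pow]; ring
    rw [hs2.tsum_smul_const]
    have : ∑' j, c j * (2 ^ (j + 1)) ^ s.card = 0 := by
      have e3 : ∀ j, c j * (2 ^ (j + 1)) ^ s.card = 2 ^ s.card * (c j * (2 ^ j) ^ s.card) := by
        intro j; rw [pow_succ, mul_pow]; ring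
      simp only [e3]
      rw [tsum_mul_left, hk _ hcard, mul_zero]
    rw [this, zero_smul]
  · intro h; exact absurd (Finset.mem_univ _) h

/-- Seeley extension from a closed half space -/
theorem halfspace_ext [CompleteSpace F] {ℓ : E →L[ℝ] ℝ} {e : E} (hℓ : ℓ e = 1) {f : E → F}
    (hf : ContDiffOn ℝ ∞ f {x | ℓ x ≤ 0}) {K : Set E} (hK : IsCompact K)
    (hfK : ∀ x, x ∉ K → f x = 0) :
    ∃ g : E → F, ContDiff ℝ ∞ g ∧ ∀ x, ℓ x ≤ 0 → g x = f x := by
  obtain ⟨c, hc, h1, hk⟩ := exists_coef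
  set Hm : Set E := {x | ℓ x ≤ 0} with hHm
  set Hp : Set E := {x | 0 ≤ ℓ x} with hHp
  have hmc : IsClosed Hm := isClosed_le ℓ.continuous continuous_const
  have hpc : IsClosed Hp := isClosed_le continuous_const ℓ.continuous
  have hconvm : Convex ℝ Hm := convex_halfSpace_le ℓ.toLinearMap.isLinear 0
  have hconvp : Convex ℝ Hp := convex_halfSpace_ge ℓ.toLinearMap.isLinear 0
  have hint : (interior Hm).Nonempty := by
    refine ⟨-e, mem_interior.mpr ⟨{x | ℓ x < 0}, fun x (hx : ℓ x < 0) => show ℓ x ≤ 0 from le_of_lt hx,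
      isOpen_lt ℓ.continuous continuous_const, ?_⟩⟩
    simp [hℓ]
  have hud : UniqueDiffOn ℝ Hm := uniqueDiffOn_convex hconvm hint
  set p : E → FormalMultilinearSeries ℝ E F := ftaylorSeriesWithin ℝ f Hm with hp
  have hT : HasFTaylorSeriesUpToOn ∞ f p Hm := hf.ftaylorSeriesWithin hud
  -- bounds
  have hbd : ∀ n : ℕ, ∃ C : ℝ, 0 ≤ C ∧ ∀ x ∈ Hm, ‖p x n‖ ≤ C := by
    intro n
    have hcont : ContinuousOn (fun x => p x n) Hm := hT.cont n (by exact_mod_cast le_top)
    have hKc : IsCompact (K ∩ Hm) := hK.inter_right hmc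
    obtain ⟨C, hC⟩ := hKc.exists_bound_of_continuousOn (hcont.mono inter_subset_right)
    refine ⟨max C 0, le_max_right _ _, fun x hx => ?_⟩
    by_cases hxK : x ∈ K
    · exact (hC x ⟨hxK, hx⟩).trans (le_max_left _ _)
    · have hz : p x n = 0 := by
        have hev : f =ᶠ[𝓝[Hm] x] fun _ => 0 := by
          filter_upwards [mem_nhdsWithin_of_mem_nhds (hK.isClosed.isOpen_compl.mem_nhds hxK)]
            with y hy
          exact hfK y hy
        have := hev.iteratedFDerivWithin' (𝕜 := ℝ) (n := n) (le_refl _)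
        have e0 := this.eq_of_nhdsWithin hx
        rw [hp]
        change iteratedFDerivWithin ℝ n f Hm x = 0
        rw [e0]
        simp
      rw [hz, norm_zero]
      exact le_max_right _ _
  choose C hC0 hC using hbd
  -- the reflected series
  set q : E → FormalMultilinearSeries ℝ E F := fun x n =>
    ∑' j, c j • (p (Lj ℓ e j x) n).compContinuousLinearMap (fun _ => Lj ℓ e j) with hq
  set Kc : ℝ := 1 + 2 * (‖ℓ‖ * ‖e‖) with hKc
  have hnorm : ∀ (n j : ℕ), ∀ x ∈ Hp,
      ‖c j • (p (Lj ℓ e j x) n).compContinuousLinearMap (fun _ => Lj ℓ e j)‖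
        ≤ (C n * Kc ^ n) * (|c j| * (2 ^ j) ^ n) := by
    intro n j x hx
    rw [norm_smul, Real.norm_eq_abs]
    have h3 := (p (Lj ℓ e j x) n).norm_compContinuousLinearMap_le (fun _ : Fin n => Lj ℓ e j)
    rw [Finset.prod_const, Finset.card_univ, Fintype.card_fin] at h3
    have h4 := hC n (Lj ℓ e j x) (Lj_neg hℓ j hx)
    have h5 := Lj_norm ℓ e j
    calc |c j| * ‖(p (Lj ℓ e j x) n).compContinuousLinearMap (fun _ => Lj ℓ e j)‖
        ≤ |c j| * (C n * (Kc * 2 ^ j) ^ n) := by
          gcongr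
          refine h3.trans ?_
          have := hC0 n
          gcongr
      _ = _ := by rw [mul_pow]; ring
  have hsumm : ∀ (n : ℕ), Summable fun j => (C n * Kc ^ n) * (|c j| * (2 ^ j) ^ n) := fun n =>
    (hc n).mul_left _
  have hTj : ∀ j, HasFTaylorSeriesUpToOn ∞ (f ∘ Lj ℓ e j)
      (fun x k => (p (Lj ℓ e j x) k).compContinuousLinearMap fun _ => Lj ℓ e j) Hp := fun j =>
    (hT.compContinuousLinearMap (Lj ℓ e j)).mono fun x hx => Lj_neg hℓ j hx
  set B : E → F := fun x => ∑' j, c j • f (Lj ℓ e j x) with hB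
  have hTB : HasFTaylorSeriesUpToOn ∞ B q Hp := by
    refine ⟨?_, ?_, ?_⟩
    · intro x hx
      have hs0 : Summable fun j =>
          c j • (p (Lj ℓ e j x) 0).compContinuousLinearMap (fun _ => Lj ℓ e j) :=
        Summable.of_norm_bounded (hsumm 0) fun j => hnorm 0 j x hx
      simp only [hq, hB, ContinuousMultilinearMap.curry0]
      change (∑' j, c j • (p (Lj ℓ e j x) 0).compContinuousLinearMap (fun _ => Lj ℓ e j)) 0 = _
      rw [ContinuousMultilinearMap.tsum_eval hs0]
      refine tsum_congr fun j => ?_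
      rw [smul_apply,
        ContinuousMultilinearMap.compContinuousLinearMap_apply]
      have := hT.zero_eq (Lj ℓ e j x) (Lj_neg hℓ j hx)
      rw [← this]
      congr 1
    · intro m _ x hx
      have hmain := hasFDerivWithinAt_tsum_of_convex (G := E [×m]→L[ℝ] F) hconvp
        (f := fun j x => c j • (p (Lj ℓ e j x) m).compContinuousLinearMap (fun _ => Lj ℓ e j))
        (f' := fun j x => c j •
          ((p (Lj ℓ e j x) (m + 1)).compContinuousLinearMap (fun _ => Lj ℓ e j)).curryLeft)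
        (hsumm (m + 1)) ?_ ?_ ?_ x hx
      · have e1 : (q x m.succ).curryLeft = ∑' j, c j •
            ((p (Lj ℓ e j x) (m + 1)).compContinuousLinearMap (fun _ => Lj ℓ e j)).curryLeft := by
          have hs1 : Summable fun j =>
              c j • (p (Lj ℓ e j x) (m + 1)).compContinuousLinearMap (fun _ => Lj ℓ e j) :=
            Summable.of_norm_bounded (hsumm (m + 1)) fun j => hnorm (m + 1) j x hx
          have := (continuousMultilinearCurryLeftEquiv ℝ (fun _ : Fin (m + 1) => E)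
            F).toContinuousLinearEquiv.toContinuousLinearMap.map_tsum hs1
          exact this
        rw [e1]
        exact hmain
      · intro j y hy
        have := (hTj j).fderivWithin m (by exact_mod_cast WithTop.coe_lt_top _) y hy
        exact this.const_smul (c j)
      · intro j y hy
        have := hnorm (m + 1) j y hy
        refine le_trans (le_of_eq ?_) this
        rw [norm_smul, norm_smul, ContinuousMultilinearMap.curryLeft_norm]
      · intro y hy
        exact Summable.of_norm_bounded (hsumm m) fun j => hnorm m j y hy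
    · intro m _
      refine continuousOn_tsum (u := fun j => (C m * Kc ^ m) * (|c j| * (2 ^ j) ^ m)) ?_
        (hsumm m) fun j x hx => hnorm m j x hx
      intro j
      exact ((hTj j).cont m (by exact_mod_cast le_top)).const_smul (c j)
  -- agreement on the hyperplane
  have hagree : ∀ x, ℓ x = 0 → ∀ n, q x n = p x n := by
    intro x hx n
    simp only [hq]
    simp only [Lj_zero _ hx]
    exact moment hc h1 hk (p x n)
  classical
  set g : E → F := fun x => if ℓ x ≤ 0 then f x else B x with hg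
  set r : E → FormalMultilinearSeries ℝ E F := fun x => if ℓ x ≤ 0 then p x else q x with hr
  have hg1 : ∀ x ∈ Hm, g x = f x := fun x hx => if_pos hx
  have hr1 : ∀ x ∈ Hm, r x = p x := fun x hx => if_pos hx
  have hr2 : ∀ x ∈ Hp, r x = q x := by
    intro x hx
    by_cases h : ℓ x ≤ 0
    · have hx0 : ℓ x = 0 := le_antisymm h hx
      rw [hr1 x h]
      funext n
      exact (hagree x hx0 n).symm
    · exact if_neg h
  have hg2 : ∀ x ∈ Hp, g x = B x := by
    intro x hx
    by_cases h : ℓ x ≤ 0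
    · have hx0 : ℓ x = 0 := le_antisymm h hx
      rw [hg1 x h, ← hT.zero_eq x h, ← hTB.zero_eq x hx, hagree x hx0 0]
    · exact if_neg h
  have hA : HasFTaylorSeriesUpToOn ∞ g r Hm :=
    (hT.congr hg1).congr_series fun m _ x hx => by simp only [hr1 x hx]
  have hBB : HasFTaylorSeriesUpToOn ∞ g r Hp :=
    (hTB.congr hg2).congr_series fun m _ x hx => by simp only [hr2 x hx]
  have hU := taylor_union hmc hpc hA hBB
  have huniv : Hm ∪ Hp = univ := by
    ext x; simp only [hHm, hHp, mem_union, mem_univ, iff_true]; exact (le_total (ℓ x) 0)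
  rw [huniv] at hU
  refine ⟨g, ?_, fun x hx => hg1 x hx⟩
  rw [hasFTaylorSeriesUpToOn_univ_iff] at hU
  exact hU.contDiff

end Crest.Agent.R080.Seeley
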