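import Crest.Agent.R080.Stmts2

-- ▼ part R080/PdBasic
section

/-!
Row 80 (S0107): basic calculus for `pd`, `DD`, `Lap`, `P0`, `M0` and smoothness of the coefficient
functions of a set of moduli (helper777).
-/

set_option autoImplicit false

open MeasureTheory Filter
open scoped ContDiff Topology
open Crest.AnalysisR.VecCalc3 Crest.AnalysisR.PDE.Elasticity

noncomputable section
namespace Crest.Agent.R080.PdBasic

/-! ### partial derivatives -/

section pd
variable {f g : R3 → ℂ} {x : R3}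

theorem sm_diffAt (hf : ContDiff ℝ ∞ f) : DifferentiableAt ℝ f x :=
  (hf.differentiable (by simp)).differentiableAt

theorem contDiff_pd (hf : ContDiff ℝ ∞ f) (j : Fin 3) : ContDiff ℝ ∞ (pd j f) := by
  unfold pd
  exact (hf.fderiv_right (m := ∞) (by simp)).clm_apply contDiff_const

theorem continuous_pd_of_C1 (hf : ContDiff ℝ 1 f) (j : Fin 3) : Continuous (pd j f) := by
  unfold pd
  exact (hf.continuous_fderiv (by simp)).clm_apply continuous_const


theorem pd_add (hf : DifferentiableAt ℝ f x) (hg : DifferentiableAt ℝ g x) (j : Fin 3) :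
    pd j (fun y => f y + g y) x = pd j f x + pd j g x := by
  unfold pd
  rw [fderiv_fun_add hf hg]; rfl

theorem pd_sub (hf : DifferentiableAt ℝ f x) (hg : DifferentiableAt ℝ g x) (j : Fin 3) :
    pd j (fun y => f y - g y) x = pd j f x - pd j g x := by
  unfold pd
  rw [fderiv_fun_sub hf hg]; rfl


theorem pd_const (c : ℂ) (j : Fin 3) : pd j (fun _ => c) x = 0 := by
  unfold pd; simp


theorem pd_mul (hf : DifferentiableAt ℝ f x) (hg : DifferentiableAt ℝ g x) (j : Fin 3) :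
    pd j (fun y => f y * g y) x = f x * pd j g x + pd j f x * g x := by
  unfold pd
  rw [fderiv_fun_mul hf hg]
  simp [smul_eq_mul, mul_comm]

theorem pd_const_mul (hf : DifferentiableAt ℝ f x) (c : ℂ) (j : Fin 3) :
    pd j (fun y => c * f y) x = c * pd j f x := by
  rw [pd_mul (differentiableAt_const c) hf, pd_const, zero_mul, add_zero]

theorem pd_sum {ι : Type*} (s : Finset ι) (F : ι → R3 → ℂ)
    (hF : ∀ i ∈ s, DifferentiableAt ℝ (F i) x) (j : Fin 3) :
    pd j (fun y => ∑ i ∈ s, F i y) x = ∑ i ∈ s, pd j (F i) x := by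
  unfold pd
  rw [fderiv_fun_sum hF]
  simp

/-- function versions for smooth functions -/
theorem pd_add' (hf : ContDiff ℝ ∞ f) (hg : ContDiff ℝ ∞ g) (j : Fin 3) :
    pd j (fun y => f y + g y) = fun x => pd j f x + pd j g x :=
  funext fun _ => pd_add (sm_diffAt hf) (sm_diffAt hg) j



theorem pd_const_mul' (hf : ContDiff ℝ ∞ f) (c : ℂ) (j : Fin 3) :
    pd j (fun y => c * f y) = fun x => c * pd j f x :=
  funext fun _ => pd_const_mul (sm_diffAt hf) c j



theorem contDiff_DD (θ : Fin 3 → ℂ) (hf : ContDiff ℝ ∞ f) : ContDiff ℝ ∞ (DD θ f) := by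
  unfold DD
  exact ContDiff.sum fun j _ => contDiff_const.mul (contDiff_pd hf j)

theorem contDiff_Lap (hf : ContDiff ℝ ∞ f) : ContDiff ℝ ∞ (Lap f) := by
  unfold Lap
  exact ContDiff.sum fun j _ => contDiff_pd (contDiff_pd hf j) j


theorem DD_add (θ : Fin 3 → ℂ) (hf : DifferentiableAt ℝ f x) (hg : DifferentiableAt ℝ g x) :
    DD θ (fun y => f y + g y) x = DD θ f x + DD θ g x := by
  unfold DD
  simp only [pd_add hf hg, mul_add, Finset.sum_add_distrib]


theorem DD_const (θ : Fin 3 → ℂ) (c : ℂ) : DD θ (fun _ => c) x = 0 := by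
  unfold DD
  simp [pd_const]

theorem DD_mul (θ : Fin 3 → ℂ) (hf : DifferentiableAt ℝ f x) (hg : DifferentiableAt ℝ g x) :
    DD θ (fun y => f y * g y) x = f x * DD θ g x + DD θ f x * g x := by
  unfold DD
  simp only [pd_mul hf hg, Finset.mul_sum, Finset.sum_mul, ← Finset.sum_add_distrib]
  exact Finset.sum_congr rfl fun j _ => by ring

theorem DD_const_mul (θ : Fin 3 → ℂ) (hf : DifferentiableAt ℝ f x) (c : ℂ) :
    DD θ (fun y => c * f y) x = c * DD θ f x := by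
  rw [DD_mul θ (differentiableAt_const c) hf, DD_const, zero_mul, add_zero]


theorem DD_neg_theta (θ : Fin 3 → ℂ) (f : R3 → ℂ) (x : R3) :
    DD (fun j => - θ j) f x = - DD θ f x := by
  unfold DD
  simp [Finset.sum_neg_distrib]

theorem Lap_add (hf : ContDiff ℝ ∞ f) (hg : ContDiff ℝ ∞ g) :
    Lap (fun y => f y + g y) x = Lap f x + Lap g x := by
  unfold Lap
  rw [← Finset.sum_add_distrib]
  refine Finset.sum_congr rfl fun j _ => ?_
  rw [pd_add' hf hg, pd_add (sm_diffAt (contDiff_pd hf j)) (sm_diffAt (contDiff_pd hg j))]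

theorem Lap_const_mul (hf : ContDiff ℝ ∞ f) (c : ℂ) :
    Lap (fun y => c * f y) x = c * Lap f x := by
  unfold Lap
  rw [Finset.mul_sum]
  refine Finset.sum_congr rfl fun j _ => ?_
  rw [pd_const_mul' hf, pd_const_mul (sm_diffAt (contDiff_pd hf j))]


end pd

/-! ### `P0` and `M0` -/

section PM
variable {ι : Type} [Fintype ι] {A : Fin 3 → ι → ι → R3 → ℂ} {B : ι → ι → R3 → ℂ}
  {θ : Fin 3 → ℂ} {r s : ι → R3 → ℂ}

theorem contDiff_P0 (hA : ∀ j i l, ContDiff ℝ ∞ (A j i l)) (hB : ∀ i l, ContDiff ℝ ∞ (B i l))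
    (hr : ∀ i, ContDiff ℝ ∞ (r i)) (i : ι) : ContDiff ℝ ∞ (P0 A B r i) := by
  unfold P0
  exact ((contDiff_Lap (hr i)).add (ContDiff.sum fun j _ => ContDiff.sum fun l _ =>
    (hA j i l).mul (contDiff_pd (hr l) j))).add (ContDiff.sum fun l _ => (hB i l).mul (hr l))

theorem contDiff_M0 (hA : ∀ j i l, ContDiff ℝ ∞ (A j i l))
    (hr : ∀ i, ContDiff ℝ ∞ (r i)) (i : ι) : ContDiff ℝ ∞ (M0 θ A r i) := by
  unfold M0
  exact (contDiff_const.mul (contDiff_DD θ (hr i))).add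
    (ContDiff.sum fun j _ => ContDiff.sum fun l _ =>
      ((hA j i l).mul contDiff_const).mul (hr l))

theorem P0_add (hr : ∀ i, ContDiff ℝ ∞ (r i)) (hs : ∀ i, ContDiff ℝ ∞ (s i)) (i : ι) (x : R3) :
    P0 A B (fun i y => r i y + s i y) i x = P0 A B r i x + P0 A B s i x := by
  unfold P0
  rw [Lap_add (hr i) (hs i)]
  have h : ∀ (j : Fin 3) (l : ι), pd j (fun y => r l y + s l y) x = pd j (r l) x + pd j (s l) x :=
    fun j l => pd_add (sm_diffAt (hr l)) (sm_diffAt (hs l)) j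
  simp only [h, mul_add, Finset.sum_add_distrib]
  ring

theorem P0_const_mul (hr : ∀ i, ContDiff ℝ ∞ (r i)) (c : ℂ) (i : ι) (x : R3) :
    P0 A B (fun i y => c * r i y) i x = c * P0 A B r i x := by
  unfold P0
  rw [Lap_const_mul (hr i)]
  have h : ∀ (j : Fin 3) (l : ι), pd j (fun y => c * r l y) x = c * pd j (r l) x :=
    fun j l => pd_const_mul (sm_diffAt (hr l)) c j
  simp only [h, mul_add, Finset.mul_sum]
  congr 1
  · congr 1
    exact Finset.sum_congr rfl fun j _ => Finset.sum_congr rfl fun l _ => by ring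
  · exact Finset.sum_congr rfl fun l _ => by ring

theorem M0_add (hr : ∀ i, ContDiff ℝ ∞ (r i)) (hs : ∀ i, ContDiff ℝ ∞ (s i)) (i : ι) (x : R3) :
    M0 θ A (fun i y => r i y + s i y) i x = M0 θ A r i x + M0 θ A s i x := by
  unfold M0
  rw [DD_add θ (sm_diffAt (hr i)) (sm_diffAt (hs i))]
  simp only [mul_add, Finset.sum_add_distrib]
  ring

theorem M0_const_mul (hr : ∀ i, ContDiff ℝ ∞ (r i)) (c : ℂ) (i : ι) (x : R3) :
    M0 θ A (fun i y => c * r i y) i x = c * M0 θ A r i x := by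
  unfold M0
  rw [DD_const_mul θ (sm_diffAt (hr i))]
  simp only [mul_add, Finset.mul_sum]
  congr 1
  · ring
  · exact Finset.sum_congr rfl fun j _ => Finset.sum_congr rfl fun l _ => by ring

theorem M0_neg_theta (i : ι) (x : R3) :
    M0 (fun j => - θ j) A r i x = - M0 θ A r i x := by
  unfold M0
  rw [DD_neg_theta, neg_add, ← Finset.sum_neg_distrib]
  congr 1
  · ring
  · refine Finset.sum_congr rfl fun j _ => ?_
    rw [← Finset.sum_neg_distrib]
    exact Finset.sum_congr rfl fun l _ => by ring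

end PM

theorem IsNull.neg {θ : Fin 3 → ℂ} (h : IsNull θ) : IsNull (fun j => - θ j) := by
  refine ⟨fun h0 => h.1 ?_, by simpa using h.2⟩
  funext j
  have := congrFun h0 j
  simpa using this

/-! ### moduli -/

theorem contDiff_cf {f : R3 → ℝ} (hf : ContDiff ℝ ∞ f) : ContDiff ℝ ∞ (cf f) :=
  Complex.ofRealCLM.contDiff.comp hf


namespace Moduli
variable (P : Moduli)

theorem smooth_m : ContDiff ℝ ∞ P.m := P.smooth_mu.inv fun x => (P.mu_pos x).ne'


theorem lam_two_mu_pos (x : R3) : 0 < P.lam x + 2 * P.mu x := by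
  have h1 := P.mu_pos x
  have h2 := P.bulk_pos x
  linarith


theorem cc_pos (x : R3) : 0 < P.cc x := div_pos (P.mu_pos x) ((Moduli.lam_two_mu_pos P) x)





theorem smooth_cc : ContDiff ℝ ∞ P.cc :=
  P.smooth_mu.div (P.smooth_lam.add (contDiff_const.mul P.smooth_mu))
    fun x => ((Moduli.lam_two_mu_pos P) x).ne'


theorem smooth_cf_m : ContDiff ℝ ∞ (cf P.m) := contDiff_cf (Moduli.smooth_m P)
theorem smooth_cf_mu : ContDiff ℝ ∞ (cf P.mu) := contDiff_cf P.smooth_mu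
theorem smooth_cf_lam : ContDiff ℝ ∞ (cf P.lam) := contDiff_cf P.smooth_lam
theorem smooth_cf_cc : ContDiff ℝ ∞ (cf P.cc) := contDiff_cf (Moduli.smooth_cc P)

end Moduli

theorem contDiff_A4 (P : Moduli) (j : Fin 3) (i l : Option (Fin 3)) :
    ContDiff ℝ ∞ (A4 P j i l) := by
  have hm := (Moduli.smooth_cf_m P)
  have hmu := (Moduli.smooth_cf_mu P)
  have hlam := (Moduli.smooth_cf_lam P)
  have hcc := (Moduli.smooth_cf_cc P)
  rcases i with _ | i <;> rcases l with _ | l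
  · exact contDiff_const
  · unfold A4
    by_cases h : j = l
    · simp only [h, if_true]
      exact hcc.mul (hlam.add hmu)
    · simp only [h, if_false]
      exact contDiff_const
  · exact contDiff_const.mul (contDiff_pd (contDiff_pd hm j) i)
  · unfold A4
    refine hm.mul (ContDiff.sub ?_ ?_)
    · by_cases h : i = l
      · simp only [h, if_true]; exact contDiff_pd hmu j
      · simp only [h, if_false]; exact contDiff_const
    · by_cases h : j = l
      · simp only [h, if_true]; exact contDiff_pd hmu i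
      · simp only [h, if_false]; exact contDiff_const

theorem contDiff_B4 (P : Moduli) (i l : Option (Fin 3)) : ContDiff ℝ ∞ (B4 P i l) := by
  have hm := (Moduli.smooth_cf_m P)
  have hmu := (Moduli.smooth_cf_mu P)
  have hlam := (Moduli.smooth_cf_lam P)
  have hcc := (Moduli.smooth_cf_cc P)
  rcases i with _ | i <;> rcases l with _ | l
  · exact ((hcc.neg).mul hlam).mul (contDiff_Lap hm)
  · exact hcc.mul (contDiff_pd hmu l)
  · exact ((contDiff_const.mul hm).mul (ContDiff.sum fun j _ =>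
      (contDiff_pd (contDiff_pd hm j) i).mul (contDiff_pd hmu j))).sub
      (contDiff_const.mul (contDiff_pd (contDiff_Lap hm) i))
  · exact (hm.neg).mul (contDiff_pd (contDiff_pd hmu l) i)

/-! ### the domain -/

theorem Dom.isOpen (G : Dom) : IsOpen G.Ω := by
  rw [G.eq]
  exact isOpen_lt G.smooth.continuous continuous_const

theorem Dom.measurableSet (G : Dom) : MeasurableSet G.Ω := (Dom.isOpen G).measurableSet

theorem Dom.isCompact_closure (G : Dom) : IsCompact (closure G.Ω) := G.bdd.isCompact_closure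

theorem Dom.integrableOn (G : Dom) {E : Type*} [NormedAddCommGroup E] {f : R3 → E}
    (hf : Continuous f) : IntegrableOn f G.Ω :=
  (hf.continuousOn.integrableOn_compact (Dom.isCompact_closure G)).mono_set subset_closure

theorem Dom.exists_bound (G : Dom) {E : Type*} [NormedAddCommGroup E] {f : R3 → E}
    (hf : Continuous f) : ∃ C : ℝ, 0 ≤ C ∧ ∀ x ∈ closure G.Ω, ‖f x‖ ≤ C := by
  obtain ⟨C, hC⟩ := (Dom.isCompact_closure G).exists_bound_of_continuousOn hf.continuousOn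
  exact ⟨max C 0, le_max_right _ _, fun x hx => (hC x hx).trans (le_max_left _ _)⟩

theorem Dom.exists_ball (G : Dom) : ∃ R : ℝ, 0 < R ∧ closure G.Ω ⊆ Metric.ball (0 : R3) R := by
  obtain ⟨R, hR⟩ := (Dom.isCompact_closure G).isBounded.subset_ball (0 : R3)
  exact ⟨max R 1, by positivity, hR.trans (Metric.ball_subset_ball (le_max_left _ _))⟩

end Crest.Agent.R080.PdBasic
end
end

-- ▼ part R080/W0a
section

/-!
Row 80 (S0107), module T12 (StmtW0), part a: pointwise `H²` density and bilinear bounds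
(helper777).
-/

set_option autoImplicit false

open MeasureTheory Filter
open scoped ContDiff Topology
open Crest.AnalysisR.VecCalc3 Crest.AnalysisR.PDE.Elasticity

noncomputable section
namespace Crest.Agent.R080.W0
open PdBasic

/-! ### Cauchy–Schwarz for continuous functions on the domain -/

theorem Dom.cauchySchwarz (G : Dom) {f g : R3 → ℝ} (hf : Continuous f) (hg : Continuous g) :
    |∫ x in G.Ω, f x * g x| ≤ √(∫ x in G.Ω, f x ^ 2) * √(∫ x in G.Ω, g x ^ 2) := by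
  have hf2 : IntegrableOn (fun x => f x ^ 2) G.Ω := Dom.integrableOn G (hf.pow 2)
  have hg2 : IntegrableOn (fun x => g x ^ 2) G.Ω := Dom.integrableOn G (hg.pow 2)
  have hfg : IntegrableOn (fun x => f x * g x) G.Ω := Dom.integrableOn G (hf.mul hg)
  have hA : 0 ≤ ∫ x in G.Ω, f x ^ 2 := integral_nonneg fun x => sq_nonneg _
  have hB : 0 ≤ ∫ x in G.Ω, g x ^ 2 := integral_nonneg fun x => sq_nonneg _
  have key : ∀ t : ℝ, 0 ≤ (∫ x in G.Ω, g x ^ 2) * (t * t) + (2 * ∫ x in G.Ω, f x * g x) * t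
      + ∫ x in G.Ω, f x ^ 2 := by
    intro t
    have h1 : (∫ x in G.Ω, g x ^ 2) * (t * t) + (2 * ∫ x in G.Ω, f x * g x) * t
        + ∫ x in G.Ω, f x ^ 2 = ∫ x in G.Ω, (f x + t * g x) ^ 2 := by
      have h2 : ∀ x, (f x + t * g x) ^ 2 = (t * t) * g x ^ 2 + (2 * t) * (f x * g x) + f x ^ 2 :=
        fun x => by ring
      simp_rw [h2]
      have h3 : IntegrableOn (fun x => (t * t) * g x ^ 2 + (2 * t) * (f x * g x)) G.Ω :=
        (hg2.const_mul _).add (hfg.const_mul _)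
      have e1 : ∫ x in G.Ω, ((t * t) * g x ^ 2 + (2 * t) * (f x * g x) + f x ^ 2)
          = (∫ x in G.Ω, ((t * t) * g x ^ 2 + (2 * t) * (f x * g x))) + ∫ x in G.Ω, f x ^ 2 :=
        integral_add h3 hf2
      rw [e1, integral_add (hg2.const_mul _) (hfg.const_mul _), integral_const_mul,
        integral_const_mul]
      ring
    rw [h1]
    exact integral_nonneg fun x => sq_nonneg _
  have hd := discrim_le_zero key
  unfold discrim at hd
  have h3 : (∫ x in G.Ω, f x * g x) ^ 2 ≤ (∫ x in G.Ω, f x ^ 2) * ∫ x in G.Ω, g x ^ 2 := by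
    nlinarith
  rw [← Real.sqrt_mul hA]
  exact Real.abs_le_sqrt h3

/-! ### the pointwise `H²` density -/

section N2
variable {ι : Type} [Fintype ι]

/-- pointwise `H²` density -/
def N2 (U : ι → R3 → ℂ) (x : R3) : ℝ :=
  ∑ i, (‖U i x‖ ^ 2 + ∑ j, ‖pd j (U i) x‖ ^ 2 + ∑ j, ∑ k, ‖pd j (pd k (U i)) x‖ ^ 2)

/-- its square root -/
def nrm (U : ι → R3 → ℂ) (x : R3) : ℝ := √(N2 U x)

theorem H2sq_eq (S : Set R3) (U : ι → R3 → ℂ) : H2sq S U = ∫ x in S, N2 U x := rfl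

theorem N2_nonneg (U : ι → R3 → ℂ) (x : R3) : 0 ≤ N2 U x :=
  Finset.sum_nonneg fun i _ => by positivity

theorem nrm_nonneg (U : ι → R3 → ℂ) (x : R3) : 0 ≤ nrm U x := Real.sqrt_nonneg _

theorem nrm_sq (U : ι → R3 → ℂ) (x : R3) : nrm U x ^ 2 = N2 U x := Real.sq_sqrt (N2_nonneg U x)

theorem le_N2_0 (U : ι → R3 → ℂ) (x : R3) (i : ι) : ‖U i x‖ ^ 2 ≤ N2 U x := by
  refine le_trans ?_ (Finset.single_le_sum (f := fun i => (‖U i x‖ ^ 2 +
    ∑ j, ‖pd j (U i) x‖ ^ 2 + ∑ j, ∑ k, ‖pd j (pd k (U i)) x‖ ^ 2))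
    (fun i _ => by positivity) (Finset.mem_univ i))
  have h1 : 0 ≤ ∑ j, ‖pd j (U i) x‖ ^ 2 := by positivity
  have h2 : 0 ≤ ∑ j, ∑ k, ‖pd j (pd k (U i)) x‖ ^ 2 := by positivity
  linarith

theorem le_N2_1 (U : ι → R3 → ℂ) (x : R3) (i : ι) (j : Fin 3) : ‖pd j (U i) x‖ ^ 2 ≤ N2 U x := by
  refine le_trans ?_ (Finset.single_le_sum (f := fun i => (‖U i x‖ ^ 2 +
    ∑ j, ‖pd j (U i) x‖ ^ 2 + ∑ j, ∑ k, ‖pd j (pd k (U i)) x‖ ^ 2))
    (fun i _ => by positivity) (Finset.mem_univ i))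
  have h1 : ‖pd j (U i) x‖ ^ 2 ≤ ∑ j, ‖pd j (U i) x‖ ^ 2 :=
    Finset.single_le_sum (f := fun j => ‖pd j (U i) x‖ ^ 2) (fun j _ => by positivity)
      (Finset.mem_univ j)
  have h2 : 0 ≤ ∑ j, ∑ k, ‖pd j (pd k (U i)) x‖ ^ 2 := by positivity
  have h3 : 0 ≤ ‖U i x‖ ^ 2 := by positivity
  linarith

theorem le_N2_2 (U : ι → R3 → ℂ) (x : R3) (i : ι) (j k : Fin 3) :
    ‖pd j (pd k (U i)) x‖ ^ 2 ≤ N2 U x := by
  refine le_trans ?_ (Finset.single_le_sum (f := fun i => (‖U i x‖ ^ 2 +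
    ∑ j, ‖pd j (U i) x‖ ^ 2 + ∑ j, ∑ k, ‖pd j (pd k (U i)) x‖ ^ 2))
    (fun i _ => by positivity) (Finset.mem_univ i))
  have h0 : ‖pd j (pd k (U i)) x‖ ^ 2 ≤ ∑ k, ‖pd j (pd k (U i)) x‖ ^ 2 :=
    Finset.single_le_sum (f := fun k => ‖pd j (pd k (U i)) x‖ ^ 2) (fun j _ => by positivity)
      (Finset.mem_univ k)
  have h1 : ∑ k, ‖pd j (pd k (U i)) x‖ ^ 2 ≤ ∑ j, ∑ k, ‖pd j (pd k (U i)) x‖ ^ 2 :=
    Finset.single_le_sum (f := fun j => ∑ k, ‖pd j (pd k (U i)) x‖ ^ 2)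
      (fun j _ => by positivity) (Finset.mem_univ j)
  have h2 : 0 ≤ ∑ j, ‖pd j (U i) x‖ ^ 2 := by positivity
  have h3 : 0 ≤ ‖U i x‖ ^ 2 := by positivity
  linarith

theorem le_nrm_0 (U : ι → R3 → ℂ) (x : R3) (i : ι) : ‖U i x‖ ≤ nrm U x :=
  Real.le_sqrt_of_sq_le (le_N2_0 U x i)

theorem le_nrm_1 (U : ι → R3 → ℂ) (x : R3) (i : ι) (j : Fin 3) : ‖pd j (U i) x‖ ≤ nrm U x :=
  Real.le_sqrt_of_sq_le (le_N2_1 U x i j)

theorem le_nrm_2 (U : ι → R3 → ℂ) (x : R3) (i : ι) (j k : Fin 3) :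
    ‖pd j (pd k (U i)) x‖ ≤ nrm U x :=
  Real.le_sqrt_of_sq_le (le_N2_2 U x i j k)

theorem continuous_N2 {U : ι → R3 → ℂ} (hU : ∀ i, ContDiff ℝ ∞ (U i)) : Continuous (N2 U) := by
  unfold N2
  refine continuous_finsetSum _ fun i _ => ?_
  refine ((((hU i).continuous.norm).pow 2).add (continuous_finsetSum _ fun j _ => ?_)).add
    (continuous_finsetSum _ fun j _ => continuous_finsetSum _ fun k _ => ?_)
  · exact ((contDiff_pd (hU i) j).continuous.norm).pow 2
  · exact ((contDiff_pd (contDiff_pd (hU i) k) j).continuous.norm).pow 2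


theorem norm_add_sq_le (a b : ℂ) : ‖a + b‖ ^ 2 ≤ 2 * ‖a‖ ^ 2 + 2 * ‖b‖ ^ 2 := by
  have h := norm_add_le a b
  have h1 : ‖a + b‖ ^ 2 ≤ (‖a‖ + ‖b‖) ^ 2 := pow_le_pow_left₀ (norm_nonneg _) h 2
  nlinarith [sq_nonneg (‖a‖ - ‖b‖)]

theorem N2_add {U V : ι → R3 → ℂ} (hU : ∀ i, ContDiff ℝ ∞ (U i)) (hV : ∀ i, ContDiff ℝ ∞ (V i))
    (x : R3) : N2 (fun i y => U i y + V i y) x ≤ 2 * N2 U x + 2 * N2 V x := by
  unfold N2
  rw [Finset.mul_sum, Finset.mul_sum, ← Finset.sum_add_distrib]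
  refine Finset.sum_le_sum fun i _ => ?_
  have h1 : ∑ j, ‖pd j (fun y => U i y + V i y) x‖ ^ 2 ≤
      2 * ∑ j, ‖pd j (U i) x‖ ^ 2 + 2 * ∑ j, ‖pd j (V i) x‖ ^ 2 := by
    rw [Finset.mul_sum, Finset.mul_sum, ← Finset.sum_add_distrib]
    refine Finset.sum_le_sum fun j _ => ?_
    rw [pd_add (sm_diffAt (hU i)) (sm_diffAt (hV i))]
    exact norm_add_sq_le _ _
  have h2 : ∑ j, ∑ k, ‖pd j (pd k (fun y => U i y + V i y)) x‖ ^ 2 ≤
      2 * ∑ j, ∑ k, ‖pd j (pd k (U i)) x‖ ^ 2 + 2 * ∑ j, ∑ k, ‖pd j (pd k (V i)) x‖ ^ 2 := by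
    rw [Finset.mul_sum, Finset.mul_sum, ← Finset.sum_add_distrib]
    refine Finset.sum_le_sum fun j _ => ?_
    rw [Finset.mul_sum, Finset.mul_sum, ← Finset.sum_add_distrib]
    refine Finset.sum_le_sum fun k _ => ?_
    rw [pd_add' (hU i) (hV i), pd_add (sm_diffAt (contDiff_pd (hU i) k))
      (sm_diffAt (contDiff_pd (hV i) k))]
    exact norm_add_sq_le _ _
  have h3 := norm_add_sq_le (U i x) (V i x)
  linarith

theorem N2_const_mul {U : ι → R3 → ℂ} (hU : ∀ i, ContDiff ℝ ∞ (U i)) (c : ℂ)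
    (x : R3) : N2 (fun i y => c * U i y) x = ‖c‖ ^ 2 * N2 U x := by
  unfold N2
  rw [Finset.mul_sum]
  refine Finset.sum_congr rfl fun i _ => ?_
  have h1 : ∀ j, ‖pd j (fun y => c * U i y) x‖ ^ 2 = ‖c‖ ^ 2 * ‖pd j (U i) x‖ ^ 2 := by
    intro j
    rw [pd_const_mul (sm_diffAt (hU i)), norm_mul, mul_pow]
  have h2 : ∀ j k, ‖pd j (pd k (fun y => c * U i y)) x‖ ^ 2 =
      ‖c‖ ^ 2 * ‖pd j (pd k (U i)) x‖ ^ 2 := by
    intro j k
    rw [pd_const_mul' (hU i), pd_const_mul (sm_diffAt (contDiff_pd (hU i) k)), norm_mul, mul_pow]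
  simp only [h1, h2, norm_mul, mul_pow, Finset.mul_sum, mul_add]

theorem H2sq_nonneg (S : Set R3) (U : ι → R3 → ℂ) : 0 ≤ H2sq S U :=
  integral_nonneg fun x => N2_nonneg U x

theorem H2sq_add (G : Dom) {U V : ι → R3 → ℂ} (hU : ∀ i, ContDiff ℝ ∞ (U i))
    (hV : ∀ i, ContDiff ℝ ∞ (V i)) :
    H2sq G.Ω (fun i y => U i y + V i y) ≤ 2 * H2sq G.Ω U + 2 * H2sq G.Ω V := by
  rw [H2sq_eq, H2sq_eq, H2sq_eq, ← integral_const_mul, ← integral_const_mul, ← integral_add
    ((Dom.integrableOn G (continuous_N2 hU)).const_mul _)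
    ((Dom.integrableOn G (continuous_N2 hV)).const_mul _)]
  refine integral_mono (Dom.integrableOn G (continuous_N2 fun i => (hU i).add (hV i)))
    (((Dom.integrableOn G (continuous_N2 hU)).const_mul _).add
    ((Dom.integrableOn G (continuous_N2 hV)).const_mul _)) fun x => N2_add hU hV x

theorem H2sq_const_mul (S : Set R3) {U : ι → R3 → ℂ} (hU : ∀ i, ContDiff ℝ ∞ (U i)) (c : ℂ) :
    H2sq S (fun i y => c * U i y) = ‖c‖ ^ 2 * H2sq S U := by
  rw [H2sq_eq, H2sq_eq, ← integral_const_mul]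
  exact integral_congr_ae (Eventually.of_forall fun x => N2_const_mul hU c x)

end N2

/-! ### operators bounded by the density -/

section Bd
variable {ι : Type} [Fintype ι]

/-- `F U` is pointwise bounded on `Ω` by the density of `U`, uniformly in `U` -/
def BdOp (G : Dom) (F : (ι → R3 → ℂ) → R3 → ℂ) : Prop :=
  ∃ C : ℝ, 0 ≤ C ∧ ∀ U : ι → R3 → ℂ, ∀ x ∈ G.Ω, ‖F U x‖ ≤ C * nrm U x

variable {G : Dom}

theorem BdOp.val (i : ι) : BdOp G (fun U x => U i x) :=
  ⟨1, zero_le_one, fun U x _ => by rw [one_mul]; exact le_nrm_0 U x i⟩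

theorem BdOp.pd1 (i : ι) (j : Fin 3) : BdOp G (fun U x => pd j (U i) x) :=
  ⟨1, zero_le_one, fun U x _ => by rw [one_mul]; exact le_nrm_1 U x i j⟩

theorem BdOp.pd2 (i : ι) (j k : Fin 3) : BdOp G (fun U x => pd j (pd k (U i)) x) :=
  ⟨1, zero_le_one, fun U x _ => by rw [one_mul]; exact le_nrm_2 U x i j k⟩

theorem BdOp.add {F H : (ι → R3 → ℂ) → R3 → ℂ} (hF : BdOp G F) (hH : BdOp G H) :
    BdOp G (fun U x => F U x + H U x) := by
  obtain ⟨C, hC, h1⟩ := hF
  obtain ⟨D, hD, h2⟩ := hH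
  refine ⟨C + D, add_nonneg hC hD, fun U x hx => ?_⟩
  rw [add_mul]
  exact (norm_add_le _ _).trans (add_le_add (h1 U x hx) (h2 U x hx))

theorem BdOp.sub {F H : (ι → R3 → ℂ) → R3 → ℂ} (hF : BdOp G F) (hH : BdOp G H) :
    BdOp G (fun U x => F U x - H U x) := by
  obtain ⟨C, hC, h1⟩ := hF
  obtain ⟨D, hD, h2⟩ := hH
  refine ⟨C + D, add_nonneg hC hD, fun U x hx => ?_⟩
  rw [add_mul]
  exact (norm_sub_le _ _).trans (add_le_add (h1 U x hx) (h2 U x hx))

theorem BdOp.coeff_mul {F : (ι → R3 → ℂ) → R3 → ℂ} (hF : BdOp G F) {f : R3 → ℂ}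
    (hf : Continuous f) : BdOp G (fun U x => f x * F U x) := by
  obtain ⟨C, hC, h1⟩ := hF
  obtain ⟨D, hD, h2⟩ := Dom.exists_bound G hf
  refine ⟨D * C, mul_nonneg hD hC, fun U x hx => ?_⟩
  rw [norm_mul, mul_assoc]
  exact mul_le_mul (h2 x (subset_closure hx)) (h1 U x hx) (norm_nonneg _) hD

theorem BdOp.sum {κ : Type*} (s : Finset κ) {F : κ → (ι → R3 → ℂ) → R3 → ℂ}
    (hF : ∀ k ∈ s, BdOp G (F k)) : BdOp G (fun U x => ∑ k ∈ s, F k U x) := by
  classical
  induction s using Finset.induction_on with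
  | empty => exact ⟨0, le_rfl, fun U x _ => by simp⟩
  | insert a s ha ih =>
    have h1 := (hF a (Finset.mem_insert_self a s)).add
      (ih fun k hk => hF k (Finset.mem_insert_of_mem hk))
    obtain ⟨C, hC, h2⟩ := h1
    refine ⟨C, hC, fun U x hx => ?_⟩
    simp only [Finset.sum_insert ha]
    exact h2 U x hx

/-- bilinear version -/
def BiBd (G : Dom) (q : (ι → R3 → ℂ) → (ι → R3 → ℂ) → R3 → ℂ) : Prop :=
  ∃ C : ℝ, 0 ≤ C ∧ ∀ U V : ι → R3 → ℂ, ∀ x ∈ G.Ω, ‖q U V x‖ ≤ C * (nrm U x * nrm V x)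

theorem BdOp.mul {F H : (ι → R3 → ℂ) → R3 → ℂ} (hF : BdOp G F) (hH : BdOp G H) :
    BiBd G (fun U V x => F U x * H V x) := by
  obtain ⟨C, hC, h1⟩ := hF
  obtain ⟨D, hD, h2⟩ := hH
  refine ⟨C * D, mul_nonneg hC hD, fun U V x hx => ?_⟩
  rw [norm_mul]
  calc ‖F U x‖ * ‖H V x‖ ≤ (C * nrm U x) * (D * nrm V x) :=
        mul_le_mul (h1 U x hx) (h2 V x hx) (norm_nonneg _) (mul_nonneg hC (nrm_nonneg _ _))
    _ = C * D * (nrm U x * nrm V x) := by ring

theorem BiBd.add {p q : (ι → R3 → ℂ) → (ι → R3 → ℂ) → R3 → ℂ} (hp : BiBd G p) (hq : BiBd G q) :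
    BiBd G (fun U V x => p U V x + q U V x) := by
  obtain ⟨C, hC, h1⟩ := hp
  obtain ⟨D, hD, h2⟩ := hq
  refine ⟨C + D, add_nonneg hC hD, fun U V x hx => ?_⟩
  rw [add_mul]
  exact (norm_add_le _ _).trans (add_le_add (h1 U V x hx) (h2 U V x hx))

theorem BiBd.sub {p q : (ι → R3 → ℂ) → (ι → R3 → ℂ) → R3 → ℂ} (hp : BiBd G p) (hq : BiBd G q) :
    BiBd G (fun U V x => p U V x - q U V x) := by
  obtain ⟨C, hC, h1⟩ := hp
  obtain ⟨D, hD, h2⟩ := hq
  refine ⟨C + D, add_nonneg hC hD, fun U V x hx => ?_⟩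
  rw [add_mul]
  exact (norm_sub_le _ _).trans (add_le_add (h1 U V x hx) (h2 U V x hx))

theorem BiBd.coeff_mul {q : (ι → R3 → ℂ) → (ι → R3 → ℂ) → R3 → ℂ} (hq : BiBd G q) {f : R3 → ℂ}
    (hf : Continuous f) : BiBd G (fun U V x => f x * q U V x) := by
  obtain ⟨C, hC, h1⟩ := hq
  obtain ⟨D, hD, h2⟩ := Dom.exists_bound G hf
  refine ⟨D * C, mul_nonneg hD hC, fun U V x hx => ?_⟩
  rw [norm_mul, mul_assoc]
  exact mul_le_mul (h2 x (subset_closure hx)) (h1 U V x hx) (norm_nonneg _) hD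

theorem BiBd.sum {κ : Type*} (s : Finset κ) {q : κ → (ι → R3 → ℂ) → (ι → R3 → ℂ) → R3 → ℂ}
    (hq : ∀ k ∈ s, BiBd G (q k)) : BiBd G (fun U V x => ∑ k ∈ s, q k U V x) := by
  classical
  induction s using Finset.induction_on with
  | empty => exact ⟨0, le_rfl, fun U V x _ => by simp⟩
  | insert a s ha ih =>
    have h1 := (hq a (Finset.mem_insert_self a s)).add
      (ih fun k hk => hq k (Finset.mem_insert_of_mem hk))
    obtain ⟨C, hC, h2⟩ := h1
    refine ⟨C, hC, fun U V x hx => ?_⟩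
    simp only [Finset.sum_insert ha]
    exact h2 U V x hx

/-- integrated bound -/
theorem BiBd.integral {q : (ι → R3 → ℂ) → (ι → R3 → ℂ) → R3 → ℂ} (hq : BiBd G q) :
    ∃ C : ℝ, 0 ≤ C ∧ ∀ U V : ι → R3 → ℂ, (∀ i, ContDiff ℝ ∞ (U i)) → (∀ i, ContDiff ℝ ∞ (V i)) →
      ‖∫ x in G.Ω, q U V x‖ ≤ C * (H2sq G.Ω U + H2sq G.Ω V) := by
  obtain ⟨C, hC, h1⟩ := hq
  refine ⟨C, hC, fun U V hU hV => ?_⟩
  have h2 : ‖∫ x in G.Ω, q U V x‖ ≤ ∫ x in G.Ω, C * (N2 U x + N2 V x) := by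
    refine norm_integral_le_of_norm_le
      (((Dom.integrableOn G (continuous_N2 hU)).add (Dom.integrableOn G (continuous_N2 hV))).const_mul C)
      ?_
    refine (ae_restrict_iff' (Dom.measurableSet G)).mpr (Eventually.of_forall fun x hx => ?_)
    refine (h1 U V x hx).trans (mul_le_mul_of_nonneg_left ?_ hC)
    rw [← nrm_sq, ← nrm_sq]
    nlinarith [sq_nonneg (nrm U x - nrm V x), sq_nonneg (nrm U x), sq_nonneg (nrm V x)]
  rw [integral_const_mul, integral_add (Dom.integrableOn G (continuous_N2 hU))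
    (Dom.integrableOn G (continuous_N2 hV))] at h2
  exact h2

end Bd

end Crest.Agent.R080.W0
end
end

-- ▼ part R080/W0b

/-!
Row 80 (S0107), module T12 (StmtW0), part b: bounds, linearity and continuity of `q0 q1 q2`
(helper777).
-/

set_option autoImplicit false

open MeasureTheory Filter
open scoped ContDiff Topology
open Crest.AnalysisR.VecCalc3 Crest.AnalysisR.PDE.Elasticity

noncomputable section
namespace Crest.Agent.R080.W0
open PdBasic

/-! ### bounds -/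

section bounds
variable {G : Dom} {ι : Type} [Fintype ι]

theorem BdOp.congr {F H : (ι → R3 → ℂ) → R3 → ℂ} (hF : BdOp G F) (h : ∀ U x, H U x = F U x) :
    BdOp G H := by
  have : H = F := funext fun U => funext fun x => h U x
  rw [this]; exact hF

theorem BdOp.dd (θ : Fin 3 → ℂ) (i : ι) : BdOp G (fun U x => DD θ (U i) x) := by
  unfold DD
  exact BdOp.sum Finset.univ fun j _ => (BdOp.pd1 i j).coeff_mul (f := fun _ => θ j) continuous_const

theorem BdOp.lap (i : ι) : BdOp G (fun U x => Lap (U i) x) := by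
  unfold Lap
  exact BdOp.sum Finset.univ fun j _ => BdOp.pd2 i j j

theorem bd_S1 (P : Moduli) (θ : Fin 3 → ℂ) : BdOp G (fun U x => S1 P θ U x) := by
  unfold S1
  refine BdOp.add (BdOp.sum Finset.univ fun i _ =>
    (BdOp.val (some i)).coeff_mul (f := fun _ => θ i) continuous_const) ?_
  exact (BdOp.dd θ none).coeff_mul (f := fun x => 2 * (P.m x : ℂ))
    (continuous_const.mul (Moduli.smooth_cf_m P).continuous)

theorem bd_S2 (P : Moduli) : BdOp G (fun U x => S2 P U x) := by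
  unfold S2
  refine BdOp.sub (BdOp.add (BdOp.sum Finset.univ fun i _ => BdOp.pd1 (some i) i)
    ((BdOp.lap none).coeff_mul (f := fun x => (P.m x : ℂ)) (Moduli.smooth_cf_m P).continuous)) ?_
  exact ((BdOp.val none).coeff_mul (f := fun x => Lap (cf P.m) x)
    (contDiff_Lap (Moduli.smooth_cf_m P)).continuous).congr fun U x => mul_comm _ _

theorem bd_E0 (P : Moduli) (θ : Fin 3 → ℂ) (i j : Fin 3) :
    BdOp G (fun U x => E0 P θ U i j x) := by
  unfold E0
  exact ((BdOp.val none).coeff_mul (f := fun x => (P.m x : ℂ) * (θ i * θ j))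
    ((Moduli.smooth_cf_m P).continuous.mul continuous_const)).congr fun U x => by ring

theorem bd_E1 (P : Moduli) (θ : Fin 3 → ℂ) (i j : Fin 3) :
    BdOp G (fun U x => E1 P θ U i j x) := by
  unfold E1
  have h : ∀ j : Fin 3, BdOp G (fun U x => U (some j) x + 2 * (P.m x : ℂ) * pd j (U none) x) :=
    fun j => (BdOp.val (some j)).add ((BdOp.pd1 none j).coeff_mul
      (f := fun x => 2 * (P.m x : ℂ)) (continuous_const.mul (Moduli.smooth_cf_m P).continuous))
  exact ((((h j).coeff_mul (f := fun _ => θ i) continuous_const).add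
    ((h i).coeff_mul (f := fun _ => θ j) continuous_const)).coeff_mul (f := fun _ => (1 / 2 : ℂ))
    continuous_const).congr fun U x => by ring

theorem bd_E2 (P : Moduli) (i j : Fin 3) : BdOp G (fun U x => E2 P U i j x) := by
  unfold E2
  refine BdOp.sub (BdOp.add ?_ ((BdOp.pd2 none i j).coeff_mul (f := fun x => (P.m x : ℂ))
    (Moduli.smooth_cf_m P).continuous)) ?_
  · exact (((BdOp.pd1 (some j) i).add (BdOp.pd1 (some i) j)).coeff_mul (f := fun _ => (1 / 2 : ℂ))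
      continuous_const).congr fun U x => by ring
  · exact ((BdOp.val none).coeff_mul (f := fun x => pd i (pd j (cf P.m)) x)
      (contDiff_pd (contDiff_pd (Moduli.smooth_cf_m P) j) i).continuous).congr fun U x => mul_comm _ _

theorem BiBd.congr {p q : (ι → R3 → ℂ) → (ι → R3 → ℂ) → R3 → ℂ} (hp : BiBd G p)
    (h : ∀ U V x, q U V x = p U V x) : BiBd G q := by
  have : q = p := funext fun U => funext fun V => funext fun x => h U V x
  rw [this]; exact hp

theorem continuous_dlam (P₁ P₂ : Moduli) : Continuous (dlam P₁ P₂) :=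
  (Moduli.smooth_cf_lam P₁).continuous.sub (Moduli.smooth_cf_lam P₂).continuous

theorem continuous_dmu (P₁ P₂ : Moduli) : Continuous (dmu P₁ P₂) :=
  (Moduli.smooth_cf_mu P₁).continuous.sub (Moduli.smooth_cf_mu P₂).continuous

theorem bibd_q2 (P₁ P₂ : Moduli) (θ : Fin 3 → ℂ) :
    BiBd G (fun U V x => q2 P₁ P₂ θ U V x) := by
  unfold q2
  refine BiBd.add ?_ ?_
  · exact (((bd_S1 P₁ θ).mul (bd_S1 P₂ θ)).coeff_mul (f := fun x => -(dlam P₁ P₂ x))
      (continuous_dlam P₁ P₂).neg).congr fun U V x => by ring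
  · refine (BiBd.sum Finset.univ fun i _ => BiBd.sum Finset.univ fun j _ => ?_).coeff_mul
      (f := fun x => 2 * dmu P₁ P₂ x) (continuous_const.mul (continuous_dmu P₁ P₂))
    exact (((bd_E0 P₁ θ i j).mul (bd_E2 P₂ i j)).add ((bd_E2 P₁ i j).mul (bd_E0 P₂ θ i j))).sub
      ((bd_E1 P₁ θ i j).mul (bd_E1 P₂ θ i j))

theorem bibd_q1 (P₁ P₂ : Moduli) (θ : Fin 3 → ℂ) :
    BiBd G (fun U V x => q1 P₁ P₂ θ U V x) := by
  unfold q1
  refine BiBd.add ?_ ?_
  · exact (((bd_S1 P₁ θ).mul (bd_S2 P₂)).sub ((bd_S2 P₁).mul (bd_S1 P₂ θ))).coeff_mul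
      (f := fun x => dlam P₁ P₂ x) (continuous_dlam P₁ P₂)
  · refine (BiBd.sum Finset.univ fun i _ => BiBd.sum Finset.univ fun j _ => ?_).coeff_mul
      (f := fun x => 2 * dmu P₁ P₂ x) (continuous_const.mul (continuous_dmu P₁ P₂))
    exact ((bd_E1 P₁ θ i j).mul (bd_E2 P₂ i j)).sub ((bd_E2 P₁ i j).mul (bd_E1 P₂ θ i j))

theorem bibd_q0 (P₁ P₂ : Moduli) : BiBd G (fun U V x => q0 P₁ P₂ U V x) := by
  unfold q0
  refine BiBd.add ?_ ?_
  · exact (((bd_S2 P₁).mul (bd_S2 P₂)).coeff_mul (f := fun x => dlam P₁ P₂ x)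
      (continuous_dlam P₁ P₂)).congr fun U V x => by ring
  · refine (BiBd.sum Finset.univ fun i _ => BiBd.sum Finset.univ fun j _ => ?_).coeff_mul
      (f := fun x => 2 * dmu P₁ P₂ x) (continuous_const.mul (continuous_dmu P₁ P₂))
    exact (bd_E2 P₁ i j).mul (bd_E2 P₂ i j)

end bounds

/-! ### continuity -/

section cont
variable {U V : Option (Fin 3) → R3 → ℂ}

theorem cont_S1 (P : Moduli) (θ : Fin 3 → ℂ) (hU : ∀ i, ContDiff ℝ ∞ (U i)) :
    Continuous (S1 P θ U) := by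
  unfold S1
  exact (continuous_finsetSum _ fun i _ => continuous_const.mul (hU (some i)).continuous).add
    ((continuous_const.mul (Moduli.smooth_cf_m P).continuous).mul (contDiff_DD θ (hU none)).continuous)

theorem cont_S2 (P : Moduli) (hU : ∀ i, ContDiff ℝ ∞ (U i)) : Continuous (S2 P U) := by
  unfold S2
  exact ((continuous_finsetSum _ fun i _ => (contDiff_pd (hU (some i)) i).continuous).add
    ((Moduli.smooth_cf_m P).continuous.mul (contDiff_Lap (hU none)).continuous)).sub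
    ((hU none).continuous.mul (contDiff_Lap (Moduli.smooth_cf_m P)).continuous)

theorem cont_E0 (P : Moduli) (θ : Fin 3 → ℂ) (hU : ∀ i, ContDiff ℝ ∞ (U i)) (i j : Fin 3) :
    Continuous (E0 P θ U i j) := by
  unfold E0
  exact (((Moduli.smooth_cf_m P).continuous.mul (hU none).continuous).mul continuous_const).mul
    continuous_const

theorem cont_E1 (P : Moduli) (θ : Fin 3 → ℂ) (hU : ∀ i, ContDiff ℝ ∞ (U i)) (i j : Fin 3) :
    Continuous (E1 P θ U i j) := by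
  unfold E1
  have h : ∀ j : Fin 3, Continuous (fun x => U (some j) x + 2 * (P.m x : ℂ) * pd j (U none) x) :=
    fun j => (hU (some j)).continuous.add ((continuous_const.mul (Moduli.smooth_cf_m P).continuous).mul
      (contDiff_pd (hU none) j).continuous)
  exact ((continuous_const.mul (h j)).add (continuous_const.mul (h i))).div_const 2

theorem cont_E2 (P : Moduli) (hU : ∀ i, ContDiff ℝ ∞ (U i)) (i j : Fin 3) :
    Continuous (E2 P U i j) := by
  unfold E2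
  exact ((((contDiff_pd (hU (some j)) i).continuous.add
    (contDiff_pd (hU (some i)) j).continuous).div_const 2).add
    ((Moduli.smooth_cf_m P).continuous.mul (contDiff_pd (contDiff_pd (hU none) j) i).continuous)).sub
    ((hU none).continuous.mul (contDiff_pd (contDiff_pd (Moduli.smooth_cf_m P) j) i).continuous)

theorem cont_q2 (P₁ P₂ : Moduli) (θ : Fin 3 → ℂ) (hU : ∀ i, ContDiff ℝ ∞ (U i))
    (hV : ∀ i, ContDiff ℝ ∞ (V i)) : Continuous (q2 P₁ P₂ θ U V) := by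
  unfold q2
  exact ((((continuous_dlam P₁ P₂).neg).mul (cont_S1 P₁ θ hU)).mul (cont_S1 P₂ θ hV)).add
    ((continuous_const.mul (continuous_dmu P₁ P₂)).mul (continuous_finsetSum _ fun i _ =>
      continuous_finsetSum _ fun j _ =>
        (((cont_E0 P₁ θ hU i j).mul (cont_E2 P₂ hV i j)).add
          ((cont_E2 P₁ hU i j).mul (cont_E0 P₂ θ hV i j))).sub
            ((cont_E1 P₁ θ hU i j).mul (cont_E1 P₂ θ hV i j))))

theorem cont_q1 (P₁ P₂ : Moduli) (θ : Fin 3 → ℂ) (hU : ∀ i, ContDiff ℝ ∞ (U i))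
    (hV : ∀ i, ContDiff ℝ ∞ (V i)) : Continuous (q1 P₁ P₂ θ U V) := by
  unfold q1
  exact ((continuous_dlam P₁ P₂).mul (((cont_S1 P₁ θ hU).mul (cont_S2 P₂ hV)).sub
    ((cont_S2 P₁ hU).mul (cont_S1 P₂ θ hV)))).add
    ((continuous_const.mul (continuous_dmu P₁ P₂)).mul (continuous_finsetSum _ fun i _ =>
      continuous_finsetSum _ fun j _ =>
        ((cont_E1 P₁ θ hU i j).mul (cont_E2 P₂ hV i j)).sub
          ((cont_E2 P₁ hU i j).mul (cont_E1 P₂ θ hV i j))))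

theorem cont_q0 (P₁ P₂ : Moduli) (hU : ∀ i, ContDiff ℝ ∞ (U i))
    (hV : ∀ i, ContDiff ℝ ∞ (V i)) : Continuous (q0 P₁ P₂ U V) := by
  unfold q0
  exact (((continuous_dlam P₁ P₂).mul (cont_S2 P₁ hU)).mul (cont_S2 P₂ hV)).add
    ((continuous_const.mul (continuous_dmu P₁ P₂)).mul (continuous_finsetSum _ fun i _ =>
      continuous_finsetSum _ fun j _ => (cont_E2 P₁ hU i j).mul (cont_E2 P₂ hV i j)))

end cont

/-! ### linearity -/

/-- `U + c V` -/
def comb {ι : Type} (U : ι → R3 → ℂ) (c : ℂ) (V : ι → R3 → ℂ) : ι → R3 → ℂ :=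
  fun i y => U i y + c * V i y

theorem contDiff_comb {ι : Type} {U V : ι → R3 → ℂ} (hU : ∀ i, ContDiff ℝ ∞ (U i))
    (hV : ∀ i, ContDiff ℝ ∞ (V i)) (c : ℂ) : ∀ i, ContDiff ℝ ∞ (comb U c V i) :=
  fun i => (hU i).add (contDiff_const.mul (hV i))

section lin
variable {U V W : Option (Fin 3) → R3 → ℂ}

theorem pd_comb {f g : R3 → ℂ} (hf : ContDiff ℝ ∞ f) (hg : ContDiff ℝ ∞ g) (c : ℂ) (j : Fin 3)
    (x : R3) : pd j (fun y => f y + c * g y) x = pd j f x + c * pd j g x := by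
  rw [pd_add (sm_diffAt hf) (sm_diffAt (contDiff_const.mul hg)), pd_const_mul (sm_diffAt hg)]

theorem pd_pd_comb {f g : R3 → ℂ} (hf : ContDiff ℝ ∞ f) (hg : ContDiff ℝ ∞ g) (c : ℂ)
    (j k : Fin 3) (x : R3) :
    pd j (pd k (fun y => f y + c * g y)) x = pd j (pd k f) x + c * pd j (pd k g) x := by
  have h : pd k (fun y => f y + c * g y) = fun y => pd k f y + c * pd k g y :=
    funext fun y => pd_comb hf hg c k y
  rw [h, pd_comb (contDiff_pd hf k) (contDiff_pd hg k)]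

theorem DD_comb {f g : R3 → ℂ} (hf : ContDiff ℝ ∞ f) (hg : ContDiff ℝ ∞ g) (c : ℂ)
    (θ : Fin 3 → ℂ) (x : R3) : DD θ (fun y => f y + c * g y) x = DD θ f x + c * DD θ g x := by
  unfold DD
  simp only [pd_comb hf hg, Finset.mul_sum, ← Finset.sum_add_distrib]
  exact Finset.sum_congr rfl fun j _ => by ring

theorem Lap_comb {f g : R3 → ℂ} (hf : ContDiff ℝ ∞ f) (hg : ContDiff ℝ ∞ g) (c : ℂ)
    (x : R3) : Lap (fun y => f y + c * g y) x = Lap f x + c * Lap g x := by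
  unfold Lap
  simp only [pd_pd_comb hf hg, Finset.mul_sum, ← Finset.sum_add_distrib]

theorem S1_comb (P : Moduli) (θ : Fin 3 → ℂ) (hU : ∀ i, ContDiff ℝ ∞ (U i))
    (hV : ∀ i, ContDiff ℝ ∞ (V i)) (c : ℂ) (x : R3) :
    S1 P θ (comb U c V) x = S1 P θ U x + c * S1 P θ V x := by
  unfold S1 comb
  rw [DD_comb (hU none) (hV none), mul_add, mul_add, Finset.mul_sum]
  have h : ∑ i, θ i * (U (some i) x + c * V (some i) x) =
      (∑ i, θ i * U (some i) x) + ∑ i, c * (θ i * V (some i) x) := by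
    rw [← Finset.sum_add_distrib]
    exact Finset.sum_congr rfl fun i _ => by ring
  rw [h]
  ring

theorem S2_comb (P : Moduli) (hU : ∀ i, ContDiff ℝ ∞ (U i))
    (hV : ∀ i, ContDiff ℝ ∞ (V i)) (c : ℂ) (x : R3) :
    S2 P (comb U c V) x = S2 P U x + c * S2 P V x := by
  unfold S2 comb
  rw [Lap_comb (hU none) (hV none)]
  have h : ∑ i, pd i (fun y => U (some i) y + c * V (some i) y) x =
      (∑ i, pd i (U (some i)) x) + c * ∑ i, pd i (V (some i)) x := by
    rw [Finset.mul_sum, ← Finset.sum_add_distrib]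
    exact Finset.sum_congr rfl fun i _ => pd_comb (hU _) (hV _) c i x
  rw [h]
  ring

theorem E0_comb (P : Moduli) (θ : Fin 3 → ℂ) (c : ℂ) (i j : Fin 3) (x : R3) :
    E0 P θ (comb U c V) i j x = E0 P θ U i j x + c * E0 P θ V i j x := by
  unfold E0 comb
  ring

theorem E1_comb (P : Moduli) (θ : Fin 3 → ℂ) (hU : ∀ i, ContDiff ℝ ∞ (U i))
    (hV : ∀ i, ContDiff ℝ ∞ (V i)) (c : ℂ) (i j : Fin 3) (x : R3) :
    E1 P θ (comb U c V) i j x = E1 P θ U i j x + c * E1 P θ V i j x := by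
  unfold E1 comb
  rw [pd_comb (hU none) (hV none), pd_comb (hU none) (hV none)]
  ring

theorem E2_comb (P : Moduli) (hU : ∀ i, ContDiff ℝ ∞ (U i))
    (hV : ∀ i, ContDiff ℝ ∞ (V i)) (c : ℂ) (i j : Fin 3) (x : R3) :
    E2 P (comb U c V) i j x = E2 P U i j x + c * E2 P V i j x := by
  unfold E2 comb
  rw [pd_comb (hU _) (hV _), pd_comb (hU _) (hV _), pd_pd_comb (hU none) (hV none)]
  ring

theorem q2_comb_left (P₁ P₂ : Moduli) (θ : Fin 3 → ℂ) (hU : ∀ i, ContDiff ℝ ∞ (U i))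
    (hV : ∀ i, ContDiff ℝ ∞ (V i)) (c : ℂ) (x : R3) :
    q2 P₁ P₂ θ (comb U c V) W x = q2 P₁ P₂ θ U W x + c * q2 P₁ P₂ θ V W x := by
  unfold q2
  rw [S1_comb P₁ θ hU hV]
  have h : ∑ i, ∑ j, (E0 P₁ θ (comb U c V) i j x * E2 P₂ W i j x
      + E2 P₁ (comb U c V) i j x * E0 P₂ θ W i j x
      - E1 P₁ θ (comb U c V) i j x * E1 P₂ θ W i j x)
      = (∑ i, ∑ j, (E0 P₁ θ U i j x * E2 P₂ W i j x + E2 P₁ U i j x * E0 P₂ θ W i j x
        - E1 P₁ θ U i j x * E1 P₂ θ W i j x))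
      + c * (∑ i, ∑ j, (E0 P₁ θ V i j x * E2 P₂ W i j x + E2 P₁ V i j x * E0 P₂ θ W i j x
        - E1 P₁ θ V i j x * E1 P₂ θ W i j x)) := by
    rw [Finset.mul_sum, ← Finset.sum_add_distrib]
    refine Finset.sum_congr rfl fun i _ => ?_
    rw [Finset.mul_sum, ← Finset.sum_add_distrib]
    refine Finset.sum_congr rfl fun j _ => ?_
    rw [E0_comb, E1_comb P₁ θ hU hV, E2_comb P₁ hU hV]
    ring
  rw [h]
  ring

theorem q2_comb_right (P₁ P₂ : Moduli) (θ : Fin 3 → ℂ) (hU : ∀ i, ContDiff ℝ ∞ (U i))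
    (hV : ∀ i, ContDiff ℝ ∞ (V i)) (c : ℂ) (x : R3) :
    q2 P₁ P₂ θ W (comb U c V) x = q2 P₁ P₂ θ W U x + c * q2 P₁ P₂ θ W V x := by
  unfold q2
  rw [S1_comb P₂ θ hU hV]
  have h : ∑ i, ∑ j, (E0 P₁ θ W i j x * E2 P₂ (comb U c V) i j x
      + E2 P₁ W i j x * E0 P₂ θ (comb U c V) i j x
      - E1 P₁ θ W i j x * E1 P₂ θ (comb U c V) i j x)
      = (∑ i, ∑ j, (E0 P₁ θ W i j x * E2 P₂ U i j x + E2 P₁ W i j x * E0 P₂ θ U i j x
        - E1 P₁ θ W i j x * E1 P₂ θ U i j x))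
      + c * (∑ i, ∑ j, (E0 P₁ θ W i j x * E2 P₂ V i j x + E2 P₁ W i j x * E0 P₂ θ V i j x
        - E1 P₁ θ W i j x * E1 P₂ θ V i j x)) := by
    rw [Finset.mul_sum, ← Finset.sum_add_distrib]
    refine Finset.sum_congr rfl fun i _ => ?_
    rw [Finset.mul_sum, ← Finset.sum_add_distrib]
    refine Finset.sum_congr rfl fun j _ => ?_
    rw [E0_comb, E1_comb P₂ θ hU hV, E2_comb P₂ hU hV]
    ring
  rw [h]
  ring

theorem q1_comb_left (P₁ P₂ : Moduli) (θ : Fin 3 → ℂ) (hU : ∀ i, ContDiff ℝ ∞ (U i))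
    (hV : ∀ i, ContDiff ℝ ∞ (V i)) (c : ℂ) (x : R3) :
    q1 P₁ P₂ θ (comb U c V) W x = q1 P₁ P₂ θ U W x + c * q1 P₁ P₂ θ V W x := by
  unfold q1
  rw [S1_comb P₁ θ hU hV, S2_comb P₁ hU hV]
  have h : ∑ i, ∑ j, (E1 P₁ θ (comb U c V) i j x * E2 P₂ W i j x
      - E2 P₁ (comb U c V) i j x * E1 P₂ θ W i j x)
      = (∑ i, ∑ j, (E1 P₁ θ U i j x * E2 P₂ W i j x - E2 P₁ U i j x * E1 P₂ θ W i j x))
      + c * (∑ i, ∑ j, (E1 P₁ θ V i j x * E2 P₂ W i j x
        - E2 P₁ V i j x * E1 P₂ θ W i j x)) := by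
    rw [Finset.mul_sum, ← Finset.sum_add_distrib]
    refine Finset.sum_congr rfl fun i _ => ?_
    rw [Finset.mul_sum, ← Finset.sum_add_distrib]
    refine Finset.sum_congr rfl fun j _ => ?_
    rw [E1_comb P₁ θ hU hV, E2_comb P₁ hU hV]
    ring
  rw [h]
  ring

theorem q1_comb_right (P₁ P₂ : Moduli) (θ : Fin 3 → ℂ) (hU : ∀ i, ContDiff ℝ ∞ (U i))
    (hV : ∀ i, ContDiff ℝ ∞ (V i)) (c : ℂ) (x : R3) :
    q1 P₁ P₂ θ W (comb U c V) x = q1 P₁ P₂ θ W U x + c * q1 P₁ P₂ θ W V x := by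
  unfold q1
  rw [S1_comb P₂ θ hU hV, S2_comb P₂ hU hV]
  have h : ∑ i, ∑ j, (E1 P₁ θ W i j x * E2 P₂ (comb U c V) i j x
      - E2 P₁ W i j x * E1 P₂ θ (comb U c V) i j x)
      = (∑ i, ∑ j, (E1 P₁ θ W i j x * E2 P₂ U i j x - E2 P₁ W i j x * E1 P₂ θ U i j x))
      + c * (∑ i, ∑ j, (E1 P₁ θ W i j x * E2 P₂ V i j x
        - E2 P₁ W i j x * E1 P₂ θ V i j x)) := by
    rw [Finset.mul_sum, ← Finset.sum_add_distrib]
    refine Finset.sum_congr rfl fun i _ => ?_
    rw [Finset.mul_sum, ← Finset.sum_add_distrib]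
    refine Finset.sum_congr rfl fun j _ => ?_
    rw [E1_comb P₂ θ hU hV, E2_comb P₂ hU hV]
    ring
  rw [h]
  ring

end lin

/-! ### `q2 (·, V) = 0` for shear fields -/

theorem q2_shear (P₁ P₂ : Moduli) {θ : Fin 3 → ℂ} (hθ : IsNull θ) (U V : Option (Fin 3) → R3 → ℂ)
    (hV : ∀ i, ContDiff ℝ ∞ (V i)) (h0 : ∀ x, V none x = 0)
    (h1 : ∀ x, ∑ i, θ i * V (some i) x = 0) (x : R3) : q2 P₁ P₂ θ U V x = 0 := by
  have hn : V none = fun _ => 0 := funext h0
  have hpd : ∀ j y, pd j (V none) y = 0 := fun j y => by rw [hn]; exact pd_const 0 j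
  have hpd2 : ∀ i j y, pd i (pd j (V none)) y = 0 := fun i j y => by
    have : pd j (V none) = fun _ => 0 := funext fun z => hpd j z
    rw [this]; exact pd_const 0 i
  have hS : S1 P₂ θ V x = 0 := by
    unfold S1 DD
    rw [h1 x]
    simp [hpd]
  have hE0 : ∀ i j, E0 P₂ θ V i j x = 0 := fun i j => by
    unfold E0; rw [h0]; ring
  have hE1 : ∀ i j, E1 P₂ θ V i j x = (θ i * V (some j) x + θ j * V (some i) x) / 2 := by
    intro i j
    unfold E1
    rw [hpd, hpd]; ring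
  have hE2 : ∀ i j, E2 P₂ V i j x = (pd i (V (some j)) x + pd j (V (some i)) x) / 2 := by
    intro i j
    unfold E2
    rw [hpd2, h0]; ring
  -- derivative of `θ·V = 0`
  have hD : ∀ i, ∑ j, θ j * pd i (V (some j)) x = 0 := by
    intro i
    have h2 : (fun y => ∑ j, θ j * V (some j) y) = fun _ => (0 : ℂ) := funext h1
    have h3 : pd i (fun y => ∑ j, θ j * V (some j) y) x = 0 := by rw [h2]; exact pd_const 0 i
    rw [pd_sum Finset.univ (fun j y => θ j * V (some j) y)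
      (fun j _ => sm_diffAt (contDiff_const.mul (hV (some j))))] at h3
    rw [← h3]
    exact Finset.sum_congr rfl fun j _ => (pd_const_mul (sm_diffAt (hV (some j))) (θ j) i).symm
  have hnull := hθ.2
  have hV1 := h1 x
  have hD0 := hD 0
  have hD1 := hD 1
  have hD2 := hD 2
  unfold q2
  simp only [hS, hE0, hE1, hE2]
  have e1 : ∑ i, ∑ j, (E0 P₁ θ U i j x * ((pd i (V (some j)) x + pd j (V (some i)) x) / 2)
      + E2 P₁ U i j x * 0
      - E1 P₁ θ U i j x * ((θ i * V (some j) x + θ j * V (some i) x) / 2)) = 0 := by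
    have e2 : ∑ i, ∑ j, E0 P₁ θ U i j x * ((pd i (V (some j)) x + pd j (V (some i)) x) / 2) = 0 := by
      unfold E0
      have e3 : ∀ i j : Fin 3, (P₁.m x : ℂ) * U none x * θ i * θ j *
          ((pd i (V (some j)) x + pd j (V (some i)) x) / 2) =
          ((P₁.m x : ℂ) * U none x / 2) * (θ i * (θ j * pd i (V (some j)) x)
            + θ j * (θ i * pd j (V (some i)) x)) := fun i j => by ring
      simp_rw [e3]
      simp_rw [← Finset.mul_sum, Finset.sum_add_distrib, ← Finset.mul_sum, hD]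
      rw [Finset.sum_comm]
      simp_rw [← Finset.mul_sum, hD]
      simp
    have e4 : ∑ i, ∑ j, E1 P₁ θ U i j x * ((θ i * V (some j) x + θ j * V (some i) x) / 2) = 0 := by
      unfold E1
      simp only [Fin.sum_univ_three] at hnull hV1 ⊢
      linear_combination (1 / 2 * (
          (U (some 0) x + 2 * (P₁.m x : ℂ) * pd 0 (U none) x) * V (some 0) x
        + (U (some 1) x + 2 * (P₁.m x : ℂ) * pd 1 (U none) x) * V (some 1) x
        + (U (some 2) x + 2 * (P₁.m x : ℂ) * pd 2 (U none) x) * V (some 2) x)) * hnull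
        + (1 / 2 * (
          (U (some 0) x + 2 * (P₁.m x : ℂ) * pd 0 (U none) x) * θ 0
        + (U (some 1) x + 2 * (P₁.m x : ℂ) * pd 1 (U none) x) * θ 1
        + (U (some 2) x + 2 * (P₁.m x : ℂ) * pd 2 (U none) x) * θ 2)) * hV1
    have e5 : ∑ i, ∑ j, (E0 P₁ θ U i j x * ((pd i (V (some j)) x + pd j (V (some i)) x) / 2)
      + E2 P₁ U i j x * 0
      - E1 P₁ θ U i j x * ((θ i * V (some j) x + θ j * V (some i) x) / 2))
      = (∑ i, ∑ j, E0 P₁ θ U i j x * ((pd i (V (some j)) x + pd j (V (some i)) x) / 2))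
        - ∑ i, ∑ j, E1 P₁ θ U i j x * ((θ i * V (some j) x + θ j * V (some i) x) / 2) := by
      rw [← Finset.sum_sub_distrib]
      refine Finset.sum_congr rfl fun i _ => ?_
      rw [← Finset.sum_sub_distrib]
      exact Finset.sum_congr rfl fun j _ => by ring
    rw [e5, e2, e4, sub_zero]
  rw [e1]
  ring

end Crest.Agent.R080.W0
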